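import Crest.Agent.Lib.Saxl.Final

/-!
# Saxl foundation: the purely combinatorial interface

`Q a b c` says that the trivial representation occurs in `S^a ⊗ S^b ⊗ S^c`
(all three shapes have the same size).  It is proved here that `Q`

* is symmetric (`Q.symm12`, `Q.symm23`, `Q.symm13`),
* is compatible with conjugation of two of the shapes (`Q.conj12`, `Q.conj13`, `Q.conj23`),
* satisfies the semigroup property (`Q.add`, rows add in all three shapes, and
  `Q.union12`, `Q.union13`, `Q.union23`, rows add in one shape and are merged in the two others),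
* `Q.row`: `Q a a (rowD a.card)`, `Q.col`: `Q a a.transpose (colD a.card)`,

and that `final_S0297`, `final_S0298` conclude the statements from `Q`.
-/

set_option autoImplicit false
set_option linter.unusedSectionVars false

namespace Crest.Agent.Lib.Saxl

open Equiv Representation

/-- The main relation. -/
def Q (a b c : YoungDiagram) : Prop := QL (Fin c.card) a b c

variable {a b c a1 b1 c1 a2 b2 c2 : YoungDiagram}

lemma QL.card_eq {L : Type} [Fintype L] [DecidableEq L] (h : QL L a b c) :
    a.card = Fintype.card L ∧ b.card = Fintype.card L ∧ c.card = Fintype.card L := by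
  obtain ⟨t, u, v, -⟩ := h
  refine ⟨?_, ?_, ?_⟩
  · have := Fintype.card_congr t
    simpa using this
  · have := Fintype.card_congr u
    simpa using this
  · have := Fintype.card_congr v
    simpa using this

lemma Q.card_eq (h : Q a b c) : a.card = c.card ∧ b.card = c.card := by
  have := QL.card_eq h
  simp only [Fintype.card_fin] at this
  exact ⟨this.1, this.2.1⟩

lemma Q.toQL {L : Type} [Fintype L] [DecidableEq L] (h : Q a b c) (hL : Fintype.card L = c.card) :
    QL L a b c :=
  QL.transport (Fintype.equivOfCardEq (by simp [hL])) h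

lemma QL.toQ {L : Type} [Fintype L] [DecidableEq L] (h : QL L a b c) : Q a b c :=
  QL.transport (Fintype.equivOfCardEq (by simp [(QL.card_eq h).2.2])) h

lemma Q.symm12 (h : Q a b c) : Q b a c := QL.symm12 h

lemma Q.symm23 (h : Q a b c) : Q a c b := (QL.symm23 (h : QL _ a b c)).toQ

lemma Q.symm13 (h : Q a b c) : Q c b a := (h.symm12.symm23).symm12

/-- Conjugating the first two shapes. -/
theorem Q.conj12 (h : Q a b c) : Q a.transpose b.transpose c := QL.conj h

/-- Conjugating the first and the third shape. -/
theorem Q.conj13 (h : Q a b c) : Q a.transpose b c.transpose := h.symm23.conj12.symm23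

/-- Conjugating the last two shapes. -/
theorem Q.conj23 (h : Q a b c) : Q a b.transpose c.transpose := h.symm13.conj12.symm13

/-- **Semigroup property**: adding rows in all three shapes. -/
theorem Q.add (h1 : Q a1 b1 c1) (h2 : Q a2 b2 c2) : Q (addD a1 a2) (addD b1 b2) (addD c1 c2) :=
  (QL.add h1 h2).toQ

/-- Merging the rows of two diagrams (the conjugate of adding rows). -/
def unionD (a b : YoungDiagram) : YoungDiagram := (addD a.transpose b.transpose).transpose

lemma transpose_unionD (a b : YoungDiagram) :
    (unionD a b).transpose = addD a.transpose b.transpose := by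
  simp [unionD]

/-- The semigroup property: rows are merged in the first two shapes, added in the third. -/
theorem Q.union12 (h1 : Q a1 b1 c1) (h2 : Q a2 b2 c2) :
    Q (unionD a1 a2) (unionD b1 b2) (addD c1 c2) :=
  (h1.conj12.add h2.conj12).conj12

/-- The semigroup property: rows are merged in the first and third shapes, added in the second. -/
theorem Q.union13 (h1 : Q a1 b1 c1) (h2 : Q a2 b2 c2) :
    Q (unionD a1 a2) (addD b1 b2) (unionD c1 c2) :=
  (Q.union12 h1.symm23 h2.symm23).symm23

/-- The semigroup property: rows are merged in the last two shapes, added in the first. -/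
theorem Q.union23 (h1 : Q a1 b1 c1) (h2 : Q a2 b2 c2) :
    Q (addD a1 a2) (unionD b1 b2) (unionD c1 c2) :=
  (Q.union12 h1.symm13 h2.symm13).symm13

/-! ### Rows and columns of diagrams -/

lemma rowLen_unionD_transpose (a b : YoungDiagram) (i : ℕ) :
    (unionD a b).transpose.rowLen i = a.transpose.rowLen i + b.transpose.rowLen i := by
  rw [transpose_unionD, rowLen_addD]

lemma colLen_unionD (a b : YoungDiagram) (j : ℕ) :
    (unionD a b).colLen j = a.colLen j + b.colLen j := by
  have h := rowLen_unionD_transpose a b j
  simpa [YoungDiagram.rowLen_transpose] using h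

lemma colLen_addD_card (a b : YoungDiagram) : (addD a b).card = a.card + b.card := by
  obtain ⟨φ, -⟩ := exists_merge a b
  have := Fintype.card_congr φ
  simp only [Fintype.card_sum, Fintype.card_coe] at this
  exact this.symm

/-- One-rowed diagram. -/
def rowD (n : ℕ) : YoungDiagram where
  cells := ({0} : Finset ℕ) ×ˢ Finset.range n
  isLowerSet := by
    rintro ⟨i, j⟩ ⟨i', j'⟩ ⟨hi, hj⟩ hc
    simp only [Finset.coe_product, Set.mem_prod, Finset.coe_singleton, Set.mem_singleton_iff,
      Finset.coe_range, Set.mem_Iio] at hc ⊢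
    simp only at hi hj
    omega

lemma mem_rowD {n : ℕ} {c : ℕ × ℕ} : c ∈ rowD n ↔ c.1 = 0 ∧ c.2 < n := by
  show c ∈ ({0} : Finset ℕ) ×ˢ Finset.range n ↔ _
  rw [Finset.mem_product]
  simp

lemma card_rowD (n : ℕ) : (rowD n).card = n := by
  show (({0} : Finset ℕ) ×ˢ Finset.range n).card = n
  simp

/-- One-columned diagram. -/
def colD (n : ℕ) : YoungDiagram := (rowD n).transpose

section row
variable {L : Type} [Fintype L] [DecidableEq L]

lemma poly_rowD {n : ℕ} (v : (rowD n).cells ≃ L) : poly v = Finsupp.single (rw v) 1 := by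
  have hrw : ∀ c : (rowD n).cells, c.1.1 = 0 := fun c =>
    (mem_rowD.1 ((YoungDiagram.mem_cells _).1 c.2)).1
  have hcl : ∀ i i' : L, cl v i = cl v i' → i = i' := by
    intro i i' h
    apply v.symm.injective
    apply Subtype.ext
    apply Prod.ext
    · rw [hrw, hrw]
    · exact h
  have hC : colGroup v = {1} := by
    ext σ
    simp only [mem_colGroup, Finset.mem_singleton]
    constructor
    · intro h
      ext i
      rw [hcl _ _ (h i)]
      rfl
    · rintro rfl i
      rfl
  unfold poly
  rw [hC]
  simp

lemma rw_rowD {n : ℕ} (v : (rowD n).cells ≃ L) : rw v = fun _ => 0 := by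
  funext i
  exact (mem_rowD.1 ((YoungDiagram.mem_cells _).1 (v.symm i).2)).1

lemma rep_poly_rowD {n : ℕ} (v : (rowD n).cells ≃ L) (g : Perm L) :
    rep L g (poly v) (fun _ => 0) = 1 := by
  rw [rep_apply, poly_rowD, rw_rowD]
  have : act g⁻¹ (fun _ => 0 : Word L) = fun _ => 0 := rfl
  rw [this]
  simp

/-- `Q a a (row)`. -/
theorem QL.row (a : YoungDiagram) (hL : Fintype.card L = a.card) : QL L a a (rowD a.card) := by
  obtain ⟨t⟩ := exists_tableau (μ := a) hL
  have hL' : Fintype.card L = (rowD a.card).card := by rw [card_rowD, hL]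
  obtain ⟨v⟩ := exists_tableau (μ := rowD a.card) hL'
  refine ⟨t, t, v, (rw t, rw t, fun _ => 0), ?_⟩
  intro h0
  have hreal : ∀ g : Perm L, rep L g (poly t) (rw t) * rep L g (poly t) (rw t) =
      ((‖rep L g (poly t) (rw t)‖ ^ 2 : ℝ) : ℂ) := by
    intro g
    have h1 : (starRingEnd ℂ) (rep L g (poly t) (rw t)) = rep L g (poly t) (rw t) := by
      rw [rep_apply]
      have := congrArg (fun v : Mod L => v (act g⁻¹ (rw t))) (cj_poly t)
      simpa using this
    calc rep L g (poly t) (rw t) * rep L g (poly t) (rw t)
        = rep L g (poly t) (rw t) * (starRingEnd ℂ) (rep L g (poly t) (rw t)) := by rw [h1]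
      _ = _ := by rw [Complex.mul_conj, Complex.normSq_eq_norm_sq]
  simp only [Tr, rep_poly_rowD, mul_one, one_mul, hreal] at h0
  have h2 : ∑ g : Perm L, (‖rep L g (poly t) (rw t)‖ ^ 2 : ℝ) = 0 := by
    exact_mod_cast h0
  have h3 := (Finset.sum_eq_zero_iff_of_nonneg (fun g _ => by positivity)).1 h2 1 (Finset.mem_univ _)
  have h4 : rep L 1 (poly t) (rw t) = 1 := by
    rw [rep_apply]
    simpa using poly_apply_rw t
  rw [h4] at h3
  simp at h3

end row

/-- `Q a a (row)`. -/
theorem Q.row (a : YoungDiagram) : Q a a (rowD a.card) :=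
  (QL.row (L := Fin a.card) a (by simp)).toQ

/-- `Q a a' (column)`. -/
theorem Q.col (a : YoungDiagram) : Q a a.transpose (colD a.card) :=
  (Q.row a).conj23

/-! ### Ext lemmas for Young diagrams -/

lemma ext_rowLen {a b : YoungDiagram} (h : ∀ i, a.rowLen i = b.rowLen i) : a = b := by
  ext ⟨i, j⟩
  simp only [YoungDiagram.mem_cells, YoungDiagram.mem_iff_lt_rowLen, h]

lemma ext_colLen {a b : YoungDiagram} (h : ∀ j, a.colLen j = b.colLen j) : a = b := by
  ext ⟨i, j⟩
  simp only [YoungDiagram.mem_cells, YoungDiagram.mem_iff_lt_colLen, h]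

lemma rowLen_rowD_zero (n : ℕ) : (rowD n).rowLen 0 = n := by
  apply eq_of_forall_lt_iff
  intro j
  rw [← YoungDiagram.mem_iff_lt_rowLen, mem_rowD]
  simp

/-! ### Final theorems -/

open Crest.AlgebraR.Specht

/-- The staircase diagram. -/
def stairD (m : ℕ) : YoungDiagram where
  cells := staircaseShape m
  isLowerSet := by
    rintro ⟨i, j⟩ ⟨i', j'⟩ ⟨hi, hj⟩ hc
    simp only [staircaseShape, Finset.coe_filter, Finset.mem_product, Finset.mem_range,
      Set.mem_setOf_eq] at hc ⊢
    simp only at hi hj
    omega

lemma mem_stairD {m : ℕ} {c : ℕ × ℕ} : c ∈ stairD m ↔ c.1 + c.2 < m := by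
  show c ∈ staircaseShape m ↔ _
  simp only [staircaseShape, Finset.mem_filter, Finset.mem_product, Finset.mem_range]
  omega

/-- From the combinatorial statement to `S0297`. -/
theorem final_S0297 (m : ℕ) (H : ∀ c : YoungDiagram, c.card = (stairD m).card → Q (stairD m) (stairD m) c)
    (W : Type) [AddCommGroup W] [Module ℂ W] [FiniteDimensional ℂ W]
    (σ : Representation ℂ (Equiv.Perm (Fin (staircaseShape m).card)) W)
    (hσ : Representation.IsIrreducible σ) :
    Nontrivial (Representation.IntertwiningMap σ
      (Representation.tprod (spechtRep (staircaseShape m)) (spechtRep (staircaseShape m)))) := by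
  refine final_specht (stairD m) (fun c hc => ?_) σ hσ
  exact (H c hc).toQL (by simpa using hc.symm)

/-- From the combinatorial statement to `S0298`. -/
theorem final_S0298 (n : ℕ) (a : YoungDiagram) (ha : a.card = n)
    (H : ∀ c : YoungDiagram, c.card = n → Q a a c) :
    ∃ (V : Type) (_ : AddCommGroup V) (_ : Module ℂ V) (_ : FiniteDimensional ℂ V)
      (ρ : Representation ℂ (Equiv.Perm (Fin n)) V), Representation.IsIrreducible ρ ∧
      ∀ (W : Type) [AddCommGroup W] [Module ℂ W] [FiniteDimensional ℂ W]
        (σ : Representation ℂ (Equiv.Perm (Fin n)) W), Representation.IsIrreducible σ →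
        Nontrivial (Representation.IntertwiningMap σ (Representation.tprod ρ ρ)) := by
  refine ⟨Sp a.cells (Fin n), inferInstance, inferInstance, inferInstance,
    repSp a.cells (Fin n), isIrreducible_repSp (by simp [ha]), ?_⟩
  intro W _ _ _ σ hσ
  obtain ⟨f, hf⟩ := nontrivial_intertwining a a
    (fun c hc => (H c (by simpa using hc)).toQL (by simpa using hc.symm)) σ hσ
  exact ⟨⟨f, 0, hf⟩⟩

end Crest.Agent.Lib.Saxl
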