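import Crest.Agent.Lib.Saxl.Conj

/-!
# Saxl foundation: renaming letters, and the semigroup property
-/

set_option autoImplicit false
set_option linter.unusedSectionVars false

namespace Crest.Agent.Lib.Saxl

open Equiv Finset

section rename

variable {L L' : Type} [Fintype L] [DecidableEq L] [Fintype L'] [DecidableEq L']
variable {D : Finset (ℕ × ℕ)}

/-- Renaming the letters of a word. -/
def renW (e : L ≃ L') (w : Word L) : Word L' := fun i => w (e.symm i)

lemma renW_injective (e : L ≃ L') : Function.Injective (renW e : Word L → Word L') := by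
  intro a b h
  funext i
  have := congrFun h (e i)
  simpa [renW] using this

/-- Renaming the letters in the module. -/
noncomputable def ren (e : L ≃ L') : Mod L →ₗ[ℂ] Mod L' := Finsupp.lmapDomain ℂ ℂ (renW e)

@[simp] lemma ren_single (e : L ≃ L') (w : Word L) (a : ℂ) :
    ren e (Finsupp.single w a) = Finsupp.single (renW e w) a := by
  simp [ren]

lemma ren_apply (e : L ≃ L') (x : Mod L) (w : Word L) : ren e x (renW e w) = x w := by
  exact Finsupp.mapDomain_apply (renW_injective e) x w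

lemma renW_act (e : L ≃ L') (g : Perm L) (w : Word L) :
    renW e (act g w) = act (e.permCongr g) (renW e w) := by
  funext i
  simp [renW, act, Equiv.permCongr_def]

lemma rep_ren (e : L ≃ L') (g : Perm L) (x : Mod L) :
    rep L' (e.permCongr g) (ren e x) = ren e (rep L g x) := by
  induction x using Finsupp.induction_linear with
  | zero => simp
  | add a b ha hb => simp only [map_add, ha, hb]
  | single w a => simp [renW_act]

lemma sg_permCongr (e : L ≃ L') (g : Perm L) : sg (e.permCongr g) = sg g := by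
  simp [sg, Equiv.Perm.sign_permCongr]

lemma cl_trans' (t : D ≃ L) (e : L ≃ L') (i : L) : cl (t.trans e) (e i) = cl t i := by
  simp [cl]

lemma poly_trans (t : D ≃ L) (e : L ≃ L') : poly (t.trans e) = ren e (poly t) := by
  unfold poly
  rw [map_sum]
  symm
  refine Finset.sum_bij' (fun σ _ => e.permCongr σ) (fun σ _ => e.permCongr.symm σ)
    ?_ ?_ (by intro a _; exact e.permCongr.symm_apply_apply a)
    (by intro a _; exact e.permCongr.apply_symm_apply a) ?_
  · intro σ hσ
    rw [mem_colGroup] at *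
    intro i
    obtain ⟨j, rfl⟩ := e.surjective i
    have := hσ j
    simp only [Equiv.permCongr_apply, Equiv.symm_apply_apply]
    rw [cl_trans', cl_trans', this]
  · intro σ hσ
    rw [mem_colGroup] at *
    intro i
    have := hσ (e i)
    rw [cl_trans'] at this
    have h2 : e.permCongr.symm σ i = e.symm (σ (e i)) := rfl
    rw [h2]
    rw [← cl_trans' t e, Equiv.apply_symm_apply]
    exact this
  · intro σ _
    rw [map_smul, ren_single, sg_permCongr, renW_act]
    rfl

lemma Tr_ren (e : L ≃ L') (x y z : Mod L) (w1 w2 w3 : Word L) :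
    Tr (fun _ => 1) (ren e x) (ren e y) (ren e z) (renW e w1, renW e w2, renW e w3) =
      Tr (fun _ => 1) x y z (w1, w2, w3) := by
  unfold Tr
  symm
  refine Fintype.sum_equiv e.permCongr _ _ ?_
  intro g
  simp only
  rw [rep_ren, rep_ren, rep_ren, ren_apply, ren_apply, ren_apply]

theorem QL.transport {a b c : YoungDiagram} (e : L ≃ L') (h : QL L a b c) : QL L' a b c := by
  obtain ⟨t, u, v, ⟨w1, w2, w3⟩, hw⟩ := h
  refine ⟨t.trans e, u.trans e, v.trans e, (renW e w1, renW e w2, renW e w3), ?_⟩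
  rw [poly_trans, poly_trans, poly_trans, Tr_ren]
  exact hw

end rename

section box

variable {L1 L2 : Type} [Fintype L1] [DecidableEq L1] [Fintype L2] [DecidableEq L2]

/-- Outer product of words. -/
noncomputable def box : Mod L1 →ₗ[ℂ] Mod L2 →ₗ[ℂ] Mod (L1 ⊕ L2) :=
  Finsupp.linearCombination ℂ fun w1 =>
    Finsupp.linearCombination ℂ fun w2 => Finsupp.single (Sum.elim w1 w2) 1

lemma box_single (w1 : Word L1) (w2 : Word L2) (a b : ℂ) :
    box (Finsupp.single w1 a) (Finsupp.single w2 b) = (a * b) • Finsupp.single (Sum.elim w1 w2) 1 := by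
  simp [box, Finsupp.linearCombination_single, smul_smul]

lemma Exp_elim (a1 b1 c1 : Word L1) (a2 b2 c2 : Word L2) :
    Exp (Sum.elim a1 a2, Sum.elim b1 b2, Sum.elim c1 c2) = Exp (a1, b1, c1) + Exp (a2, b2, c2) := by
  unfold Exp
  rw [Fintype.sum_sum_type]
  rfl

lemma mono_elim (a1 b1 c1 : Word L1) (a2 b2 c2 : Word L2) :
    mono (Sum.elim a1 a2) (Sum.elim b1 b2) (Sum.elim c1 c2) = mono a1 b1 c1 * mono a2 b2 c2 := by
  unfold mono
  rw [Exp_elim, MvPolynomial.monomial_mul, one_mul]

lemma P3_box (x1 y1 z1 : Mod L1) (x2 y2 z2 : Mod L2) :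
    P3 (box x1 x2) (box y1 y2) (box z1 z2) = P3 x1 y1 z1 * P3 x2 y2 z2 := by
  induction x1 using Finsupp.induction_linear with
  | zero => simp
  | add a b ha hb => simp only [map_add, LinearMap.add_apply, ha, hb, add_mul]
  | single w1 a1 =>
  induction x2 using Finsupp.induction_linear with
  | zero => simp
  | add a b ha hb => simp only [map_add, LinearMap.add_apply, ha, hb, mul_add]
  | single w2 a2 =>
  induction y1 using Finsupp.induction_linear with
  | zero => simp
  | add a b ha hb => simp only [map_add, LinearMap.add_apply, ha, hb, add_mul, mul_add]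
  | single w3 a3 =>
  induction y2 using Finsupp.induction_linear with
  | zero => simp
  | add a b ha hb => simp only [map_add, LinearMap.add_apply, ha, hb, add_mul, mul_add]
  | single w4 a4 =>
  induction z1 using Finsupp.induction_linear with
  | zero => simp
  | add a b ha hb => simp only [map_add, LinearMap.add_apply, ha, hb, add_mul, mul_add]
  | single w5 a5 =>
  induction z2 using Finsupp.induction_linear with
  | zero => simp
  | add a b ha hb => simp only [map_add, LinearMap.add_apply, ha, hb, add_mul, mul_add]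
  | single w6 a6 =>
  simp only [box_single, map_smul, LinearMap.smul_apply, P3_single, mono_elim, smul_mul_smul_comm]
  simp only [one_mul, mul_one, smul_smul]
  congr 1
  ring

/-- The data of a merge of two shapes. -/
structure IsMerge {D1 D2 D : Finset (ℕ × ℕ)} (φ : D1 ⊕ D2 ≃ D) : Prop where
  row1 : ∀ c : D1, (φ (Sum.inl c)).1.1 = c.1.1
  row2 : ∀ c : D2, (φ (Sum.inr c)).1.1 = c.1.1
  col1 : ∀ c c' : D1, (φ (Sum.inl c)).1.2 = (φ (Sum.inl c')).1.2 ↔ c.1.2 = c'.1.2
  col2 : ∀ c c' : D2, (φ (Sum.inr c)).1.2 = (φ (Sum.inr c')).1.2 ↔ c.1.2 = c'.1.2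
  col12 : ∀ (c : D1) (c' : D2), (φ (Sum.inl c)).1.2 ≠ (φ (Sum.inr c')).1.2

variable {D1 D2 D : Finset (ℕ × ℕ)}

/-- The merged tableau. -/
def mergeT (φ : D1 ⊕ D2 ≃ D) (t1 : D1 ≃ L1) (t2 : D2 ≃ L2) : D ≃ L1 ⊕ L2 :=
  φ.symm.trans (Equiv.sumCongr t1 t2)

lemma mergeT_symm_inl (φ : D1 ⊕ D2 ≃ D) (t1 : D1 ≃ L1) (t2 : D2 ≃ L2) (l : L1) :
    (mergeT φ t1 t2).symm (Sum.inl l) = φ (Sum.inl (t1.symm l)) := rfl
lemma mergeT_symm_inr (φ : D1 ⊕ D2 ≃ D) (t1 : D1 ≃ L1) (t2 : D2 ≃ L2) (l : L2) :
    (mergeT φ t1 t2).symm (Sum.inr l) = φ (Sum.inr (t2.symm l)) := rfl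

lemma rw_mergeT {φ : D1 ⊕ D2 ≃ D} (hφ : IsMerge φ) (t1 : D1 ≃ L1) (t2 : D2 ≃ L2) :
    rw (mergeT φ t1 t2) = Sum.elim (rw t1) (rw t2) := by
  funext i
  rcases i with l | l
  · simp only [rw, mergeT_symm_inl, Sum.elim_inl]
    exact hφ.row1 _
  · simp only [rw, mergeT_symm_inr, Sum.elim_inr]
    exact hφ.row2 _

/-- Permutations of a sum preserving the two sides. -/
lemma exists_sumCongr (σ : Perm (L1 ⊕ L2)) (h1 : ∀ l, ∃ l', σ (Sum.inl l) = Sum.inl l')
    (h2 : ∀ l, ∃ l', σ (Sum.inr l) = Sum.inr l') :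
    ∃ (σ1 : Perm L1) (σ2 : Perm L2), σ = Equiv.Perm.sumCongr σ1 σ2 := by
  choose f hf using h1
  choose f' hf' using h2
  have hfi : Function.Injective f := by
    intro a b e
    have : σ (Sum.inl a) = σ (Sum.inl b) := by rw [hf, hf, e]
    exact Sum.inl_injective (σ.injective this)
  have hfi' : Function.Injective f' := by
    intro a b e
    have : σ (Sum.inr a) = σ (Sum.inr b) := by rw [hf', hf', e]
    exact Sum.inr_injective (σ.injective this)
  refine ⟨Equiv.ofBijective f (Finite.injective_iff_bijective.1 hfi),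
    Equiv.ofBijective f' (Finite.injective_iff_bijective.1 hfi'), ?_⟩
  ext i
  rcases i with l | l
  · simp [hf]
  · simp [hf']

lemma colGroup_mergeT {φ : D1 ⊕ D2 ≃ D} (hφ : IsMerge φ) (t1 : D1 ≃ L1) (t2 : D2 ≃ L2) :
    colGroup (mergeT φ t1 t2) =
      (colGroup t1 ×ˢ colGroup t2).image fun p => Equiv.Perm.sumCongr p.1 p.2 := by
  have hc1 : ∀ l l' : L1, cl (mergeT φ t1 t2) (Sum.inl l) = cl (mergeT φ t1 t2) (Sum.inl l') ↔
      cl t1 l = cl t1 l' := fun l l' => hφ.col1 _ _
  have hc2 : ∀ l l' : L2, cl (mergeT φ t1 t2) (Sum.inr l) = cl (mergeT φ t1 t2) (Sum.inr l') ↔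
      cl t2 l = cl t2 l' := fun l l' => hφ.col2 _ _
  have hc12 : ∀ (l : L1) (l' : L2), cl (mergeT φ t1 t2) (Sum.inl l) ≠ cl (mergeT φ t1 t2) (Sum.inr l') :=
    fun l l' => hφ.col12 _ _
  ext σ
  simp only [Finset.mem_image, Finset.mem_product, Prod.exists, mem_colGroup]
  constructor
  · intro h
    obtain ⟨σ1, σ2, rfl⟩ := exists_sumCongr σ
      (by
        intro l
        rcases hs : σ (Sum.inl l) with l' | l'
        · exact ⟨l', rfl⟩
        · exfalso
          have := h (Sum.inl l)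
          rw [hs] at this
          exact hc12 l l' this.symm)
      (by
        intro l
        rcases hs : σ (Sum.inr l) with l' | l'
        · exfalso
          have := h (Sum.inr l)
          rw [hs] at this
          exact hc12 l' l this
        · exact ⟨l', rfl⟩)
    refine ⟨σ1, σ2, ⟨?_, ?_⟩, rfl⟩
    · intro l
      have := h (Sum.inl l)
      simp only [Equiv.Perm.sumCongr_apply, Sum.map_inl] at this
      exact (hc1 _ _).1 this
    · intro l
      have := h (Sum.inr l)
      simp only [Equiv.Perm.sumCongr_apply, Sum.map_inr] at this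
      exact (hc2 _ _).1 this
  · rintro ⟨σ1, σ2, ⟨h1, h2⟩, rfl⟩ i
    rcases i with l | l
    · simp only [Equiv.Perm.sumCongr_apply, Sum.map_inl]
      exact (hc1 _ _).2 (h1 l)
    · simp only [Equiv.Perm.sumCongr_apply, Sum.map_inr]
      exact (hc2 _ _).2 (h2 l)

lemma act_sumCongr (σ1 : Perm L1) (σ2 : Perm L2) (w1 : Word L1) (w2 : Word L2) :
    act (Equiv.Perm.sumCongr σ1 σ2) (Sum.elim w1 w2) = Sum.elim (act σ1 w1) (act σ2 w2) := by
  funext i
  rcases i with l | l <;> rfl

lemma sg_sumCongr (σ1 : Perm L1) (σ2 : Perm L2) :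
    sg (Equiv.Perm.sumCongr σ1 σ2) = sg σ1 * sg σ2 := by
  simp [sg, Equiv.Perm.sign_sumCongr]

lemma poly_mergeT {φ : D1 ⊕ D2 ≃ D} (hφ : IsMerge φ) (t1 : D1 ≃ L1) (t2 : D2 ≃ L2) :
    poly (mergeT φ t1 t2) = box (poly t1) (poly t2) := by
  have hinj : Function.Injective (fun p : Perm L1 × Perm L2 => Equiv.Perm.sumCongr p.1 p.2) := by
    rintro ⟨a, b⟩ ⟨c, d⟩ h
    exact Equiv.Perm.sumCongrHom_injective h
  unfold poly
  rw [colGroup_mergeT hφ, Finset.sum_image (fun a _ b _ e => hinj e), Finset.sum_product,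
    rw_mergeT hφ]
  simp only [map_sum, LinearMap.sum_apply, map_smul, LinearMap.smul_apply, box_single, act_sumCongr,
    sg_sumCongr, one_mul, smul_smul, mul_one, smul_eq_mul]
  rw [Finset.sum_comm]
  refine Finset.sum_congr rfl fun σ2 _ => ?_
  rw [Finset.smul_sum]
  refine Finset.sum_congr rfl fun σ1 _ => ?_
  rw [smul_smul, mul_comm]

end box

section addD

/-- Adding Young diagrams row by row. -/
def addD (a b : YoungDiagram) : YoungDiagram where
  cells := ((Finset.range (a.colLen 0 + b.colLen 0)) ×ˢ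
    (Finset.range (a.rowLen 0 + b.rowLen 0))).filter fun c => c.2 < a.rowLen c.1 + b.rowLen c.1
  isLowerSet := by
    rintro ⟨i, j⟩ ⟨i', j'⟩ ⟨hi, hj⟩ hc
    simp only [Finset.coe_filter, Finset.mem_product, Finset.mem_range, Set.mem_setOf_eq] at hc ⊢
    simp only at hi hj
    obtain ⟨⟨h1, h2⟩, h3⟩ := hc
    refine ⟨⟨by omega, by omega⟩, ?_⟩
    have e1 := a.rowLen_anti _ _ hi
    have e2 := b.rowLen_anti _ _ hi
    omega

lemma mem_addD {a b : YoungDiagram} {c : ℕ × ℕ} :
    c ∈ addD a b ↔ c.2 < a.rowLen c.1 + b.rowLen c.1 := by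
  obtain ⟨i, j⟩ := c
  constructor
  · intro h
    have h' : (i, j) ∈ (addD a b).cells := h
    simp only [addD, Finset.mem_filter] at h'
    exact h'.2
  · intro h
    have h0 : j < a.rowLen i + b.rowLen i := h
    have h' : (i, j) ∈ (addD a b).cells := by
      simp only [addD, Finset.mem_filter, Finset.mem_product, Finset.mem_range]
      refine ⟨⟨?_, ?_⟩, h⟩
      · rcases Nat.lt_or_ge j (a.rowLen i) with h1 | h1
        · have : (i, j) ∈ a := YoungDiagram.mem_iff_lt_rowLen.2 h1
          have h2 : (i, 0) ∈ a := a.up_left_mem le_rfl (Nat.zero_le _) this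
          have h3 : i < a.colLen 0 := YoungDiagram.mem_iff_lt_colLen.1 h2
          omega
        · have h1' : j - a.rowLen i < b.rowLen i := by omega
          have : (i, j - a.rowLen i) ∈ b := YoungDiagram.mem_iff_lt_rowLen.2 h1'
          have h2 : (i, 0) ∈ b := b.up_left_mem le_rfl (Nat.zero_le _) this
          have h3 : i < b.colLen 0 := YoungDiagram.mem_iff_lt_colLen.1 h2
          omega
      · have e1 := a.rowLen_anti 0 i (Nat.zero_le _)
        have e2 := b.rowLen_anti 0 i (Nat.zero_le _)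
        omega
    exact h'

lemma rowLen_addD (a b : YoungDiagram) (i : ℕ) :
    (addD a b).rowLen i = a.rowLen i + b.rowLen i := by
  apply eq_of_forall_lt_iff
  intro j
  rw [← YoungDiagram.mem_iff_lt_rowLen, mem_addD]

lemma card_col_fibre (μ : YoungDiagram) (h : ℕ) :
    (Finset.univ.filter fun j : Fin (μ.rowLen 0) => μ.colLen j = h + 1).card =
      μ.rowLen h - μ.rowLen (h + 1) := by
  have e1 := μ.rowLen_anti h (h + 1) (Nat.le_succ _)
  have e2 := μ.rowLen_anti 0 h (Nat.zero_le _)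
  rw [← Nat.card_Ico]
  refine Finset.card_bij (fun j _ => j.1) ?_ ?_ ?_
  · intro j hj
    simp only [Finset.mem_filter, Finset.mem_univ, true_and] at hj
    rw [Finset.mem_Ico]
    constructor
    · by_contra hlt
      push Not at hlt
      have : (h + 1, j.1) ∈ μ := YoungDiagram.mem_iff_lt_rowLen.2 hlt
      have := YoungDiagram.mem_iff_lt_colLen.1 this
      omega
    · have : (h, j.1) ∈ μ := YoungDiagram.mem_iff_lt_colLen.2 (by omega)
      exact YoungDiagram.mem_iff_lt_rowLen.1 this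
  · intro a _ b _ e
    exact Fin.ext e
  · intro j hj
    rw [Finset.mem_Ico] at hj
    refine ⟨⟨j, by omega⟩, ?_, rfl⟩
    simp only [Finset.mem_filter, Finset.mem_univ, true_and]
    have h1 : (h, j) ∈ μ := YoungDiagram.mem_iff_lt_rowLen.2 hj.2
    have h2 : h < μ.colLen j := YoungDiagram.mem_iff_lt_colLen.1 h1
    have h3 : ¬ (h + 1, j) ∈ μ := by
      rw [YoungDiagram.mem_iff_lt_rowLen]
      omega
    have h4 : ¬ (h + 1 < μ.colLen j) := by
      rw [← YoungDiagram.mem_iff_lt_colLen]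
      exact h3
    omega

lemma colLen_pos (μ : YoungDiagram) (j : Fin (μ.rowLen 0)) : 0 < μ.colLen j := by
  have : (0, j.1) ∈ μ := YoungDiagram.mem_iff_lt_rowLen.2 j.2
  exact YoungDiagram.mem_iff_lt_colLen.1 this

/-- Sorting the columns. -/
lemma exists_col_equiv (a b : YoungDiagram) :
    ∃ f : (Fin (a.rowLen 0) ⊕ Fin (b.rowLen 0)) ≃ Fin ((addD a b).rowLen 0),
      (∀ j, (addD a b).colLen (f (Sum.inl j)) = a.colLen j) ∧
      (∀ j, (addD a b).colLen (f (Sum.inr j)) = b.colLen j) := by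
  classical
  let F : (Fin (a.rowLen 0) ⊕ Fin (b.rowLen 0)) → ℕ := Sum.elim (fun j => a.colLen j) (fun j => b.colLen j)
  let G : Fin ((addD a b).rowLen 0) → ℕ := fun j => (addD a b).colLen j
  have hc : ∀ k : ℕ, Fintype.card {x // F x = k} = Fintype.card {x // G x = k} := by
    intro k
    rw [Fintype.card_subtype, Fintype.card_subtype]
    cases k with
    | zero =>
      rw [Finset.card_eq_zero.2, Finset.card_eq_zero.2]
      · rw [Finset.filter_eq_empty_iff]
        intro j _
        exact (colLen_pos _ j).ne'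
      · rw [Finset.filter_eq_empty_iff]
        intro j _
        rcases j with j | j
        · exact (colLen_pos _ j).ne'
        · exact (colLen_pos _ j).ne'
    | succ h =>
      have e1 : (Finset.univ.filter fun x => G x = h + 1).card = _ := card_col_fibre (addD a b) h
      have e2 : (Finset.univ.filter fun x => F x = h + 1).card =
          (Finset.univ.filter fun j : Fin (a.rowLen 0) => a.colLen j = h + 1).card +
          (Finset.univ.filter fun j : Fin (b.rowLen 0) => b.colLen j = h + 1).card := by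
        rw [Finset.card_filter, Finset.card_filter, Finset.card_filter, Fintype.sum_sum_type]
        rfl
      rw [e1, e2, card_col_fibre, card_col_fibre, rowLen_addD, rowLen_addD]
      have h1 := a.rowLen_anti h (h + 1) (Nat.le_succ _)
      have h2 := b.rowLen_anti h (h + 1) (Nat.le_succ _)
      omega
  let e : ∀ k : ℕ, {x // F x = k} ≃ {x // G x = k} := fun k => Fintype.equivOfCardEq (hc k)
  let f := Equiv.ofFiberEquiv e
  have hf : ∀ x, G (f x) = F x := fun x => Equiv.ofFiberEquiv_map e x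
  exact ⟨f, fun j => hf (Sum.inl j), fun j => hf (Sum.inr j)⟩

lemma lt_rowLen_zero {μ : YoungDiagram} {c : ℕ × ℕ} (h : c ∈ μ.cells) : c.2 < μ.rowLen 0 := by
  have h1 : (c.1, c.2) ∈ μ := (YoungDiagram.mem_cells _).1 h
  have h2 := YoungDiagram.mem_iff_lt_rowLen.1 h1
  have h3 := μ.rowLen_anti 0 c.1 (Nat.zero_le _)
  omega

/-- The merge of two Young diagrams into their row sum. -/
lemma exists_merge (a b : YoungDiagram) :
    ∃ φ : a.cells ⊕ b.cells ≃ (addD a b).cells, IsMerge φ := by
  classical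
  obtain ⟨f, hf1, hf2⟩ := exists_col_equiv a b
  have hm1 : ∀ c : a.cells, (c.1.1, (f (Sum.inl ⟨c.1.2, lt_rowLen_zero c.2⟩)).1) ∈ (addD a b).cells := by
    intro c
    rw [YoungDiagram.mem_cells, YoungDiagram.mem_iff_lt_colLen, hf1]
    exact YoungDiagram.mem_iff_lt_colLen.1 ((YoungDiagram.mem_cells _).1 c.2)
  have hm2 : ∀ c : b.cells, (c.1.1, (f (Sum.inr ⟨c.1.2, lt_rowLen_zero c.2⟩)).1) ∈ (addD a b).cells := by
    intro c
    rw [YoungDiagram.mem_cells, YoungDiagram.mem_iff_lt_colLen, hf2]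
    exact YoungDiagram.mem_iff_lt_colLen.1 ((YoungDiagram.mem_cells _).1 c.2)
  let F : a.cells ⊕ b.cells → (addD a b).cells :=
    Sum.elim (fun c => ⟨_, hm1 c⟩) (fun c => ⟨_, hm2 c⟩)
  have hinj : Function.Injective F := by
    rintro (⟨⟨i, j⟩, hc⟩ | ⟨⟨i, j⟩, hc⟩) (⟨⟨i', j'⟩, hc'⟩ | ⟨⟨i', j'⟩, hc'⟩) h
    · simp only [F, Sum.elim_inl, Subtype.mk.injEq, Prod.mk.injEq] at h
      have h2 := f.injective (Fin.ext h.2)
      simp only [Sum.inl.injEq, Fin.mk.injEq] at h2
      obtain ⟨rfl, -⟩ := h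
      subst h2
      rfl
    · simp only [F, Sum.elim_inl, Sum.elim_inr, Subtype.mk.injEq, Prod.mk.injEq] at h
      have h2 := f.injective (Fin.ext h.2)
      simp at h2
    · simp only [F, Sum.elim_inl, Sum.elim_inr, Subtype.mk.injEq, Prod.mk.injEq] at h
      have h2 := f.injective (Fin.ext h.2)
      simp at h2
    · simp only [F, Sum.elim_inr, Subtype.mk.injEq, Prod.mk.injEq] at h
      have h2 := f.injective (Fin.ext h.2)
      simp only [Sum.inr.injEq, Fin.mk.injEq] at h2
      obtain ⟨rfl, -⟩ := h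
      subst h2
      rfl
  have hsurj : Function.Surjective F := by
    rintro ⟨⟨i, j⟩, hc⟩
    have hc' : (i, j) ∈ addD a b := (YoungDiagram.mem_cells _).1 hc
    have hj : j < (addD a b).rowLen 0 := lt_rowLen_zero hc
    have hi : i < (addD a b).colLen j := YoungDiagram.mem_iff_lt_colLen.1 hc'
    rcases hx : f.symm ⟨j, hj⟩ with j0 | j0
    · have he : f (Sum.inl j0) = ⟨j, hj⟩ := by rw [← hx]; simp
      have h1 := hf1 j0
      rw [he] at h1
      simp only at h1
      rw [h1] at hi
      have hmem : (i, j0.1) ∈ a.cells := (YoungDiagram.mem_cells _).2 (YoungDiagram.mem_iff_lt_colLen.2 hi)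
      refine ⟨Sum.inl ⟨_, hmem⟩, ?_⟩
      simp only [F, Sum.elim_inl, Subtype.mk.injEq, Prod.mk.injEq, true_and]
      have : (⟨j0.1, lt_rowLen_zero hmem⟩ : Fin (a.rowLen 0)) = j0 := Fin.ext rfl
      rw [this, he]
    · have he : f (Sum.inr j0) = ⟨j, hj⟩ := by rw [← hx]; simp
      have h1 := hf2 j0
      rw [he] at h1
      simp only at h1
      rw [h1] at hi
      have hmem : (i, j0.1) ∈ b.cells := (YoungDiagram.mem_cells _).2 (YoungDiagram.mem_iff_lt_colLen.2 hi)
      refine ⟨Sum.inr ⟨_, hmem⟩, ?_⟩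
      simp only [F, Sum.elim_inr, Subtype.mk.injEq, Prod.mk.injEq, true_and]
      have : (⟨j0.1, lt_rowLen_zero hmem⟩ : Fin (b.rowLen 0)) = j0 := Fin.ext rfl
      rw [this, he]
  refine ⟨Equiv.ofBijective F ⟨hinj, hsurj⟩, ?_⟩
  constructor
  · intro c; rfl
  · intro c; rfl
  · intro c c'
    show (f _).1 = (f _).1 ↔ _
    constructor
    · intro h
      have h2 := f.injective (Fin.ext h)
      simpa using h2
    · intro h
      have : (⟨c.1.2, lt_rowLen_zero c.2⟩ : Fin (a.rowLen 0)) = ⟨c'.1.2, lt_rowLen_zero c'.2⟩ := Fin.ext h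
      rw [this]
  · intro c c'
    show (f _).1 = (f _).1 ↔ _
    constructor
    · intro h
      have h2 := f.injective (Fin.ext h)
      simpa using h2
    · intro h
      have : (⟨c.1.2, lt_rowLen_zero c.2⟩ : Fin (b.rowLen 0)) = ⟨c'.1.2, lt_rowLen_zero c'.2⟩ := Fin.ext h
      rw [this]
  · intro c c'
    show (f _).1 ≠ (f _).1
    intro h
    have h2 := f.injective (Fin.ext h)
    simp at h2

end addD

section add

variable {L1 L2 : Type} [Fintype L1] [DecidableEq L1] [Fintype L2] [DecidableEq L2]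

/-- **Semigroup property.** -/
theorem QL.add {a1 b1 c1 a2 b2 c2 : YoungDiagram} (h1 : QL L1 a1 b1 c1) (h2 : QL L2 a2 b2 c2) :
    QL (L1 ⊕ L2) (addD a1 a2) (addD b1 b2) (addD c1 c2) := by
  obtain ⟨t1, u1, v1, w1, hw1⟩ := h1
  obtain ⟨t2, u2, v2, w2, hw2⟩ := h2
  obtain ⟨φa, hφa⟩ := exists_merge a1 a2
  obtain ⟨φb, hφb⟩ := exists_merge b1 b2
  obtain ⟨φc, hφc⟩ := exists_merge c1 c2
  have hP : P3 (poly (mergeT φa t1 t2)) (poly (mergeT φb u1 u2)) (poly (mergeT φc v1 v2)) ≠ 0 := by
    rw [poly_mergeT hφa, poly_mergeT hφb, poly_mergeT hφc, P3_box]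
    exact mul_ne_zero (P3_ne_of_Tr_ne hw1) (P3_ne_of_Tr_ne hw2)
  obtain ⟨w, hw⟩ := exists_Tr_ne_of_P3_ne hP
  exact ⟨_, _, _, w, hw⟩

end add

end Crest.Agent.Lib.Saxl
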