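import Mathlib

/-!
# Saxl: bit matrices with prescribed row and column sums (helper63)

McNaughton wrap-around: tiles with offsets `D_j ≤ s` are laid out on a cylinder of circumference
`s`; the row of tile `j` is the cyclic interval `[a_j, a_j + D_j)`, `a_j = ∑_{i<j} D_i`.  Then every
row has exactly `D_j` ones, and level `p` is covered `(∑ D + s - 1 - p) / s` times, i.e.
`q + [p < r]` if `∑ D = q s + r`.  Zones: `appendRows` glues matrices of the same number of rows
side by side, so coverage can be prescribed zone by zone.

Data: `List (List Bool)`, one list of length `s` per tile.  Pure list arithmetic, no shapes.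
-/

set_option autoImplicit false

namespace Crest.Agent.Lib.Saxl


lemma countP_range_eq (s : ℕ) (f : ℕ → Bool) :
    (List.range s).countP f = ((Finset.range s).filter fun p => f p = true).card := by
  rw [List.countP_eq_length_filter]
  have : ((Finset.range s).filter fun p => f p = true).card
      = Multiset.card (Multiset.filter (fun p => f p = true) (Multiset.range s)) := rfl
  rw [this, Multiset.range, Multiset.filter_coe, Multiset.coe_card]
  simp

theorem card_shift (s b d : ℕ) (hs : 0 < s) (hb : b < s) (hd : d ≤ s) :
    ((Finset.range s).filter fun p => (p + (s - b)) % s < d).card = d := by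
  have : d = (Finset.range d).card := by simp
  conv_rhs => rw [this]
  apply Finset.card_bij' (fun p _ => (p + (s - b)) % s) (fun v _ => (v + b) % s)
  · intro p hp
    simp only [Finset.mem_filter, Finset.mem_range] at hp ⊢
    exact hp.2
  · intro v hv
    simp only [Finset.mem_filter, Finset.mem_range] at hv ⊢
    refine ⟨Nat.mod_lt _ hs, ?_⟩
    rw [Nat.mod_add_mod]
    have : v + b + (s - b) = v + s := by omega
    rw [this, Nat.add_mod_right, Nat.mod_eq_of_lt (by omega)]
    exact hv
  · intro p hp
    simp only [Finset.mem_filter, Finset.mem_range] at hp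
    show ((p + (s - b)) % s + b) % s = p
    rw [Nat.mod_add_mod]
    have : p + (s - b) + b = p + s := by omega
    rw [this, Nat.add_mod_right, Nat.mod_eq_of_lt hp.1]
  · intro v hv
    simp only [Finset.mem_range] at hv
    show ((v + b) % s + (s - b)) % s = v
    rw [Nat.mod_add_mod]
    have : v + b + (s - b) = v + s := by omega
    rw [this, Nat.add_mod_right, Nat.mod_eq_of_lt (by omega)]

/-- counting lemma -/
theorem wrap_cnt (s a d p : ℕ) (hp : p < s) (hd : d ≤ s) :
    (a + d + s - 1 - p) / s = (a + s - 1 - p) / s + if (p + (s - a % s)) % s < d then 1 else 0 := by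
  have hs : 0 < s := by omega
  have hb : a % s < s := Nat.mod_lt _ hs
  have ha : a = s * (a / s) + a % s := (Nat.div_add_mod a s).symm
  set b := a % s with hbdef
  set q := a / s with hqdef
  rw [ha]
  rcases Nat.lt_or_ge p b with hlt | hge
  · -- p < b
    have hw : (p + (s - b)) % s = p + (s - b) := Nat.mod_eq_of_lt (by omega)
    rw [hw]
    have h1 : (s * q + b + s - 1 - p) / s = q + 1 := by
      apply Nat.div_eq_of_lt_le
      · rw [add_mul]; have : q * s = s * q := Nat.mul_comm _ _; omega
      · rw [show (q + 1 + 1) * s = s * q + 2 * s by ring]; omega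
    rw [h1]
    split_ifs with hc
    · apply Nat.div_eq_of_lt_le
      · rw [show (q + 1 + 1) * s = s * q + 2 * s by ring]; omega
      · rw [show (q + 1 + 1 + 1) * s = s * q + 3 * s by ring]; omega
    · apply Nat.div_eq_of_lt_le
      · rw [show (q + 1) * s = s * q + s by ring]; omega
      · rw [show (q + 1 + 1) * s = s * q + 2 * s by ring]; omega
  · -- b ≤ p
    have hw : (p + (s - b)) % s = p - b := by
      have : p + (s - b) = (p - b) + s := by omega
      rw [this, Nat.add_mod_right, Nat.mod_eq_of_lt (by omega)]
    rw [hw]
    have h1 : (s * q + b + s - 1 - p) / s = q := by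
      apply Nat.div_eq_of_lt_le
      · rw [show q * s = s * q by ring]; omega
      · rw [show (q + 1) * s = s * q + s by ring]; omega
    rw [h1]
    split_ifs with hc
    · apply Nat.div_eq_of_lt_le
      · rw [show (q + 1) * s = s * q + s by ring]; omega
      · rw [show (q + 1 + 1) * s = s * q + 2 * s by ring]; omega
    · simp only [add_zero]
      apply Nat.div_eq_of_lt_le
      · rw [show q * s = s * q by ring]; omega
      · rw [show (q + 1) * s = s * q + s by ring]; omega

/-- The bit at level `p` of the cyclic interval `[a, a + d)` modulo `s`. -/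
def wrapBit (s a d p : ℕ) : Bool := decide ((p + (s - a % s)) % s < d)

/-- The row of a tile: the cyclic interval `[a, a + d)`. -/
def wrapRow (s a d : ℕ) : List Bool := (List.range s).map (wrapBit s a d)

/-- All rows, starting at position `a`. -/
def wrapFrom (s : ℕ) : ℕ → List ℕ → List (List Bool)
  | _, [] => []
  | a, d :: l => wrapRow s a d :: wrapFrom s (a + d) l

/-- The wrap-around matrix of a list of offsets. -/
def wrapMatrix (s : ℕ) (l : List ℕ) : List (List Bool) := wrapFrom s 0 l

/-- Column `p` of a matrix. -/
def colOf (M : List (List Bool)) (p : ℕ) : List Bool := M.map fun r => r.getD p false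

@[simp] lemma length_wrapRow (s a d : ℕ) : (wrapRow s a d).length = s := by
  simp [wrapRow]

lemma getD_wrapRow (s a d p : ℕ) (hp : p < s) :
    (wrapRow s a d).getD p false = wrapBit s a d p := by
  simp [wrapRow, List.getD_eq_getElem?_getD, hp]

/-- Every row has exactly `d` ones. -/
theorem count_wrapRow (s a d : ℕ) (hs : 0 < s) (hd : d ≤ s) :
    (wrapRow s a d).count true = d := by
  have hb : a % s < s := Nat.mod_lt _ hs
  unfold wrapRow
  rw [List.count_eq_countP, List.countP_map]
  have e : ((fun x => x == true) ∘ wrapBit s a d) = fun p => decide ((p + (s - a % s)) % s < d) := by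
    funext p
    simp [wrapBit]
  rw [e, countP_range_eq]
  simpa using card_shift s (a % s) d hs hb hd

@[simp] lemma length_wrapFrom (s a : ℕ) (l : List ℕ) : (wrapFrom s a l).length = l.length := by
  induction l generalizing a with
  | nil => rfl
  | cons d l ih => simp [wrapFrom, ih]

@[simp] lemma length_wrapMatrix (s : ℕ) (l : List ℕ) : (wrapMatrix s l).length = l.length :=
  length_wrapFrom s 0 l

/-- Rows of the matrix: length `s`, and `d` ones. -/
theorem forall2_wrapFrom (s a : ℕ) (l : List ℕ) (hs : 0 < s) (hl : ∀ d ∈ l, d ≤ s) :
    List.Forall₂ (fun r d => r.length = s ∧ r.count true = d) (wrapFrom s a l) l := by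
  induction l generalizing a with
  | nil => exact List.Forall₂.nil
  | cons d l ih =>
    refine List.Forall₂.cons ⟨length_wrapRow _ _ _, count_wrapRow s a d hs (hl d (by simp))⟩ ?_
    exact ih _ fun x hx => hl x (by simp [hx])

theorem forall2_wrapMatrix (s : ℕ) (l : List ℕ) (hs : 0 < s) (hl : ∀ d ∈ l, d ≤ s) :
    List.Forall₂ (fun r d => r.length = s ∧ r.count true = d) (wrapMatrix s l) l :=
  forall2_wrapFrom s 0 l hs hl

/-- Column sums, general start. -/
theorem count_colOf_wrapFrom (s a p : ℕ) (l : List ℕ) (hp : p < s) (hl : ∀ d ∈ l, d ≤ s) :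
    (colOf (wrapFrom s a l) p).count true + (a + s - 1 - p) / s = (a + l.sum + s - 1 - p) / s := by
  induction l generalizing a with
  | nil => simp [wrapFrom, colOf]
  | cons d l ih =>
    have h1 := ih (a + d) fun x hx => hl x (by simp [hx])
    have h2 := wrap_cnt s a d p hp (hl d (by simp))
    have e : a + (d :: l).sum = a + d + l.sum := by simp [add_assoc]
    rw [e, ← h1]
    have h3 : colOf (wrapFrom s a (d :: l)) p =
        wrapBit s a d p :: colOf (wrapFrom s (a + d) l) p := by
      have h4 := getD_wrapRow s a d p hp
      simp only [wrapFrom, colOf, List.map_cons, h4]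
    rw [h3, h2]
    unfold wrapBit
    by_cases hc : (p + (s - a % s)) % s < d
    · simp [hc]; ring
    · simp [hc]

/-- **McNaughton wrap-around**: the column sums of the wrap matrix. -/
theorem count_colOf_wrapMatrix (s p : ℕ) (l : List ℕ) (hp : p < s) (hl : ∀ d ∈ l, d ≤ s) :
    (colOf (wrapMatrix s l) p).count true = (l.sum + s - 1 - p) / s := by
  have h := count_colOf_wrapFrom s 0 p l hp hl
  have e : (0 + s - 1 - p) / s = 0 := Nat.div_eq_of_lt (by omega)
  rw [e, add_zero, zero_add] at h
  exact h

/-- If `s` divides the total every level is covered the same number of times. -/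
theorem count_colOf_wrapMatrix_flat (s p q : ℕ) (l : List ℕ) (hp : p < s) (hl : ∀ d ∈ l, d ≤ s)
    (hq : l.sum = q * s) : (colOf (wrapMatrix s l) p).count true = q := by
  rw [count_colOf_wrapMatrix s p l hp hl, hq]
  apply Nat.div_eq_of_lt_le
  · have : q * s + s - 1 - p + p + 1 = q * s + s := by omega
    omega
  · rw [Nat.succ_mul]; omega

/-! ### Zones -/

/-- Glue two matrices with the same number of rows side by side. -/
def appendRows (M N : List (List Bool)) : List (List Bool) := List.zipWith (· ++ ·) M N

theorem colOf_appendRows_left (M N : List (List Bool)) (s p : ℕ) (hlen : M.length = N.length)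
    (hM : ∀ r ∈ M, r.length = s) (hp : p < s) : colOf (appendRows M N) p = colOf M p := by
  induction M generalizing N with
  | nil => cases N <;> simp_all [appendRows, colOf]
  | cons r M ih =>
    cases N with
    | nil => simp at hlen
    | cons w N =>
      have hr : r.length = s := hM r (by simp)
      have ih' := ih N (by simpa using hlen) (fun x hx => hM x (by simp [hx]))
      simp only [appendRows, colOf, List.zipWith_cons_cons, List.map_cons, List.cons.injEq] at ih' ⊢
      refine ⟨?_, ih'⟩
      simp only [List.getD_eq_getElem?_getD]
      rw [List.getElem?_append_left (by omega)]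

theorem colOf_appendRows_right (M N : List (List Bool)) (s p : ℕ) (hlen : M.length = N.length)
    (hM : ∀ r ∈ M, r.length = s) : colOf (appendRows M N) (s + p) = colOf N p := by
  induction M generalizing N with
  | nil => cases N <;> simp_all [appendRows, colOf]
  | cons r M ih =>
    cases N with
    | nil => simp at hlen
    | cons w N =>
      have hr : r.length = s := hM r (by simp)
      have ih' := ih N (by simpa using hlen) (fun x hx => hM x (by simp [hx]))
      simp only [appendRows, colOf, List.zipWith_cons_cons, List.map_cons, List.cons.injEq] at ih' ⊢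
      refine ⟨?_, ih'⟩
      simp only [List.getD_eq_getElem?_getD]
      rw [List.getElem?_append_right (by omega)]
      simp [hr]

theorem forall2_appendRows {M N : List (List Bool)} {s s' : ℕ} {l l' : List ℕ}
    (hM : List.Forall₂ (fun r d => r.length = s ∧ r.count true = d) M l)
    (hN : List.Forall₂ (fun r d => r.length = s' ∧ r.count true = d) N l') :
    List.Forall₂ (fun r d => r.length = s + s' ∧ r.count true = d)
      (appendRows M N) (List.zipWith (· + ·) l l') := by
  induction hM generalizing N l' with
  | nil =>
    cases hN <;> exact List.Forall₂.nil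
  | cons h _ ih =>
    cases hN with
    | nil => exact List.Forall₂.nil
    | cons h' t' =>
      refine List.Forall₂.cons ⟨?_, ?_⟩ (ih t')
      · simp [h.1, h'.1]
      · rw [List.count_append, h.2, h'.2]

end Crest.Agent.Lib.Saxl
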