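import Crest.Agent.Lib.Saxl.Envelope

/-!
# Saxl: selecting columns (row 195, L4)

* `colsList c`: the columns of `c`, non-increasing, `colsOf c = colsList c`.
* `bandList c lo t`: the columns with heights in `(lo, t]`, a contiguous run, with sum `bandMass c lo t`.
* `exists_block_window`: sliding a block of fixed size through a list: discrete intermediate values.
* `exists_prefix_odd`: a prefix of odd length in a window.
-/

set_option autoImplicit false
set_option linter.unusedSectionVars false

namespace Crest.Agent.Lib.Saxl

/-- The columns of `c`, tallest first. -/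
def colsList (c : YoungDiagram) : List ℕ := (List.range (c.rowLen 0)).map c.colLen

lemma colsOf_eq_list (c : YoungDiagram) : colsOf c = (colsList c : Multiset ℕ) := by
  unfold colsOf colsList
  rw [← Multiset.map_coe]
  rfl

lemma colsList_sorted (c : YoungDiagram) : (colsList c).Pairwise (· ≥ ·) := by
  unfold colsList
  rw [List.pairwise_map]
  apply List.Pairwise.imp _ List.pairwise_lt_range
  intro a b h
  exact c.colLen_anti _ _ h.le

lemma colsList_sum (c : YoungDiagram) : (colsList c).sum = c.card := by
  have := sum_colsOf c
  rwa [colsOf_eq_list, Multiset.sum_coe] at this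

/-- The columns of `c` with heights in `(lo, t]`. -/
def bandList (c : YoungDiagram) (lo t : ℕ) : List ℕ :=
  (colsList c).filter fun h => lo < h ∧ h ≤ t

lemma massLE_eq_list (c : YoungDiagram) (t : ℕ) : massLE c t = ((colsList c).filter (· ≤ t)).sum := by
  unfold massLE
  rw [colsOf_eq_list, Multiset.filter_coe, Multiset.sum_coe]

lemma filter_sum_split (l : List ℕ) {lo t : ℕ} (h : lo ≤ t) :
    (l.filter (· ≤ t)).sum = (l.filter (· ≤ lo)).sum + (l.filter fun h => lo < h ∧ h ≤ t).sum := by
  induction l with
  | nil => simp
  | cons a l ih =>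
    simp only [List.filter_cons]
    by_cases h1 : a ≤ lo
    · have h2 : a ≤ t := h1.trans h
      have h3 : ¬ (lo < a ∧ a ≤ t) := by omega
      rw [if_pos (by simpa using h2), if_pos (by simpa using h1), if_neg (by simpa using h3)]
      simp only [List.sum_cons]
      omega
    · by_cases h2 : a ≤ t
      · have h3 : lo < a ∧ a ≤ t := by omega
        rw [if_pos (by simpa using h2), if_neg (by simpa using h1), if_pos (by simpa using h3)]
        simp only [List.sum_cons]
        omega
      · have h3 : ¬ (lo < a ∧ a ≤ t) := by omega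
        rw [if_neg (by simpa using h2), if_neg (by simpa using h1), if_neg (by simpa using h3)]
        exact ih

/-- The sum of the band list is the band mass. -/
theorem bandList_sum (c : YoungDiagram) {lo t : ℕ} (h : lo ≤ t) :
    (bandList c lo t).sum = bandMass c lo t := by
  unfold bandList bandMass
  rw [massLE_eq_list, massLE_eq_list, filter_sum_split _ h]
  omega

lemma mem_bandList {c : YoungDiagram} {lo t h : ℕ} (hh : h ∈ bandList c lo t) : lo < h ∧ h ≤ t := by
  unfold bandList at hh
  rw [List.mem_filter] at hh
  simpa using hh.2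

lemma bandList_sorted (c : YoungDiagram) (lo t : ℕ) : (bandList c lo t).Pairwise (· ≥ ·) :=
  (colsList_sorted c).filter _

/-- Discrete intermediate values. -/
lemma exists_window_of_steps (S : ℕ → ℕ) {A W : ℕ} : ∀ m : ℕ, (∀ i, i < m → S i ≤ S (i + 1) + W) →
    A ≤ S 0 → S m < A + W → ∃ i, i ≤ m ∧ A ≤ S i ∧ S i < A + W := by
  intro m
  induction m generalizing S with
  | zero => intro _ h0 h1; exact ⟨0, le_rfl, h0, h1⟩
  | succ m ih =>
    intro h h0 h1
    by_cases h2 : S 0 < A + W
    · exact ⟨0, Nat.zero_le _, h0, h2⟩
    · have h3 := h 0 (by omega)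
      obtain ⟨i, hi, hi1, hi2⟩ := ih (fun i => S (i + 1)) (fun i hi => h (i + 1) (by omega)) (by
        show A ≤ S (0 + 1)
        omega) h1
      exact ⟨i + 1, by omega, hi1, hi2⟩

/-- The block of `B` entries after position `i`. -/
def blockAt (l : List ℕ) (B i : ℕ) : List ℕ := (l.drop i).take B

lemma sum_take_succ' (l : List ℕ) {k : ℕ} (h : k < l.length) :
    (l.take (k + 1)).sum = (l.take k).sum + l[k] := by
  rw [List.take_add_one, List.sum_append, List.getElem?_eq_getElem h]
  simp

lemma blockAt_sum (l : List ℕ) (B i : ℕ) :
    (blockAt l B i).sum + (l.take i).sum = (l.take (i + B)).sum := by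
  unfold blockAt
  rw [List.take_add, List.sum_append]
  omega

/-- Sliding a block of size `B` through a list. -/
theorem exists_block_window {l : List ℕ} {B A W : ℕ} (hB : B ≤ l.length)
    (hW : ∀ i (hi : i + B < l.length), l[i]'(by omega) ≤ l[i + B] + W)
    (h0 : A ≤ (blockAt l B 0).sum) (h1 : (blockAt l B (l.length - B)).sum < A + W) :
    ∃ i, i + B ≤ l.length ∧ A ≤ (blockAt l B i).sum ∧ (blockAt l B i).sum < A + W := by
  obtain ⟨i, hi, h2, h3⟩ := exists_window_of_steps (fun i => (blockAt l B i).sum) (A := A) (W := W)
    (l.length - B) (by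
      intro i hi
      show (blockAt l B i).sum ≤ (blockAt l B (i + 1)).sum + W
      have hlt : i + B < l.length := by omega
      have a1 := blockAt_sum l B i
      have a2 := blockAt_sum l B (i + 1)
      rw [show i + 1 + B = (i + B) + 1 by omega, sum_take_succ' l hlt] at a2
      rw [sum_take_succ' l (by omega : i < l.length)] at a2
      have a3 := hW i hlt
      omega) h0 h1
  exact ⟨i, by omega, h2, h3⟩

/-- A block and the rest. -/
theorem coe_eq_block_add_rest (l : List ℕ) (B i : ℕ) :
    (l : Multiset ℕ) = (blockAt l B i : Multiset ℕ) + ((l.take i ++ l.drop (i + B) : List ℕ) : Multiset ℕ) := by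
  rw [Multiset.coe_add, Multiset.coe_eq_coe]
  have h1 : l = l.take i ++ (l.drop i).take B ++ (l.drop i).drop B := by
    rw [List.append_assoc, List.take_append_drop, List.take_append_drop]
  have h2 : (l.drop i).drop B = l.drop (i + B) := by
    rw [List.drop_drop]
  unfold blockAt
  conv_lhs => rw [h1]
  rw [h2, List.append_assoc]
  exact List.perm_append_comm_assoc _ _ _

/-- A prefix of odd length with sum in a window: the columns are at most `w`, the window has width `2 w`. -/
theorem exists_prefix_odd {l : List ℕ} {w A : ℕ} (hl : ∀ x ∈ l, x ≤ w) (hA : A + 2 * w ≤ l.sum) (hw : 0 < w) :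
    ∃ k, k % 2 = 1 ∧ k ≤ l.length ∧ A ≤ (l.take k).sum ∧ (l.take k).sum < A + 2 * w := by
  classical
  -- the first prefix with sum at least `A`, then one of two
  have hex : ∃ k, k ≤ l.length ∧ A ≤ (l.take k).sum := ⟨l.length, le_rfl, by
    rw [List.take_length]; omega⟩
  let k0 := Nat.find hex
  obtain ⟨hk1, hk2⟩ : k0 ≤ l.length ∧ A ≤ (l.take k0).sum := Nat.find_spec hex
  have hstep : ∀ k, (h : k < l.length) → (l.take (k + 1)).sum ≤ (l.take k).sum + w := by
    intro k h
    rw [sum_take_succ' l h]
    have := hl l[k] (List.getElem_mem h)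
    omega
  have hk3 : (l.take k0).sum < A + w := by
    by_cases h0 : k0 = 0
    · rw [h0]
      simp only [List.take_zero, List.sum_nil]
      omega
    · have hmin := Nat.find_min hex (m := k0 - 1) (by omega)
      push Not at hmin
      have h2 := hmin (by omega)
      have h3 := hstep (k0 - 1) (by omega)
      rw [show k0 - 1 + 1 = k0 by omega] at h3
      omega
  by_cases hodd : k0 % 2 = 1
  · exact ⟨k0, hodd, hk1, hk2, by omega⟩
  · have hlt : k0 < l.length := by
      by_contra hcon
      have : k0 = l.length := by omega
      rw [this, List.take_length] at hk3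
      omega
    have h3 := hstep k0 hlt
    have h4 : (l.take k0).sum ≤ (l.take (k0 + 1)).sum := by
      rw [sum_take_succ' l hlt]
      omega
    exact ⟨k0 + 1, by omega, by omega, by omega, by omega⟩

end Crest.Agent.Lib.Saxl
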