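import Crest.Agent.Lib.Saxl.Envelope

/-!
# Saxl: a kernel-checkable dynamic program along the boundary of a diagram (row 195, L4)

`B` is any function. The theorem `exists_heavy_of_dpOK` says: if the computable test `dpOK n B fl` holds, every
diagram `c` of size `n` (if `fl`, flat: no column of height one, no row of length one) has some `t`
with `B t ≤ massLE c t` or `B t ≤ massLE c' t`.

The program walks along the boundary of `c`, a position being `(u, v)` with `colLen u ≤ v ≤ colLen (u-1)`. With
`L = Lsum c u` the mass of the first `u` columns, the two facts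
`n - L ≤ massLE c v`, `L ≤ u v + massLE c' u` say that `L` is in a window computed from `B`; the interval of the possible
`L` is propagated. The intervals are only hulls, but in the relevant range this loses nothing.
-/

set_option autoImplicit false
set_option linter.unusedSectionVars false

namespace Crest.Agent.Lib.Saxl

/-! ### The mass of the first columns -/

/-- The mass of the first `u` columns. -/
def Lsum (c : YoungDiagram) (u : ℕ) : ℕ := ∑ j ∈ Finset.range u, c.colLen j

lemma Lsum_zero (c : YoungDiagram) : Lsum c 0 = 0 := rfl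

lemma Lsum_succ (c : YoungDiagram) (u : ℕ) : Lsum c (u + 1) = Lsum c u + c.colLen u :=
  Finset.sum_range_succ _ _

lemma Lsum_eq_card (c : YoungDiagram) (u : ℕ) :
    Lsum c u = (c.cells.filter fun x => x.2 < u).card := by
  classical
  unfold Lsum
  rw [Finset.card_eq_sum_card_fiberwise (f := Prod.snd) (t := Finset.range u)]
  · apply Finset.sum_congr rfl
    intro j hj
    have : (c.cells.filter fun x => x.2 < u).filter (fun x => x.2 = j)
        = (Finset.range (c.colLen j)).map ⟨fun i => (i, j), fun a b h => by simpa using h⟩ := by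
      ext ⟨i, j'⟩
      simp only [Finset.mem_filter, Finset.mem_map, Finset.mem_range, Function.Embedding.coeFn_mk,
        Prod.mk.injEq, YoungDiagram.mem_cells]
      constructor
      · rintro ⟨⟨hc, _⟩, rfl⟩
        exact ⟨i, YoungDiagram.mem_iff_lt_colLen.1 hc, rfl, rfl⟩
      · rintro ⟨i', hi', rfl, rfl⟩
        exact ⟨⟨YoungDiagram.mem_iff_lt_colLen.2 hi', Finset.mem_range.1 hj⟩, rfl⟩
    rw [this, Finset.card_map, Finset.card_range]
  · intro x hx
    simp only [Finset.coe_filter, Set.mem_ofPred_eq] at hx
    simpa using hx.2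

lemma Lsum_le_card (c : YoungDiagram) (u : ℕ) : Lsum c u ≤ c.card := by
  rw [Lsum_eq_card]
  exact Finset.card_le_card (Finset.filter_subset _ _)

lemma Lsum_rowLen (c : YoungDiagram) : Lsum c (c.rowLen 0) = c.card := by
  rw [Lsum_eq_card]
  congr 1
  apply Finset.filter_true_of_mem
  rintro ⟨i, j⟩ h
  have h2 : (0, j) ∈ c := c.up_left_mem (Nat.zero_le _) le_rfl h
  exact YoungDiagram.mem_iff_lt_rowLen.1 h2

/-- The columns from `u` on are all in `massLE c v`. -/
lemma card_sub_Lsum_le (c : YoungDiagram) {u v : ℕ} (h : c.colLen u ≤ v) :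
    c.card - Lsum c u ≤ massLE c v := by
  classical
  rw [← card_cells_colLen_le, Lsum_eq_card]
  have h1 : c.cells ⊆ (c.cells.filter fun x => x.2 < u) ∪ (c.cells.filter fun x => c.colLen x.2 ≤ v) := by
    rintro ⟨i, j⟩ hx
    simp only [Finset.mem_union, Finset.mem_filter, hx, true_and]
    by_cases hj : j < u
    · exact Or.inl hj
    · exact Or.inr ((c.colLen_anti _ _ (by omega)).trans h)
  have h2 := Finset.card_le_card h1
  have h3 := Finset.card_union_le (c.cells.filter fun x => x.2 < u)
    (c.cells.filter fun x => c.colLen x.2 ≤ v)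
  have h4 : c.card = c.cells.card := rfl
  omega

/-- The first `u` columns: a rectangle and rows of length `≤ u`. -/
lemma Lsum_le_rect (c : YoungDiagram) {u v : ℕ} (h : c.colLen u ≤ v) :
    Lsum c u ≤ u * v + massLE c.transpose u := by
  classical
  rw [← card_cells_rowLen_le, Lsum_eq_card]
  have h1 : (c.cells.filter fun x => x.2 < u) ⊆ (Finset.range v ×ˢ Finset.range u)
      ∪ (c.cells.filter fun x => c.rowLen x.1 ≤ u) := by
    rintro ⟨i, j⟩ hx
    simp only [Finset.mem_filter] at hx
    simp only [Finset.mem_union, Finset.mem_product, Finset.mem_range, Finset.mem_filter, hx.1, true_and]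
    by_cases hi : i < v
    · exact Or.inl ⟨hi, hx.2⟩
    · refine Or.inr ?_
      have hnot : (i, u) ∉ c := by
        rw [YoungDiagram.mem_iff_lt_colLen]
        omega
      by_contra hcon
      exact hnot (YoungDiagram.mem_iff_lt_rowLen.2 (by omega))
  have h2 := Finset.card_le_card h1
  have h3 := Finset.card_union_le (Finset.range v ×ˢ Finset.range u)
    (c.cells.filter fun x => c.rowLen x.1 ≤ u)
  rw [Finset.card_product, Finset.card_range, Finset.card_range, mul_comm v u] at h3
  omega

/-! ### Intervals -/

/-- An interval of naturals `[l, h]`, empty when `h < l`. -/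
abbrev Iv := ℕ × ℕ

/-- Membership. -/
def Iv.Mem (L : ℕ) (a : Iv) : Prop := a.1 ≤ L ∧ L ≤ a.2

/-- The empty interval. -/
def ivDead : Iv := (1, 0)

lemma not_mem_dead (L : ℕ) : ¬ Iv.Mem L ivDead := by
  unfold Iv.Mem ivDead
  simp only
  omega

/-- Minimum by `Nat.ble`. -/
def nmin (a b : ℕ) : ℕ := bif Nat.ble a b then a else b
/-- Maximum by `Nat.ble`. -/
def nmax (a b : ℕ) : ℕ := bif Nat.ble a b then b else a

lemma nmin_eq (a b : ℕ) : nmin a b = min a b := by
  unfold nmin
  by_cases h : a ≤ b
  · simp [Nat.ble_eq_true_of_le h, h]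
  · have : Nat.ble a b = false := by
      rw [← Bool.not_eq_true, Nat.ble_eq]; exact h
    simp only [this, cond_false]
    omega

lemma nmax_eq (a b : ℕ) : nmax a b = max a b := by
  unfold nmax
  by_cases h : a ≤ b
  · simp [Nat.ble_eq_true_of_le h, h]
  · have : Nat.ble a b = false := by
      rw [← Bool.not_eq_true, Nat.ble_eq]; exact h
    simp only [this, cond_false]
    omega

/-- The hull of a union. -/
def ivJoin (a b : Iv) : Iv :=
  bif Nat.ble a.1 a.2 then (bif Nat.ble b.1 b.2 then (nmin a.1 b.1, nmax a.2 b.2) else a) else b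

/-- Intersection with a window, skipping the window of an empty interval. -/
def ivMeet (a : Iv) (w : Iv) : Iv :=
  bif Nat.ble a.1 a.2 then (nmax a.1 w.1, nmin a.2 w.2) else ivDead

/-- Translation. -/
def ivShift (a : Iv) (v : ℕ) : Iv := (a.1 + v, a.2 + v)

lemma mem_join_left {L : ℕ} {a : Iv} (b : Iv) (h : Iv.Mem L a) : Iv.Mem L (ivJoin a b) := by
  obtain ⟨h1, h2⟩ := h
  have e : Nat.ble a.1 a.2 = true := Nat.ble_eq_true_of_le (h1.trans h2)
  unfold ivJoin
  rw [e, cond_true]
  cases hb : Nat.ble b.1 b.2
  · exact ⟨h1, h2⟩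
  · simp only [cond_true, Iv.Mem, nmin_eq, nmax_eq]
    omega

lemma mem_join_right {L : ℕ} {b : Iv} (a : Iv) (h : Iv.Mem L b) : Iv.Mem L (ivJoin a b) := by
  obtain ⟨h1, h2⟩ := h
  have e : Nat.ble b.1 b.2 = true := Nat.ble_eq_true_of_le (h1.trans h2)
  unfold ivJoin
  rw [e, cond_true]
  cases ha : Nat.ble a.1 a.2
  · exact ⟨h1, h2⟩
  · simp only [cond_true, Iv.Mem, nmin_eq, nmax_eq]
    omega

lemma mem_meet {L : ℕ} {a w : Iv} (h : Iv.Mem L a) (hw : Iv.Mem L w) : Iv.Mem L (ivMeet a w) := by
  obtain ⟨h1, h2⟩ := h
  obtain ⟨h3, h4⟩ := hw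
  have e : Nat.ble a.1 a.2 = true := Nat.ble_eq_true_of_le (h1.trans h2)
  unfold ivMeet
  rw [e, cond_true]
  simp only [Iv.Mem, nmin_eq, nmax_eq]
  omega

lemma mem_shift {L : ℕ} {a : Iv} (h : Iv.Mem L a) (v : ℕ) : Iv.Mem (L + v) (ivShift a v) := by
  obtain ⟨h1, h2⟩ := h
  simp only [Iv.Mem, ivShift]
  omega

/-! ### The program -/

/-- The window of `L` at position `(u, v)`. -/
def dpWin (n : ℕ) (B : ℕ → ℕ) (u v : ℕ) : Iv := (n + 1 - B v, nmin n (u * v + B u - 1))

/-- One row of the table, height `v`, from column `u` on. -/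
def rowGo (n : ℕ) (B : ℕ → ℕ) (fl : Bool) (v : ℕ) : ℕ → ℕ → Iv → List Iv → List Iv
  | 0, _, _, _ => []
  | f + 1, u, left, prev =>
    let fromN : Iv := bif fl && Nat.beq u 1 then ivDead else prev.headD ivDead
    let fromE : Iv := bif fl && Nat.beq v 1 then ivDead else ivShift left v
    let x : Iv := ivMeet (ivJoin fromN fromE) (dpWin n B u v)
    x :: rowGo n B fl v f (u + 1) x prev.tail

/-- The row of height `v` from the row above. -/
def rowStep (n : ℕ) (B : ℕ → ℕ) (fl : Bool) (v : ℕ) (prev : List Iv) : List Iv :=
  let x0 : Iv := ivMeet (0, 0) (dpWin n B 0 v)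
  x0 :: rowGo n B fl v (n / v) 1 x0 prev.tail

/-- The table: `dpTable k` is the row of height `n + 1 - k`. -/
def dpTable (n : ℕ) (B : ℕ → ℕ) (fl : Bool) : ℕ → List Iv
  | 0 => []
  | k + 1 => rowStep n B fl (n - k) (dpTable n B fl k)

/-- The last test: at the end of the boundary `L = n`, and all rows have length `≤ u`. -/
def dpFinal (n : ℕ) (B : ℕ → ℕ) : ℕ → List Iv → Bool
  | _, [] => true
  | u, a :: l => (Nat.blt a.2 n || Nat.blt n a.1 || Nat.ble (B u) n) && dpFinal n B (u + 1) l

/-- The test. -/
def dpOK (n : ℕ) (B : ℕ → ℕ) (fl : Bool) : Bool := dpFinal n B 0 (dpTable n B fl n)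

/-- Flat diagrams: no column of height one, no row of length one. -/
def FlatD (c : YoungDiagram) : Prop := (∀ j, c.colLen j ≠ 1) ∧ (∀ i, c.rowLen i ≠ 1)

/-- A position on the boundary of `c`. -/
def BPos (c : YoungDiagram) (u v : ℕ) : Prop :=
  c.colLen u ≤ v ∧ ∀ w, u = w + 1 → v ≤ c.colLen w

section Sound

variable {c : YoungDiagram} {n : ℕ} {B : ℕ → ℕ} {fl : Bool}

lemma mem_win (hn : c.card = n) (hB : ∀ t, massLE c t < B t) (hB' : ∀ t, massLE c.transpose t < B t)
    {u v : ℕ} (h : c.colLen u ≤ v) : Iv.Mem (Lsum c u) (dpWin n B u v) := by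
  have h1 := card_sub_Lsum_le c h
  have h2 := Lsum_le_rect c h
  have h3 := Lsum_le_card c u
  have h4 := hB v
  have h5 := hB' u
  simp only [Iv.Mem, dpWin, nmin_eq]
  omega

lemma BPos.of_succ (c : YoungDiagram) {u v : ℕ} (h : BPos c (u + 1) v) (hv : v = c.colLen u) :
    BPos c u v := by
  refine ⟨hv.ge, ?_⟩
  rintro w rfl
  rw [hv]
  exact c.colLen_anti _ _ (by omega)

/-- The inductive step inside a row. -/
lemma rowGo_spec (hn : c.card = n) (hB : ∀ t, massLE c t < B t)
    (hB' : ∀ t, massLE c.transpose t < B t) (hfl : fl = true → FlatD c) (v : ℕ) :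
    ∀ (f u : ℕ) (left : Iv) (prev : List Iv), 1 ≤ u →
      (∀ k, BPos c (u + k) (v + 1) → Iv.Mem (Lsum c (u + k)) (prev.getD k ivDead)) →
      (BPos c (u - 1) v → Iv.Mem (Lsum c (u - 1)) left) →
      ∀ k, k < f → BPos c (u + k) v →
        Iv.Mem (Lsum c (u + k)) ((rowGo n B fl v f u left prev).getD k ivDead) := by
  intro f
  induction f with
  | zero => intro _ _ _ _ _ _ k hk; omega
  | succ f ih =>
    intro u left prev hu hprev hleft
    -- the first entry
    have hx : BPos c u v → Iv.Mem (Lsum c u) (ivMeet (ivJoin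
        (bif fl && Nat.beq u 1 then ivDead else prev.headD ivDead)
        (bif fl && Nat.beq v 1 then ivDead else ivShift left v)) (dpWin n B u v)) := by
      intro hpos
      apply mem_meet _ (mem_win hn hB hB' hpos.1)
      obtain ⟨w, rfl⟩ : ∃ w, u = w + 1 := ⟨u - 1, by omega⟩
      have hpos2 := hpos.2 w rfl
      rcases Nat.lt_or_ge v (c.colLen w) with hlt | hge
      · -- a step down
        apply mem_join_left
        have hp : BPos c (w + 1) (v + 1) := ⟨by have := hpos.1; omega, by
          rintro w' hw'
          obtain rfl : w = w' := by omega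
          omega⟩
        have hfl1 : (fl && Nat.beq (w + 1) 1) = false := by
          cases hf : fl
          · rfl
          · have hw : w ≠ 0 := by
              rintro rfl
              have hflat := (hfl hf).2 v
              apply hflat
              have h1 : (v, 0) ∈ c := YoungDiagram.mem_iff_lt_colLen.2 hlt
              have h2 : (v, 1) ∉ c := by
                rw [YoungDiagram.mem_iff_lt_colLen]
                have := hpos.1
                simp only [zero_add] at this
                omega
              have h3 : 0 < c.rowLen v := YoungDiagram.mem_iff_lt_rowLen.1 h1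
              have h4 : ¬ 1 < c.rowLen v := fun h => h2 (YoungDiagram.mem_iff_lt_rowLen.2 h)
              omega
            simp only [Bool.true_and]
            rw [← Bool.not_eq_true]
            intro h
            have := Nat.eq_of_beq_eq_true h
            omega
        rw [hfl1, cond_false]
        have := hprev 0 hp
        cases prev with
        | nil => exact absurd this (by simpa using not_mem_dead _)
        | cons a l => simpa using this
      · -- a step right
        have hve : v = c.colLen w := by omega
        apply mem_join_right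
        have hfl1 : (fl && Nat.beq v 1) = false := by
          cases hf : fl
          · rfl
          · have hv1 : v ≠ 1 := by
              rw [hve]
              exact (hfl hf).1 w
            simp only [Bool.true_and]
            rw [← Bool.not_eq_true]
            intro h
            exact hv1 (Nat.eq_of_beq_eq_true h)
        rw [hfl1, cond_false, Lsum_succ, ← hve]
        apply mem_shift
        exact hleft (BPos.of_succ c hpos hve)
    intro k hk hpos
    cases k with
    | zero =>
      simpa [rowGo] using hx hpos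
    | succ k =>
      have e : u + (k + 1) = (u + 1) + k := by omega
      simp only [rowGo, List.getD_cons_succ]
      rw [e] at hpos ⊢
      apply ih (u + 1) _ prev.tail (by omega) _ _ k (by omega) hpos
      · intro k' hk'
        have e2 : u + 1 + k' = u + (k' + 1) := by omega
        rw [e2] at hk' ⊢
        have := hprev (k' + 1) hk'
        cases prev with
        | nil => exact absurd this (by simpa using not_mem_dead _)
        | cons a l => simpa using this
      · intro hp
        simp only [Nat.add_sub_cancel] at hp ⊢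
        exact hx hp

lemma lsum_ge_mul {c : YoungDiagram} {u v : ℕ} (h : ∀ w, u = w + 1 → v ≤ c.colLen w) :
    u * v ≤ Lsum c u := by
  unfold Lsum
  cases u with
  | zero => simp
  | succ w =>
    have h2 := h w rfl
    calc (w + 1) * v = ∑ _j ∈ Finset.range (w + 1), v := by simp
      _ ≤ _ := Finset.sum_le_sum fun j hj => h2.trans (c.colLen_anti _ _ (by
          have := Finset.mem_range.1 hj
          omega))

/-- The rows of the table are correct. -/
lemma dpTable_spec (hn : c.card = n) (hB : ∀ t, massLE c t < B t)
    (hB' : ∀ t, massLE c.transpose t < B t) (hfl : fl = true → FlatD c) (k : ℕ) (hk : k ≤ n) :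
    ∀ u, 1 ≤ u → BPos c u (n + 1 - k) → Iv.Mem (Lsum c u) ((dpTable n B fl k).getD u ivDead) := by
  induction k with
  | zero =>
    intro u hu hp
    exfalso
    obtain ⟨w, rfl⟩ : ∃ w, u = w + 1 := ⟨u - 1, by omega⟩
    have h1 := hp.2 w rfl
    have h2 := lsum_ge_mul (c := c) (u := w + 1) (v := n + 1) hp.2
    have h3 := Lsum_le_card c (w + 1)
    nlinarith
  | succ k ih =>
    intro u hu hp
    have hv : n + 1 - (k + 1) = n - k := by omega
    rw [hv] at hp
    have hv1 : 1 ≤ n - k := by omega
    obtain ⟨w, rfl⟩ : ∃ w, u = w + 1 := ⟨u - 1, by omega⟩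
    simp only [dpTable, rowStep, List.getD_cons_succ]
    have hwlt : w < n / (n - k) := by
      have h2 := lsum_ge_mul (c := c) (u := w + 1) (v := n - k) hp.2
      have h3 := Lsum_le_card c (w + 1)
      have h4 : w + 1 ≤ n / (n - k) := by
        rw [Nat.le_div_iff_mul_le (by omega)]
        omega
      omega
    have := rowGo_spec hn hB hB' hfl (n - k) (n / (n - k)) 1
      (ivMeet (0, 0) (dpWin n B 0 (n - k))) (dpTable n B fl k).tail le_rfl ?_ ?_ w hwlt
      (by rw [show 1 + w = w + 1 by omega]; exact hp)
    · rwa [show 1 + w = w + 1 by omega] at this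
    · intro k' hk'
      have e : 1 + k' = k' + 1 := by omega
      rw [e] at hk' ⊢
      have e3 : n - k + 1 = n + 1 - k := by omega
      rw [e3] at hk'
      have := ih (by omega) (k' + 1) (by omega) hk'
      cases hl : dpTable n B fl k with
      | nil =>
        rw [hl] at this
        exact absurd this (by simpa using not_mem_dead _)
      | cons a l =>
        rw [hl] at this
        simpa using this
    · intro hp0
      simp only [Nat.sub_self, Lsum_zero] at hp0 ⊢
      apply mem_meet ⟨le_rfl, le_rfl⟩
      have := mem_win hn hB hB' hp0.1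
      simpa [Lsum_zero] using this

lemma dpFinal_spec : ∀ (l : List Iv) (u : ℕ), dpFinal n B u l = true → ∀ k,
    Iv.Mem n (l.getD k ivDead) → B (u + k) ≤ n := by
  intro l
  induction l with
  | nil =>
    intro u _ k hk
    exact absurd hk (by simpa using not_mem_dead _)
  | cons a l ih =>
    intro u h k hk
    simp only [dpFinal, Bool.and_eq_true, Bool.or_eq_true] at h
    cases k with
    | zero =>
      simp only [List.getD_cons_zero] at hk
      rcases h.1 with (h1 | h1) | h1
      · have : a.2 < n := by simpa [Nat.blt_eq] using h1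
        exact absurd hk.2 (by omega)
      · have : n < a.1 := by simpa [Nat.blt_eq] using h1
        exact absurd hk.1 (by omega)
      · simpa using Nat.le_of_ble_eq_true h1
    | succ k =>
      simp only [List.getD_cons_succ] at hk
      have := ih (u + 1) h.2 k hk
      rwa [show u + 1 + k = u + (k + 1) by omega] at this

/-- **Soundness of the boundary program.** -/
theorem exists_heavy_of_dpOK {c : YoungDiagram} {n : ℕ} {B : ℕ → ℕ} {fl : Bool} (hn : c.card = n)
    (hn1 : 1 ≤ n) (hfl : fl = true → FlatD c) (h : dpOK n B fl = true) :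
    ∃ t, B t ≤ massLE c t ∨ B t ≤ massLE c.transpose t := by
  by_contra hcon
  push Not at hcon
  have hB : ∀ t, massLE c t < B t := fun t => (hcon t).1
  have hB' : ∀ t, massLE c.transpose t < B t := fun t => (hcon t).2
  have hW : 1 ≤ c.rowLen 0 := by
    by_contra hw
    have h0 : c.rowLen 0 = 0 := by omega
    have := Lsum_rowLen c
    rw [h0, Lsum_zero] at this
    omega
  have hpos : BPos c (c.rowLen 0) (n + 1 - n) := by
    have e : n + 1 - n = 1 := by omega
    rw [e]
    refine ⟨?_, ?_⟩
    · have : (0, c.rowLen 0) ∉ c := by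
        rw [YoungDiagram.mem_iff_lt_rowLen]; omega
      have h2 : ¬ 0 < c.colLen (c.rowLen 0) := fun h3 => this (YoungDiagram.mem_iff_lt_colLen.2 h3)
      omega
    · intro w hw
      have : (0, w) ∈ c := YoungDiagram.mem_iff_lt_rowLen.2 (by omega)
      have := YoungDiagram.mem_iff_lt_colLen.1 this
      omega
  have h1 := dpTable_spec hn hB hB' hfl n le_rfl (c.rowLen 0) hW hpos
  rw [Lsum_rowLen, hn] at h1
  have h2 := dpFinal_spec (n := n) (B := B) _ 0 h _ h1
  rw [zero_add] at h2
  have h3 := Lsum_le_rect c (u := c.rowLen 0) (v := 0) (by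
    have : (0, c.rowLen 0) ∉ c := by
      rw [YoungDiagram.mem_iff_lt_rowLen]; omega
    have h2 : ¬ 0 < c.colLen (c.rowLen 0) := fun h3 => this (YoungDiagram.mem_iff_lt_colLen.2 h3)
    omega)
  rw [Lsum_rowLen, hn] at h3
  have h4 := hB' (c.rowLen 0)
  omega

end Sound

end Crest.Agent.Lib.Saxl
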