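import Crest.Agent.Lib.Saxl.Classify

/-!
# Saxl foundation: the trilinear invariant `Tr` and the polynomial `P3`
-/

set_option autoImplicit false
set_option linter.unusedSectionVars false

namespace Crest.Agent.Lib.Saxl

open Equiv Finset

variable {L : Type} [Fintype L] [DecidableEq L]

/-- Triples of words. -/
abbrev Tri (L : Type) := Word L × Word L × Word L
/-- Variables of the polynomial ring. -/
abbrev Vr := ℕ × ℕ × ℕ
/-- The polynomial ring. -/
abbrev PolyR := MvPolynomial Vr ℂ

/-- Exponent vector of a triple of words. -/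
noncomputable def Exp (w : Tri L) : Vr →₀ ℕ :=
  ∑ l : L, Finsupp.single (w.1 l, w.2.1 l, w.2.2 l) 1

/-- The monomial of a triple of words. -/
noncomputable def mono (w1 w2 w3 : Word L) : PolyR :=
  MvPolynomial.monomial (Exp (w1, w2, w3)) 1

/-- The trilinear form with values in the polynomial ring. -/
noncomputable def P3 : Mod L →ₗ[ℂ] Mod L →ₗ[ℂ] Mod L →ₗ[ℂ] PolyR :=
  Finsupp.linearCombination ℂ fun w1 =>
    Finsupp.linearCombination ℂ fun w2 =>
      Finsupp.linearCombination ℂ fun w3 => mono w1 w2 w3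

lemma P3_single (w1 w2 w3 : Word L) (a b c : ℂ) :
    P3 (Finsupp.single w1 a) (Finsupp.single w2 b) (Finsupp.single w3 c) =
      (a * b * c) • mono w1 w2 w3 := by
  simp [P3, Finsupp.linearCombination_single, smul_smul]

lemma Exp_act (g : Perm L) (w1 w2 w3 : Word L) :
    Exp (act g w1, act g w2, act g w3) = Exp (w1, w2, w3) := by
  unfold Exp act
  simp only
  exact Equiv.sum_comp g.symm (fun l => Finsupp.single (w1 l, w2 l, w3 l) 1)

lemma mono_act (g : Perm L) (w1 w2 w3 : Word L) :
    mono (act g w1) (act g w2) (act g w3) = mono w1 w2 w3 := by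
  simp [mono, Exp_act]

lemma P3_rep (g : Perm L) (x y z : Mod L) :
    P3 (rep L g x) (rep L g y) (rep L g z) = P3 x y z := by
  induction x using Finsupp.induction_linear with
  | zero => simp
  | add a b ha hb => simp only [map_add, LinearMap.add_apply, ha, hb]
  | single w1 a =>
    induction y using Finsupp.induction_linear with
    | zero => simp
    | add a b ha hb => simp only [map_add, LinearMap.add_apply, ha, hb]
    | single w2 b =>
      induction z using Finsupp.induction_linear with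
      | zero => simp
      | add a b ha hb => simp only [map_add, ha, hb]
      | single w3 c =>
        simp only [rep_single, P3_single, mono_act]

/-- `P3` as an explicit sum over a set of words containing the supports. -/
lemma P3_eq_sum (S : Finset (Word L)) (x y z : Mod L) (hx : x.support ⊆ S) (hy : y.support ⊆ S)
    (hz : z.support ⊆ S) :
    P3 x y z = ∑ w1 ∈ S, ∑ w2 ∈ S, ∑ w3 ∈ S, (x w1 * y w2 * z w3) • mono w1 w2 w3 := by
  have key : ∀ v : Mod L, v.support ⊆ S → v = ∑ w ∈ S, Finsupp.single w (v w) := by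
    intro v hv
    ext w
    rw [Finsupp.finsetSum_apply]
    by_cases hw : w ∈ S
    · rw [Finset.sum_eq_single w]
      · simp
      · intro b _ hb
        simp [Finsupp.single_apply, hb]
      · intro h; exact absurd hw h
    · have h0 : v w = 0 := by
        by_contra h
        exact hw (hv (Finsupp.mem_support_iff.2 h))
      rw [h0, Finset.sum_eq_zero]
      intro b hb
      have : b ≠ w := fun e => hw (e ▸ hb)
      simp [Finsupp.single_apply, this]
  conv_lhs => rw [key x hx, key y hy, key z hz]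
  simp only [map_sum, LinearMap.sum_apply, P3_single]
  rw [Finset.sum_congr rfl fun c _ => Finset.sum_comm, Finset.sum_comm]
  exact Finset.sum_congr rfl fun a _ => Finset.sum_comm

/-- The sign-twisted symmetrised value. -/
noncomputable def Tr (χ : Perm L → ℂ) (x y z : Mod L) (w : Tri L) : ℂ :=
  ∑ g : Perm L, χ g * (rep L g x w.1 * rep L g y w.2.1 * rep L g z w.2.2)

/-- A finite set of words containing all translates of the supports. -/
noncomputable def supp3 (x y z : Mod L) : Finset (Word L) :=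
  Finset.univ.biUnion fun g : Perm L =>
    (rep L g x).support ∪ (rep L g y).support ∪ (rep L g z).support

lemma mem_supp3_1 (x y z : Mod L) (g : Perm L) {w : Word L} (h : rep L g x w ≠ 0) :
    w ∈ supp3 x y z := by
  simp only [supp3, Finset.mem_biUnion, Finset.mem_union, Finset.mem_univ, true_and]
  exact ⟨g, Or.inl (Or.inl (Finsupp.mem_support_iff.2 h))⟩

lemma mem_supp3_2 (x y z : Mod L) (g : Perm L) {w : Word L} (h : rep L g y w ≠ 0) :
    w ∈ supp3 x y z := by
  simp only [supp3, Finset.mem_biUnion, Finset.mem_union, Finset.mem_univ, true_and]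
  exact ⟨g, Or.inl (Or.inr (Finsupp.mem_support_iff.2 h))⟩

lemma mem_supp3_3 (x y z : Mod L) (g : Perm L) {w : Word L} (h : rep L g z w ≠ 0) :
    w ∈ supp3 x y z := by
  simp only [supp3, Finset.mem_biUnion, Finset.mem_union, Finset.mem_univ, true_and]
  exact ⟨g, Or.inr (Finsupp.mem_support_iff.2 h)⟩

lemma sum_Tr_mono (x y z : Mod L) :
    ∑ w1 ∈ supp3 x y z, ∑ w2 ∈ supp3 x y z, ∑ w3 ∈ supp3 x y z,
        Tr (fun _ => 1) x y z (w1, w2, w3) • mono w1 w2 w3 =
      ((Fintype.card (Perm L) : ℕ) : ℂ) • P3 x y z := by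
  have h1 : ∀ g : Perm L, P3 x y z = ∑ w1 ∈ supp3 x y z, ∑ w2 ∈ supp3 x y z, ∑ w3 ∈ supp3 x y z,
      (rep L g x w1 * rep L g y w2 * rep L g z w3) • mono w1 w2 w3 := by
    intro g
    rw [← P3_rep g x y z]
    apply P3_eq_sum
    · intro w hw; exact mem_supp3_1 x y z g (Finsupp.mem_support_iff.1 hw)
    · intro w hw; exact mem_supp3_2 x y z g (Finsupp.mem_support_iff.1 hw)
    · intro w hw; exact mem_supp3_3 x y z g (Finsupp.mem_support_iff.1 hw)
  have h2 : ((Fintype.card (Perm L) : ℕ) : ℂ) • P3 x y z = ∑ g : Perm L, P3 x y z := by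
    simp [Finset.card_univ, Nat.cast_smul_eq_nsmul]
  have h3 : ∑ g : Perm L, P3 x y z = ∑ g : Perm L, ∑ w1 ∈ supp3 x y z, ∑ w2 ∈ supp3 x y z,
      ∑ w3 ∈ supp3 x y z, (rep L g x w1 * rep L g y w2 * rep L g z w3) • mono w1 w2 w3 :=
    Finset.sum_congr rfl fun g _ => h1 g
  rw [h2, h3]
  simp only [Tr, Finset.sum_smul, one_mul]
  symm
  rw [Finset.sum_comm]
  refine Finset.sum_congr rfl fun w1 _ => ?_
  rw [Finset.sum_comm]
  refine Finset.sum_congr rfl fun w2 _ => ?_
  rw [Finset.sum_comm]

/-- If the polynomial is nonzero, some symmetrised value is nonzero. -/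
lemma exists_Tr_ne_of_P3_ne {x y z : Mod L} (h : P3 x y z ≠ 0) :
    ∃ w : Tri L, Tr (fun _ => 1) x y z w ≠ 0 := by
  by_contra hno
  push Not at hno
  have h1 := sum_Tr_mono x y z
  simp only [hno, zero_smul, Finset.sum_const_zero] at h1
  have h2 : ((Fintype.card (Perm L) : ℕ) : ℂ) ≠ 0 := by
    exact_mod_cast Fintype.card_ne_zero
  rcases smul_eq_zero.1 h1.symm with h3 | h3
  · exact h2 h3
  · exact h h3

lemma rep_act_apply (g h : Perm L) (x : Mod L) (w : Word L) :
    rep L (h * g) x (act h w) = rep L g x w := by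
  rw [rep_apply, rep_apply, mul_inv_rev, act_mul]
  simp

/-- Invariance of the symmetrised value. -/
lemma Tr_act (χ : Perm L → ℂ) (hχ : ∀ a b, χ (a * b) = χ a * χ b) (hχ1 : χ 1 = 1)
    (h : Perm L) (x y z : Mod L) (w1 w2 w3 : Word L) :
    Tr χ x y z (act h w1, act h w2, act h w3) = χ h * Tr χ x y z (w1, w2, w3) := by
  unfold Tr
  rw [Finset.mul_sum]
  refine Fintype.sum_equiv (Equiv.mulLeft h⁻¹) _ _ ?_
  intro g
  simp only [Equiv.coe_mulLeft]
  have e1 : ∀ (v : Mod L) (w : Word L), rep L g v (act h w) = rep L (h⁻¹ * g) v w := by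
    intro v w
    have := rep_act_apply (h⁻¹ * g) h v w
    rw [← this, mul_inv_cancel_left]
  rw [e1, e1, e1]
  have e2 : χ g = χ h * χ (h⁻¹ * g) := by
    rw [← hχ, mul_inv_cancel_left]
  rw [e2]
  ring

/-- Two triples with equal exponent vector differ by a permutation. -/
lemma exists_perm_of_Exp_eq {w w' : Tri L} (h : Exp w = Exp w') :
    ∃ g : Perm L, w'.1 = act g w.1 ∧ w'.2.1 = act g w.2.1 ∧ w'.2.2 = act g w.2.2 := by
  classical
  let f : L → Vr := fun l => (w.1 l, w.2.1 l, w.2.2 l)
  let f' : L → Vr := fun l => (w'.1 l, w'.2.1 l, w'.2.2 l)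
  have hcount : ∀ (F : L → Vr) (k : Vr),
      (∑ l : L, (Finsupp.single (F l) 1 : Vr →₀ ℕ)) k = (Finset.univ.filter fun l => F l = k).card := by
    intro F k
    rw [Finsupp.finsetSum_apply, Finset.card_filter]
    refine Finset.sum_congr rfl fun l _ => ?_
    by_cases hk : F l = k <;> simp [Finsupp.single_apply, hk]
  have hc : ∀ k : Vr, Fintype.card {l // f l = k} = Fintype.card {l // f' l = k} := by
    intro k
    rw [Fintype.card_subtype, Fintype.card_subtype, ← hcount f k, ← hcount f' k]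
    exact DFunLike.congr_fun h k
  let e : ∀ k : Vr, {l // f l = k} ≃ {l // f' l = k} := fun k => Fintype.equivOfCardEq (hc k)
  let g : Perm L := Equiv.ofFiberEquiv e
  have hg : ∀ l, f' (g l) = f l := fun l => Equiv.ofFiberEquiv_map e l
  refine ⟨g, ?_, ?_, ?_⟩
  · funext l
    have := hg (g.symm l)
    simp only [Equiv.apply_symm_apply, f, f', Prod.mk.injEq] at this
    exact this.1
  · funext l
    have := hg (g.symm l)
    simp only [Equiv.apply_symm_apply, f, f', Prod.mk.injEq] at this
    exact this.2.1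
  · funext l
    have := hg (g.symm l)
    simp only [Equiv.apply_symm_apply, f, f', Prod.mk.injEq] at this
    exact this.2.2

/-- If some symmetrised value is nonzero, the polynomial is nonzero. -/
lemma P3_ne_of_Tr_ne {x y z : Mod L} {w : Tri L} (h : Tr (fun _ => 1) x y z w ≠ 0) :
    P3 x y z ≠ 0 := by
  classical
  intro h0
  obtain ⟨w1, w2, w3⟩ := w
  have hmem : w1 ∈ supp3 x y z ∧ w2 ∈ supp3 x y z ∧ w3 ∈ supp3 x y z := by
    obtain ⟨g, -, hg⟩ := Finset.exists_ne_zero_of_sum_ne_zero h
    have hg' : rep L g x w1 * rep L g y w2 * rep L g z w3 ≠ 0 := by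
      simpa using hg
    refine ⟨mem_supp3_1 x y z g ?_, mem_supp3_2 x y z g ?_, mem_supp3_3 x y z g ?_⟩
    · intro e; simp [e] at hg'
    · intro e; simp [e] at hg'
    · intro e; simp [e] at hg'
  have h1 := sum_Tr_mono x y z
  rw [h0, smul_zero] at h1
  have h2 := congrArg (MvPolynomial.coeff (Exp (w1, w2, w3))) h1
  simp only [MvPolynomial.coeff_sum, MvPolynomial.coeff_smul, mono, MvPolynomial.coeff_monomial,
    MvPolynomial.coeff_zero, smul_eq_mul, mul_ite, mul_one, mul_zero] at h2
  -- every nonzero term equals the value at `w`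
  have h3 : ∀ a b c : Word L,
      (if Exp (a, b, c) = Exp (w1, w2, w3) then Tr (fun _ => 1) x y z (a, b, c) else 0) =
      (if Exp (a, b, c) = Exp (w1, w2, w3) then Tr (fun _ => 1) x y z (w1, w2, w3) else 0) := by
    intro a b c
    by_cases he : Exp (a, b, c) = Exp (w1, w2, w3)
    · rw [if_pos he, if_pos he]
      obtain ⟨g, h1, h2, h3⟩ := exists_perm_of_Exp_eq he.symm
      simp only at h1 h2 h3
      rw [h1, h2, h3, Tr_act _ (by simp) rfl]
      simp
    · rw [if_neg he, if_neg he]
  simp only [h3] at h2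
  set v := Tr (fun _ => 1) x y z (w1, w2, w3) with hv
  have h4 : ∑ a ∈ supp3 x y z, ∑ b ∈ supp3 x y z, ∑ c ∈ supp3 x y z,
      (if Exp (a, b, c) = Exp (w1, w2, w3) then v else 0) =
      (((supp3 x y z ×ˢ supp3 x y z ×ˢ supp3 x y z).filter fun p =>
        Exp (p.1, p.2.1, p.2.2) = Exp (w1, w2, w3)).card : ℂ) * v := by
    rw [Finset.card_filter, Nat.cast_sum, Finset.sum_mul, Finset.sum_product]
    refine Finset.sum_congr rfl fun a _ => ?_
    rw [Finset.sum_product]
    refine Finset.sum_congr rfl fun b _ => ?_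
    refine Finset.sum_congr rfl fun c _ => ?_
    by_cases he : Exp (a, b, c) = Exp (w1, w2, w3)
    · simp [he]
    · simp [he]
  rw [h4] at h2
  rcases mul_eq_zero.1 h2 with h5 | h5
  · have h6 : ((supp3 x y z ×ˢ supp3 x y z ×ˢ supp3 x y z).filter fun p =>
        Exp (p.1, p.2.1, p.2.2) = Exp (w1, w2, w3)).card = 0 := by exact_mod_cast h5
    rw [Finset.card_eq_zero] at h6
    have h7 : (w1, w2, w3) ∈ ((supp3 x y z ×ˢ supp3 x y z ×ˢ supp3 x y z).filter fun p =>
        Exp (p.1, p.2.1, p.2.2) = Exp (w1, w2, w3)) := by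
      simp [hmem.1, hmem.2.1, hmem.2.2]
    rw [h6] at h7
    simp at h7
  · exact h h5

/-- The polynomial criterion. -/
theorem P3_ne_iff {x y z : Mod L} :
    P3 x y z ≠ 0 ↔ ∃ w : Tri L, Tr (fun _ => 1) x y z w ≠ 0 :=
  ⟨exists_Tr_ne_of_P3_ne, fun ⟨_, h⟩ => P3_ne_of_Tr_ne h⟩

/-! ### Linearity of `Tr` -/

lemma Tr_add_left (χ : Perm L → ℂ) (x x' y z : Mod L) (w : Tri L) :
    Tr χ (x + x') y z w = Tr χ x y z w + Tr χ x' y z w := by
  simp only [Tr, map_add, Finsupp.add_apply, add_mul, mul_add, Finset.sum_add_distrib]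

lemma Tr_smul_left (χ : Perm L → ℂ) (c : ℂ) (x y z : Mod L) (w : Tri L) :
    Tr χ (c • x) y z w = c * Tr χ x y z w := by
  simp only [Tr, map_smul, Finsupp.smul_apply, smul_eq_mul, Finset.mul_sum]
  refine Finset.sum_congr rfl fun g _ => ?_
  ring

@[simp] lemma Tr_zero_left (χ : Perm L → ℂ) (y z : Mod L) (w : Tri L) :
    Tr χ 0 y z w = 0 := by
  simp [Tr]

lemma Tr_swap12 (χ : Perm L → ℂ) (x y z : Mod L) (w1 w2 w3 : Word L) :
    Tr χ x y z (w1, w2, w3) = Tr χ y x z (w2, w1, w3) := by
  unfold Tr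
  refine Finset.sum_congr rfl fun g _ => ?_
  simp only
  ring

lemma Tr_swap23 (χ : Perm L → ℂ) (x y z : Mod L) (w1 w2 w3 : Word L) :
    Tr χ x y z (w1, w2, w3) = Tr χ x z y (w1, w3, w2) := by
  unfold Tr
  refine Finset.sum_congr rfl fun g _ => ?_
  simp only
  ring

/-- Expanding an element of the span in the first slot. -/
lemma exists_poly_of_Tr_ne {D : Finset (ℕ × ℕ)} {χ : Perm L → ℂ} {x y z : Mod L} {w : Tri L}
    (hx : x ∈ Sp D L) (h : Tr χ x y z w ≠ 0) : ∃ t : D ≃ L, Tr χ (poly t) y z w ≠ 0 := by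
  by_contra hno
  push Not at hno
  apply h
  clear h
  induction hx using Submodule.span_induction with
  | mem x hx => obtain ⟨t, rfl⟩ := hx; exact hno t
  | zero => simp
  | add a b _ _ ha hb => rw [Tr_add_left, ha, hb]; simp
  | smul c a _ ha => rw [Tr_smul_left, ha]; simp

end Crest.Agent.Lib.Saxl
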