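import Crest.Agent.Lib.Saxl.James

/-!
# Saxl foundation: Specht modules exhaust the irreducibles of the symmetric group
-/

set_option autoImplicit false
set_option linter.unusedSectionVars false

namespace Crest.Agent.Lib.Saxl

open Equiv Finset Representation

variable {L : Type} [Fintype L] [DecidableEq L]

/-- The Specht span as a subrepresentation of `rep L`. -/
noncomputable def spSub (D : Finset (ℕ × ℕ)) (L : Type) [Fintype L] [DecidableEq L] :
    Subrepresentation (rep L) := ⟨Sp D L, fun g _ hv => rep_mem_Sp g hv⟩

/-- The Specht representation (general letters). -/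
noncomputable def repSp (D : Finset (ℕ × ℕ)) (L : Type) [Fintype L] [DecidableEq L] :
    Representation ℂ (Perm L) (Sp D L) := (spSub D L).toRepresentation

@[simp] lemma repSp_coe (D : Finset (ℕ × ℕ)) (g : Perm L) (x : Sp D L) :
    ((repSp D L g x : Sp D L) : Mod L) = rep L g x := rfl

instance (D : Finset (ℕ × ℕ)) : FiniteDimensional ℂ (Sp D L) := by
  unfold Sp
  exact FiniteDimensional.span_of_finite ℂ (Set.finite_range _)

variable {μ : YoungDiagram}

lemma exists_tableau (hcard : Fintype.card L = μ.card) : Nonempty (μ.cells ≃ L) := by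
  have : Fintype.card μ.cells = Fintype.card L := by
    rw [hcard]; simp
  exact ⟨Fintype.equivOfCardEq this⟩

/-- Specht representations are irreducible. -/
theorem isIrreducible_repSp (hcard : Fintype.card L = μ.card) :
    Representation.IsIrreducible (k := ℂ) (G := Perm L) (V := Sp μ.cells L) (repSp μ.cells L) := by
  obtain ⟨t⟩ := exists_tableau (L := L) hcard
  refine { exists_pair_ne := ?_, eq_bot_or_eq_top := ?_ }
  · refine ⟨⊥, ⊤, ?_⟩
    intro h
    have h1 : (⟨poly t, poly_mem_Sp t⟩ : Sp μ.cells L) ∈ (⊤ : Subrepresentation (repSp μ.cells L)) :=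
      Submodule.mem_top
    rw [← h] at h1
    have h2 : (⟨poly t, poly_mem_Sp t⟩ : Sp μ.cells L) = 0 := by
      exact (Submodule.mem_bot ℂ).1 h1
    exact poly_ne_zero t (congrArg Subtype.val h2)
  · intro ρ'
    let U : Submodule ℂ (Mod L) := ρ'.toSubmodule.map (Sp μ.cells L).subtype
    have hU : U ≤ Sp μ.cells L := by
      rintro _ ⟨y, _, rfl⟩
      exact y.2
    have hinv : ∀ g : Perm L, ∀ x ∈ U, rep L g x ∈ U := by
      rintro g _ ⟨y, hy, rfl⟩
      exact ⟨repSp μ.cells L g y, ρ'.apply_mem_toSubmodule g hy, rfl⟩
    rcases invariant_eq U hU hinv with h | h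
    · left
      apply Subrepresentation.toSubmodule_injective
      show ρ'.toSubmodule = ⊥
      rw [eq_bot_iff]
      intro y hy
      have : (y : Mod L) ∈ U := ⟨y, hy, rfl⟩
      rw [h] at this
      have h2 := (Submodule.mem_bot ℂ).1 this
      exact (Submodule.mem_bot ℂ).2 (Subtype.ext h2)
    · right
      apply Subrepresentation.toSubmodule_injective
      show ρ'.toSubmodule = ⊤
      rw [eq_top_iff]
      intro y _
      have : (y : Mod L) ∈ U := by rw [h]; exact y.2
      obtain ⟨z, hz, hzy⟩ := this
      have : z = y := Subtype.ext hzy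
      exact this ▸ hz

/-- Linear operator `kap` restricted. An intertwiner commutes with `kap`. -/
lemma kap_intertwine {D D' : Finset (ℕ × ℕ)} {E : Finset (ℕ × ℕ)} (t : E ≃ L)
    (f : Sp D L →ₗ[ℂ] Sp D' L)
    (hf : ∀ (g : Perm L) (x : Sp D L), f (repSp D L g x) = repSp D' L g (f x))
    (x : Mod L) (hx : x ∈ Sp D L) :
    kap t ((f ⟨x, hx⟩ : Sp D' L) : Mod L) = (f ⟨kap t x, by
      rw [kap_apply]
      exact Submodule.sum_mem _ fun σ _ => Submodule.smul_mem _ _ (rep_mem_Sp σ hx)⟩ : Sp D' L) := by
  have h1 : (⟨kap t x, by
      rw [kap_apply]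
      exact Submodule.sum_mem _ fun σ _ => Submodule.smul_mem _ _ (rep_mem_Sp σ hx)⟩ : Sp D L) =
      ∑ σ ∈ colGroup t, sg σ • repSp D L σ ⟨x, hx⟩ := by
    apply Subtype.ext
    simp [kap_apply, Submodule.coe_sum]
  rw [h1, map_sum, Submodule.coe_sum, kap_apply]
  refine Finset.sum_congr rfl fun σ _ => ?_
  rw [map_smul, hf]
  simp

/-- Dominance from an injective intertwiner. -/
lemma dominance_of_intertwiner {ν : YoungDiagram} (t : μ.cells ≃ L)
    (f : Sp μ.cells L →ₗ[ℂ] Sp ν.cells L)
    (hf : ∀ (g : Perm L) (x : Sp μ.cells L),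
      f (repSp μ.cells L g x) = repSp ν.cells L g (f x))
    (hne : f ⟨poly t, poly_mem_Sp t⟩ ≠ 0) (k : ℕ) :
    (ν.cells.filter fun c => c.1 < k).card ≤ (μ.cells.filter fun c => c.1 < k).card := by
  apply dominance_of_kap t (u := (f ⟨poly t, poly_mem_Sp t⟩ : Sp ν.cells L))
    (Subtype.property _)
  rw [kap_intertwine t f hf (poly t) (poly_mem_Sp t)]
  have h1 : (⟨kap t (poly t), by
      rw [kap_apply]
      exact Submodule.sum_mem _ fun σ _ => Submodule.smul_mem _ _ (rep_mem_Sp σ (poly_mem_Sp t))⟩ :
        Sp μ.cells L) = ((colGroup t).card : ℂ) • ⟨poly t, poly_mem_Sp t⟩ := by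
    apply Subtype.ext
    simp only [Submodule.coe_smul]
    rw [poly_eq_kap, kap_kap]
  rw [h1, map_smul]
  intro h
  have h2 : ((colGroup t).card : ℂ) • (f ⟨poly t, poly_mem_Sp t⟩ : Sp ν.cells L) = 0 :=
    Subtype.ext (by simpa using h)
  rcases smul_eq_zero.1 h2 with h3 | h3
  · exact colGroup_card_ne_zero t h3
  · exact hne h3

lemma youngDiagram_eq_of_card {ν : YoungDiagram}
    (h : ∀ k, (ν.cells.filter fun c => c.1 < k).card = (μ.cells.filter fun c => c.1 < k).card) :
    ν = μ := by
  have hr : ∀ i, ν.rowLen i = μ.rowLen i := by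
    intro i
    have h1 := h (i + 1)
    rw [cells_card_lt_eq_sum, cells_card_lt_eq_sum, Finset.sum_range_succ, Finset.sum_range_succ] at h1
    have h2 := h i
    rw [cells_card_lt_eq_sum, cells_card_lt_eq_sum] at h2
    omega
  apply SetLike.ext
  rintro ⟨i, j⟩
  rw [YoungDiagram.mem_iff_lt_rowLen, YoungDiagram.mem_iff_lt_rowLen, hr]

/-- Non-isomorphism of Specht representations. -/
theorem eq_of_equiv_repSp {ν : YoungDiagram} (hcard : Fintype.card L = μ.card)
    (hcard' : Fintype.card L = ν.card)
    (e : Representation.Equiv (repSp μ.cells L) (repSp ν.cells L)) : ν = μ := by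
  obtain ⟨t⟩ := exists_tableau (L := L) hcard
  obtain ⟨u⟩ := exists_tableau (L := L) hcard'
  have hI : ∀ (g : Perm L) (x : Sp μ.cells L), e.toLinearEquiv (repSp μ.cells L g x) =
      repSp ν.cells L g (e.toLinearEquiv x) := fun g x =>
    Representation.IntertwiningMap.isIntertwining (repSp μ.cells L) (repSp ν.cells L)
      e.toIntertwiningMap g x
  apply youngDiagram_eq_of_card
  intro k
  apply le_antisymm
  · refine dominance_of_intertwiner t e.toLinearEquiv.toLinearMap ?_ ?_ k
    · intro g x
      exact hI g x
    · intro h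
      have h1 : (⟨poly t, poly_mem_Sp t⟩ : Sp μ.cells L) = 0 := by
        apply e.toLinearEquiv.injective
        rw [map_zero]
        exact h
      exact poly_ne_zero t (congrArg Subtype.val h1)
  · refine dominance_of_intertwiner u e.toLinearEquiv.symm.toLinearMap ?_ ?_ k
    · intro g x
      apply e.toLinearEquiv.injective
      have h3 := hI g (e.toLinearEquiv.symm x)
      rw [LinearEquiv.apply_symm_apply] at h3
      show e.toLinearEquiv (e.toLinearEquiv.symm _) = e.toLinearEquiv (_)
      rw [LinearEquiv.apply_symm_apply]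
      exact h3.symm
    · intro h
      have h1 : (⟨poly u, poly_mem_Sp u⟩ : Sp ν.cells L) = 0 := by
        apply e.toLinearEquiv.symm.injective
        rw [map_zero]
        exact h
      exact poly_ne_zero u (congrArg Subtype.val h1)

/-! ### Partitions to Young diagrams -/

lemma card_cellsOfRowLens (w : List ℕ) : (YoungDiagram.cellsOfRowLens w).card = w.sum := by
  induction w with
  | nil => simp [YoungDiagram.cellsOfRowLens]
  | cons a w ih =>
    rw [YoungDiagram.cellsOfRowLens, Finset.card_union_of_disjoint]
    · simp [ih]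
    · rw [Finset.disjoint_left]
      rintro ⟨i, j⟩ h1 h2
      simp only [Finset.mem_product, Finset.mem_singleton, Finset.mem_map] at h1 h2
      obtain ⟨⟨x, y⟩, _, h3⟩ := h2
      simp at h3
      omega

/-- Young diagram of a partition. -/
noncomputable def ydOf {n : ℕ} (p : Nat.Partition n) : YoungDiagram :=
  YoungDiagram.ofRowLens (p.parts.sort (· ≥ ·)) (List.Pairwise.sortedGE (Multiset.pairwise_sort _ _))

lemma ydOf_card {n : ℕ} (p : Nat.Partition n) : (ydOf p).card = n := by
  show (YoungDiagram.cellsOfRowLens _).card = n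
  rw [card_cellsOfRowLens]
  have : ((p.parts.sort (· ≥ ·) : List ℕ) : Multiset ℕ).sum = n := by
    rw [Multiset.sort_eq]; exact p.parts_sum
  rwa [Multiset.sum_coe] at this

lemma ydOf_injective {n : ℕ} : Function.Injective (ydOf (n := n)) := by
  intro p q h
  have h1 := congrArg YoungDiagram.rowLens h
  unfold ydOf at h1
  rw [YoungDiagram.rowLens_ofRowLens_eq_self, YoungDiagram.rowLens_ofRowLens_eq_self] at h1
  · apply Nat.Partition.ext
    have := congrArg (fun l : List ℕ => (l : Multiset ℕ)) h1
    simpa [Multiset.sort_eq] using this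
  · intro x hx
    exact q.parts_pos (by simpa using hx)
  · intro x hx
    exact p.parts_pos (by simpa using hx)

/-! ### Classification -/

open scoped Classical in
/-- Number of conjugacy classes is at most the number of partitions. -/
lemma card_conjClasses_le :
    Fintype.card (ConjClasses (Perm L)) ≤ Fintype.card (Nat.Partition (Fintype.card L)) := by
  let f : ConjClasses (Perm L) → Nat.Partition (Fintype.card L) :=
    Quotient.lift (fun σ => Perm.partition σ) (fun a b h => Perm.partition_eq_of_isConj.1 h)
  apply Fintype.card_le_of_injective f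
  intro x y
  induction x using Quotient.inductionOn with | _ a => ?_
  induction y using Quotient.inductionOn with | _ b => ?_
  intro h
  exact Quotient.sound (Perm.partition_eq_of_isConj.2 h)

/-- A class function as a function on conjugacy classes. -/
noncomputable def clsF {W : Type} [AddCommGroup W] [Module ℂ W] [FiniteDimensional ℂ W]
    (ρ : Representation ℂ (Perm L) W) : ConjClasses (Perm L) → ℂ :=
  Quotient.lift (fun g => ρ.character g) (fun a b h => by
    obtain ⟨c, hc⟩ := isConj_iff.1 h
    show ρ.character a = ρ.character b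
    rw [← hc, Representation.char_conj])

lemma clsF_mk {W : Type} [AddCommGroup W] [Module ℂ W] [FiniteDimensional ℂ W]
    (ρ : Representation ℂ (Perm L) W) (g : Perm L) :
    clsF ρ (ConjClasses.mk g) = ρ.character g := rfl

/-- **Classification**: every irreducible representation of the symmetric group is a Specht
representation. -/
theorem exists_equiv_repSp {W : Type} [AddCommGroup W] [Module ℂ W] [FiniteDimensional ℂ W]
    (σ : Representation ℂ (Perm L) W) (hσ : Representation.IsIrreducible σ) :
    ∃ μ : YoungDiagram, μ.card = Fintype.card L ∧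
      Nonempty (Representation.Equiv σ (repSp μ.cells L)) := by
  classical
  by_contra hno
  push Not at hno
  set n := Fintype.card L with hn
  have hirr : ∀ p : Nat.Partition n, Representation.IsIrreducible (k := ℂ) (G := Perm L)
      (V := Sp (ydOf p).cells L) (repSp (ydOf p).cells L) :=
    fun p => isIrreducible_repSp (by rw [ydOf_card])
  haveI : Invertible ((Nat.card (Perm L) : ℕ) : ℂ) := by
    apply invertibleOfNonzero
    have : Nat.card (Perm L) ≠ 0 := Nat.card_pos.ne'
    exact_mod_cast this
  -- family
  let F : Option (Nat.Partition n) → (ConjClasses (Perm L) → ℂ) := fun o =>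
    match o with
    | none => clsF σ
    | some p => clsF (W := Sp (ydOf p).cells L) (repSp (ydOf p).cells L)
  have hbil : ∀ (a b : Option (Nat.Partition n)),
      ((Nat.card (Perm L) : ℕ) : ℂ)⁻¹ * ∑ g : Perm L, F a (ConjClasses.mk g) * F b (ConjClasses.mk g⁻¹) =
        if a = b then 1 else 0 := by
    intro a b
    match a, b with
    | none, none =>
      have := Representation.char_orthonormal σ σ
      simp only [F, clsF_mk]
      rw [this]
      simp only [if_true]
      rw [if_pos ⟨Representation.Equiv.refl _⟩]
    | none, some p =>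
      have := hirr p
      have := Representation.char_orthonormal (V := W) (W := Sp (ydOf p).cells L) σ (repSp (ydOf p).cells L)
      simp only [F, clsF_mk]
      have hne : ¬ Nonempty (Representation.Equiv (repSp (ydOf p).cells L) σ) := by
        rintro ⟨e⟩
        exact (hno _ (ydOf_card p)).false e.symm
      rw [this, if_neg hne, if_neg (by simp)]
    | some p, none =>
      have := hirr p
      have := Representation.char_orthonormal (W := W) (V := Sp (ydOf p).cells L) (repSp (ydOf p).cells L) σ
      simp only [F, clsF_mk]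
      have hne : ¬ Nonempty (Representation.Equiv σ (repSp (ydOf p).cells L)) := by
        rintro ⟨e⟩
        exact (hno _ (ydOf_card p)).false e
      rw [this, if_neg hne, if_neg (by simp)]
    | some p, some q =>
      have := hirr p
      have := hirr q
      have := Representation.char_orthonormal (V := Sp (ydOf p).cells L) (W := Sp (ydOf q).cells L) (repSp (ydOf p).cells L) (repSp (ydOf q).cells L)
      simp only [F, clsF_mk]
      rw [this]
      by_cases hpq : p = q
      · subst hpq
        simp only [if_true]
        rw [if_pos ⟨Representation.Equiv.refl _⟩]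
      · have hne : ¬ Nonempty (Representation.Equiv (repSp (ydOf q).cells L) (repSp (ydOf p).cells L)) := by
          rintro ⟨e⟩
          have := eq_of_equiv_repSp (by rw [ydOf_card]) (by rw [ydOf_card]) e
          exact hpq (ydOf_injective this)
        rw [if_neg hne, if_neg (by simpa using hpq)]
  -- linear independence
  have hli : LinearIndependent ℂ F := by
    rw [Fintype.linearIndependent_iff]
    intro c hc j
    have h1 : ∀ x, ∑ i, c i * F i x = 0 := by
      intro x
      have := congrFun hc x
      simpa [Finset.sum_apply] using this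
    have h2 : ((Nat.card (Perm L) : ℕ) : ℂ)⁻¹ * ∑ g : Perm L,
        (∑ i, c i * F i (ConjClasses.mk g)) * F j (ConjClasses.mk g⁻¹) = 0 := by
      simp [h1]
    have h3 : ((Nat.card (Perm L) : ℕ) : ℂ)⁻¹ * ∑ g : Perm L,
        (∑ i, c i * F i (ConjClasses.mk g)) * F j (ConjClasses.mk g⁻¹) =
        ∑ i, c i * (((Nat.card (Perm L) : ℕ) : ℂ)⁻¹ * ∑ g : Perm L,
          F i (ConjClasses.mk g) * F j (ConjClasses.mk g⁻¹)) := by
      simp only [Finset.sum_mul, Finset.mul_sum]
      rw [Finset.sum_comm]
      refine Finset.sum_congr rfl fun i _ => Finset.sum_congr rfl fun g _ => ?_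
      ring
    rw [h3] at h2
    simp only [hbil] at h2
    simpa using h2
  have hcard := hli.fintype_card_le_finrank
  rw [Module.finrank_fintype_fun_eq_card, Fintype.card_option] at hcard
  have hle : Fintype.card (ConjClasses (Perm L)) ≤ Fintype.card (Nat.Partition n) :=
    card_conjClasses_le (L := L)
  omega

end Crest.Agent.Lib.Saxl
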