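import Crest.Agent.Lib.Saxl.Cert

/-!
# Saxl foundation: conjugation
-/

set_option autoImplicit false
set_option linter.unusedSectionVars false

namespace Crest.Agent.Lib.Saxl

open Equiv Finset

variable {L : Type} [Fintype L] [DecidableEq L]
variable {D D' : Finset (ℕ × ℕ)}

/-- The sign-twisted map into the Specht span. -/
noncomputable def Th (t : D ≃ L) : Mod L →ₗ[ℂ] Mod L where
  toFun x := ∑ g : Perm L, (sg g * x (act g (cl t))) • poly (t.trans g)
  map_add' x y := by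
    simp only [Finsupp.add_apply, mul_add, add_smul, Finset.sum_add_distrib]
  map_smul' c x := by
    simp only [Finsupp.smul_apply, smul_eq_mul, RingHom.id_apply, Finset.smul_sum, smul_smul]
    refine Finset.sum_congr rfl fun g _ => ?_
    congr 1
    ring

lemma Th_apply (t : D ≃ L) (x : Mod L) :
    Th t x = ∑ g : Perm L, (sg g * x (act g (cl t))) • poly (t.trans g) := rfl

lemma Th_apply_apply (t : D ≃ L) (x : Mod L) (w : Word L) :
    Th t x w = ∑ g : Perm L, sg g * x (act g (cl t)) * poly (t.trans g) w := by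
  rw [Th_apply, Finsupp.finsetSum_apply]
  rfl

lemma Th_mem_Sp (t : D ≃ L) (x : Mod L) : Th t x ∈ Sp D L := by
  rw [Th_apply]
  exact Submodule.sum_mem _ fun g _ => Submodule.smul_mem _ _ (poly_mem_Sp _)

lemma trans_trans_perm (t : D ≃ L) (g h : Perm L) : (t.trans g).trans h = t.trans (h * g) := by
  ext c; rfl

lemma Th_rep (t : D ≃ L) (h : Perm L) (x : Mod L) :
    Th t (rep L h x) = sg h • rep L h (Th t x) := by
  rw [Th_apply, Th_apply, map_sum, Finset.smul_sum]
  symm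
  refine Fintype.sum_equiv (Equiv.mulLeft h) _ _ ?_
  intro g
  rw [map_smul, rep_poly, trans_trans_perm, smul_smul]
  simp only [Equiv.coe_mulLeft]
  congr 1
  rw [rep_apply, mul_comm (sg h) _ , act_mul]
  simp only [← act_mul, inv_mul_cancel_left]
  rw [sg_mul]
  ring

lemma rep_Th (t : D ≃ L) (h : Perm L) (x : Mod L) :
    rep L h (Th t x) = sg h • Th t (rep L h x) := by
  rw [Th_rep, smul_smul, sg_sq, one_smul]

/-- Support of a polytabloid. -/
lemma poly_apply_act (s : D ≃ L) {σ : Perm L} (hσ : σ ∈ colGroup s) :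
    poly s (act σ (rw s)) = sg σ := by
  have h1 : rep L σ (poly s) = sg σ • poly s := by
    rw [poly_eq_kap, rep_kap s hσ]
  have h2 := congrArg (fun v : Mod L => v (act σ (rw s))) h1
  simp only [rep_apply, act_inv_act, poly_apply_rw, Finsupp.smul_apply, smul_eq_mul] at h2
  have h3 : sg σ * (sg σ * poly s (act σ (rw s))) = sg σ := by rw [← h2]; ring
  rw [← mul_assoc, sg_sq, one_mul] at h3
  exact h3

lemma exists_of_poly_apply_ne (s : D ≃ L) {w : Word L} (h : poly s w ≠ 0) :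
    ∃ σ ∈ colGroup s, w = act σ (rw s) := by
  by_contra hno
  push Not at hno
  apply h
  unfold poly
  rw [Finsupp.finsetSum_apply]
  refine Finset.sum_eq_zero fun σ hσ => ?_
  rw [Finsupp.smul_apply, Finsupp.single_apply, if_neg (fun e => hno σ hσ e.symm)]
  simp

lemma act_cl_eq_iff (t : D ≃ L) (g : Perm L) : act g (cl t) = cl t ↔ g ∈ colGroup t := by
  constructor
  · intro h
    rw [mem_colGroup]
    intro i
    have := congrFun h (g i)
    simp only [act, Equiv.symm_apply_apply] at this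
    exact this.symm
  · intro h
    funext i
    have := (mem_colGroup.1 (inv_mem_colGroup h)) i
    exact this

section conj
variable (t : D ≃ L) (t' : D' ≃ L) (h1 : rw t' = cl t) (h2 : cl t' = rw t)
include h1 h2

lemma Th_term_eq_one (g : Perm L) (ha : poly t' (act g (cl t)) ≠ 0)
    (hb : poly (t.trans g) (rw t) ≠ 0) :
    sg g * poly t' (act g (cl t)) * poly (t.trans g) (rw t) = 1 := by
  have hb' : poly t (act g⁻¹ (rw t)) ≠ 0 := by
    rw [← rep_poly, rep_apply] at hb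
    exact hb
  obtain ⟨σ, hσ, hσe⟩ := exists_of_poly_apply_ne t' ha
  obtain ⟨π, hπ, hπe⟩ := exists_of_poly_apply_ne t hb'
  have hv1 : poly t' (act g (cl t)) = sg σ := by
    rw [hσe, poly_apply_act t' hσ]
  have hv2 : poly (t.trans g) (rw t) = sg π := by
    rw [← rep_poly, rep_apply, hπe, poly_apply_act t hπ]
  -- `a := σ⁻¹ * g` lies in the column group of `t`
  have ha1 : σ⁻¹ * g ∈ colGroup t := by
    rw [← act_cl_eq_iff, act_mul, ← h1]
    rw [h1, hσe, ← act_mul, h1]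
    simp
  -- `b := π⁻¹ * g⁻¹` fixes the row word of `t`
  have hb1 : act (π⁻¹ * g⁻¹) (rw t) = rw t := by
    rw [act_mul, hπe]; simp
  have hb2 : π⁻¹ * g⁻¹ ∈ colGroup t' := by
    rw [← act_cl_eq_iff, h2]
    exact hb1
  have hc1 : π⁻¹ * (σ⁻¹ * g)⁻¹ ∈ colGroup t :=
    mul_mem_colGroup (inv_mem_colGroup hπ) (inv_mem_colGroup ha1)
  have hc2 : π⁻¹ * (σ⁻¹ * g)⁻¹ = (π⁻¹ * g⁻¹) * σ := by
    simp [mul_inv_rev, mul_assoc]
  have hc3 : π⁻¹ * (σ⁻¹ * g)⁻¹ ∈ colGroup t' := by
    rw [hc2]; exact mul_mem_colGroup hb2 hσ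
  have hc4 : π⁻¹ * (σ⁻¹ * g)⁻¹ = 1 := by
    refine eq_one_of_mem_colGroup_of_act_eq t hc1 ?_
    rw [← h2, act_cl_eq_iff]
    exact hc3
  have hg : g = σ * π⁻¹ := by
    have h5 : (σ⁻¹ * g)⁻¹ = π := by
      have := congrArg (fun z => π * z) hc4
      simpa using this
    have h6 : σ⁻¹ * g = π⁻¹ := by rw [← h5, inv_inv]
    calc g = σ * (σ⁻¹ * g) := by simp
      _ = σ * π⁻¹ := by rw [h6]
  rw [hv1, hv2, hg, sg_mul, sg_inv]
  calc sg σ * sg π * sg σ * sg π = (sg σ * sg σ) * (sg π * sg π) := by ring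
    _ = 1 := by rw [sg_sq, sg_sq, one_mul]

lemma Th_poly_ne : Th t (poly t') ≠ 0 := by
  classical
  intro h0
  have h3 := congrArg (fun v : Mod L => v (rw t)) h0
  simp only [Th_apply_apply, Finsupp.zero_apply] at h3
  have h4 : ∀ g : Perm L, sg g * poly t' (act g (cl t)) * poly (t.trans g) (rw t) =
      if sg g * poly t' (act g (cl t)) * poly (t.trans g) (rw t) ≠ 0 then 1 else 0 := by
    intro g
    by_cases hz : sg g * poly t' (act g (cl t)) * poly (t.trans g) (rw t) = 0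
    · simp [hz]
    · rw [if_pos hz]
      refine Th_term_eq_one t t' h1 h2 g ?_ ?_
      · intro e; apply hz; rw [e]; ring
      · intro e; apply hz; rw [e]; ring
  rw [Finset.sum_congr rfl (fun g _ => h4 g), Finset.sum_boole] at h3
  have h5 : (Finset.univ.filter fun g : Perm L =>
      sg g * poly t' (act g (cl t)) * poly (t.trans g) (rw t) ≠ 0).card = 0 := by
    exact_mod_cast h3
  rw [Finset.card_eq_zero] at h5
  have h6 : (1 : Perm L) ∈ (Finset.univ.filter fun g : Perm L =>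
      sg g * poly t' (act g (cl t)) * poly (t.trans g) (rw t) ≠ 0) := by
    simp only [Finset.mem_filter, Finset.mem_univ, true_and]
    have e1 : t.trans (1 : Perm L) = t := by ext c; rfl
    rw [e1, act_one, ← h1, poly_apply_rw, poly_apply_rw, sg_one]
    simp
  rw [h5] at h6
  simp at h6

end conj

/-- Surjectivity of `Th`. -/
lemma exists_Th_eq {μ : YoungDiagram} (t : μ.cells ≃ L) (t' : D' ≃ L) (h1 : rw t' = cl t)
    (h2 : cl t' = rw t) {x : Mod L} (hx : x ∈ Sp μ.cells L) :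
    ∃ x' ∈ Sp D' L, Th t x' = x := by
  let U : Submodule ℂ (Mod L) := (Sp D' L).map (Th t)
  have hU : U ≤ Sp μ.cells L := by
    rintro _ ⟨y, _, rfl⟩
    exact Th_mem_Sp t y
  have hinv : ∀ g : Perm L, ∀ y ∈ U, rep L g y ∈ U := by
    rintro g _ ⟨y, hy, rfl⟩
    rw [rep_Th]
    exact Submodule.smul_mem _ _ ⟨rep L g y, rep_mem_Sp g hy, rfl⟩
  rcases invariant_eq U hU hinv with h | h
  · exfalso
    have : Th t (poly t') ∈ U := ⟨poly t', poly_mem_Sp t', rfl⟩
    rw [h, Submodule.mem_bot] at this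
    exact Th_poly_ne t t' h1 h2 this
  · rw [← h] at hx
    obtain ⟨x', hx', e⟩ := hx
    exact ⟨x', hx', e⟩

/-- The key formula for `Tr` and `Th`. -/
lemma Tr_Th (t : D ≃ L) (χ : Perm L → ℂ) (x y z : Mod L) (w1 w2 w3 : Word L) :
    Tr χ (Th t x) y z (w1, w2, w3) =
      ∑ g : Perm L, sg g * poly (t.trans g) w1 *
        Tr (fun h => χ h * sg h) x y z (act g (cl t), w2, w3) := by
  unfold Tr
  simp only [Finset.mul_sum]
  rw [Finset.sum_comm]
  refine Finset.sum_congr rfl fun h _ => ?_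
  rw [rep_Th, Finsupp.smul_apply, Th_apply_apply, smul_eq_mul, Finset.mul_sum, Finset.sum_mul,
    Finset.sum_mul, Finset.mul_sum]
  refine Finset.sum_congr rfl fun g _ => ?_
  ring

lemma exists_Tr_of_Th (t : D ≃ L) (χ : Perm L → ℂ) (x y z : Mod L) (w1 w2 w3 : Word L)
    (h : Tr χ (Th t x) y z (w1, w2, w3) ≠ 0) :
    ∃ w', Tr (fun h => χ h * sg h) x y z (w', w2, w3) ≠ 0 := by
  rw [Tr_Th] at h
  obtain ⟨g, -, hg⟩ := Finset.exists_ne_zero_of_sum_ne_zero h
  refine ⟨act g (cl t), ?_⟩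
  intro e
  apply hg
  rw [e, mul_zero]

/-! ### The swapped tableau -/

/-- Cells of the transpose. -/
def swapCells (μ : YoungDiagram) : μ.transpose.cells ≃ μ.cells where
  toFun c := ⟨c.1.swap, YoungDiagram.mem_transpose.1 ((YoungDiagram.mem_cells _).1 c.2)⟩
  invFun c := ⟨c.1.swap, by
    rw [YoungDiagram.mem_cells, YoungDiagram.mem_transpose, Prod.swap_swap]
    exact (YoungDiagram.mem_cells _).1 c.2⟩
  left_inv c := by simp
  right_inv c := by simp

/-- The transposed tableau. -/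
def tsp {μ : YoungDiagram} (t : μ.cells ≃ L) : μ.transpose.cells ≃ L := (swapCells μ).trans t

lemma rw_tsp {μ : YoungDiagram} (t : μ.cells ≃ L) : rw (tsp t) = cl t := rfl
lemma cl_tsp {μ : YoungDiagram} (t : μ.cells ≃ L) : cl (tsp t) = rw t := rfl

/-! ### The relation `QL` -/

/-- The core relation over a fixed letter type. -/
def QL (L : Type) [Fintype L] [DecidableEq L] (a b c : YoungDiagram) : Prop :=
  ∃ (t : a.cells ≃ L) (u : b.cells ≃ L) (v : c.cells ≃ L) (w : Tri L),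
    Tr (fun _ => 1) (poly t) (poly u) (poly v) w ≠ 0

lemma QL.symm12 {a b c : YoungDiagram} (h : QL L a b c) : QL L b a c := by
  obtain ⟨t, u, v, ⟨w1, w2, w3⟩, hw⟩ := h
  refine ⟨u, t, v, (w2, w1, w3), ?_⟩
  rw [← Tr_swap12]
  exact hw

lemma QL.symm23 {a b c : YoungDiagram} (h : QL L a b c) : QL L a c b := by
  obtain ⟨t, u, v, ⟨w1, w2, w3⟩, hw⟩ := h
  refine ⟨t, v, u, (w1, w3, w2), ?_⟩
  rw [← Tr_swap23]
  exact hw

/-- Conjugation of the first two shapes. -/
theorem QL.conj {a b c : YoungDiagram} (h : QL L a b c) : QL L a.transpose b.transpose c := by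
  obtain ⟨t, u, v, ⟨w1, w2, w3⟩, hw⟩ := h
  obtain ⟨x', hx', ex⟩ := exists_Th_eq t (tsp t) (rw_tsp t) (cl_tsp t) (poly_mem_Sp t)
  obtain ⟨y', hy', ey⟩ := exists_Th_eq u (tsp u) (rw_tsp u) (cl_tsp u) (poly_mem_Sp u)
  rw [← ex] at hw
  obtain ⟨w1', hw1⟩ := exists_Tr_of_Th t _ x' _ _ _ _ _ hw
  rw [Tr_swap12, ← ey] at hw1
  obtain ⟨w2', hw2⟩ := exists_Tr_of_Th u _ y' _ _ _ _ _ hw1
  have hχ : (fun h : Perm L => (1 : ℂ) * sg h * sg h) = fun _ => 1 := by
    funext h
    rw [one_mul, sg_sq]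
  rw [hχ] at hw2
  obtain ⟨u', hu'⟩ := exists_poly_of_Tr_ne hy' hw2
  rw [Tr_swap12] at hu'
  obtain ⟨t', ht'⟩ := exists_poly_of_Tr_ne hx' hu'
  exact ⟨t', u', v, _, ht'⟩

end Crest.Agent.Lib.Saxl
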