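import Crest.Agent.Lib.Saxl.API

/-!
# Saxl: counting-function cuts of a diagram and corridor classes

* `ofRows`: a diagram from an antitone row function.
* `IsCount N`: `N 0 = 0` and unit steps; `cutV Y N`: the diagram with rows `N (Y_i)`.
  `addD (cutV Y N) (cutV Y N̄) = Y`, `N̄ m = m - N m`. `cutH` is the conjugate operation,
  `unionD (cutH Y N) (cutH Y N̄) = Y`. Every column subset (resp. row subset) gives such a cut.
* `CorE ρ θ e Y`: the corridor of helper12 (`Y_i` between `θ(ρ-i)-e` and `θ(ρ-i+1)+e`, rows counted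
  from one). Conjugation: `(θρ, 1/θ, 1+(e-1)/θ)`. A cut by `N` with
  `f m + β ≤ N m ≤ f m + β + w`: `(ρ+(β+w/2)/(fθ), fθ, fe+w/2)`.
  In particular `e = 1` is preserved by *every* orientation of column pairs and of row pairs.
* Pair counting functions `pairN o`, `pairN1 o` (orientation `o`, aligned and offset pairs).
* Sizes: `(cutV Y (pairN o)).card = ∑ ⌊Y_i/2⌋ + #{i : Y_i odd, o (Y_i/2)}` and the discrete
  intermediate value statement for exact sizes.
-/

set_option autoImplicit false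
set_option linter.unusedSectionVars false

namespace Crest.Agent.Lib.Saxl

open Finset

/-! ### Diagrams from row functions -/

/-- The diagram with rows `f`, `f` antitone with `f N = 0`. -/
def ofRows (f : ℕ → ℕ) (hf : Antitone f) (N : ℕ) (hN : f N = 0) : YoungDiagram where
  cells := ((Finset.range N) ×ˢ (Finset.range (f 0))).filter fun c => c.2 < f c.1
  isLowerSet := by
    rintro ⟨i, j⟩ ⟨i', j'⟩ ⟨hi, hj⟩ hc
    simp only [Finset.coe_filter, Finset.mem_product, Finset.mem_range, Set.mem_ofPred_eq] at hc ⊢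
    simp only at hi hj
    obtain ⟨⟨h1, h2⟩, h3⟩ := hc
    have e1 := hf hi
    refine ⟨⟨by omega, by omega⟩, by omega⟩

lemma mem_ofRows {f : ℕ → ℕ} {hf : Antitone f} {N : ℕ} {hN : f N = 0} {c : ℕ × ℕ} :
    c ∈ ofRows f hf N hN ↔ c.2 < f c.1 := by
  obtain ⟨i, j⟩ := c
  constructor
  · intro h
    have h' : (i, j) ∈ (ofRows f hf N hN).cells := h
    simp only [ofRows, Finset.mem_filter] at h'
    exact h'.2
  · intro h
    simp only at h
    have h' : (i, j) ∈ (ofRows f hf N hN).cells := by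
      simp only [ofRows, Finset.mem_filter, Finset.mem_product, Finset.mem_range]
      refine ⟨⟨?_, ?_⟩, h⟩
      · by_contra hc
        have := hf (not_lt.1 hc)
        omega
      · have := hf (Nat.zero_le i)
        omega
    exact h'

@[simp] lemma rowLen_ofRows {f : ℕ → ℕ} {hf : Antitone f} {N : ℕ} {hN : f N = 0} (i : ℕ) :
    (ofRows f hf N hN).rowLen i = f i := by
  apply eq_of_forall_lt_iff
  intro j
  rw [← YoungDiagram.mem_iff_lt_rowLen, mem_ofRows]

lemma rowLen_colLen_zero (Y : YoungDiagram) : Y.rowLen (Y.colLen 0) = 0 := by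
  by_contra h
  have h1 : 0 < Y.rowLen (Y.colLen 0) := Nat.pos_of_ne_zero h
  have h2 := (YoungDiagram.mem_iff_lt_rowLen (μ := Y)).2 h1
  have h3 := (YoungDiagram.mem_iff_lt_colLen (μ := Y)).1 h2
  omega

lemma rowLen_eq_zero_of_le (Y : YoungDiagram) {M : ℕ} (hM : Y.colLen 0 ≤ M) : Y.rowLen M = 0 := by
  have := Y.rowLen_anti _ _ hM
  have h0 := rowLen_colLen_zero Y
  omega

lemma rowLen_pos_iff (Y : YoungDiagram) (i : ℕ) : 0 < Y.rowLen i ↔ i < Y.colLen 0 := by
  rw [← YoungDiagram.mem_iff_lt_rowLen, YoungDiagram.mem_iff_lt_colLen]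

/-- The size is the sum of the rows. -/
lemma card_eq_sum_rowLen (Y : YoungDiagram) {M : ℕ} (hM : Y.colLen 0 ≤ M) :
    Y.card = ∑ i ∈ range M, Y.rowLen i := by
  classical
  have h1 : ∀ c ∈ Y.cells, c.1 ∈ range M := by
    rintro ⟨i, j⟩ hc
    have h2 : (i, j) ∈ Y := (YoungDiagram.mem_cells _).1 hc
    have h3 := (YoungDiagram.mem_iff_lt_rowLen (μ := Y)).1 h2
    have h4 : 0 < Y.rowLen i := by omega
    have := (rowLen_pos_iff Y i).1 h4
    simp only [mem_range]
    omega
  unfold YoungDiagram.card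
  rw [Finset.card_eq_sum_card_fiberwise h1]
  refine Finset.sum_congr rfl fun i _ => ?_
  rw [YoungDiagram.rowLen_eq_card]
  rfl

lemma cor_card_transpose (Y : YoungDiagram) : Y.transpose.card = Y.card := by
  classical
  unfold YoungDiagram.card
  refine Finset.card_bij (fun c _ => c.swap) ?_ ?_ ?_
  · intro c hc
    have h1 : c ∈ Y.transpose := (YoungDiagram.mem_cells _).1 hc
    exact (YoungDiagram.mem_cells _).2 (YoungDiagram.mem_transpose.1 h1)
  · intro a _ b _ h
    exact Prod.swap_injective h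
  · intro c hc
    refine ⟨c.swap, ?_, by simp⟩
    have h1 : c ∈ Y := (YoungDiagram.mem_cells _).1 hc
    refine (YoungDiagram.mem_cells _).2 (YoungDiagram.mem_transpose.2 ?_)
    simpa using h1

/-! ### Counting functions -/

/-- A counting function: `N 0 = 0`, steps `0` or `1`. -/
def IsCount (N : ℕ → ℕ) : Prop := N 0 = 0 ∧ ∀ m, N (m + 1) = N m ∨ N (m + 1) = N m + 1

namespace IsCount
variable {N : ℕ → ℕ}

lemma mono (h : IsCount N) : Monotone N :=
  monotone_nat_of_le_succ fun m => by rcases h.2 m with e | e <;> omega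

lemma le_self (h : IsCount N) (m : ℕ) : N m ≤ m := by
  induction m with
  | zero => simp [h.1]
  | succ m ih => rcases h.2 m with e | e <;> omega

/-- The complementary counting function. -/
lemma compl (h : IsCount N) : IsCount (fun m => m - N m) := by
  refine ⟨by simp, fun m => ?_⟩
  have h1 := h.le_self m
  simp only
  rcases h.2 m with e | e <;> rw [e]
  · right; omega
  · left; omega

end IsCount

/-- Cut: the diagram with rows `N (Y_i)`. -/
def cutV (Y : YoungDiagram) (N : ℕ → ℕ) (hN : IsCount N) : YoungDiagram :=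
  ofRows (fun i => N (Y.rowLen i)) (fun _ _ hab => hN.mono (Y.rowLen_anti _ _ hab)) (Y.colLen 0)
    (by simp only [rowLen_colLen_zero, hN.1])

@[simp] lemma rowLen_cutV (Y : YoungDiagram) (N : ℕ → ℕ) (hN : IsCount N) (i : ℕ) :
    (cutV Y N hN).rowLen i = N (Y.rowLen i) :=
  rowLen_ofRows i

/-- Column cut: the rows add up to `Y`. -/
theorem addD_cutV (Y : YoungDiagram) (N : ℕ → ℕ) (hN : IsCount N) :
    addD (cutV Y N hN) (cutV Y (fun m => m - N m) hN.compl) = Y := by
  apply ext_rowLen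
  intro i
  rw [rowLen_addD, rowLen_cutV, rowLen_cutV]
  have := hN.le_self (Y.rowLen i)
  omega

/-- Two counting functions with complementary values. -/
theorem addD_cutV_of_compl (Y : YoungDiagram) {N N' : ℕ → ℕ} (hN : IsCount N) (hN' : IsCount N')
    (h : ∀ m, N m + N' m = m) : addD (cutV Y N hN) (cutV Y N' hN') = Y := by
  apply ext_rowLen
  intro i
  rw [rowLen_addD, rowLen_cutV, rowLen_cutV, h]

lemma card_cutV (Y : YoungDiagram) (N : ℕ → ℕ) (hN : IsCount N) :
    (cutV Y N hN).card = ∑ i ∈ range (Y.colLen 0), N (Y.rowLen i) := by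
  have hM : (cutV Y N hN).colLen 0 ≤ Y.colLen 0 := by
    by_contra hc
    have h1 : (Y.colLen 0, 0) ∈ cutV Y N hN :=
      (YoungDiagram.mem_iff_lt_colLen).2 (not_le.1 hc)
    have h2 := (YoungDiagram.mem_iff_lt_rowLen).1 h1
    rw [rowLen_cutV, rowLen_colLen_zero, hN.1] at h2
    omega
  rw [card_eq_sum_rowLen _ hM]
  simp only [rowLen_cutV]

/-- Row cut: the conjugate of a column cut. -/
def cutH (Y : YoungDiagram) (N : ℕ → ℕ) (hN : IsCount N) : YoungDiagram :=
  (cutV Y.transpose N hN).transpose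

/-- Row cut: the rows of the two children merge to the rows of `Y`. -/
theorem unionD_cutH (Y : YoungDiagram) (N : ℕ → ℕ) (hN : IsCount N) :
    unionD (cutH Y N hN) (cutH Y (fun m => m - N m) hN.compl) = Y := by
  unfold unionD cutH
  simp only [YoungDiagram.transpose_transpose]
  rw [addD_cutV, YoungDiagram.transpose_transpose]

theorem unionD_cutH_of_compl (Y : YoungDiagram) {N N' : ℕ → ℕ} (hN : IsCount N) (hN' : IsCount N')
    (h : ∀ m, N m + N' m = m) : unionD (cutH Y N hN) (cutH Y N' hN') = Y := by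
  unfold unionD cutH
  simp only [YoungDiagram.transpose_transpose]
  rw [addD_cutV_of_compl _ hN hN' h, YoungDiagram.transpose_transpose]

lemma card_cutH (Y : YoungDiagram) (N : ℕ → ℕ) (hN : IsCount N) :
    (cutH Y N hN).card = (cutV Y.transpose N hN).card := cor_card_transpose _

/-- Columns of a row cut. -/
lemma colLen_cutH (Y : YoungDiagram) (N : ℕ → ℕ) (hN : IsCount N) (j : ℕ) :
    (cutH Y N hN).colLen j = N (Y.colLen j) := by
  have := rowLen_cutV Y.transpose N hN j
  rw [YoungDiagram.rowLen_transpose] at this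
  unfold cutH
  rw [← YoungDiagram.rowLen_transpose, YoungDiagram.transpose_transpose, this]

/-! ### Corridors -/

/-- The corridor of parameters `ρ, θ, e`. Rows are counted from `0` here. -/
def CorE (ρ θ e : ℚ) (Y : YoungDiagram) : Prop :=
  ∀ i : ℕ, θ * (ρ - ((i : ℚ) + 1)) - e ≤ (Y.rowLen i : ℚ) ∧
    (Y.rowLen i = 0 ∨ (Y.rowLen i : ℚ) ≤ θ * (ρ - (i : ℚ)) + e)

/-- Conjugation of a corridor. -/
theorem CorE.transpose {ρ θ e : ℚ} {Y : YoungDiagram} (hθ : 0 < θ) (h : CorE ρ θ e Y) :
    CorE (θ * ρ) (1 / θ) (1 + (e - 1) / θ) Y.transpose := by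
  intro c
  rw [YoungDiagram.rowLen_transpose]
  set k := Y.colLen c with hk
  constructor
  · -- row `k` has length at most `c`
    have h1 : Y.rowLen k ≤ c := by
      by_contra hc
      have h2 : (k, c) ∈ Y := (YoungDiagram.mem_iff_lt_rowLen).2 (not_le.1 hc)
      have h3 := (YoungDiagram.mem_iff_lt_colLen).1 h2
      omega
    have h2 := (h k).1
    have h3 : (Y.rowLen k : ℚ) ≤ c := by exact_mod_cast h1
    have h4 : θ * (ρ - ((k : ℚ) + 1)) ≤ c + e := by linarith
    have h5 : 1 / θ * (θ * ρ - ((c : ℚ) + 1)) - (1 + (e - 1) / θ) = ρ - 1 - (c + e) / θ := by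
      field_simp
      ring
    rw [h5]
    have h6 : ρ - ((k : ℚ) + 1) ≤ (c + e) / θ := by
      rw [le_div_iff₀ hθ]
      linarith
    linarith
  · by_cases hk0 : k = 0
    · left; exact hk0
    right
    have hk1 : k - 1 < Y.colLen c := by omega
    have h2 : (k - 1, c) ∈ Y := (YoungDiagram.mem_iff_lt_colLen).2 hk1
    have h3 := (YoungDiagram.mem_iff_lt_rowLen).1 h2
    have h4 : Y.rowLen (k - 1) ≠ 0 := by omega
    have h5 := (h (k - 1)).2.resolve_left h4
    have hcast : ((k - 1 : ℕ) : ℚ) = (k : ℚ) - 1 := by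
      rw [Nat.cast_sub (by omega)]
      simp
    rw [hcast] at h5
    have h6 : ((c : ℚ) + 1) ≤ (Y.rowLen (k - 1) : ℚ) := by exact_mod_cast h3
    have h7 : 1 / θ * (θ * ρ - (c : ℚ)) + (1 + (e - 1) / θ) = ρ + 1 - ((c : ℚ) + 1 - e) / θ := by
      field_simp
      ring
    rw [h7]
    have h8 : ((c : ℚ) + 1 - e) / θ ≤ ρ - ((k : ℚ) - 1) := by
      rw [div_le_iff₀ hθ]
      linarith
    linarith

/-- Cut of a corridor by a counting function with linear bounds. -/
theorem CorE.cutV {ρ θ e f β w : ℚ} {Y : YoungDiagram} {N : ℕ → ℕ} (hN : IsCount N)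
    (hθ : 0 < θ) (hf : 0 < f)
    (hN1 : ∀ m : ℕ, f * m + β ≤ (N m : ℚ)) (hN2 : ∀ m : ℕ, (N m : ℚ) ≤ f * m + β + w)
    (h : CorE ρ θ e Y) :
    CorE (ρ + (β + w / 2) / (f * θ)) (f * θ) (f * e + w / 2) (Saxl.cutV Y N hN) := by
  intro i
  rw [rowLen_cutV]
  have hft : 0 < f * θ := mul_pos hf hθ
  have hs : f * θ * (ρ + (β + w / 2) / (f * θ) - ((i : ℚ) + 1)) =
      f * (θ * (ρ - ((i : ℚ) + 1))) + (β + w / 2) := by
    field_simp
    ring
  have hs2 : f * θ * (ρ + (β + w / 2) / (f * θ) - (i : ℚ)) =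
      f * (θ * (ρ - (i : ℚ))) + (β + w / 2) := by
    field_simp
    ring
  constructor
  · rw [hs]
    have h1 := (h i).1
    have h2 := hN1 (Y.rowLen i)
    have h3 : f * (θ * (ρ - ((i : ℚ) + 1)) - e) ≤ f * (Y.rowLen i : ℚ) :=
      mul_le_mul_of_nonneg_left h1 hf.le
    nlinarith
  · by_cases h0 : N (Y.rowLen i) = 0
    · left; exact h0
    right
    have h1 : Y.rowLen i ≠ 0 := by
      intro e0
      apply h0
      rw [e0, hN.1]
    have h2 := (h i).2.resolve_left h1
    have h3 := hN2 (Y.rowLen i)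
    rw [hs2]
    have h4 : f * (Y.rowLen i : ℚ) ≤ f * (θ * (ρ - (i : ℚ)) + e) :=
      mul_le_mul_of_nonneg_left h2 hf.le
    nlinarith

/-- Row cut of a corridor, general form: by conjugation. -/
theorem CorE.cutH {ρ θ e f β w : ℚ} {Y : YoungDiagram} {N : ℕ → ℕ} (hN : IsCount N)
    (hθ : 0 < θ) (hf : 0 < f)
    (hN1 : ∀ m : ℕ, f * m + β ≤ (N m : ℚ)) (hN2 : ∀ m : ℕ, (N m : ℚ) ≤ f * m + β + w)
    (h : CorE ρ θ e Y) :
    CorE ((θ * ρ + (β + w / 2) / (f * (1 / θ))) * (f * (1 / θ))) (1 / (f * (1 / θ)))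
      (1 + (f * (1 + (e - 1) / θ) + w / 2 - 1) / (f * (1 / θ))) (Saxl.cutH Y N hN) := by
  have hθ' : 0 < 1 / θ := by positivity
  have h1 := h.transpose hθ
  have h2 := h1.cutV hN hθ' hf hN1 hN2
  have h3 := h2.transpose (mul_pos hf hθ')
  have e1 : (f * (1 / θ)) * (θ * ρ + (β + w / 2) / (f * (1 / θ))) =
      (θ * ρ + (β + w / 2) / (f * (1 / θ))) * (f * (1 / θ)) := by ring
  rw [e1] at h3
  exact h3

/-! ### Pair counting functions -/

/-- Aligned pairs of columns `(2k, 2k+1)`, orientation `o`: the counting function takes the column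
`2k` if `o k`, and the column `2k+1` otherwise. -/
def pairN (o : ℕ → Bool) (m : ℕ) : ℕ := m / 2 + (if m % 2 = 1 ∧ o (m / 2) = true then 1 else 0)

lemma pairN_even (o : ℕ → Bool) (k : ℕ) : pairN o (2 * k) = k := by
  have h1 : (2 * k) / 2 = k := by omega
  have h2 : (2 * k) % 2 = 0 := by omega
  simp [pairN, h1, h2]

lemma pairN_odd (o : ℕ → Bool) (k : ℕ) : pairN o (2 * k + 1) = k + (if o k = true then 1 else 0) := by
  have h1 : (2 * k + 1) / 2 = k := by omega
  have h2 : (2 * k + 1) % 2 = 1 := by omega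
  simp [pairN, h1, h2]

lemma isCount_pairN (o : ℕ → Bool) : IsCount (pairN o) := by
  refine ⟨by simp [pairN], fun m => ?_⟩
  rcases Nat.even_or_odd' m with ⟨k, rfl | rfl⟩
  · rw [pairN_even, pairN_odd]
    by_cases h : o k = true <;> simp [h]
  · have : 2 * k + 1 + 1 = 2 * (k + 1) := by ring
    rw [this, pairN_even, pairN_odd]
    by_cases h : o k = true <;> simp [h]

/-- Complementary orientation. -/
def notO (o : ℕ → Bool) : ℕ → Bool := fun k => !(o k)

lemma pairN_add_notO (o : ℕ → Bool) (m : ℕ) : pairN o m + pairN (notO o) m = m := by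
  rcases Nat.even_or_odd' m with ⟨k, rfl | rfl⟩
  · rw [pairN_even, pairN_even]; omega
  · rw [pairN_odd, pairN_odd]
    by_cases h : o k = true <;> simp [notO, h] <;> omega

lemma pairN_lower (o : ℕ → Bool) (m : ℕ) : (1 / 2 : ℚ) * m + (-1 / 2) ≤ (pairN o m : ℚ) := by
  rcases Nat.even_or_odd' m with ⟨k, rfl | rfl⟩
  · rw [pairN_even]; push_cast; linarith
  · rw [pairN_odd]
    have : ((k + (if o k = true then 1 else 0) : ℕ) : ℚ) ≥ k := by
      exact_mod_cast Nat.le_add_right _ _
    push_cast at this ⊢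
    linarith

lemma pairN_upper (o : ℕ → Bool) (m : ℕ) :
    (pairN o m : ℚ) ≤ (1 / 2 : ℚ) * m + (-1 / 2) + 1 := by
  rcases Nat.even_or_odd' m with ⟨k, rfl | rfl⟩
  · rw [pairN_even]; push_cast; linarith
  · rw [pairN_odd]
    have : ((k + (if o k = true then 1 else 0) : ℕ) : ℚ) ≤ k + 1 := by
      have : k + (if o k = true then 1 else 0) ≤ k + 1 := by split_ifs <;> omega
      exact_mod_cast this
    push_cast at this ⊢
    linarith

/-- Column pairs: any orientation stays in the corridor, `e ↦ (e+1)/2`, `θ ↦ θ/2`. -/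
theorem CorE.cutV_pair {ρ θ e : ℚ} {Y : YoungDiagram} (hθ : 0 < θ) (o : ℕ → Bool)
    (h : CorE ρ θ e Y) :
    CorE ρ (θ / 2) ((e + 1) / 2) (Saxl.cutV Y (pairN o) (isCount_pairN o)) := by
  have := h.cutV (f := 1 / 2) (β := -1 / 2) (w := 1) (isCount_pairN o) hθ (by norm_num)
    (pairN_lower o) (pairN_upper o)
  have e1 : ρ + (-1 / 2 + 1 / 2) / (1 / 2 * θ) = ρ := by ring
  have e2 : (1 / 2 : ℚ) * θ = θ / 2 := by ring
  have e3 : (1 / 2 : ℚ) * e + 1 / 2 = (e + 1) / 2 := by ring
  rw [e1, e2, e3] at this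
  exact this

/-- The fixed point `e = 1`: row pairs, any orientation, `ρ ↦ ρ/2`, `θ ↦ 2θ`. -/
theorem CorE.cutH_pair {ρ θ : ℚ} {Y : YoungDiagram} (hθ : 0 < θ) (o : ℕ → Bool)
    (h : CorE ρ θ 1 Y) :
    CorE (ρ / 2) (2 * θ) 1 (Saxl.cutH Y (pairN o) (isCount_pairN o)) := by
  have hθ' : 0 < 1 / θ := by positivity
  have h1 := h.transpose hθ
  have e0 : (1 : ℚ) + (1 - 1) / θ = 1 := by ring
  rw [e0] at h1
  have h2 := h1.cutV_pair hθ' o
  have e1 : ((1 : ℚ) + 1) / 2 = 1 := by norm_num
  rw [e1] at h2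
  have h3 := h2.transpose (by positivity : (0 : ℚ) < 1 / θ / 2)
  have e2 : (1 : ℚ) / θ / 2 * (θ * ρ) = ρ / 2 := by
    field_simp
  have e3 : (1 : ℚ) / (1 / θ / 2) = 2 * θ := by
    field_simp
  have e4 : (1 : ℚ) + (1 - 1) / (1 / θ / 2) = 1 := by ring
  rw [e2, e3, e4] at h3
  exact h3

/-- The fixed point `e = 1`: column pairs. -/
theorem CorE.cutV_pair_one {ρ θ : ℚ} {Y : YoungDiagram} (hθ : 0 < θ) (o : ℕ → Bool)
    (h : CorE ρ θ 1 Y) :
    CorE ρ (θ / 2) 1 (Saxl.cutV Y (pairN o) (isCount_pairN o)) := by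
  have := h.cutV_pair hθ o
  have e1 : ((1 : ℚ) + 1) / 2 = 1 := by norm_num
  rwa [e1] at this

/-- Conjugation at the fixed point. -/
theorem CorE.transpose_one {ρ θ : ℚ} {Y : YoungDiagram} (hθ : 0 < θ) (h : CorE ρ θ 1 Y) :
    CorE (θ * ρ) (1 / θ) 1 Y.transpose := by
  have h1 := h.transpose hθ
  have e0 : (1 : ℚ) + (1 - 1) / θ = 1 := by ring
  rwa [e0] at h1

/-- Offset pairs of columns `(2k+1, 2k+2)`, the column `0` goes to this child. -/
def pairN1 (o : ℕ → Bool) (m : ℕ) : ℕ :=
  if m = 0 then 0 else pairN o (m - 1) + 1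

/-- Offset pairs of columns, complementary child. -/
def pairN1' (o : ℕ → Bool) (m : ℕ) : ℕ :=
  if m = 0 then 0 else pairN (notO o) (m - 1)

lemma isCount_pairN1 (o : ℕ → Bool) : IsCount (pairN1 o) := by
  refine ⟨by simp [pairN1], fun m => ?_⟩
  cases m with
  | zero => right; simp [pairN1, pairN]
  | succ m =>
    have h := (isCount_pairN o).2 m
    simp only [pairN1, Nat.add_sub_cancel, Nat.succ_ne_zero, if_false]
    omega

lemma isCount_pairN1' (o : ℕ → Bool) : IsCount (pairN1' o) := by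
  refine ⟨by simp [pairN1'], fun m => ?_⟩
  cases m with
  | zero => left; simp [pairN1', pairN]
  | succ m =>
    have h := (isCount_pairN (notO o)).2 m
    simp only [pairN1', Nat.add_sub_cancel, Nat.succ_ne_zero, if_false]
    omega

lemma pairN1_add (o : ℕ → Bool) (m : ℕ) : pairN1 o m + pairN1' o m = m := by
  cases m with
  | zero => simp [pairN1, pairN1']
  | succ m =>
    simp only [pairN1, pairN1', Nat.add_sub_cancel, Nat.succ_ne_zero, if_false]
    have := pairN_add_notO o m
    omega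

lemma pairN1_lower (o : ℕ → Bool) (m : ℕ) : (1 / 2 : ℚ) * m + 0 ≤ (pairN1 o m : ℚ) := by
  cases m with
  | zero => simp [pairN1]
  | succ m =>
    simp only [pairN1, Nat.add_sub_cancel, Nat.succ_ne_zero, if_false]
    have := pairN_lower o m
    push_cast
    linarith

lemma pairN1_upper (o : ℕ → Bool) (m : ℕ) : (pairN1 o m : ℚ) ≤ (1 / 2 : ℚ) * m + 0 + 1 := by
  cases m with
  | zero => simp [pairN1]
  | succ m =>
    simp only [pairN1, Nat.add_sub_cancel, Nat.succ_ne_zero, if_false]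
    have := pairN_upper o m
    push_cast
    linarith

lemma pairN1'_lower (o : ℕ → Bool) (m : ℕ) : (1 / 2 : ℚ) * m + (-1) ≤ (pairN1' o m : ℚ) := by
  cases m with
  | zero => simp [pairN1']
  | succ m =>
    simp only [pairN1', Nat.add_sub_cancel, Nat.succ_ne_zero, if_false]
    have := pairN_lower (notO o) m
    push_cast
    linarith

lemma pairN1'_upper (o : ℕ → Bool) (m : ℕ) : (pairN1' o m : ℚ) ≤ (1 / 2 : ℚ) * m + (-1) + 1 := by
  cases m with
  | zero => simp [pairN1']
  | succ m =>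
    simp only [pairN1', Nat.add_sub_cancel, Nat.succ_ne_zero, if_false]
    have := pairN_upper (notO o) m
    push_cast
    linarith

/-- Offset column pairs, first child. -/
theorem CorE.cutV_pair1 {ρ θ : ℚ} {Y : YoungDiagram} (hθ : 0 < θ) (o : ℕ → Bool)
    (h : CorE ρ θ 1 Y) :
    CorE (ρ + 1 / θ) (θ / 2) 1 (Saxl.cutV Y (pairN1 o) (isCount_pairN1 o)) := by
  have := h.cutV (f := 1 / 2) (β := 0) (w := 1) (isCount_pairN1 o) hθ (by norm_num)
    (pairN1_lower o) (pairN1_upper o)
  have e1 : ρ + (0 + 1 / 2) / (1 / 2 * θ) = ρ + 1 / θ := by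
    field_simp
    ring
  have e2 : (1 / 2 : ℚ) * θ = θ / 2 := by ring
  have e3 : (1 / 2 : ℚ) * 1 + 1 / 2 = 1 := by norm_num
  rw [e1, e2, e3] at this
  exact this

/-- Offset column pairs, second child. -/
theorem CorE.cutV_pair1' {ρ θ : ℚ} {Y : YoungDiagram} (hθ : 0 < θ) (o : ℕ → Bool)
    (h : CorE ρ θ 1 Y) :
    CorE (ρ - 1 / θ) (θ / 2) 1 (Saxl.cutV Y (pairN1' o) (isCount_pairN1' o)) := by
  have := h.cutV (f := 1 / 2) (β := -1) (w := 1) (isCount_pairN1' o) hθ (by norm_num)
    (pairN1'_lower o) (pairN1'_upper o)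
  have e1 : ρ + (-1 + 1 / 2) / (1 / 2 * θ) = ρ - 1 / θ := by
    field_simp
    ring
  have e2 : (1 / 2 : ℚ) * θ = θ / 2 := by ring
  have e3 : (1 / 2 : ℚ) * 1 + 1 / 2 = 1 := by norm_num
  rw [e1, e2, e3] at this
  exact this

/-- Offset row pairs, first child (gets the first row). -/
theorem CorE.cutH_pair1 {ρ θ : ℚ} {Y : YoungDiagram} (hθ : 0 < θ) (o : ℕ → Bool)
    (h : CorE ρ θ 1 Y) :
    CorE ((ρ + 1) / 2) (2 * θ) 1 (Saxl.cutH Y (pairN1 o) (isCount_pairN1 o)) := by
  have hθ' : 0 < 1 / θ := by positivity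
  have h1 := h.transpose_one hθ
  have h2 := h1.cutV_pair1 hθ' o
  have h3 := h2.transpose_one (by positivity : (0 : ℚ) < 1 / θ / 2)
  have e2 : (1 : ℚ) / θ / 2 * (θ * ρ + 1 / (1 / θ)) = (ρ + 1) / 2 := by
    field_simp
  have e3 : (1 : ℚ) / (1 / θ / 2) = 2 * θ := by
    field_simp
  rw [e2, e3] at h3
  exact h3

/-- Offset row pairs, second child. -/
theorem CorE.cutH_pair1' {ρ θ : ℚ} {Y : YoungDiagram} (hθ : 0 < θ) (o : ℕ → Bool)
    (h : CorE ρ θ 1 Y) :
    CorE ((ρ - 1) / 2) (2 * θ) 1 (Saxl.cutH Y (pairN1' o) (isCount_pairN1' o)) := by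
  have hθ' : 0 < 1 / θ := by positivity
  have h1 := h.transpose_one hθ
  have h2 := h1.cutV_pair1' hθ' o
  have h3 := h2.transpose_one (by positivity : (0 : ℚ) < 1 / θ / 2)
  have e2 : (1 : ℚ) / θ / 2 * (θ * ρ - 1 / (1 / θ)) = (ρ - 1) / 2 := by
    field_simp
  have e3 : (1 : ℚ) / (1 / θ / 2) = 2 * θ := by
    field_simp
  rw [e2, e3] at h3
  exact h3

/-! ### Sizes of pair cuts; exact sizes -/

/-- Number of rows of `Y` of length exactly `2k+1`. -/
def oddMult (Y : YoungDiagram) (k : ℕ) : ℕ :=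
  ((range (Y.colLen 0)).filter fun i => Y.rowLen i = 2 * k + 1).card

lemma pairN_eq (o : ℕ → Bool) (m : ℕ) :
    pairN o m = m / 2 + (if m % 2 = 1 ∧ o (m / 2) = true then 1 else 0) := rfl

/-- The size of the child of an aligned column-pair cut. -/
theorem card_cutV_pairN (Y : YoungDiagram) (o : ℕ → Bool) (K : ℕ) (hK : Y.rowLen 0 < 2 * K) :
    (cutV Y (pairN o) (isCount_pairN o)).card =
      ∑ i ∈ range (Y.colLen 0), Y.rowLen i / 2 +
        ∑ k ∈ range K, if o k = true then oddMult Y k else 0 := by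
  classical
  rw [card_cutV]
  simp only [pairN_eq, Finset.sum_add_distrib]
  congr 1
  -- swap the double count
  have h1 : ∀ k ∈ range K, (if o k = true then oddMult Y k else 0) =
      ∑ i ∈ range (Y.colLen 0), if Y.rowLen i = 2 * k + 1 ∧ o k = true then 1 else 0 := by
    intro k _
    unfold oddMult
    by_cases h : o k = true
    · simp only [h, if_true, and_true, Finset.card_filter]
    · simp [h]
  rw [Finset.sum_congr rfl h1, Finset.sum_comm]
  refine Finset.sum_congr rfl fun i _ => ?_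
  have hi : Y.rowLen i < 2 * K := lt_of_le_of_lt (Y.rowLen_anti _ _ (Nat.zero_le i)) hK
  by_cases hodd : Y.rowLen i % 2 = 1
  · -- exactly one `k`
    have hk : Y.rowLen i / 2 ∈ range K := by
      simp only [mem_range]
      omega
    rw [Finset.sum_eq_single (Y.rowLen i / 2)]
    · have e : Y.rowLen i = 2 * (Y.rowLen i / 2) + 1 := by omega
      simp only [hodd, true_and]
      by_cases h : o (Y.rowLen i / 2) = true
      · simp only [h, if_true, and_true]
        rw [if_pos e]
      · simp [h]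
    · intro k _ hne
      rw [if_neg]
      rintro ⟨e, -⟩
      apply hne
      omega
    · intro h
      exact absurd hk h
  · rw [if_neg (by tauto), Finset.sum_eq_zero]
    intro k _
    rw [if_neg]
    rintro ⟨e, -⟩
    omega

/-- Subset sums: a sequence each of whose terms is at most one more than the sum of the previous
ones has all subset sums. -/
theorem exists_subset_sum (w : ℕ → ℕ) (K : ℕ)
    (hw : ∀ k < K, w k ≤ 1 + ∑ l ∈ range k, w l) (t : ℕ) (ht : t ≤ ∑ l ∈ range K, w l) :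
    ∃ o : ℕ → Bool, ∑ k ∈ range K, (if o k = true then w k else 0) = t := by
  induction K generalizing t with
  | zero =>
    simp only [sum_range_zero, nonpos_iff_eq_zero] at ht
    exact ⟨fun _ => false, by simp [ht]⟩
  | succ K ih =>
    have hw' : ∀ k < K, w k ≤ 1 + ∑ l ∈ range k, w l := fun k hk => hw k (by omega)
    rw [sum_range_succ] at ht
    by_cases hc : t ≤ ∑ l ∈ range K, w l
    · obtain ⟨o, ho⟩ := ih hw' t hc
      refine ⟨Function.update o K false, ?_⟩
      rw [sum_range_succ]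
      simp only [Function.update_self, Bool.false_eq_true, if_false, add_zero]
      rw [← ho]
      refine Finset.sum_congr rfl fun k hk => ?_
      have : k ≠ K := by
        simp only [mem_range] at hk
        omega
      simp [Function.update_of_ne this]
    · have h1 := hw K (by omega)
      obtain ⟨o, ho⟩ := ih hw' (t - w K) (by omega)
      refine ⟨Function.update o K true, ?_⟩
      rw [sum_range_succ]
      simp only [Function.update_self, if_true]
      have e : ∑ k ∈ range K, (if Function.update o K true k = true then w k else 0) =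
          ∑ k ∈ range K, (if o k = true then w k else 0) := by
        refine Finset.sum_congr rfl fun k hk => ?_
        have : k ≠ K := by
          simp only [mem_range] at hk
          omega
        simp [Function.update_of_ne this]
      rw [e, ho]
      omega

/-- Exact sizes: if the rows of `Y` of odd length have a complete multiplicity sequence
(e.g. all rows are distinct), every size between the floor sum and the ceiling sum is the size
of a child of an aligned pair cut, for some orientation. -/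
theorem exists_orientation_card (Y : YoungDiagram) (K : ℕ) (hK : Y.rowLen 0 < 2 * K)
    (hw : ∀ k < K, oddMult Y k ≤ 1 + ∑ l ∈ range k, oddMult Y l) (t : ℕ)
    (ht : t ≤ ∑ l ∈ range K, oddMult Y l) :
    ∃ o : ℕ → Bool, (cutV Y (pairN o) (isCount_pairN o)).card =
      ∑ i ∈ range (Y.colLen 0), Y.rowLen i / 2 + t := by
  obtain ⟨o, ho⟩ := exists_subset_sum (oddMult Y) K hw t ht
  exact ⟨o, by rw [card_cutV_pairN Y o K hK, ho]⟩

/-- Distinct rows: multiplicities at most one. -/
lemma oddMult_le_one (Y : YoungDiagram)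
    (hd : ∀ i j, i < Y.colLen 0 → j < Y.colLen 0 → Y.rowLen i = Y.rowLen j → i = j) (k : ℕ) :
    oddMult Y k ≤ 1 := by
  unfold oddMult
  rw [Finset.card_le_one]
  intro a ha b hb
  simp only [mem_filter, mem_range] at ha hb
  exact hd a b ha.1 hb.1 (by omega)

/-! ### `Q` and the cuts -/

variable {Y Z e1 e2 : YoungDiagram}

/-- Same column cut on both sides. -/
theorem Q.of_cutV {Y Z : YoungDiagram} {N N' M M' : ℕ → ℕ} (hN : IsCount N) (hN' : IsCount N')
    (hM : IsCount M) (hM' : IsCount M') (h1 : ∀ m, N m + N' m = m) (h2 : ∀ m, M m + M' m = m)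
    {e1 e2 : YoungDiagram} (h3 : Q (cutV Y N hN) (cutV Z M hM) e1)
    (h4 : Q (cutV Y N' hN') (cutV Z M' hM') e2) : Q Y Z (addD e1 e2) := by
  have := h3.add h4
  rwa [addD_cutV_of_compl Y hN hN' h1, addD_cutV_of_compl Z hM hM' h2] at this

/-- Same row cut on both sides. -/
theorem Q.of_cutH {Y Z : YoungDiagram} {N N' M M' : ℕ → ℕ} (hN : IsCount N) (hN' : IsCount N')
    (hM : IsCount M) (hM' : IsCount M') (h1 : ∀ m, N m + N' m = m) (h2 : ∀ m, M m + M' m = m)
    {e1 e2 : YoungDiagram} (h3 : Q (cutH Y N hN) (cutH Z M hM) e1)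
    (h4 : Q (cutH Y N' hN') (cutH Z M' hM') e2) : Q Y Z (addD e1 e2) := by
  have := h3.union12 h4
  rwa [unionD_cutH_of_compl Y hN hN' h1, unionD_cutH_of_compl Z hM hM' h2] at this

end Crest.Agent.Lib.Saxl
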