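import Mathlib

/-!
# Saxl foundation: words, polytabloids, Specht spans (general letter type)
-/

set_option autoImplicit false
set_option linter.unusedSectionVars false

namespace Crest.Agent.Lib.Saxl

open Equiv Finset

variable {L : Type} [Fintype L] [DecidableEq L]

/-- Row words. -/
abbrev Word (L : Type) := L → ℕ
/-- Free module on words. -/
abbrev Mod (L : Type) := Word L →₀ ℂ

/-- Renaming letters. -/
def act {L : Type} (g : Perm L) (w : Word L) : Word L := fun i => w (g.symm i)

@[simp] lemma act_one (w : Word L) : act (1 : Perm L) w = w := rfl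
lemma act_mul (g h : Perm L) (w : Word L) : act (g * h) w = act g (act h w) := rfl
@[simp] lemma act_inv_act (g : Perm L) (w : Word L) : act g⁻¹ (act g w) = w := by
  rw [← act_mul]; simp
@[simp] lemma act_act_inv (g : Perm L) (w : Word L) : act g (act g⁻¹ w) = w := by
  rw [← act_mul]; simp

lemma act_injective (g : Perm L) : Function.Injective (act g : Word L → Word L) := by
  intro a b h
  have := congrArg (act g⁻¹) h
  simpa using this

/-- The permutation representation on words. -/
noncomputable def rep (L : Type) : Representation ℂ (Perm L) (Mod L) where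
  toFun g := Finsupp.lmapDomain ℂ ℂ (act g)
  map_one' := by ext; simp
  map_mul' x y := by ext; simp [act_mul]

@[simp] lemma rep_single (g : Perm L) (w : Word L) (a : ℂ) :
    rep L g (Finsupp.single w a) = Finsupp.single (act g w) a := by
  simp [rep]

lemma rep_apply (g : Perm L) (x : Mod L) (w : Word L) :
    rep L g x w = x (act g⁻¹ w) := by
  have h : rep L g x = Finsupp.mapDomain (act g) x := rfl
  have h2 : w = act g (act g⁻¹ w) := by simp
  conv_lhs => rw [h2, h]
  exact Finsupp.mapDomain_apply (act_injective g) x _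

/-- Sign as a complex number. -/
noncomputable def sg (σ : Perm L) : ℂ := (((Perm.sign σ : ℤˣ) : ℤ) : ℂ)

lemma sg_mul (σ τ : Perm L) : sg (σ * τ) = sg σ * sg τ := by simp [sg]
@[simp] lemma sg_one : sg (1 : Perm L) = 1 := by simp [sg]
lemma sg_sq (σ : Perm L) : sg σ * sg σ = 1 := by
  rw [← sg_mul]
  unfold sg
  rcases Int.units_eq_one_or (Perm.sign σ) with h | h <;> simp [h]
lemma sg_inv (σ : Perm L) : sg σ⁻¹ = sg σ := by simp [sg]
lemma sg_conj (g σ : Perm L) : sg (g * σ * g⁻¹) = sg σ := by
  rw [sg_mul, sg_mul, sg_inv]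
  calc sg g * sg σ * sg g = (sg g * sg g) * sg σ := by ring
    _ = sg σ := by rw [sg_sq, one_mul]
lemma sg_ne_zero (σ : Perm L) : sg σ ≠ 0 := by
  intro h; have := sg_sq σ; simp [h] at this
@[simp] lemma sg_swap {a b : L} (h : a ≠ b) : sg (swap a b) = -1 := by
  simp [sg, Perm.sign_swap h]
lemma conj_sg (σ : Perm L) : (starRingEnd ℂ) (sg σ) = sg σ := by
  unfold sg
  simp

variable {D : Finset (ℕ × ℕ)}

/-- Row word of a tableau. -/
def rw (t : D ≃ L) : Word L := fun i => (t.symm i).1.1
/-- Column function of a tableau. -/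
def cl (t : D ≃ L) : L → ℕ := fun i => (t.symm i).1.2

/-- Column group. -/
def colGroup (t : D ≃ L) : Finset (Perm L) :=
  Finset.univ.filter fun σ => ∀ i, cl t (σ i) = cl t i

lemma mem_colGroup {t : D ≃ L} {σ : Perm L} :
    σ ∈ colGroup t ↔ ∀ i, cl t (σ i) = cl t i := by
  simp [colGroup]

lemma one_mem_colGroup (t : D ≃ L) : (1 : Perm L) ∈ colGroup t := by
  simp [mem_colGroup]

lemma mul_mem_colGroup {t : D ≃ L} {σ τ : Perm L} (h1 : σ ∈ colGroup t) (h2 : τ ∈ colGroup t) :
    σ * τ ∈ colGroup t := by
  rw [mem_colGroup] at *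
  intro i
  rw [Perm.mul_apply, h1, h2]

lemma inv_mem_colGroup {t : D ≃ L} {σ : Perm L} (h1 : σ ∈ colGroup t) :
    σ⁻¹ ∈ colGroup t := by
  rw [mem_colGroup] at *
  intro i
  have := h1 (σ⁻¹ i)
  simp at this
  exact this.symm

/-- Polytabloid. -/
noncomputable def poly (t : D ≃ L) : Mod L :=
  ∑ σ ∈ colGroup t, sg σ • Finsupp.single (act σ (rw t)) (1 : ℂ)

/-- Signed column sum. -/
noncomputable def kap (t : D ≃ L) : Mod L →ₗ[ℂ] Mod L :=
  ∑ σ ∈ colGroup t, sg σ • rep L σ

lemma kap_apply (t : D ≃ L) (x : Mod L) :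
    kap t x = ∑ σ ∈ colGroup t, sg σ • rep L σ x := by
  simp [kap, LinearMap.sum_apply]

lemma poly_eq_kap (t : D ≃ L) : poly t = kap t (Finsupp.single (rw t) 1) := by
  simp [poly, kap_apply]

/-- `kap` absorbs column permutations on the right. -/
lemma kap_rep (t : D ≃ L) {τ : Perm L} (h : τ ∈ colGroup t) (x : Mod L) :
    kap t (rep L τ x) = sg τ • kap t x := by
  rw [kap_apply, kap_apply, Finset.smul_sum]
  refine Finset.sum_bij' (fun σ _ => σ * τ) (fun σ _ => σ * τ⁻¹)
    (fun σ hσ => mul_mem_colGroup hσ h)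
    (fun σ hσ => mul_mem_colGroup hσ (inv_mem_colGroup h))
    (by simp) (by simp) ?_
  intro σ _
  have e : rep L (σ * τ) x = rep L σ (rep L τ x) := by rw [map_mul]; rfl
  rw [sg_mul, e, smul_smul]
  congr 1
  calc sg σ = sg σ * (sg τ * sg τ) := by rw [sg_sq]; ring
    _ = _ := by ring

/-- `kap` absorbs column permutations on the left. -/
lemma rep_kap (t : D ≃ L) {τ : Perm L} (h : τ ∈ colGroup t) (x : Mod L) :
    rep L τ (kap t x) = sg τ • kap t x := by
  rw [kap_apply, Finset.smul_sum, map_sum]
  refine Finset.sum_bij' (fun σ _ => τ * σ) (fun σ _ => τ⁻¹ * σ)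
    (fun σ hσ => mul_mem_colGroup h hσ)
    (fun σ hσ => mul_mem_colGroup (inv_mem_colGroup h) hσ)
    (by simp) (by simp) ?_
  intro σ _
  have e : rep L (τ * σ) x = rep L τ (rep L σ x) := by rw [map_mul]; rfl
  rw [sg_mul, map_smul, e, smul_smul]
  congr 1
  calc sg σ = (sg τ * sg τ) * sg σ := by rw [sg_sq]; ring
    _ = _ := by ring

lemma kap_kap (t : D ≃ L) (x : Mod L) :
    kap t (kap t x) = ((colGroup t).card : ℂ) • kap t x := by
  conv_lhs => rw [kap_apply]
  have : ∀ σ ∈ colGroup t, sg σ • rep L σ (kap t x) = kap t x := by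
    intro σ hσ
    rw [rep_kap t hσ, smul_smul, sg_sq, one_smul]
  rw [Finset.sum_congr rfl this]
  simp [Nat.cast_smul_eq_nsmul]

lemma rw_trans (t : D ≃ L) (g : Perm L) : rw (t.trans g) = act g (rw t) := rfl
lemma cl_trans (t : D ≃ L) (g : Perm L) (i : L) : cl (t.trans g) i = cl t (g⁻¹ i) := rfl

lemma mem_colGroup_trans (t : D ≃ L) (g σ : Perm L) :
    g * σ * g⁻¹ ∈ colGroup (t.trans g) ↔ σ ∈ colGroup t := by
  simp only [mem_colGroup, cl_trans]
  constructor
  · intro h i
    have := h (g i)
    simpa using this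
  · intro h i
    simpa using h (g⁻¹ i)

/-- Renaming a tableau renames its polytabloid. -/
lemma rep_poly (t : D ≃ L) (g : Perm L) : rep L g (poly t) = poly (t.trans g) := by
  unfold poly
  rw [map_sum]
  refine Finset.sum_bij' (fun σ _ => g * σ * g⁻¹) (fun σ _ => g⁻¹ * σ * g)
    (fun σ hσ => (mem_colGroup_trans t g σ).2 hσ)
    (fun σ hσ => by
      have : g * (g⁻¹ * σ * g) * g⁻¹ ∈ colGroup (t.trans g) := by
        simpa [mul_assoc] using hσ
      exact (mem_colGroup_trans t g _).1 this)
    (by intro σ _; simp [mul_assoc]) (by intro σ _; simp [mul_assoc]) ?_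
  intro σ _
  rw [map_smul, rep_single, sg_conj, rw_trans, ← act_mul, ← act_mul]
  simp

/-- The span of all polytabloids of shape `D`. -/
noncomputable def Sp (D : Finset (ℕ × ℕ)) (L : Type) [Fintype L] [DecidableEq L] :
    Submodule ℂ (Mod L) :=
  Submodule.span ℂ (Set.range fun t : D ≃ L => poly t)

lemma poly_mem_Sp (t : D ≃ L) : poly t ∈ Sp D L := Submodule.subset_span ⟨t, rfl⟩

lemma rep_mem_Sp (g : Perm L) {x : Mod L} (hx : x ∈ Sp D L) : rep L g x ∈ Sp D L := by
  induction hx using Submodule.span_induction with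
  | mem x h =>
    obtain ⟨t, rfl⟩ := h
    rw [rep_poly]
    exact poly_mem_Sp _
  | zero => simp
  | add x y _ _ hx hy => rw [map_add]; exact Submodule.add_mem _ hx hy
  | smul a x _ hx => rw [map_smul]; exact Submodule.smul_mem _ _ hx

lemma kap_mem_Sp (t : D ≃ L) {x : Mod L} (hx : x ∈ Sp D L) : kap t x ∈ Sp D L := by
  rw [kap_apply]
  exact Submodule.sum_mem _ fun σ _ => Submodule.smul_mem _ _ (rep_mem_Sp σ hx)

/-- Bilinear form on `Mod L`. -/
noncomputable def B (x y : Mod L) : ℂ := x.sum fun w a => a * y w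

@[simp] lemma B_single_left (w : Word L) (a : ℂ) (y : Mod L) :
    B (Finsupp.single w a) y = a * y w := by
  simp [B]

@[simp] lemma B_zero_left (y : Mod L) : B (0 : Mod L) y = 0 := by simp [B]

lemma B_add_left (x x' y : Mod L) : B (x + x') y = B x y + B x' y := by
  unfold B
  exact Finsupp.sum_add_index' (by simp) (by intro w a b; ring)

lemma B_smul_left (c : ℂ) (x y : Mod L) : B (c • x) y = c * B x y := by
  induction x using Finsupp.induction_linear with
  | zero => simp
  | add a b ha hb => rw [smul_add, B_add_left, B_add_left, ha, hb]; ring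
  | single w a =>
    rw [Finsupp.smul_single, B_single_left, B_single_left, smul_eq_mul, mul_assoc]

lemma B_add_right (x y y' : Mod L) : B x (y + y') = B x y + B x y' := by
  induction x using Finsupp.induction_linear with
  | zero => simp
  | add a b ha hb => rw [B_add_left, B_add_left, B_add_left, ha, hb]; ring
  | single w a => simp [mul_add]

lemma B_zero_right (x : Mod L) : B x 0 = 0 := by
  induction x using Finsupp.induction_linear with
  | zero => simp
  | add a b ha hb => rw [B_add_left, ha, hb]; simp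
  | single w a => simp

lemma B_smul_right (c : ℂ) (x y : Mod L) : B x (c • y) = c * B x y := by
  induction x using Finsupp.induction_linear with
  | zero => simp
  | add a b ha hb => rw [B_add_left, B_add_left, ha, hb]; ring
  | single w a => simp; ring

lemma B_sum_left {ι : Type*} (s : Finset ι) (f : ι → Mod L) (y : Mod L) :
    B (∑ i ∈ s, f i) y = ∑ i ∈ s, B (f i) y := by
  classical
  induction s using Finset.induction_on with
  | empty => simp
  | insert a s ha ih => rw [Finset.sum_insert ha, Finset.sum_insert ha, B_add_left, ih]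

lemma B_sum_right {ι : Type*} (s : Finset ι) (x : Mod L) (f : ι → Mod L) :
    B x (∑ i ∈ s, f i) = ∑ i ∈ s, B x (f i) := by
  classical
  induction s using Finset.induction_on with
  | empty => simp [B_zero_right]
  | insert a s ha ih => rw [Finset.sum_insert ha, Finset.sum_insert ha, B_add_right, ih]

lemma B_comm (x y : Mod L) : B x y = B y x := by
  induction x using Finsupp.induction_linear with
  | zero =>
    simp only [B_zero_left]
    induction y using Finsupp.induction_linear with
    | zero => simp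
    | add a b ha hb => rw [B_add_left, ← ha, ← hb]; simp
    | single w a => simp
  | add a b ha hb => rw [B_add_left, B_add_right, ha, hb]
  | single w a =>
    induction y using Finsupp.induction_linear with
    | zero => simp
    | add c d hc hd => rw [B_add_right, B_add_left, hc, hd]
    | single w' b =>
      simp only [B_single_left, Finsupp.single_apply]
      by_cases h : w = w'
      · subst h; simp; ring
      · have h' : w' ≠ w := fun e => h e.symm
        simp [h, h']

lemma B_rep (g : Perm L) (x y : Mod L) : B (rep L g x) y = B x (rep L g⁻¹ y) := by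
  induction x using Finsupp.induction_linear with
  | zero => simp
  | add a b ha hb => rw [map_add, B_add_left, B_add_left, ha, hb]
  | single w a =>
    rw [rep_single, B_single_left, B_single_left, rep_apply]
    simp

lemma B_kap (t : D ≃ L) (x y : Mod L) : B (kap t x) y = B x (kap t y) := by
  rw [kap_apply, kap_apply, B_sum_left, B_sum_right]
  refine Finset.sum_bij' (fun σ _ => σ⁻¹) (fun σ _ => σ⁻¹)
    (fun σ hσ => inv_mem_colGroup hσ) (fun σ hσ => inv_mem_colGroup hσ)
    (by simp) (by simp) ?_
  intro σ _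
  rw [B_smul_left, B_smul_right, B_rep, sg_inv]

/-- Complex conjugation on `Mod L`. -/
noncomputable def cj (x : Mod L) : Mod L :=
  Finsupp.mapRange (starRingEnd ℂ) (map_zero _) x

@[simp] lemma cj_apply (x : Mod L) (w : Word L) : cj x w = (starRingEnd ℂ) (x w) := by
  simp [cj]

lemma cj_add (x y : Mod L) : cj (x + y) = cj x + cj y := by
  ext w; simp

lemma cj_smul (c : ℂ) (x : Mod L) : cj (c • x) = (starRingEnd ℂ) c • cj x := by
  ext w; simp

@[simp] lemma cj_zero : cj (0 : Mod L) = 0 := by ext w; simp

lemma cj_single (w : Word L) (a : ℂ) :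
    cj (Finsupp.single w a) = Finsupp.single w ((starRingEnd ℂ) a) := by
  ext w'
  by_cases h : w = w' <;> simp [Finsupp.single_apply, h]

lemma cj_sum {ι : Type*} (s : Finset ι) (f : ι → Mod L) :
    cj (∑ i ∈ s, f i) = ∑ i ∈ s, cj (f i) := by
  classical
  induction s using Finset.induction_on with
  | empty => simp
  | insert a s ha ih => rw [Finset.sum_insert ha, Finset.sum_insert ha, cj_add, ih]

lemma cj_poly (t : D ≃ L) : cj (poly t) = poly t := by
  unfold poly
  rw [cj_sum]
  refine Finset.sum_congr rfl fun σ _ => ?_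
  rw [cj_smul, conj_sg, cj_single]
  simp

lemma cj_mem_Sp {x : Mod L} (hx : x ∈ Sp D L) : cj x ∈ Sp D L := by
  induction hx using Submodule.span_induction with
  | mem x h =>
    obtain ⟨t, rfl⟩ := h
    simp only [cj_poly]
    exact poly_mem_Sp _
  | zero => simp
  | add x y _ _ hx hy => rw [cj_add]; exact Submodule.add_mem _ hx hy
  | smul a x _ hx => rw [cj_smul]; exact Submodule.smul_mem _ _ hx

lemma B_cj_self_eq_zero {x : Mod L} (h : B x (cj x) = 0) : x = 0 := by
  have h1 : B x (cj x) = ∑ w ∈ x.support, ((‖x w‖ ^ 2 : ℝ) : ℂ) := by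
    unfold B Finsupp.sum
    refine Finset.sum_congr rfl fun w _ => ?_
    show x w * (cj x) w = _
    rw [cj_apply, Complex.mul_conj, Complex.normSq_eq_norm_sq]
  rw [h1] at h
  have h2 : ∑ w ∈ x.support, (‖x w‖ ^ 2 : ℝ) = 0 := by exact_mod_cast h
  have h3 := (Finset.sum_eq_zero_iff_of_nonneg (fun w _ => by positivity)).1 h2
  by_contra hne
  obtain ⟨w, hw⟩ := Finsupp.support_nonempty_iff.2 hne
  have := h3 w hw
  simp at this
  exact (Finsupp.mem_support_iff.1 hw) this

/-- If `x ∈ Sp` is `B`-orthogonal to all polytabloids, it vanishes. -/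
lemma eq_zero_of_B_poly {x : Mod L} (hx : x ∈ Sp D L) (h : ∀ t : D ≃ L, B x (poly t) = 0) :
    x = 0 := by
  apply B_cj_self_eq_zero
  have key : ∀ y ∈ Sp D L, B x y = 0 := by
    intro y hy
    induction hy using Submodule.span_induction with
    | mem y hy => obtain ⟨t, rfl⟩ := hy; exact h t
    | zero => exact B_zero_right x
    | add y z _ _ hy hz => rw [B_add_right, hy, hz]; simp
    | smul a y _ hy => rw [B_smul_right, hy]; simp
  exact key _ (cj_mem_Sp hx)

end Crest.Agent.Lib.Saxl
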