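import Crest.Agent.Lib.Saxl.Word

/-!
# Saxl: the family `X_n` of self-conjugate near-staircases (helper20's canonical list)

A self-conjugate shape is `shape (selfW u)`, `selfW u = u ++ flipW u`, of size
`2 * area u + (nE u)^2`.

`uOf n` is the half word: with `y = sideH n` (least `y` with `n ≤ T_y`), `c = T_y - n`:

* `c = 0`: the staircase `(EN)^y`;
* `c ≡ y mod 2`, `c > 0`: type `-`, word `(EN)^a (NE)^c (EN)^a`, `a = (y-c)/2`;
  half word `famU a k []` (`c = 2k+1`) or `famU a k [E]` (`c = 2k+2`);
* `y` odd, `c` even `> 0`: word `(EN)^a (NE)^b E N (NE)^b (EN)^a`, `c = 2b`, `a = (y-c-1)/2`;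
  half word `(EN)^a (NE)^b E = famU a (b-1) [E, E]` (list of helper20, #1914: replaces the old type `+`);
* `y` even, `c` odd `≥ 3`: hard, word `(EN)^a (NE)^b N N E E (NE)^b (EN)^a`, `b = (c-3)/2`,
  half word `famU a b [N]`;
* `y` even, `c = 1`: hard1, word `(NE) (EN)^a E E N N (EN)^a (NE)`, `a = (y-4)/2`,
  half word `N E (EN)^a E E`.

`XF n = shape (selfW (uOf n))`: `XF_transpose`, `card_XF (n ≠ 2)`, `XF_tri : XF (triN m) = stairD m`.

Chain form: `wordF n = chainW a b G = (EN)^a (NE)^b G (NE)^b (EN)^a`, with the frozen centre gadget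
`G ∈ {[], NE, EN, NNEE}` (`wordF_chain_*`), or `hard1W a` when `y` is even and `c = 1`.

`S0297_of_UU`, `S0298_of_UU`: the two statements follow from `UU n` (`∀ c, c.card = n → TT (XF n) c`).

`TT.selfGrid`: the grid at a self-conjugate word with tags: `A = selfW (tag true letters)`,
`D = selfW (tag false letters)`, `U`, `U'` conjugate. `TT.peel`, `exists_tags`: peel from a sub-word.
-/

set_option autoImplicit false
set_option linter.unusedSectionVars false

namespace Crest.Agent.Lib.Saxl

/-! ### Areas -/

lemma nE_append (a b : List Bool) : nE (a ++ b) = nE a + nE b := by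
  simp [nE, List.count_append]

lemma nN_append (a b : List Bool) : nN (a ++ b) = nN a + nN b := by
  simp [nN, List.count_append]

@[simp] lemma nE_nil : nE [] = 0 := rfl
@[simp] lemma nN_nil : nN [] = 0 := rfl
@[simp] lemma nE_single_true : nE [true] = 1 := rfl
@[simp] lemma nE_single_false : nE [false] = 0 := rfl
@[simp] lemma nN_single_true : nN [true] = 0 := rfl
@[simp] lemma nN_single_false : nN [false] = 1 := rfl

lemma area_append_false (w : List Bool) : area (w ++ [false]) = nE w + area w := by
  unfold area
  rw [rowsW_append_false]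
  simp

lemma area_append_true (w : List Bool) : area (w ++ [true]) = area w := by
  unfold area
  rw [rowsW_append_true]

/-- Area of a concatenation. -/
theorem area_append (a b : List Bool) : area (a ++ b) = area a + area b + nE a * nN b := by
  induction b using List.reverseRecOn with
  | nil => simp [area, rowsW, rowsAux]
  | append_singleton b x ih =>
    rw [← List.append_assoc]
    cases x with
    | false =>
      rw [area_append_false, area_append_false, ih, nE_append, nN_append]
      simp only [nN_single_false]
      ring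
    | true =>
      rw [area_append_true, area_append_true, ih, nN_append]
      simp only [nN_single_true]
      ring

lemma nN_flipW (w : List Bool) : nN (flipW w) = nE w := by
  have := nE_flipW (flipW w)
  rw [flipW_flipW] at this
  exact this.symm

lemma area_flipW (w : List Bool) : area (flipW w) = area w := by
  rw [← card_shape, ← card_shape, shape_flipW, card_transpose']

/-- The self-conjugate word of a half word. -/
def selfW (u : List Bool) : List Bool := u ++ flipW u

lemma flipW_append (a b : List Bool) : flipW (a ++ b) = flipW b ++ flipW a := by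
  simp [flipW]

lemma flipW_selfW (u : List Bool) : flipW (selfW u) = selfW u := by
  unfold selfW
  rw [flipW_append, flipW_flipW]

lemma shape_selfW_transpose (u : List Bool) : (shape (selfW u)).transpose = shape (selfW u) := by
  rw [← shape_flipW, flipW_selfW]

theorem area_selfW (u : List Bool) : area (selfW u) = 2 * area u + nE u ^ 2 := by
  unfold selfW
  rw [area_append, area_flipW, nN_flipW]
  ring

lemma nN_stairW (m : ℕ) : nN (stairW m) = m := by
  induction m with
  | zero => rfl
  | succ m ih => simp [stairW, nN, List.count_append] at ih ⊢; omega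

lemma two_area_stairW (m : ℕ) : 2 * area (stairW m) = m * (m + 1) := by
  induction m with
  | zero => simp [stairW, area, rowsW, rowsAux]
  | succ m ih =>
    have e : stairW (m + 1) = (stairW m ++ [true]) ++ [false] := by simp [stairW]
    rw [e, area_append_false, area_append_true, nE_append, nE_stairW]
    simp only [nE_single_true]
    nlinarith

lemma stairW_add (a b : ℕ) : stairW (a + b) = stairW a ++ stairW b := by
  induction b with
  | zero => simp [stairW]
  | succ b ih =>
    rw [← add_assoc]
    simp only [stairW, ih, List.append_assoc]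

lemma flipW_stairW (m : ℕ) : flipW (stairW m) = stairW m := by
  induction m with
  | zero => rfl
  | succ m ih =>
    have e : stairW (m + 1) = stairW m ++ [true, false] := rfl
    rw [e, flipW_append, ih]
    have e2 : flipW [true, false] = [true, false] := rfl
    rw [e2]
    have e3 : stairW m ++ [true, false] = stairW (m + 1) := rfl
    have e4 : [true, false] ++ stairW m = stairW 1 ++ stairW m := rfl
    rw [e3, e4, ← stairW_add, add_comm]

/-! ### The family -/

/-- `(EN)^j N (EN)^k tail`. -/
def famU (j k : ℕ) (tail : List Bool) : List Bool := stairW j ++ [false] ++ stairW k ++ tail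

lemma nE_famU (j k : ℕ) (tail : List Bool) : nE (famU j k tail) = j + k + nE tail := by
  unfold famU
  simp only [nE_append, nE_stairW, nE_single_false]
  omega

lemma area_famU (j k : ℕ) (tail : List Bool) :
    2 * area (famU j k tail) =
      j * (j + 1) + k * (k + 1) + 2 * area tail + 2 * j + 2 * j * k + 2 * (j + k) * nN tail := by
  unfold famU
  rw [area_append, area_append, area_append]
  simp only [nE_append, nE_stairW, nN_stairW, nE_single_false, nN_single_false]
  have e1 := two_area_stairW j
  have e2 := two_area_stairW k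
  have e3 : area [false] = 0 := rfl
  rw [e3]
  nlinarith

theorem size_nil (j k : ℕ) : area (selfW (famU j k [])) = 2 * (j + k) ^ 2 + 3 * j + k := by
  rw [area_selfW, nE_famU]
  have := area_famU j k []
  have e : area ([] : List Bool) = 0 := rfl
  rw [e] at this
  simp only [nN_nil, nE_nil] at this ⊢
  nlinarith

theorem size_E (j k : ℕ) :
    area (selfW (famU j k [true])) = 2 * (j + k) ^ 2 + 5 * j + 3 * k + 1 := by
  rw [area_selfW, nE_famU]
  have := area_famU j k [true]
  have e : area [true] = 0 := rfl
  rw [e] at this
  simp only [nN_single_true, nE_single_true] at this ⊢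
  nlinarith

theorem size_N (j k : ℕ) :
    area (selfW (famU j k [false])) = 2 * (j + k) ^ 2 + 5 * j + 3 * k := by
  rw [area_selfW, nE_famU]
  have := area_famU j k [false]
  have e : area [false] = 0 := rfl
  rw [e] at this
  simp only [nN_single_false, nE_single_false] at this ⊢
  nlinarith

theorem size_EE (j k : ℕ) :
    area (selfW (famU j k [true, true])) = 2 * (j + k) ^ 2 + 7 * j + 5 * k + 4 := by
  rw [area_selfW, nE_famU]
  have := area_famU j k [true, true]
  have e : area [true, true] = 0 := rfl
  have e2 : nN [true, true] = 0 := rfl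
  have e3 : nE [true, true] = 2 := rfl
  rw [e, e2] at this
  rw [e3]
  nlinarith

/-- The half word of type hard1. -/
def hard1U (a : ℕ) : List Bool := [false, true] ++ stairW a ++ [true, true]

theorem size_hard1 (a : ℕ) : area (selfW (hard1U a)) = 2 * a ^ 2 + 9 * a + 9 := by
  rw [area_selfW]
  unfold hard1U
  rw [area_append, area_append]
  simp only [nE_append, nE_stairW, nN_stairW]
  have e1 := two_area_stairW a
  have e3 : area [true, true] = 0 := rfl
  have e4 : area [false, true] = 0 := rfl
  have e5 : nE [false, true] = 1 := rfl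
  have e6 : nE [true, true] = 2 := rfl
  have e7 : nN [true, true] = 0 := rfl
  rw [e3, e4, e5, e6, e7]
  nlinarith

/-! ### The side and the half word of `n` -/

/-- Triangular numbers. -/
def triN (k : ℕ) : ℕ := k * (k + 1) / 2

lemma two_triN (k : ℕ) : 2 * triN k = k * (k + 1) := by
  unfold triN
  have : 2 ∣ k * (k + 1) := (Nat.even_mul_succ_self k).two_dvd
  omega

lemma triN_succ (k : ℕ) : triN (k + 1) = triN k + k + 1 := by
  have h1 := two_triN k
  have h2 := two_triN (k + 1)
  nlinarith

lemma triN_mono {a b : ℕ} (h : a ≤ b) : triN a ≤ triN b := by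
  have h1 := two_triN a
  have h2 := two_triN b
  have : a * (a + 1) ≤ b * (b + 1) := Nat.mul_le_mul h (by omega)
  omega

/-- `sideH n`: the least `y` with `n ≤ T_y`. -/
def sideH : ℕ → ℕ
  | 0 => 0
  | n + 1 => if n + 1 ≤ triN (sideH n) then sideH n else sideH n + 1

lemma sideH_spec (n : ℕ) : n ≤ triN (sideH n) ∧ (1 ≤ n → 1 ≤ sideH n ∧ triN (sideH n - 1) < n) := by
  induction n with
  | zero => simp [sideH, triN]
  | succ n ih =>
    obtain ⟨h2, h3⟩ := ih
    simp only [sideH]
    split_ifs with h
    · refine ⟨h, fun _ => ?_⟩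
      by_cases hn : 1 ≤ n
      · obtain ⟨h4, h5⟩ := h3 hn
        exact ⟨h4, by omega⟩
      · have hn0 : n = 0 := by omega
        subst hn0
        simp [sideH, triN] at h
    · refine ⟨?_, fun _ => ?_⟩
      · rw [triN_succ]
        omega
      · refine ⟨by omega, ?_⟩
        simp only [Nat.add_sub_cancel]
        omega

lemma sideH_tri (m : ℕ) : sideH (triN m) = m := by
  by_cases hm : m = 0
  · subst hm
    rfl
  have hpos : 1 ≤ triN m := by
    have h := two_triN m
    have : 1 ≤ m * (m + 1) := Nat.mul_pos (by omega) (by omega)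
    omega
  obtain ⟨h2, h3⟩ := sideH_spec (triN m)
  obtain ⟨h4, h5⟩ := h3 hpos
  generalize sideH (triN m) = y at *
  have h6 : m ≤ y := by
    by_contra hc
    have := triN_mono (show y + 1 ≤ m by omega)
    rw [triN_succ] at this
    have h7 := two_triN y
    omega
  have h7 : y - 1 < m := by
    by_contra hc
    have := triN_mono (show m ≤ y - 1 by omega)
    omega
  omega

/-- The half word of `n`. -/
def uOf (n : ℕ) : List Bool :=
  let y := sideH n
  let c := triN y - n
  if c = 0 then
    (if y % 2 = 0 then stairW (y / 2) else stairW (y / 2) ++ [true])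
  else if c % 2 = y % 2 then
    (if c % 2 = 1 then famU ((y - c) / 2) ((c - 1) / 2) []
     else famU ((y - c) / 2) ((c - 2) / 2) [true])
  else if y % 2 = 1 then famU ((y - c - 1) / 2) ((c - 2) / 2) [true, true]
  else if c = 1 then hard1U ((y - 4) / 2)
  else famU ((y - 2 - (c - 3)) / 2) ((c - 3) / 2) [false]

/-- The word of `n`. -/
def wordF (n : ℕ) : List Bool := selfW (uOf n)

/-- The shape `X_n`. -/
noncomputable def XF (n : ℕ) : YoungDiagram := shape (wordF n)

theorem XF_transpose (n : ℕ) : (XF n).transpose = XF n := shape_selfW_transpose _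

lemma area_selfW_stair_even (i : ℕ) : selfW (stairW i) = stairW (i + i) := by
  unfold selfW
  rw [flipW_stairW, stairW_add]

lemma area_selfW_stair_odd (i : ℕ) : selfW (stairW i ++ [true]) = stairW (i + 1 + i) := by
  unfold selfW
  rw [flipW_append, flipW_stairW, stairW_add]
  have e : stairW (i + 1) = stairW i ++ [true, false] := rfl
  rw [e]
  simp [flipW]

lemma area_stairW (m : ℕ) : area (stairW m) = triN m := by
  have h1 := two_area_stairW m
  have h2 := two_triN m
  omega

lemma arith_nil (a k : ℕ) :
    triN (2 * a + (2 * k + 1)) - (2 * k + 1) = 2 * (a + k) ^ 2 + 3 * a + k := by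
  have h := two_triN (2 * a + (2 * k + 1))
  have e : 2 * (2 * (a + k) ^ 2 + 3 * a + k) + 2 * (2 * k + 1) =
      (2 * a + (2 * k + 1)) * (2 * a + (2 * k + 1) + 1) := by ring
  omega

lemma arith_E (a k : ℕ) :
    triN (2 * a + (2 * k + 2)) - (2 * k + 2) = 2 * (a + k) ^ 2 + 5 * a + 3 * k + 1 := by
  have h := two_triN (2 * a + (2 * k + 2))
  have e : 2 * (2 * (a + k) ^ 2 + 5 * a + 3 * k + 1) + 2 * (2 * k + 2) =
      (2 * a + (2 * k + 2)) * (2 * a + (2 * k + 2) + 1) := by ring
  omega

lemma arith_EE (a k : ℕ) :
    triN (2 * a + (2 * k + 2) + 1) - (2 * k + 2) = 2 * (a + k) ^ 2 + 7 * a + 5 * k + 4 := by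
  have h := two_triN (2 * a + (2 * k + 2) + 1)
  have e : 2 * (2 * (a + k) ^ 2 + 7 * a + 5 * k + 4) + 2 * (2 * k + 2) =
      (2 * a + (2 * k + 2) + 1) * (2 * a + (2 * k + 2) + 1 + 1) := by ring
  omega

lemma arith_hard1 (a : ℕ) : triN (2 * a + 4) - 1 = 2 * a ^ 2 + 9 * a + 9 := by
  have h := two_triN (2 * a + 4)
  have e : 2 * (2 * a ^ 2 + 9 * a + 9) + 2 = (2 * a + 4) * (2 * a + 4 + 1) := by ring
  omega

lemma arith_hard (a b : ℕ) :
    triN (2 * a + 2 * b + 2) - (2 * b + 3) = 2 * (a + b) ^ 2 + 5 * a + 3 * b := by
  have h := two_triN (2 * a + 2 * b + 2)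
  have e : 2 * (2 * (a + b) ^ 2 + 5 * a + 3 * b) + 2 * (2 * b + 3) =
      (2 * a + 2 * b + 2) * (2 * a + 2 * b + 2 + 1) := by ring
  omega

theorem area_wordF (n : ℕ) (hn : n ≠ 2) : area (wordF n) = n := by
  by_cases hn0 : n = 0
  · subst hn0
    rfl
  obtain ⟨h2, h3⟩ := sideH_spec n
  obtain ⟨h1, h4⟩ := h3 (by omega)
  unfold wordF uOf
  simp only
  generalize sideH n = y at *
  have hsucc : triN y = triN (y - 1) + y := by
    have := triN_succ (y - 1)
    rw [Nat.sub_add_cancel h1] at this
    omega
  obtain ⟨c, hc⟩ : ∃ c, c = triN y - n := ⟨_, rfl⟩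
  rw [← hc]
  have hcy : c < y := by omega
  have hn' : n = triN y - c := by omega
  split_ifs with hc0 hy0 hcy2 hc1 hy1 hc1'
  · -- staircase, even
    obtain ⟨i, hi⟩ : ∃ i, y = i + i := ⟨y / 2, by omega⟩
    have e : y / 2 = i := by omega
    rw [e, area_selfW_stair_even, area_stairW, hi.symm, hn', hc0]
    simp
  · obtain ⟨i, hi⟩ : ∃ i, y = i + 1 + i := ⟨y / 2, by omega⟩
    have e : y / 2 = i := by omega
    rw [e, area_selfW_stair_odd, area_stairW, hi.symm, hn', hc0]
    simp
  · -- type minus, c odd
    obtain ⟨k, hk⟩ : ∃ k, c = 2 * k + 1 := ⟨c / 2, by omega⟩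
    obtain ⟨a, ha⟩ : ∃ a, y = 2 * a + c := ⟨(y - c) / 2, by omega⟩
    have e1 : (y - c) / 2 = a := by omega
    have e2 : (c - 1) / 2 = k := by omega
    rw [e1, e2, size_nil, hn', ha, hk, arith_nil]
  · obtain ⟨k, hk⟩ : ∃ k, c = 2 * k + 2 := ⟨(c - 2) / 2, by omega⟩
    obtain ⟨a, ha⟩ : ∃ a, y = 2 * a + c := ⟨(y - c) / 2, by omega⟩
    have e1 : (y - c) / 2 = a := by omega
    have e2 : (c - 2) / 2 = k := by omega
    rw [e1, e2, size_E, hn', ha, hk, arith_E]
  · -- `y` odd, `c` even
    obtain ⟨k, hk⟩ : ∃ k, c = 2 * k + 2 := ⟨(c - 2) / 2, by omega⟩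
    obtain ⟨a, ha⟩ : ∃ a, y = 2 * a + c + 1 := ⟨(y - c - 1) / 2, by omega⟩
    have e1 : (c - 2) / 2 = k := by omega
    have e2 : (y - c - 1) / 2 = a := by omega
    rw [e1, e2, size_EE, hn', ha, hk, arith_EE]
  · -- hard1
    by_cases hy2 : y = 2
    · exfalso
      apply hn
      rw [hn', hy2, hc1']
      rfl
    · obtain ⟨a, ha⟩ : ∃ a, y = 2 * a + 4 := ⟨(y - 4) / 2, by omega⟩
      have e1 : (y - 4) / 2 = a := by omega
      rw [e1, size_hard1, hn', ha, hc1', arith_hard1]
  · -- hard
    obtain ⟨b, hb⟩ : ∃ b, c = 2 * b + 3 := ⟨(c - 3) / 2, by omega⟩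
    obtain ⟨a, ha⟩ : ∃ a, y = 2 * a + 2 * b + 2 := ⟨(y - 2 - (c - 3)) / 2, by omega⟩
    have e1 : (c - 3) / 2 = b := by omega
    have e2 : (y - 2 - (c - 3)) / 2 = a := by omega
    rw [e1, e2, size_N, hn', ha, hb, arith_hard]

theorem card_XF (n : ℕ) (hn : n ≠ 2) : (XF n).card = n := by
  unfold XF
  rw [card_shape, area_wordF n hn]

/-! ### Chain form -/

/-- `(NE)^k`. -/
def neW : ℕ → List Bool
  | 0 => []
  | k + 1 => neW k ++ [false, true]

/-- `(EN)^a (NE)^b G (NE)^b (EN)^a`. -/
def chainW (a b : ℕ) (G : List Bool) : List Bool := stairW a ++ neW b ++ G ++ neW b ++ stairW a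

/-- `(NE) (EN)^a E E N N (EN)^a (NE)`. -/
def hard1W (a : ℕ) : List Bool := [false, true] ++ stairW a ++ [true, true, false, false] ++ stairW a ++ [false, true]

lemma neW_add (a b : ℕ) : neW (a + b) = neW a ++ neW b := by
  induction b with
  | zero => simp [neW]
  | succ b ih =>
    rw [← add_assoc]
    simp only [neW, ih, List.append_assoc]

lemma false_stairW (k : ℕ) : [false] ++ stairW k = neW k ++ [false] := by
  induction k with
  | zero => rfl
  | succ k ih =>
    have e : stairW (k + 1) = stairW k ++ [true, false] := rfl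
    have e2 : neW (k + 1) = neW k ++ [false, true] := rfl
    rw [e, e2, ← List.append_assoc, ih]
    simp

lemma flipW_neW (m : ℕ) : flipW (neW m) = neW m := by
  induction m with
  | zero => rfl
  | succ m ih =>
    have e : neW (m + 1) = neW m ++ [false, true] := rfl
    rw [e, flipW_append, ih]
    have e2 : flipW [false, true] = [false, true] := rfl
    rw [e2]
    have e3 : neW m ++ [false, true] = neW (m + 1) := rfl
    have e4 : [false, true] ++ neW m = neW 1 ++ neW m := rfl
    rw [e3, e4, ← neW_add, add_comm]

lemma selfW_of_half (a b : ℕ) (v : List Bool) :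
    selfW (stairW a ++ neW b ++ v) = chainW a b (v ++ flipW v) := by
  unfold selfW chainW
  rw [flipW_append, flipW_append, flipW_stairW, flipW_neW]
  simp only [List.append_assoc]

lemma famU_nil (a k : ℕ) : famU a k [] = stairW a ++ neW k ++ [false] := by
  unfold famU
  rw [List.append_assoc (stairW a) [false], false_stairW]
  simp

lemma famU_E (a k : ℕ) : famU a k [true] = stairW a ++ neW (k + 1) ++ [] := by
  unfold famU
  rw [List.append_assoc (stairW a) [false], false_stairW]
  simp [neW]

lemma famU_N (a k : ℕ) : famU a k [false] = stairW a ++ neW k ++ [false, false] := by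
  unfold famU
  rw [List.append_assoc (stairW a) [false], false_stairW]
  simp

lemma famU_EE (a k : ℕ) : famU a k [true, true] = stairW a ++ neW (k + 1) ++ [true] := by
  unfold famU
  rw [List.append_assoc (stairW a) [false], false_stairW]
  simp [neW]

/-- `x` even, `c` even: `G` empty (`b = 0` is the staircase). -/
theorem wordF_chain_even {n : ℕ} (hx : sideH n % 2 = 0) (hc : (triN (sideH n) - n) % 2 = 0) :
    wordF n = chainW ((sideH n - (triN (sideH n) - n)) / 2) ((triN (sideH n) - n) / 2) [] := by
  unfold wordF uOf
  simp only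
  generalize sideH n = y at *
  generalize triN y - n = c at *
  by_cases hc0 : c = 0
  · subst hc0
    simp only [if_true, hx, Nat.zero_div, Nat.sub_zero]
    have := selfW_of_half (y / 2) 0 []
    simpa [neW, chainW, flipW] using this
  · rw [if_neg hc0, if_pos (by omega), if_neg (by omega)]
    obtain ⟨k, rfl⟩ : ∃ k, c = 2 * k + 2 := ⟨(c - 2) / 2, by omega⟩
    have e : (2 * k + 2 - 2) / 2 = k := by omega
    have e2 : (2 * k + 2) / 2 = k + 1 := by omega
    rw [e, e2, famU_E, selfW_of_half]
    rfl

/-- `x` odd, `c` odd: `G = NE`. -/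
theorem wordF_chain_odd {n : ℕ} (hx : sideH n % 2 = 1) (hc : (triN (sideH n) - n) % 2 = 1) :
    wordF n = chainW ((sideH n - (triN (sideH n) - n)) / 2) (((triN (sideH n) - n) - 1) / 2)
      [false, true] := by
  unfold wordF uOf
  simp only
  generalize sideH n = y at *
  generalize triN y - n = c at *
  rw [if_neg (by omega), if_pos (by omega), if_pos hc, famU_nil, selfW_of_half]
  rfl

/-- `x` odd, `c` even: `G = EN` (`b = 0` is the staircase). -/
theorem wordF_chain_mixed {n : ℕ} (hx : sideH n % 2 = 1) (hc : (triN (sideH n) - n) % 2 = 0) :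
    wordF n = chainW ((sideH n - (triN (sideH n) - n) - 1) / 2) ((triN (sideH n) - n) / 2)
      [true, false] := by
  unfold wordF uOf
  simp only
  generalize sideH n = y at *
  generalize triN y - n = c at *
  by_cases hc0 : c = 0
  · subst hc0
    simp only [if_true, hx, Nat.zero_div, Nat.sub_zero]
    rw [if_neg (by omega)]
    have e : (y - 1) / 2 = y / 2 := by omega
    rw [e]
    have := selfW_of_half (y / 2) 0 [true]
    simpa [neW, chainW, flipW] using this
  · rw [if_neg hc0, if_neg (by omega), if_pos hx]
    obtain ⟨k, rfl⟩ : ∃ k, c = 2 * k + 2 := ⟨(c - 2) / 2, by omega⟩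
    have e : (2 * k + 2 - 2) / 2 = k := by omega
    have e2 : (2 * k + 2) / 2 = k + 1 := by omega
    rw [e, e2, famU_EE, selfW_of_half]
    rfl

/-- `x` even, `c` odd `≥ 3`: `G = NNEE`. -/
theorem wordF_chain_hard {n : ℕ} (hx : sideH n % 2 = 0) (hc : (triN (sideH n) - n) % 2 = 1)
    (hc1 : triN (sideH n) - n ≠ 1) :
    wordF n = chainW ((sideH n - 2 - ((triN (sideH n) - n) - 3)) / 2) (((triN (sideH n) - n) - 3) / 2)
      [false, false, true, true] := by
  unfold wordF uOf
  simp only
  generalize sideH n = y at *
  generalize triN y - n = c at *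
  rw [if_neg (by omega), if_neg (by omega), if_neg (by omega), if_neg hc1, famU_N, selfW_of_half]
  rfl

/-- `x` even, `c = 1`. -/
theorem wordF_chain_hard1 {n : ℕ} (hx : sideH n % 2 = 0) (hc1 : triN (sideH n) - n = 1) :
    wordF n = hard1W ((sideH n - 4) / 2) := by
  unfold wordF uOf
  simp only
  rw [hc1]
  generalize sideH n = y at *
  rw [if_neg (by omega), if_neg (by omega), if_neg (by omega), if_pos rfl]
  unfold selfW hard1U hard1W
  rw [flipW_append, flipW_append, flipW_stairW]
  have e : flipW [true, true] = [false, false] := rfl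
  have e2 : flipW [false, true] = [false, true] := rfl
  rw [e, e2]
  simp only [List.append_assoc, List.cons_append, List.nil_append]

/-! ### Staircases -/

theorem XF_tri (m : ℕ) : XF (triN m) = stairD m := by
  unfold XF wordF uOf
  simp only [sideH_tri, Nat.sub_self, if_true]
  split_ifs with h
  · obtain ⟨i, hi⟩ : ∃ i, m = i + i := ⟨m / 2, by omega⟩
    have e : m / 2 = i := by omega
    rw [e, area_selfW_stair_even, shape_stairW, hi]
  · obtain ⟨i, hi⟩ : ∃ i, m = i + 1 + i := ⟨m / 2, by omega⟩
    have e : m / 2 = i := by omega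
    rw [e, area_selfW_stair_odd, shape_stairW, hi]

lemma card_stairD (m : ℕ) : (stairD m).card = triN m := by
  rw [← shape_stairW, card_shape]
  exact area_stairW m

/-! ### Assembly -/

/-- The universal statement for `X_n`. -/
def UU (n : ℕ) : Prop := ∀ c : YoungDiagram, c.card = n → TT (XF n) c

open Crest.AlgebraR.Specht in
/-- `S0297` from `UU`. -/
theorem S0297_of_UU (m : ℕ) (h : UU (triN m))
    (W : Type) [AddCommGroup W] [Module ℂ W] [FiniteDimensional ℂ W]
    (σ : Representation ℂ (Equiv.Perm (Fin (staircaseShape m).card)) W)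
    (hσ : Representation.IsIrreducible σ) :
    Nontrivial (Representation.IntertwiningMap σ
      (Representation.tprod (spechtRep (staircaseShape m)) (spechtRep (staircaseShape m)))) := by
  refine final_S0297 m (fun c hc => ?_) W σ hσ
  rw [card_stairD] at hc
  have := h c hc
  rw [XF_tri] at this
  exact this

/-- `S0298` from `UU`. -/
theorem S0298_of_UU (n : ℕ) (h2 : n ≠ 2) (h : UU n) :
    ∃ (V : Type) (_ : AddCommGroup V) (_ : Module ℂ V) (_ : FiniteDimensional ℂ V)
      (ρ : Representation ℂ (Equiv.Perm (Fin n)) V), Representation.IsIrreducible ρ ∧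
      ∀ (W : Type) [AddCommGroup W] [Module ℂ W] [FiniteDimensional ℂ W]
        (σ : Representation ℂ (Equiv.Perm (Fin n)) W), Representation.IsIrreducible σ →
        Nontrivial (Representation.IntertwiningMap σ (Representation.tprod ρ ρ)) :=
  final_S0298 n (XF n) (card_XF n h2) h

/-! ### The grid of a self-conjugate tagged word -/

/-- A tagged half word gives a tagged self-conjugate word. -/
def selfT (t : List (Bool × Bool)) : List (Bool × Bool) := t ++ flipT t

/-- Row and column tags agree. -/
def toG (s : List (Bool × Bool)) : List GLet := s.map fun x => (x.1, x.2, x.2)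

lemma gLetters_toG (s : List (Bool × Bool)) : gLetters (toG s) = letters s := by
  simp [gLetters, toG, letters, Function.comp_def]

lemma letters_selfT (t : List (Bool × Bool)) : letters (selfT t) = selfW (letters t) := by
  unfold selfT selfW
  rw [← letters_flipT]
  simp [letters]

lemma piece1_toG (s : List (Bool × Bool)) : piece1 (toG s) = letters (s.filter fun x => x.2) := by
  induction s with
  | nil => rfl
  | cons x s ih =>
    obtain ⟨a, b⟩ := x
    cases a <;> cases b <;>
      simpa [piece1, toG, group1, keepE, letters] using ih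

lemma piece2_toG (s : List (Bool × Bool)) :
    piece2 (toG s) = letters (s.filter fun x => x.1 != x.2) := by
  induction s with
  | nil => rfl
  | cons x s ih =>
    obtain ⟨a, b⟩ := x
    cases a <;> cases b <;>
      simpa [piece2, toG, group1, keepE, letters] using ih

lemma piece3_toG (s : List (Bool × Bool)) :
    piece3 (toG s) = letters (s.filter fun x => x.1 == x.2) := by
  induction s with
  | nil => rfl
  | cons x s ih =>
    obtain ⟨a, b⟩ := x
    cases a <;> cases b <;>
      simpa [piece3, toG, group2, keepE, letters] using ih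

lemma piece4_toG (s : List (Bool × Bool)) :
    piece4 (toG s) = letters (s.filter fun x => !x.2) := by
  induction s with
  | nil => rfl
  | cons x s ih =>
    obtain ⟨a, b⟩ := x
    cases a <;> cases b <;>
      simpa [piece4, toG, group2, keepE, letters] using ih

lemma filter_flipT_tag (t : List (Bool × Bool)) (b : Bool) :
    (flipT t).filter (fun x => x.2 == b) = flipT (t.filter fun x => x.2 == b) := by
  induction t with
  | nil => rfl
  | cons x t ih =>
    obtain ⟨p, q⟩ := x
    by_cases h : q = b
    · subst h
      simp only [flipT, List.map_cons, List.reverse_cons, List.filter_append, List.filter_cons,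
        beq_self_eq_true, if_true, List.filter_nil] at ih ⊢
      rw [ih]
    · have h' : (q == b) = false := by simpa using h
      simp only [flipT, List.map_cons, List.reverse_cons, List.filter_append, List.filter_cons,
        h', Bool.false_eq_true, if_false, List.filter_nil, List.append_nil] at ih ⊢
      exact ih

lemma filter_flipT_eq (t : List (Bool × Bool)) :
    (flipT t).filter (fun x => x.1 == x.2) = flipT (t.filter fun x => x.1 != x.2) := by
  induction t with
  | nil => rfl
  | cons x t ih =>
    obtain ⟨p, q⟩ := x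
    cases p <;> cases q <;>
      simp_all [flipT, List.filter_append]

lemma filter_flipT_ne (t : List (Bool × Bool)) :
    (flipT t).filter (fun x => x.1 != x.2) = flipT (t.filter fun x => x.1 == x.2) := by
  induction t with
  | nil => rfl
  | cons x t ih =>
    obtain ⟨p, q⟩ := x
    cases p <;> cases q <;>
      simp_all [flipT, List.filter_append]

lemma letters_append (a b : List (Bool × Bool)) : letters (a ++ b) = letters a ++ letters b := by
  simp [letters]

/-- The letters with tag `true`. -/
def tagT (t : List (Bool × Bool)) : List Bool := letters (t.filter fun x => x.2 == true)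

/-- The letters with tag `false`. -/
def tagF (t : List (Bool × Bool)) : List Bool := letters (t.filter fun x => x.2 == false)

/-- The off-diagonal piece of a self-conjugate tagged word: rows with tag `true`, columns with
tag `false`. -/
def offW (t : List (Bool × Bool)) : List Bool :=
  letters (t.filter fun x => x.1 != x.2) ++ flipW (letters (t.filter fun x => x.1 == x.2))

lemma piece1_selfT (t : List (Bool × Bool)) : piece1 (toG (selfT t)) = selfW (tagT t) := by
  rw [piece1_toG]
  have e : (fun x : Bool × Bool => x.2) = fun x => x.2 == true := by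
    funext x
    simp
  rw [e]
  unfold selfT selfW tagT
  rw [List.filter_append, filter_flipT_tag, letters_append, letters_flipT]

lemma piece4_selfT (t : List (Bool × Bool)) : piece4 (toG (selfT t)) = selfW (tagF t) := by
  rw [piece4_toG]
  have e : (fun x : Bool × Bool => !x.2) = fun x => x.2 == false := by
    funext x
    simp
  rw [e]
  unfold selfT selfW tagF
  rw [List.filter_append, filter_flipT_tag, letters_append, letters_flipT]

lemma piece2_selfT (t : List (Bool × Bool)) : piece2 (toG (selfT t)) = offW t := by
  rw [piece2_toG]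
  unfold selfT offW
  rw [List.filter_append, filter_flipT_ne, letters_append, letters_flipT]

lemma piece3_selfT (t : List (Bool × Bool)) : piece3 (toG (selfT t)) = flipW (offW t) := by
  rw [piece3_toG]
  unfold selfT offW
  rw [List.filter_append, filter_flipT_eq, letters_append, letters_flipT, flipW_append, flipW_flipW]

/-- `T` is insensitive to conjugation of the shape. -/
theorem TT.transpose {X c : YoungDiagram} (h : TT X c) : TT X.transpose c := Q.conj12 h

/-- **Grid rule for a self-conjugate word**: the word `selfW (letters t)`, split by the tags `t`.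
The diagonal pieces are self-conjugate words of the sub-words, the off-diagonal pieces are
conjugate to each other. -/
theorem TT.selfGrid (t : List (Bool × Bool)) {c1 c2 c3 c4 : YoungDiagram}
    (h1 : TT (shape (selfW (tagT t))) c1) (h2 : TT (shape (offW t)) c2)
    (h3 : TT (shape (offW t)) c3) (h4 : TT (shape (selfW (tagF t))) c4) :
    TT (shape (selfW (letters t))) (addD (addD c1 c2) (addD c3 c4)) := by
  have := TT.grid (toG (selfT t)) (c1 := c1) (c2 := c2) (c3 := c3) (c4 := c4)
    (by rwa [piece1_selfT]) (by rwa [piece2_selfT])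
    (by rw [piece3_selfT, shape_flipW]; exact h3.transpose) (by rwa [piece4_selfT])
  rwa [gLetters_toG, letters_selfT] at this

/-- Areas in the grid of a self-conjugate word. -/
theorem area_selfGrid (t : List (Bool × Bool)) :
    area (selfW (letters t)) = area (selfW (tagT t)) + 2 * area (offW t) + area (selfW (tagF t)) := by
  have := area_grid (toG (selfT t))
  rw [gLetters_toG, letters_selfT, piece1_selfT, piece2_selfT, piece3_selfT, piece4_selfT,
    area_flipW] at this
  omega

/-- A sub-word defines tags. -/
theorem exists_tags {a b : List Bool} (h : a.Sublist b) :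
    ∃ t : List (Bool × Bool), letters t = b ∧ tagT t = a := by
  induction h with
  | slnil => exact ⟨[], rfl, rfl⟩
  | cons x _ ih =>
    obtain ⟨t, h1, h2⟩ := ih
    refine ⟨(x, false) :: t, by simp [letters] at h1 ⊢; exact h1, ?_⟩
    simpa [tagT, letters] using h2
  | cons_cons x _ ih =>
    obtain ⟨t, h1, h2⟩ := ih
    refine ⟨(x, true) :: t, by simp [letters] at h1 ⊢; exact h1, ?_⟩
    simp only [tagT, List.filter_cons, beq_self_eq_true, if_true, letters, List.map_cons] at h2 ⊢
    rw [h2]

/-- **Peel rule** from `X_n` to `X_{n'}`. -/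
theorem TT.peel {n n' : ℕ} (t : List (Bool × Bool)) (ht : letters t = uOf n) (ht' : tagT t = uOf n')
    (hU : UU n') {c1 c2 c3 c4 : YoungDiagram} (hc1 : c1.card = n')
    (h2 : TT (shape (offW t)) c2) (h3 : TT (shape (offW t)) c3)
    (h4 : TT (shape (selfW (tagF t))) c4) :
    TT (XF n) (addD (addD c1 c2) (addD c3 c4)) := by
  have h1 : TT (shape (selfW (tagT t))) c1 := by
    rw [ht']
    exact hU c1 hc1
  have := TT.selfGrid t h1 h2 h3 h4
  rwa [ht] at this

end Crest.Agent.Lib.Saxl
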