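import Crest.Agent.Lib.Saxl.Word

/-!
# Saxl: the envelope lemma (row 195, L4 of the peel architecture)

`massLE c t` is the mass of the columns of `c` of height at most `t`.

* `card_le_corner`: for every column index `u`, with `v` the height of column `u`, the cells of `c` are
  in the rectangle `(u+1) × v`, or in a column of height `≤ v`, or in a row of length `≤ u+1`.
* `mem_of_corner`: so a cell of the boundary of `c` is forced as soon as a purely numerical inequality
  in the two functions `massLE c`, `massLE c'` holds.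
* `stairArea_le_card`: a list of forced corners bounds `card c` from below.
* `massLE_le_Bd`: telescoping. If every band of `c` (columns with heights in `(lo t, t]`) has mass below
  `b t`, then `massLE c t ≤ Bd b lo t t`.
* `exists_band`: if a corner certificate holds for `Bd`, then some band of `c` or of `c'` has mass
  at least `b t`.

All the parameters are free, `b`, `lo` are arbitrary functions. This is the lemma of helper35 (#1859).
-/

set_option autoImplicit false
set_option linter.unusedSectionVars false

namespace Crest.Agent.Lib.Saxl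

open Finset

/-- The mass of the columns of `c` of height at most `t`. -/
def massLE (c : YoungDiagram) (t : ℕ) : ℕ := ((colsOf c).filter (· ≤ t)).sum

/-- The mass of the band of heights in `(lo, t]`. -/
def bandMass (c : YoungDiagram) (lo t : ℕ) : ℕ := massLE c t - massLE c lo

lemma massLE_eq_sum (c : YoungDiagram) (t : ℕ) :
    massLE c t = ∑ j ∈ (Finset.range (c.rowLen 0)).filter (fun j => c.colLen j ≤ t), c.colLen j := by
  unfold massLE colsOf
  rw [Multiset.filter_map, Finset.sum_eq_multiset_sum]
  rfl

lemma massLE_mono (c : YoungDiagram) {s t : ℕ} (h : s ≤ t) : massLE c s ≤ massLE c t := by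
  rw [massLE_eq_sum, massLE_eq_sum]
  apply Finset.sum_le_sum_of_subset
  intro j hj
  simp only [Finset.mem_filter] at hj ⊢
  exact ⟨hj.1, hj.2.trans h⟩

lemma massLE_zero (c : YoungDiagram) : massLE c 0 = 0 := by
  rw [massLE_eq_sum]
  apply Finset.sum_eq_zero
  intro j hj
  simp only [Finset.mem_filter] at hj
  omega

/-- The cells in columns of height `≤ t` are counted by `massLE`. -/
lemma card_cells_colLen_le (c : YoungDiagram) (t : ℕ) :
    (c.cells.filter fun x => c.colLen x.2 ≤ t).card = massLE c t := by
  classical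
  rw [massLE_eq_sum]
  rw [Finset.card_eq_sum_card_fiberwise (f := Prod.snd)
    (t := (Finset.range (c.rowLen 0)).filter (fun j => c.colLen j ≤ t))]
  · apply Finset.sum_congr rfl
    intro j hj
    simp only [Finset.mem_filter] at hj
    have : (c.cells.filter fun x => c.colLen x.2 ≤ t).filter (fun x => x.2 = j)
        = (Finset.range (c.colLen j)).map ⟨fun i => (i, j), fun a b h => by simpa using h⟩ := by
      ext ⟨i, j'⟩
      simp only [Finset.mem_filter, Finset.mem_map, Finset.mem_range, Function.Embedding.coeFn_mk,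
        Prod.mk.injEq, YoungDiagram.mem_cells]
      constructor
      · rintro ⟨⟨hc, _⟩, rfl⟩
        exact ⟨i, YoungDiagram.mem_iff_lt_colLen.1 hc, rfl, rfl⟩
      · rintro ⟨i', hi', rfl, rfl⟩
        exact ⟨⟨YoungDiagram.mem_iff_lt_colLen.2 hi', hj.2⟩, rfl⟩
    rw [this, Finset.card_map, Finset.card_range]
  · intro x hx
    simp only [Finset.coe_filter, Set.mem_ofPred_eq, YoungDiagram.mem_cells] at hx ⊢
    obtain ⟨hx1, hx2⟩ := hx
    refine ⟨?_, hx2⟩
    rw [Finset.mem_range, ← YoungDiagram.mem_iff_lt_rowLen]
    exact c.up_left_mem (Nat.zero_le _) le_rfl hx1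

/-- The cells in rows of length `≤ t` are counted by `massLE` of the transpose. -/
lemma card_cells_rowLen_le (c : YoungDiagram) (t : ℕ) :
    (c.cells.filter fun x => c.rowLen x.1 ≤ t).card = massLE c.transpose t := by
  classical
  rw [← card_cells_colLen_le]
  apply Finset.card_bij (fun x _ => (x.2, x.1))
  · rintro ⟨i, j⟩ h
    simp only [Finset.mem_filter, YoungDiagram.mem_cells] at h ⊢
    simp only [YoungDiagram.mem_transpose, YoungDiagram.colLen_transpose]
    exact h
  · rintro ⟨i, j⟩ _ ⟨i', j'⟩ _ h
    simp only [Prod.mk.injEq] at h ⊢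
    exact ⟨h.2, h.1⟩
  · rintro ⟨i, j⟩ h
    simp only [Finset.mem_filter, YoungDiagram.mem_cells, YoungDiagram.mem_transpose,
      YoungDiagram.colLen_transpose] at h
    exact ⟨(j, i), by simpa using h, rfl⟩

/-- **Corner lemma.** With `v` the height of column `u` (counting from `0`), the cells of `c` lie in
the rectangle `v × (u+1)`, or in a column of height `≤ v`, or in a row of length `≤ u+1`. -/
theorem card_le_corner (c : YoungDiagram) (u : ℕ) :
    c.card ≤ (u + 1) * c.colLen u + massLE c (c.colLen u) + massLE c.transpose (u + 1) := by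
  classical
  set v := c.colLen u with hv
  have hsub : c.cells ⊆ (Finset.range v ×ˢ Finset.range (u + 1))
      ∪ (c.cells.filter fun x => c.colLen x.2 ≤ v)
      ∪ (c.cells.filter fun x => c.rowLen x.1 ≤ u + 1) := by
    rintro ⟨i, j⟩ h
    simp only [Finset.mem_union, Finset.mem_product, Finset.mem_range, Finset.mem_filter, h, true_and]
    by_cases hi : i < v
    · by_cases hj : j < u + 1
      · exact Or.inl (Or.inl ⟨hi, hj⟩)
      · refine Or.inl (Or.inr ?_)
        exact c.colLen_anti _ _ (by omega)
    · refine Or.inr ?_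
      have hnot : (i, u) ∉ c := by
        rw [YoungDiagram.mem_iff_lt_colLen]
        omega
      have : c.rowLen i ≤ u := by
        by_contra hcon
        exact hnot (YoungDiagram.mem_iff_lt_rowLen.2 (by omega))
      omega
  have h1 := Finset.card_le_card hsub
  have h2 := Finset.card_union_le ((Finset.range v ×ˢ Finset.range (u + 1))
      ∪ (c.cells.filter fun x => c.colLen x.2 ≤ v))
      (c.cells.filter fun x => c.rowLen x.1 ≤ u + 1)
  have h3 := Finset.card_union_le (Finset.range v ×ˢ Finset.range (u + 1))
      (c.cells.filter fun x => c.colLen x.2 ≤ v)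
  rw [card_cells_colLen_le] at h3
  rw [card_cells_rowLen_le] at h2
  rw [Finset.card_product, Finset.card_range, Finset.card_range] at h3
  have h4 : c.card = c.cells.card := rfl
  rw [mul_comm v (u + 1)] at h3
  omega

/-- A cell is forced by a numerical inequality: columns version. -/
theorem mem_of_corner {c : YoungDiagram} {i j : ℕ}
    (h : (j + 1) * i + massLE c i + massLE c.transpose (j + 1) < c.card) : (i, j) ∈ c := by
  by_contra hcon
  have hle : c.colLen j ≤ i := by
    by_contra hc2
    exact hcon (YoungDiagram.mem_iff_lt_colLen.2 (by omega))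
  have h1 := card_le_corner c j
  have h2 := massLE_mono c hle
  have h3 : (j + 1) * c.colLen j ≤ (j + 1) * i := Nat.mul_le_mul_left _ hle
  omega

/-- A cell is forced by a numerical inequality: rows version. -/
theorem mem_of_corner' {c : YoungDiagram} {i j : ℕ}
    (h : (i + 1) * j + massLE c.transpose j + massLE c (i + 1) < c.card) : (i, j) ∈ c := by
  have h2 : (j, i) ∈ c.transpose := by
    apply mem_of_corner
    rw [YoungDiagram.transpose_transpose]
    have : c.transpose.card = c.card := card_transpose' c
    omega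
  simpa using h2

/-! ### Staircases -/

/-- The area of the staircase with corners `(u, v)` (`u` columns, `v` rows), starting after column `u₀`. -/
def stairArea : List (ℕ × ℕ) → ℕ → ℕ
  | [], _ => 0
  | p :: l, u₀ => (p.1 - u₀) * p.2 + stairArea l (max p.1 u₀)

/-- The cells of `c` in columns `≥ u₀` are at least the staircase. -/
theorem stairArea_le_aux (c : YoungDiagram) (l : List (ℕ × ℕ))
    (hl : ∀ p ∈ l, p.1 = 0 ∨ p.2 = 0 ∨ (p.2 - 1, p.1 - 1) ∈ c) (u₀ : ℕ) :
    stairArea l u₀ ≤ (c.cells.filter fun x => u₀ ≤ x.2).card := by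
  classical
  induction l generalizing u₀ with
  | nil => simp [stairArea]
  | cons p l ih =>
    obtain ⟨u, v⟩ := p
    simp only [stairArea]
    have h1 := ih (fun q hq => hl q (List.mem_cons_of_mem _ hq)) (max u u₀)
    have hp := hl (u, v) (List.mem_cons_self)
    simp only at hp
    have hsub : (Finset.range v ×ˢ (Finset.Ico u₀ (max u u₀))) ∪
        (c.cells.filter fun x => max u u₀ ≤ x.2) ⊆ (c.cells.filter fun x => u₀ ≤ x.2) := by
      rintro ⟨i, j⟩ hx
      simp only [Finset.mem_union, Finset.mem_product, Finset.mem_range, Finset.mem_Ico,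
        Finset.mem_filter, YoungDiagram.mem_cells] at hx ⊢
      rcases hx with ⟨hi, hj1, hj2⟩ | ⟨hc, hj⟩
      · refine ⟨?_, hj1⟩
        have hu : j < u := by
          rcases le_total u u₀ with h | h
          · rw [max_eq_right h] at hj2; omega
          · rwa [max_eq_left h] at hj2
        rcases hp with h | h | h
        · omega
        · omega
        · exact c.up_left_mem (by omega) (by omega) h
      · exact ⟨hc, le_trans (le_max_right _ _) hj⟩
    have hdisj : Disjoint (Finset.range v ×ˢ (Finset.Ico u₀ (max u u₀)))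
        (c.cells.filter fun x => max u u₀ ≤ x.2) := by
      rw [Finset.disjoint_left]
      rintro ⟨i, j⟩ hx hy
      simp only [Finset.mem_product, Finset.mem_Ico, Finset.mem_filter] at hx hy
      omega
    have h2 := Finset.card_le_card hsub
    rw [Finset.card_union_of_disjoint hdisj, Finset.card_product, Finset.card_range,
      Nat.card_Ico] at h2
    have h3 : max u u₀ - u₀ = u - u₀ := by omega
    rw [h3, mul_comm v] at h2
    omega

/-- A staircase inside `c` has area at most `card c`. -/
theorem stairArea_le_card (c : YoungDiagram) (l : List (ℕ × ℕ))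
    (hl : ∀ p ∈ l, p.1 = 0 ∨ p.2 = 0 ∨ (p.2 - 1, p.1 - 1) ∈ c) :
    stairArea l 0 ≤ c.card := by
  have h := stairArea_le_aux c l hl 0
  have h2 : (c.cells.filter fun x => 0 ≤ x.2).card ≤ c.cells.card :=
    Finset.card_le_card (Finset.filter_subset _ _)
  exact h.trans h2

/-! ### Telescoping -/

/-- The telescoped bound: `b t - 1 + Bd (lo t)`, with fuel. -/
def Bd (b lo : ℕ → ℕ) : ℕ → ℕ → ℕ
  | 0, _ => 0
  | f + 1, t => if t = 0 then 0 else b t - 1 + Bd b lo f (lo t)

/-- **Telescoping.** If all bands up to `tmax` are light, then `massLE` is bounded by `Bd`. -/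
theorem massLE_le_Bd (c : YoungDiagram) (b lo : ℕ → ℕ) (hlo : ∀ t, t ≠ 0 → lo t < t) (tmax : ℕ)
    (hst : ∀ t, t ≠ 0 → t ≤ tmax → bandMass c (lo t) t < b t) (f t : ℕ) (ht : t ≤ tmax) (hf : t ≤ f) :
    massLE c t ≤ Bd b lo f t := by
  induction f generalizing t with
  | zero =>
    have : t = 0 := by omega
    subst this
    simp [massLE_zero]
  | succ f ih =>
    rw [Bd]
    by_cases h0 : t = 0
    · subst h0
      simp [massLE_zero]
    · rw [if_neg h0]
      have h1 := hst t h0 ht
      have h2 := hlo t h0
      have h3 := ih (lo t) (by omega) (by omega)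
      unfold bandMass at h1
      omega

/-- A corner of a staircase is forced by one of the two numerical tests, with `B` a bound of `massLE`
on both sides. -/
def cornerOK (B : ℕ → ℕ) (n : ℕ) (p : ℕ × ℕ) : Bool :=
  p.1 == 0 || p.2 == 0 ||
    decide (p.1 * (p.2 - 1) + B (p.2 - 1) + B p.1 < n) ||
    decide (p.2 * (p.1 - 1) + B (p.1 - 1) + B p.2 < n)

theorem mem_of_cornerOK {c : YoungDiagram} {B : ℕ → ℕ} {tmax : ℕ} {p : ℕ × ℕ}
    (hB : ∀ t ≤ tmax, massLE c t ≤ B t) (hB' : ∀ t ≤ tmax, massLE c.transpose t ≤ B t)
    (h1 : p.1 ≤ tmax) (h2 : p.2 ≤ tmax) (hp : cornerOK B c.card p = true) :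
    p.1 = 0 ∨ p.2 = 0 ∨ (p.2 - 1, p.1 - 1) ∈ c := by
  by_cases hu : p.1 = 0
  · exact Or.inl hu
  by_cases hv : p.2 = 0
  · exact Or.inr (Or.inl hv)
  refine Or.inr (Or.inr ?_)
  simp only [cornerOK, Bool.or_eq_true, beq_iff_eq, decide_eq_true_eq, hu, hv, false_or] at hp
  rcases hp with hp | hp
  · apply mem_of_corner
    have e : p.1 - 1 + 1 = p.1 := by omega
    rw [e]
    have a1 := hB (p.2 - 1) (by omega)
    have a2 := hB' p.1 h1
    omega
  · apply mem_of_corner'
    have e : p.2 - 1 + 1 = p.2 := by omega
    rw [e]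
    have a1 := hB' (p.1 - 1) (by omega)
    have a2 := hB p.2 h2
    omega

/-- **The envelope lemma, generic form.** Let `l` be a list of corners with coordinates `≤ tmax`, all
satisfying the numerical test for `B = Bd b lo` at `n ≤ card c`, with staircase area above `card c`. Then
`c` or its transpose has a heavy band at some `t ≤ tmax`. -/
theorem exists_band (c : YoungDiagram) (b lo : ℕ → ℕ) (hlo : ∀ t, t ≠ 0 → lo t < t) (tmax n : ℕ)
    (l : List (ℕ × ℕ)) (hl1 : ∀ p ∈ l, p.1 ≤ tmax ∧ p.2 ≤ tmax)
    (hl2 : ∀ p ∈ l, cornerOK (fun t => Bd b lo t t) n p = true)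
    (hn : n ≤ c.card) (harea : c.card < stairArea l 0) :
    ∃ t, t ≠ 0 ∧ t ≤ tmax ∧ (b t ≤ bandMass c (lo t) t ∨ b t ≤ bandMass c.transpose (lo t) t) := by
  by_contra hcon
  push Not at hcon
  have h1 : ∀ t, t ≠ 0 → t ≤ tmax → bandMass c (lo t) t < b t := fun t h0 ht => (hcon t h0 ht).1
  have h2 : ∀ t, t ≠ 0 → t ≤ tmax → bandMass c.transpose (lo t) t < b t :=
    fun t h0 ht => (hcon t h0 ht).2
  have hB : ∀ t ≤ tmax, massLE c t ≤ Bd b lo t t :=
    fun t ht => massLE_le_Bd c b lo hlo tmax h1 t t ht le_rfl
  have hB' : ∀ t ≤ tmax, massLE c.transpose t ≤ Bd b lo t t :=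
    fun t ht => massLE_le_Bd c.transpose b lo hlo tmax h2 t t ht le_rfl
  have h3 : stairArea l 0 ≤ c.card := by
    apply stairArea_le_card
    intro p hp
    apply mem_of_cornerOK hB hB' (hl1 p hp).1 (hl1 p hp).2
    have h4 := hl2 p hp
    simp only [cornerOK, Bool.or_eq_true, beq_iff_eq, decide_eq_true_eq] at h4 ⊢
    rcases h4 with ((h4 | h4) | h4) | h4
    · exact Or.inl (Or.inl (Or.inl h4))
    · exact Or.inl (Or.inl (Or.inr h4))
    · exact Or.inl (Or.inr (by omega))
    · exact Or.inr (by omega)
  omega

end Crest.Agent.Lib.Saxl
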