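import Crest.Agent.Lib.Saxl.BoundaryDP
import Mathlib.Analysis.SpecialFunctions.Pow.Real

/-!
# Saxl: the envelope lemma for large `x`, by two corners (row 195, L4)

`two_corner`: if `massLE c t ≤ x * S t`, `massLE c' t ≤ x * S t` for `t ≤ x`, with `(S t)^2 ≤ 16 t`, and
`T_{x-1} < card c ≤ T_x`, `x ≥ 2500`, then contradiction (`c` would contain two rectangles of
area `.35 x^2`, `.36 x^2`, whose union is too big).

`Sd`: the telescoped thickness, `Sd ≤ C √t` by induction (`Sd_le_sqrt`).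
-/

set_option autoImplicit false
set_option linter.unusedSectionVars false

namespace Crest.Agent.Lib.Saxl

/-- The telescoped thickness: `s t + Sd (lo t)`, with fuel. -/
def Sd (s lo : ℕ → ℕ) : ℕ → ℕ → ℕ
  | 0, _ => 0
  | f + 1, t => if t = 0 then 0 else s t + Sd s lo f (lo t)

lemma Bd_le_mul_Sd {b lo s : ℕ → ℕ} {x : ℕ} (hb : ∀ t, t ≠ 0 → b t ≤ x * s t) (f t : ℕ) :
    Bd b lo f t ≤ x * Sd s lo f t := by
  induction f generalizing t with
  | zero => simp [Bd, Sd]
  | succ f ih =>
    simp only [Bd, Sd]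
    by_cases h0 : t = 0
    · simp [h0]
    · rw [if_neg h0, if_neg h0, mul_add]
      have h1 := hb t h0
      have h2 := ih (lo t)
      omega

/-- The telescoped thickness is `≤ C √t`: real form. The hypotheses: below `T`, one level only; above `T`,
the heights shrink by `γ²` and `s t ≤ (1 - γ) C √t`. -/
theorem Sd_le_sqrt {s lo : ℕ → ℕ} {C γ : ℝ} {T : ℕ} (hC : 0 ≤ C) (hγ : 0 ≤ γ)
    (h1 : ∀ t, t ≠ 0 → t ≤ T → lo t = 0 ∧ (s t : ℝ) ≤ C * Real.sqrt t)
    (h2 : ∀ t, T < t → (lo t : ℝ) ≤ γ ^ 2 * t ∧ (s t : ℝ) ≤ (1 - γ) * C * Real.sqrt t)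
    (f t : ℕ) : (Sd s lo f t : ℝ) ≤ C * Real.sqrt t := by
  induction f generalizing t with
  | zero =>
    simp only [Sd, Nat.cast_zero]
    positivity
  | succ f ih =>
    simp only [Sd]
    by_cases h0 : t = 0
    · simp only [h0, if_true, Nat.cast_zero]
      positivity
    · rw [if_neg h0]
      push_cast
      rcases Nat.lt_or_ge T t with hT | hT
      · obtain ⟨h3, h4⟩ := h2 t hT
        have h5 := ih (lo t)
        have h6 : Real.sqrt (lo t) ≤ γ * Real.sqrt t := by
          have : Real.sqrt (lo t) ≤ Real.sqrt (γ ^ 2 * t) := Real.sqrt_le_sqrt h3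
          rwa [Real.sqrt_mul (by positivity), Real.sqrt_sq hγ] at this
        have h7 : C * Real.sqrt (lo t) ≤ C * (γ * Real.sqrt t) := mul_le_mul_of_nonneg_left h6 hC
        nlinarith
      · obtain ⟨h3, h4⟩ := h1 t h0 hT
        have h5 := ih (lo t)
        rw [h3] at h5
        simp only [Nat.cast_zero, Real.sqrt_zero, mul_zero] at h5
        rw [h3]
        linarith

/-- The square form of `Sd_le_sqrt`, which is what `two_corner` takes. -/
theorem Sd_sq_le_of_sqrt {S : ℕ → ℕ} {C2 : ℕ} {C : ℝ} (hC2 : C ^ 2 ≤ C2)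
    (h : ∀ t, (S t : ℝ) ≤ C * Real.sqrt t) (t : ℕ) : S t * S t ≤ C2 * t := by
  have h1 := h t
  have h2 : ((S t : ℝ)) ^ 2 ≤ (C * Real.sqrt t) ^ 2 :=
    pow_le_pow_left₀ (by positivity) h1 2
  rw [mul_pow, Real.sq_sqrt (by positivity)] at h2
  have h3 : ((S t : ℝ)) ^ 2 ≤ C2 * t := by
    have : (0 : ℝ) ≤ t := by positivity
    nlinarith
  have h4 : ((S t * S t : ℕ) : ℝ) ≤ ((C2 * t : ℕ) : ℝ) := by
    push_cast
    nlinarith
  exact_mod_cast h4

lemma le_mul_of_sq_le {a w k m : ℕ} (h : a * a ≤ m * (w * w)) (hm : m ≤ k * k) : a ≤ k * w := by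
  by_contra hcon
  push Not at hcon
  have h1 : (k * w + 1) * (k * w + 1) ≤ a * a := Nat.mul_le_mul hcon hcon
  have h2 : m * (w * w) ≤ k * k * (w * w) := Nat.mul_le_mul_right _ hm
  nlinarith

/-- **Two corners.** -/
theorem two_corner {x : ℕ} (hx : 2500 ≤ x) {c : YoungDiagram} (hn1 : x * (x - 1) / 2 < c.card)
    (hn2 : c.card ≤ x * (x + 1) / 2) {S : ℕ → ℕ} (hS : ∀ t, t ≤ x → S t * S t ≤ 16 * t)
    (hF : ∀ t, t ≤ x → massLE c t ≤ x * S t) (hF' : ∀ t, t ≤ x → massLE c.transpose t ≤ x * S t) :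
    False := by
  -- the square root of `x`
  obtain ⟨w, hw1, hw2, hw3⟩ : ∃ w : ℕ, x ≤ w * w ∧ (w - 1) * (w - 1) ≤ x ∧ 51 ≤ w := by
    refine ⟨Nat.sqrt x + 1, ?_, ?_, ?_⟩
    · exact (Nat.lt_succ_sqrt x).le
    · simpa using Nat.sqrt_le x
    · have : 50 ≤ Nat.sqrt x := by
        rw [Nat.le_sqrt]
        omega
      omega
  obtain ⟨w', rfl⟩ : ∃ w', w = w' + 1 := ⟨w - 1, by omega⟩
  simp only [Nat.add_sub_cancel] at hw2
  set w := w' + 1 with hwdef
  -- half of the bound on the card
  have hn1' : x * (x - 1) < 2 * c.card := by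
    have := Nat.div_add_mod (x * (x - 1)) 2
    have h3 : (x * (x - 1)) % 2 < 2 := Nat.mod_lt _ (by norm_num)
    omega
  have hn2' : 2 * c.card ≤ x * (x + 1) := by
    have := Nat.div_add_mod (x * (x + 1)) 2
    omega
  have hxx : x * (x - 1) + x = x * x := by
    obtain ⟨y, rfl⟩ : ∃ y, x = y + 1 := ⟨x - 1, by omega⟩
    simp only [Nat.add_sub_cancel]
    ring
  -- the corners
  set a := x / 2 with ha
  set b := 7 * x / 10 with hb
  set d := 36 * x / 100 with hd
  have ha1 : 2 * a ≤ x := by omega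
  have ha2 : x ≤ 2 * a + 1 := by omega
  have hb1 : 10 * b ≤ 7 * x := by omega
  have hb2 : 7 * x < 10 * b + 10 := by omega
  have hd1 : 100 * d ≤ 36 * x := by omega
  have hd2 : 36 * x < 100 * d + 100 := by omega
  have ha0 : 1 ≤ a := by omega
  have hax : a ≤ x := by omega
  have hbx : b ≤ x := by omega
  have hdx : d ≤ x := by omega
  -- the thickness at the corners
  have hSa : S a ≤ 3 * w := by
    apply le_mul_of_sq_le (m := 8) _ (by norm_num)
    have := hS a hax
    nlinarith
  have hSb : 5 * S b ≤ 17 * w := by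
    have h5 : (5 * S b) * (5 * S b) ≤ 280 * (w * w) := by
      have := hS b hbx
      nlinarith
    have := le_mul_of_sq_le (k := 17) (m := 280) h5 (by norm_num)
    exact this
  have hSx : S x ≤ 4 * w := by
    apply le_mul_of_sq_le (m := 16) _ (by norm_num)
    have := hS x le_rfl
    nlinarith
  have hSd : 5 * S d ≤ 12 * w := by
    have h5 : (5 * S d) * (5 * S d) ≤ 144 * (w * w) := by
      have := hS d hdx
      nlinarith
    have := le_mul_of_sq_le (k := 12) (m := 144) h5 (by norm_num)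
    exact this
  have hxw : 128 * w + 10 < 3 * x := by nlinarith
  have hxw2 : 640 * w + 50 < 14 * x := by nlinarith
  -- first cell
  have hm1 : (b, a - 1) ∈ c := by
    apply mem_of_corner
    have e : a - 1 + 1 = a := by omega
    rw [e]
    have h1 := hF b hbx
    have h2 := hF' a hax
    have h3 : 20 * (a * b) ≤ 7 * (x * x) := by nlinarith
    have h4 : 5 * (x * S b) ≤ 17 * (x * w) := by nlinarith
    have h5 : x * S a ≤ 3 * (x * w) := by nlinarith
    have h6 : x * (128 * w + 10) < x * (3 * x) := Nat.mul_lt_mul_of_pos_left hxw (by omega)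
    nlinarith
  have hm2 : (d, x - 1) ∈ c := by
    apply mem_of_corner
    have e : x - 1 + 1 = x := by omega
    rw [e]
    have h1 := hF d hdx
    have h2 := hF' x le_rfl
    have h3 : 100 * (x * d) ≤ 36 * (x * x) := by nlinarith
    have h4 : 5 * (x * S d) ≤ 12 * (x * w) := by nlinarith
    have h5 : x * S x ≤ 4 * (x * w) := by nlinarith
    have h6 : x * (640 * w + 50) < x * (14 * x) := Nat.mul_lt_mul_of_pos_left hxw2 (by omega)
    nlinarith
  -- the area
  have harea := stairArea_le_card c [(a, b + 1), (x, d + 1)] (by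
    intro p hp
    simp only [List.mem_cons, List.not_mem_nil, or_false] at hp
    rcases hp with rfl | rfl
    · exact Or.inr (Or.inr (by simpa using hm1))
    · exact Or.inr (Or.inr (by simpa using hm2)))
  simp only [stairArea, Nat.sub_zero, max_eq_left (Nat.zero_le a), add_zero] at harea
  have hmax : max x (max a 0) = x := by
    rw [max_eq_left (Nat.zero_le a), max_eq_left hax]
  obtain ⟨e, he⟩ : ∃ e, x = a + e := ⟨x - a, by omega⟩
  have hxa : x - a = e := by omega
  rw [hxa] at harea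
  have h1 : 7 * x * (x - 1) ≤ 20 * (a * (b + 1)) := by
    have : (x - 1) * (7 * x) ≤ (2 * a) * (10 * (b + 1)) := Nat.mul_le_mul (by omega) (by omega)
    nlinarith
  have h2 : 36 * (x * x) ≤ 200 * (e * (d + 1)) := by
    have : x * (36 * x) ≤ (2 * e) * (100 * (d + 1)) := Nat.mul_le_mul (by omega) (by omega)
    nlinarith
  nlinarith

end Crest.Agent.Lib.Saxl
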