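import Crest.Agent.Lib.Saxl.FewRowF

/-!
# Saxl: the base of the few-row lemma (helper23): a kernel-checked table of `T`-level derivations
-/

set_option autoImplicit false
set_option linter.unusedSectionVars false
set_option maxRecDepth 100000

namespace Crest.Agent.Lib.Saxl

/-- A fact `T(Y, e)` with explicit rows. -/
abbrev TF := List ℕ × List ℕ

/-- A good fact. -/
def GT (x : TF) : Prop := srt x.1 = true ∧ srt x.2 = true ∧ TT (yd x.1) (yd x.2)

/-- A record of the table. Pointers count back from the last fact. -/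
inductive TR
  | r (ys : List ℕ)
  | b (i : ℕ)
  | a (p q : ℕ)
  | u (p q : ℕ)
  | c (p : ℕ)

/-- Reading a list. -/
def nthT : List TF → ℕ → Option TF
  | [], _ => none
  | x :: _, 0 => some x
  | _ :: l, n + 1 => nthT l n

lemma nthT_mem {l : List TF} {n : ℕ} {x : TF} (h : nthT l n = some x) : x ∈ l := by
  induction l generalizing n with
  | nil => simp [nthT] at h
  | cons y l ih =>
    cases n with
    | zero =>
      simp only [nthT, Option.some.injEq] at h
      simp [h]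
    | succ n => exact List.mem_cons_of_mem _ (ih h)

/-- Evaluating a record. -/
def TR.eval (B acc : List TF) : TR → Option TF
  | .r ys => if srt ys = true then some (ys, [ys.sum]) else none
  | .b i => nthT B i
  | .a p q =>
    match nthT acc p, nthT acc q with
    | some x, some y => some (addR x.1 y.1, addR x.2 y.2)
    | _, _ => none
  | .u p q =>
    match nthT acc p, nthT acc q with
    | some x, some y => some (uniR x.1 y.1, addR x.2 y.2)
    | _, _ => none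
  | .c p =>
    match nthT acc p with
    | some x => some (conjL x.1, x.2)
    | none => none

/-- Running a table. -/
def runT (B : List TF) : List TR → List TF → List TF
  | [], acc => acc
  | r :: l, acc =>
    match r.eval B acc with
    | some x => runT B l (x :: acc)
    | none => runT B l acc

theorem TR.eval_sound {B acc : List TF} (hB : ∀ x ∈ B, GT x) (hA : ∀ x ∈ acc, GT x) (r : TR)
    {x : TF} (h : r.eval B acc = some x) : GT x := by
  cases r with
  | r ys =>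
    simp only [TR.eval] at h
    split_ifs at h with hs
    obtain rfl := Option.some.inj h
    refine ⟨hs, rfl, ?_⟩
    simp only
    rw [yd_single, ← card_yd hs]
    exact TT.row _
  | b i => exact hB x (nthT_mem h)
  | a p q =>
    simp only [TR.eval] at h
    split at h
    · rename_i y z hy hz
      obtain rfl := Option.some.inj h
      obtain ⟨h1, h2, h3⟩ := hA y (nthT_mem hy)
      obtain ⟨h4, h5, h6⟩ := hA z (nthT_mem hz)
      refine ⟨srt_addR h1 h4, srt_addR h2 h5, ?_⟩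
      simp only
      rw [yd_addR h1 h4, yd_addR h2 h5]
      exact h3.add h6
    · cases h
  | u p q =>
    simp only [TR.eval] at h
    split at h
    · rename_i y z hy hz
      obtain rfl := Option.some.inj h
      obtain ⟨h1, h2, h3⟩ := hA y (nthT_mem hy)
      obtain ⟨h4, h5, h6⟩ := hA z (nthT_mem hz)
      refine ⟨srt_uniR h1 h4, srt_addR h2 h5, ?_⟩
      simp only
      rw [yd_uniR h1 h4, yd_addR h2 h5]
      exact h3.union h6
    · cases h
  | c p =>
    simp only [TR.eval] at h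
    split at h
    · rename_i y hy
      obtain rfl := Option.some.inj h
      obtain ⟨h1, h2, h3⟩ := hA y (nthT_mem hy)
      refine ⟨srt_conjL h1, h2, ?_⟩
      simp only
      rw [yd_conjL h1]
      exact h3.transpose
    · cases h

theorem runT_sound {B : List TF} (hB : ∀ x ∈ B, GT x) (l : List TR) :
    ∀ acc : List TF, (∀ x ∈ acc, GT x) → ∀ x ∈ runT B l acc, GT x := by
  induction l with
  | nil =>
    intro acc hA x hx
    exact hA x hx
  | cons r l ih =>
    intro acc hA x hx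
    simp only [runT] at hx
    split at hx
    · rename_i y hy
      refine ih _ ?_ x hx
      intro z hz
      rcases List.mem_cons.1 hz with rfl | hz
      · exact TR.eval_sound hB hA r hy
      · exact hA z hz
    · exact ih _ hA x hx

/-- Equality of lists of naturals, evaluated by the kernel. -/
def leqT : List ℕ → List ℕ → Bool
  | [], [] => true
  | x :: xs, y :: ys => Nat.beq x y && leqT xs ys
  | _, _ => false

lemma eq_of_leqT {a b : List ℕ} (h : leqT a b = true) : a = b := by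
  induction a generalizing b with
  | nil =>
    cases b with
    | nil => rfl
    | cons y ys => simp [leqT] at h
  | cons x xs ih =>
    cases b with
    | nil => simp [leqT] at h
    | cons y ys =>
      simp only [leqT, Bool.and_eq_true] at h
      rw [Nat.eq_of_beq_eq_true h.1, ih h.2]

/-- Membership, evaluated by the kernel. -/
def memT (x : TF) : List TF → Bool
  | [] => false
  | y :: l => (leqT x.1 y.1 && leqT x.2 y.2) || memT x l

lemma mem_of_memT {x : TF} {l : List TF} (h : memT x l = true) : x ∈ l := by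
  induction l with
  | nil => simp [memT] at h
  | cons y l ih =>
    simp only [memT, Bool.or_eq_true, Bool.and_eq_true] at h
    rcases h with ⟨h1, h2⟩ | h
    · have : x = y := Prod.ext (eq_of_leqT h1) (eq_of_leqT h2)
      simp [this]
    · exact List.mem_cons_of_mem _ (ih h)

/-- All bit strings of a given length. -/
def allBits : ℕ → List (List Bool)
  | 0 => [[]]
  | n + 1 => (allBits n).flatMap fun b => [false :: b, true :: b]

lemma mem_allBits (b : List Bool) : b ∈ allBits b.length := by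
  induction b with
  | nil => simp [allBits]
  | cons t b ih =>
    simp only [List.length_cons, allBits, List.mem_flatMap]
    refine ⟨b, ih, ?_⟩
    cases t <;> simp

/-- Drop an invisible first letter. -/
def nzW : List Bool → List Bool
  | false :: t => t
  | w => w

lemma shape_nzW (w : List Bool) : shape (nzW w) = shape w := by
  cases w with
  | nil => rfl
  | cons a t =>
    cases a with
    | true => rfl
    | false => exact (shape_cons_false t).symm

/-- The base facts. -/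
def B2 : List TF := [([2,1], [2,1]), ([2,1,1], [2,2]), ([3,2,1], [3,3]), ([2,2], [2,2]), ([3,2,2], [4,3]), ([3,3,2], [5,3]), ([3,3,2], [4,4]), ([4,2,1,1], [4,4]), ([4,3,2,1], [5,5]), ([4,4,2,2], [7,5]), ([3,1,1,1], [3,3])]

theorem B2_0 : GT ([2,1], [2,1]) :=
  ⟨by decide, by decide, cert_Q (ls := [((0,0),(0,0),(0,1)),((1,0),(1,0),(1,0)),((0,1),(0,1),(0,0))]) (T := [(0,0,0),(0,0,0),(1,1,1)]) (by decide +kernel)⟩

theorem B2_1 : GT ([2,1,1], [2,2]) :=
  ⟨by decide, by decide, cert_Q (ls := [((0,0),(0,1),(0,1)),((1,0),(1,0),(1,1)),((2,0),(2,0),(1,0)),((0,1),(0,0),(0,0))]) (T := [(0,0,0),(0,0,0),(1,1,1),(2,2,1)]) (by decide +kernel)⟩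

theorem B2_2 : GT ([3,2,1], [3,3]) :=
  ⟨by decide, by decide, cert_Q (ls := [((0,0),(0,2),(0,0)),((1,0),(1,1),(1,1)),((2,0),(2,0),(1,2)),((0,1),(0,0),(0,2)),((1,1),(1,0),(1,0)),((0,2),(0,1),(0,1))]) (T := [(0,0,0),(0,0,0),(0,0,0),(1,1,1),(1,1,1),(2,2,1)]) (by decide +kernel)⟩

theorem B2_3 : GT ([2,2], [2,2]) :=
  ⟨by decide, by decide, cert_Q (ls := [((0,0),(0,0),(1,0)),((1,0),(1,1),(0,1)),((0,1),(0,1),(1,1)),((1,1),(1,0),(0,0))]) (T := [(0,0,1),(0,0,1),(1,1,0),(1,1,0)]) (by decide +kernel)⟩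

theorem B2_4 : GT ([3,2,2], [4,3]) :=
  ⟨by decide, by decide, cert_Q (ls := [((0,0),(0,2),(0,1)),((1,0),(2,0),(0,3)),((2,0),(1,1),(1,0)),((0,1),(0,1),(0,0)),((1,1),(2,1),(1,2)),((2,1),(1,0),(1,1)),((0,2),(0,0),(0,2))]) (T := [(0,0,0),(0,0,0),(0,0,0),(1,2,0),(1,2,1),(2,1,1),(2,1,1)]) (by decide +kernel)⟩

theorem B2_5 : GT ([3,3,2], [5,3]) :=
  ⟨by decide, by decide, cert_Q (ls := [((0,0),(0,2),(0,3)),((1,0),(2,1),(0,4)),((2,0),(1,0),(1,2)),((0,1),(0,0),(0,0)),((1,1),(1,2),(1,0)),((2,1),(1,1),(1,1)),((0,2),(0,1),(0,1)),((1,2),(2,0),(0,2))]) (T := [(0,0,0),(0,0,0),(0,0,0),(1,1,1),(1,2,0),(1,2,0),(2,1,1),(2,1,1)]) (by decide +kernel)⟩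

theorem B2_6 : GT ([3,3,2], [4,4]) :=
  ⟨by decide, by decide, cert_Q (ls := [((0,0),(1,0),(0,0)),((1,0),(0,2),(1,1)),((2,0),(2,1),(1,0)),((0,1),(1,2),(0,3)),((1,1),(0,0),(1,3)),((2,1),(2,0),(0,2)),((0,2),(1,1),(0,1)),((1,2),(0,1),(1,2))]) (T := [(0,1,0),(0,1,0),(0,1,0),(1,0,1),(1,0,1),(1,0,1),(2,2,0),(2,2,1)]) (by decide +kernel)⟩

theorem B2_7 : GT ([4,2,1,1], [4,4]) :=
  ⟨by decide, by decide, cert_Q (ls := [((0,0),(0,2),(0,2)),((1,0),(0,3),(1,0)),((2,0),(1,1),(1,2)),((3,0),(2,0),(0,3)),((0,1),(0,0),(0,0)),((1,1),(1,0),(1,1)),((0,2),(3,0),(1,3)),((0,3),(0,1),(0,1))]) (T := [(0,0,0),(0,0,0),(0,0,0),(0,3,1),(1,0,1),(1,1,1),(2,1,1),(3,2,0)]) (by decide +kernel)⟩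

theorem B2_8 : GT ([4,3,2,1], [5,5]) :=
  ⟨by decide, by decide, cert_Q (ls := [((0,0),(0,1),(0,3)),((1,0),(0,3),(1,1)),((2,0),(1,2),(1,2)),((3,0),(2,1),(1,0)),((0,1),(0,2),(0,0)),((1,1),(1,1),(0,2)),((2,1),(3,0),(0,1)),((0,2),(2,0),(1,3)),((1,2),(1,0),(1,4)),((0,3),(0,0),(0,4))]) (T := [(0,0,0),(0,0,0),(0,0,0),(0,2,1),(1,0,1),(1,1,0),(1,1,1),(2,1,1),(2,3,0),(3,2,1)]) (by decide +kernel)⟩

theorem B2_9 : GT ([4,4,2,2], [7,5]) :=
  ⟨by decide, by decide, cert_Q (ls := [((0,0),(1,2),(1,1)),((1,0),(2,1),(0,1)),((2,0),(0,2),(1,2)),((3,0),(3,1),(0,0)),((0,1),(0,1),(0,2)),((1,1),(1,1),(1,4)),((2,1),(3,0),(1,3)),((3,1),(1,3),(0,4)),((0,2),(0,3),(0,5)),((1,2),(2,0),(0,6)),((0,3),(0,0),(0,3)),((1,3),(1,0),(1,0))]) (T := [(0,0,0),(0,0,0),(0,0,0),(0,1,1),(1,1,1),(1,1,1),(1,2,0),(1,2,0),(2,0,1),(2,3,1),(3,1,0),(3,3,0)]) (by decide +kernel)⟩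

theorem B2_10 : GT ([3,1,1,1], [3,3]) :=
  ⟨by decide, by decide, cert_Q (ls := [((0,0),(0,2),(0,2)),((1,0),(1,0),(1,0)),((2,0),(3,0),(1,1)),((3,0),(2,0),(1,2)),((0,1),(0,0),(0,1)),((0,2),(0,1),(0,0))]) (T := [(0,0,0),(0,0,0),(0,0,0),(1,1,1),(2,3,1),(3,2,1)]) (by decide +kernel)⟩

theorem B2_good : ∀ x ∈ B2, GT x := by
  simp only [B2, List.forall_mem_cons, List.not_mem_nil, false_imp_iff, implies_true, and_true]
  exact ⟨B2_0, B2_1, B2_2, B2_3, B2_4, B2_5, B2_6, B2_7, B2_8, B2_9, B2_10⟩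

/-- The records. -/
def R2 : List TR := [
  .r [1,1,1], .c 0, .b 0, .u 1 0, .r [1,1], .c 0, .b 1, .c 0, .u 2 0, .b 2, .r [2,1,1], .c 0,
  .u 0 9, .u 11 6, .u 6 11, .u 9 12, .c 0, .u 11 0, .b 3, .u 17 0, .b 4, .r [2,2,1], .c 0, .u 0 20,
  .r [2,2], .u 0 17, .r [1], .u 8 0, .c 0, .u 0 26, .u 11 22, .c 13, .c 12, .c 12, .u 7 31, .c 0,
  .u 24 0, .u 25 29, .u 2 30, .u 31 31, .u 38 23, .u 39 12, .b 5, .b 6, .r [2,2,2], .c 0, .u 0 43, .u 24 39,
  .u 42 29, .c 0, .u 0 47, .u 22 43, .c 39, .c 39, .c 39, .r [2,1,1,1], .c 0, .u 0 54, .r [1,1,1,1], .c 0,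
  .u 0 53, .u 34 6, .b 7, .c 26, .c 26, .c 26, .c 26, .r [2,2,1,1], .c 0, .u 0 66, .u 51 13, .u 65 16,
  .u 45 65, .c 0, .u 55 0, .c 51, .c 50, .c 47, .c 47, .c 9, .c 9, .c 9, .c 7, .c 36,
  .c 36, .c 34, .c 34, .r [2,2,2,1], .c 0, .u 0 86, .u 21 82, .u 89 36, .u 86 13, .b 8, .r [2,1], .u 76 0,
  .c 0, .u 0 90, .u 79 95, .c 0, .u 0 93, .u 99 34, .u 2 83, .u 43 72, .u 4 76, .u 86 26, .u 104 27, .u 7 99,
  .u 48 68, .u 82 101, .u 10 0, .u 103 32, .u 52 33, .c 0, .u 14 85, .u 96 96, .c 0, .u 0 109, .c 0, .u 19 110,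
  .u 91 41, .c 19, .c 19, .u 98 104, .c 0, .u 0 118, .u 9 91, .u 10 120, .u 68 61, .b 9, .u 13 111, .u 14 115,
  .u 15 104, .c 18, .u 126 129, .c 0, .u 36 0, .u 20 27, .u 21 121, .u 22 110, .u 23 136, .u 24 132, .u 25 132, .c 45,
  .c 43, .u 120 138, .c 0, .u 0 140, .u 129 113, .c 0, .u 0 143, .u 132 144, .c 0, .u 0 146, .c 28, .c 28,
  .c 28, .u 4 141, .u 5 130, .c 50, .c 49, .c 49, .u 156 147, .c 0, .u 156 0, .u 12 55, .c 29, .c 29,
  .u 166 23, .u 16 160, .u 17 160, .c 67, .c 67, .c 67, .c 16, .c 16, .c 44, .c 44, .u 159 177, .c 0,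
  .u 0 125, .u 175 7, .u 163 172, .c 0, .u 165 0, .c 65, .c 65, .c 18, .c 18, .c 18, .c 49, .c 49,
  .c 49, .u 191 19, .u 41 139, .u 135 50, .u 136 42, .u 178 169, .c 0, .u 0 184, .u 192 26, .u 141 44, .u 52 135, .u 50 136,
  .r [1,1,1,1,1], .c 0, .u 0 100, .u 201 108, .c 0, .u 0 178, .u 11 179, .u 151 49, .u 62 133, .u 60 134, .u 8 102, .u 6 175,
  .u 17 176, .u 11 98, .u 65 132, .u 66 132, .u 218 25, .u 68 128, .u 214 212, .c 0, .u 0 145, .c 13, .c 13, .c 13,
  .u 22 100, .u 226 224, .c 0, .u 0 224, .c 0, .u 116 0, .u 160 227, .c 0, .u 119 0, .u 31 106, .u 29 171, .u 40 172,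
  .u 140 239, .c 0, .u 125 0, .u 235 107, .c 0, .u 128 0, .b 10, .c 0, .u 240 0, .c 0, .u 133 0, .u 45 133,
  .u 43 173, .u 54 174, .u 159 251, .c 0, .u 0 249, .c 0, .u 141 0, .u 253 252, .c 0, .u 0 254, .c 0, .u 146 0,
  .u 245 16, .c 0, .u 149 0, .u 265 252, .c 0, .u 152 0, .u 220 263, .c 0, .u 155 0, .u 156 49, .u 214 79, .u 158 131,
  .u 159 131, .c 75, .c 75, .c 75, .u 74 126, .u 275 165, .c 0, .u 0 268, .u 131 48, .u 79 128, .u 283 279, .c 0,
  .u 282 0, .c 0, .c 0, .u 138 0, .u 265 252, .c 0, .u 141 0, .u 7 228, .c 0, .u 295 0, .u 15 267, .u 146 49,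
  .c 62, .c 62, .c 62, .u 150 45, .u 21 264, .u 152 39, .u 206 239, .c 0, .u 306 0, .u 156 37, .u 157 86, .u 164 166,
  .u 310 32, .u 160 168, .c 96, .c 96, .c 96, .u 298 262, .c 0, .u 139 0, .u 301 253, .c 0, .u 61 0, .u 315 316,
  .c 0, .u 141 0, .c 17, .c 17, .c 17, .u 269 32, .u 150 156, .u 43 157, .c 62, .c 60, .c 60, .u 188 16,
  .u 317 282, .c 0, .u 185 0, .u 186 20, .u 280 32, .u 339 310, .c 0, .u 190 0, .u 145 120, .u 285 65, .u 147 201, .u 194 173,
  .c 151, .c 149, .c 149, .u 328 311, .c 0, .u 0 346, .u 348 202, .c 0, .u 0 341, .u 328 317, .c 0, .u 0 352,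
  .c 79, .c 77, .c 77, .u 344 108, .c 0, .u 0 334, .u 10 335, .u 348 327, .c 0, .u 0 359, .c 141, .c 137,
  .c 135, .u 8 333, .u 18 334, .u 367 335, .c 0, .u 0 129, .c 58, .c 56, .c 54, .u 373 62, .c 0, .u 323 0,
  .u 382 33, .u 306 378, .c 0, .u 287 0, .c 173, .c 173, .c 173, .c 17, .c 17, .c 15, .c 90, .c 90,
  .c 90, .u 378 78, .c 0, .u 339 0, .u 321 399, .c 0, .u 285 0, .u 396 396, .c 0, .u 0 402, .c 0, .c 0,
  .u 291 0, .c 150, .c 146, .c 144, .u 259 397, .c 0, .u 354 0, .u 348 414, .c 0, .u 300 0, .u 363 411, .c 0,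
  .u 303 0, .c 85, .c 83, .c 83, .u 364 73, .u 325 352, .c 0, .u 310 0, .u 311 41, .c 222, .c 220, .c 220,
  .c 66, .c 66, .c 64, .c 137, .c 137, .c 137, .u 413 339, .c 0, .u 0 409, .u 422 345, .c 0, .u 0 412,
  .u 425 345, .c 0, .u 0 415, .c 204, .c 202, .c 198, .c 50, .c 48, .c 43, .c 123, .c 123, .c 123,
  .u 309 69, .u 11 405, .u 305 71, .c 238, .c 238, .c 236, .c 78, .c 78, .c 76, .c 153, .c 153, .c 153,
  .c 11, .c 11, .c 11, .c 196, .c 196, .c 196, .c 49, .c 47, .c 47, .c 131, .c 131, .c 131,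
  .u 274 129, .u 35 388, .u 283 95, .r [1,1,1,1,1,1], .c 0, .u 0 284, .u 43 385, .u 131 333, .u 264 481, .c 0, .u 337 0, .u 6 287,
  .u 49 389, .u 137 336, .u 427 246, .c 0, .u 343 0, .u 57 391, .u 55 392, .u 53 393, .u 15 286, .u 58 393, .u 146 340, .u 424 493,
  .c 0, .u 352 0, .u 66 394, .u 64 395, .u 62 396, .u 69 390, .u 67 391, .u 65 392, .u 306 124, .u 453 54, .u 68 393, .u 362 164,
  .u 31 288, .u 74 394, .u 162 344, .u 452 509, .c 0, .u 404 0, .u 82 394, .u 80 395, .u 78 396, .u 85 394, .u 83 395, .u 81 396,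
  .u 322 119, .u 469 58, .u 84 397, .u 512 357, .c 0, .u 416 0, .u 94 416, .u 92 417, .u 90 418, .u 331 116, .u 478 61, .u 93 401,
  .u 387 509, .c 0, .u 425 0, .u 337 119, .u 484 64, .u 99 405, .u 429 515, .c 0, .u 431 0, .u 343 120, .u 104 408, .u 352 200,
  .c 51, .c 51, .c 51, .c 49, .u 116 402, .u 114 403, .u 112 404, .u 119 402, .u 117 403, .u 115 404, .u 356 115, .u 503 446,
  .c 0, .u 0 557, .c 0, .u 0 536, .u 122 409, .u 416 36, .u 130 408, .u 128 409, .u 126 410, .u 367 120, .u 7 534, .u 129 409,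
  .u 423 34, .u 371 121, .u 431 30, .u 133 411, .u 427 32, .u 375 122, .u 136 412, .u 564 510, .c 0, .u 0 305, .c 51, .c 51,
  .c 51, .u 383 124, .u 213 511, .c 0, .u 532 0, .u 147 417, .u 477 476, .c 0, .u 0 589, .u 391 129, .u 31 531, .u 153 421,
  .u 4 581, .u 395 130, .u 156 420, .u 404 70, .u 398 130, .u 38 526, .u 160 419, .u 11 599, .u 402 131, .u 163 420, .u 411 68, .u 405 131,
  .u 166 420, .u 414 65, .u 129 266, .u 172 420, .u 333 265, .u 21 607, .c 126, .c 126, .c 126, .c 124, .u 597 506, .c 0,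
  .u 0 523, .u 606 509, .c 0, .u 0 529, .u 1 527, .u 5 526, .u 3 528, .u 4 528, .u 532 610, .u 6 0, .u 10 528, .u 8 530,
  .u 9 530, .c 77, .c 77, .c 77, .r [3,1,1], .u 541 0, .u 15 0, .u 19 531, .u 17 533, .u 18 533, .u 546 623, .u 20 0,
  .u 24 529, .u 22 534, .u 23 531, .u 628 572, .u 25 0, .u 26 533, .u 27 533, .c 129, .c 129, .c 129, .u 601 603, .u 32 0,
  .u 36 532, .u 34 534, .u 35 534, .u 660 607, .c 0, .u 0 260, .c 0, .c 0, .u 551 0, .u 45 538, .u 604 603, .c 0,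
  .u 555 0, .u 46 542, .u 557 652, .u 48 0, .u 49 544, .u 50 544, .c 80, .c 80, .c 80, .c 80, .u 565 41, .u 56 0,
  .u 57 547, .u 58 547, .u 569 663, .u 60 0, .u 61 549, .u 62 549, .u 205 261, .u 64 550, .u 65 550, .u 66 550, .c 184, .c 184,
  .c 184, .u 491 682, .u 71 0, .u 75 545, .u 73 549, .u 74 547, .c 54, .c 54, .c 54, .c 54, .u 500 675, .u 80 0,
  .u 81 550, .u 82 550, .c 132, .c 132, .c 132, .c 132, .u 508 674, .u 88 0, .u 89 551, .u 90 551, .c 35, .u 92 0,
  .u 93 553, .u 94 553, .u 237 263, .u 96 554, .u 97 554, .u 98 554, .c 182, .c 182, .c 182, .c 180, .c 23, .u 104 0,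
  .u 105 557, .u 106 557, .c 46, .c 46, .c 46, .u 252 266, .u 111 557, .u 112 557, .u 113 555, .c 129, .c 129, .c 129,
  .u 259 267, .u 118 557, .u 119 557, .u 120 557, .u 263 268, .u 122 558, .u 123 558, .u 124 558, .u 128 557, .u 126 559, .u 127 559, .c 269,
  .c 269, .c 269, .c 267, .u 734 607, .c 0, .u 0 660, .u 743 610, .c 0, .u 0 666, .u 1 664, .c 141, .c 139,
  .c 139, .u 323 445, .c 0, .u 565 0, .u 11 666, .u 754 624, .c 0, .u 0 669, .u 12 670, .c 220, .c 220, .c 220,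
  .u 492 761, .c 0, .u 377 0, .c 0, .u 578 0, .u 24 673, .u 11 674, .u 23 675, .c 89, .c 89, .c 89, .c 89,
  .u 773 467, .c 0, .u 389 0, .c 0, .u 590 0, .u 33 677, .u 34 677, .c 276, .c 276, .c 276, .u 477 795, .c 0,
  .u 704 0, .c 0, .u 600 0, .u 46 679, .u 33 680, .u 45 681, .c 150, .c 150, .c 150, .c 150, .u 661 10, .c 0,
  .u 610 0, .u 53 685, .u 54 685, .c 229, .c 227, .c 227, .c 225, .u 706 19, .c 0, .u 619 0, .u 62 689, .u 63 689,
  .c 96, .c 96, .c 96, .r [3,2,1], .u 715 0, .u 69 0, .u 70 693, .u 71 693, .u 72 693, .c 330, .c 330, .c 330,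
  .c 55, .c 55, .c 55, .c 55, .c 201, .c 201, .c 201, .c 201, .u 443 841, .c 0, .c 0, .u 698 0,
  .c 0, .u 647 0, .u 90 696, .u 91 696, .c 282, .c 282, .c 282, .c 282, .u 743 9, .c 0, .u 656 0, .u 99 698,
  .u 100 698, .c 149, .c 149, .c 149, .u 715 36, .u 105 0, .u 106 701, .u 107 701, .u 108 701, .c 335, .c 335, .c 335,
  .c 333, .c 51, .c 51, .c 51, .c 196, .c 196, .c 196, .u 814 558, .u 120 0, .u 121 704, .u 122 704, .u 123 702,
  .c 279, .c 279, .c 279, .c 22, .u 128 0, .u 129 705, .u 130 705, .u 131 705, .c 151, .c 151, .c 151, .c 151,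
  .u 139 705, .u 137 707, .u 138 707, .c 405, .c 405, .c 405, .c 134, .c 134, .c 132, .c 132, .c 276, .c 276,
  .c 276, .c 276, .u 895 892, .u 896 0, .c 0, .u 0 811, .u 912 473, .c 0, .u 0 814, .u 902 723, .c 0, .u 0 817,
  .c 361, .c 357, .c 357, .c 357, .c 74, .c 74, .c 74, .c 223, .c 223, .c 223, .u 449 138, .u 916 756,
  .c 0, .u 0 554, .u 930 144, .c 0, .u 584 0, .u 933 718, .c 0, .u 0 556, .c 415, .c 415, .c 415, .c 413,
  .c 131, .c 131, .c 131, .c 275, .c 275, .c 275, .u 469 138, .u 18 556, .u 937 162, .c 0, .u 602 0, .u 940 774,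
  .c 0, .u 844 0, .c 360, .c 360, .c 360, .c 80, .c 80, .c 80, .c 80, .c 231, .c 231, .c 231,
  .c 231, .u 913 67, .u 37 623, .u 956 688, .c 0, .u 0 626, .c 465, .c 465, .c 465, .c 465, .c 185, .c 185,
  .c 185, .c 332, .c 332, .c 332, .c 53, .c 51, .c 49, .c 47, .c 410, .c 410, .c 408, .c 125,
  .c 125, .c 125, .c 125, .c 276, .c 276, .c 276, .c 276, .u 242 620, .u 1002 210, .c 0, .u 242 0, .u 243 624,
  .c 458, .c 458, .c 458, .c 177, .c 177, .c 177, .c 177, .c 324, .c 324, .c 324, .c 324, .c 45,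
  .c 45, .c 43, .c 407, .c 407, .c 407, .c 407, .c 125, .c 125, .c 125, .c 276, .c 276, .c 276,
  .u 115 837, .u 272 682, .u 111 839, .u 271 684]

/-- The table. -/
def L2 : List TF := runT B2 R2 []

theorem L2_good : ∀ x ∈ L2, GT x := runT_sound B2_good R2 [] (by simp)

/-- The check of the base cases. -/
def chkF2 (L : List TF) : Bool :=
  [4, 5, 6, 7].all fun x => (allBits x).all fun b =>
    (List.range (area (Fw b) + 1)).all fun h2 =>
      if h2 = 0 then true
      else if area (Fw b) < 2 * h2 then true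
      else if (x ≠ 4 ∧ h2 + x + h2 ≤ area (Fw b)) then true
      else memT (rowsW (nzW (Fw b)), [area (Fw b) - h2, h2]) L

theorem chkF2_L2 : chkF2 L2 = true := by decide +kernel

/-- The base of the few-row lemma. -/
theorem f2Base : F2Base := by
  intro b h4 h7 h1 h2 h21 hsum hc
  by_cases h0 : h2 = 0
  · subst h0
    have := TT.rowW (Fw b)
    rwa [← hsum, Nat.add_zero] at this
  have hall := chkF2_L2
  simp only [chkF2, List.all_eq_true] at hall
  have hx : b.length ∈ [4, 5, 6, 7] := by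
    have : b.length = 4 ∨ b.length = 5 ∨ b.length = 6 ∨ b.length = 7 := by omega
    simp only [List.mem_cons, List.not_mem_nil, or_false]
    exact this
  have := hall b.length hx b (mem_allBits b) h2 (by rw [List.mem_range]; omega)
  rw [if_neg h0, if_neg (by omega), if_neg (by omega)] at this
  have hg := L2_good _ (mem_of_memT this)
  have h3 := hg.2.2
  simp only at h3
  have e : area (Fw b) - h2 = h1 := by omega
  rw [e] at h3
  change TT (shape (nzW (Fw b))) (yd [h1, h2]) at h3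
  rwa [shape_nzW] at h3

/-- **Few-row lemma, two rows**: every word `F(b)` with at least four blocks hosts every partition
with at most two rows of the right size. -/
theorem TT_F2 (b : List Bool) (hb : 4 ≤ b.length) (h1 h2 : ℕ) (h21 : h2 ≤ h1)
    (hsum : h1 + h2 = area (Fw b)) : TT (shape (Fw b)) (yd [h1, h2]) :=
  TT_F2_of_base f2Base _ b rfl hb h1 h2 h21 hsum

lemma countP_blt_card (l : List ℕ) (i : ℕ) :
    l.countP (fun x => Nat.blt i x) = (Multiset.filter (fun h => i < h) (l : Multiset ℕ)).card := by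
  rw [Multiset.filter_coe, Multiset.coe_card, List.countP_eq_length_filter]
  congr 2
  funext x
  rw [Bool.eq_iff_iff]
  simp only [Nat.blt, decide_eq_true_eq, Nat.ble_eq]
  omega

/-- The conjugate of an explicit shape is the diagram of its columns. -/
theorem yd_transpose_eq_colsD {l : List ℕ} (hl : srt l = true) :
    (yd l).transpose = colsD (l : Multiset ℕ) := by
  apply ext_rowLen
  intro i
  rw [YoungDiagram.rowLen_transpose, colLen_yd hl, rowLen_colsD, countP_blt_card]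

/-- **Few-row lemma at the pair level**: a tile `F(b)` hosts two columns on the pair `(Y, Y')`. -/
theorem Q_F2_cols (b : List Bool) (hb : 4 ≤ b.length) (h1 h2 : ℕ) (h21 : h2 ≤ h1)
    (hsum : h1 + h2 = area (Fw b)) :
    Q (shape (Fw b)) (shape (Fw b)).transpose (colsD ({h1, h2} : Multiset ℕ)) := by
  have h := (TT_F2 b hb h1 h2 h21 hsum).conj23
  have hs : srt [h1, h2] = true := by simp [srt, h21]
  rw [yd_transpose_eq_colsD hs] at h
  exact h

end Crest.Agent.Lib.Saxl
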