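import Crest.Agent.Lib.Saxl.FewRowF3

/-!
# Saxl: the kernel table for the three-row few-row lemma (helper23)
-/

set_option autoImplicit false
set_option linter.unusedSectionVars false
set_option maxRecDepth 100000

namespace Crest.Agent.Lib.Saxl

lemma GT_of_conj {Y Y' e : List ℕ} (hY : srt Y' = true) (he : srt e = true)
    (hc : conjL Y' = Y) (h : TT (yd Y') (yd e)) : GT (Y, e) := by
  subst hc
  refine ⟨srt_conjL hY, he, ?_⟩
  simp only
  rw [yd_conjL hY]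
  exact h.transpose

/-- The base facts. -/
def B3 : List TF := [([], []), ([2,1], [2,1]), ([2,1], [1,1,1]), ([2,1,1], [2,2]), ([3,2,1], [3,3]), ([2,2,1], [2,2,1]), ([3,2,1], [2,2,2]), ([2,2], [2,2]), ([3,2,2], [3,3,1]), ([2,2,2], [2,2,2]), ([3,3,2], [4,4]), ([3,2,2], [4,3]), ([3,3,3], [4,4,1]), ([3,3,3,3], [6,6]), ([3,1,1], [2,2,1]), ([3,3,3], [3,3,3]), ([3,3,1,1,1], [3,3,3]), ([3,1,1,1], [2,2,2]), ([3,2,2,2], [3,3,3]), ([3,3,1,1], [3,3,2]), ([3,3,2], [4,3,1]), ([3,3,2], [3,3,2]), ([4,2,1,1], [3,3,2]), ([4,2,2,1], [4,4,1]), ([4,3,3,1], [4,4,3]), ([3,1,1,1], [3,3]), ([4,4,2,2], [6,5,1]), ([4,4,2,2], [5,5,2]), ([3,3,2,2], [4,3,3]), ([4,2,1,1], [4,4]), ([4,3,2,1], [5,5]), ([4,1,1,1], [3,3,1]), ([4,1,1,1,1], [3,3,2]), ([4,4,3,3], [5,5,4]), ([6,2,1,1,1,1], [4,4,4])]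

theorem B3_e : GT ([], []) := ⟨rfl, rfl, cert_Q (ls := []) (T := []) (by decide +kernel)⟩

theorem B3_0 : GT ([2,1], [2,1]) :=
  ⟨by decide, by decide, cert_Q (ls := [((0,0),(0,0),(0,1)),((1,0),(1,0),(1,0)),((0,1),(0,1),(0,0))]) (T := [(0,0,0),(0,0,0),(1,1,1)]) (by decide +kernel)⟩

theorem B3_1 : GT ([2,1], [1,1,1]) :=
  ⟨by decide, by decide, cert_Q (ls := [((0,0),(0,1),(2,0)),((1,0),(0,0),(1,0)),((0,1),(1,0),(0,0))]) (T := [(0,0,2),(0,1,0),(1,0,1)]) (by decide +kernel)⟩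

theorem B3_2 : GT ([2,1,1], [2,2]) :=
  ⟨by decide, by decide, cert_Q (ls := [((0,0),(0,1),(0,1)),((1,0),(1,0),(1,1)),((2,0),(2,0),(1,0)),((0,1),(0,0),(0,0))]) (T := [(0,0,0),(0,0,0),(1,1,1),(2,2,1)]) (by decide +kernel)⟩

theorem B3_3 : GT ([3,2,1], [3,3]) :=
  ⟨by decide, by decide, cert_Q (ls := [((0,0),(0,2),(0,0)),((1,0),(1,1),(1,1)),((2,0),(2,0),(1,2)),((0,1),(0,0),(0,2)),((1,1),(1,0),(1,0)),((0,2),(0,1),(0,1))]) (T := [(0,0,0),(0,0,0),(0,0,0),(1,1,1),(1,1,1),(2,2,1)]) (by decide +kernel)⟩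

theorem B3_4 : GT ([2,2,1], [2,2,1]) :=
  GT_of_conj (Y' := [3,2]) (by decide) (by decide) (by decide) (cert_Q (ls := [((0,0),(1,0),(1,1)),((1,0),(0,2),(0,0)),((0,1),(0,0),(2,0)),((1,1),(0,1),(0,1)),((0,2),(1,1),(1,0))]) (T := [(0,0,2),(0,1,1),(0,1,1),(1,0,0),(1,0,0)]) (by decide +kernel))

theorem B3_5 : GT ([3,2,1], [2,2,2]) :=
  ⟨by decide, by decide, cert_Q (ls := [((0,0),(0,1),(1,0)),((1,0),(0,2),(0,1)),((2,0),(2,0),(1,1)),((0,1),(1,1),(2,1)),((1,1),(0,0),(0,0)),((0,2),(1,0),(2,0))]) (T := [(0,0,1),(0,1,2),(0,1,2),(1,0,0),(1,0,0),(2,2,1)]) (by decide +kernel)⟩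

theorem B3_6 : GT ([2,2], [2,2]) :=
  ⟨by decide, by decide, cert_Q (ls := [((0,0),(0,0),(1,0)),((1,0),(1,1),(0,1)),((0,1),(0,1),(1,1)),((1,1),(1,0),(0,0))]) (T := [(0,0,1),(0,0,1),(1,1,0),(1,1,0)]) (by decide +kernel)⟩

theorem B3_7 : GT ([3,2,2], [3,3,1]) :=
  ⟨by decide, by decide, cert_Q (ls := [((0,0),(0,2),(1,1)),((1,0),(2,0),(0,1)),((2,0),(1,1),(1,2)),((0,1),(1,0),(0,2)),((1,1),(2,1),(0,0)),((2,1),(0,0),(2,0)),((0,2),(0,1),(1,0))]) (T := [(0,0,1),(0,0,1),(0,1,0),(1,2,0),(1,2,0),(2,0,2),(2,1,1)]) (by decide +kernel)⟩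

theorem B3_8 : GT ([2,2,2], [2,2,2]) :=
  ⟨by decide, by decide, cert_Q (ls := [((0,0),(2,1),(0,0)),((1,0),(0,0),(2,0)),((2,0),(1,1),(1,1)),((0,1),(2,0),(0,1)),((1,1),(0,1),(2,1)),((2,1),(1,0),(1,0))]) (T := [(0,2,0),(0,2,0),(1,0,2),(1,0,2),(2,1,1),(2,1,1)]) (by decide +kernel)⟩

theorem B3_9 : GT ([3,3,2], [4,4]) :=
  ⟨by decide, by decide, cert_Q (ls := [((0,0),(1,0),(0,0)),((1,0),(0,2),(1,1)),((2,0),(2,1),(1,0)),((0,1),(1,2),(0,3)),((1,1),(0,0),(1,3)),((2,1),(2,0),(0,2)),((0,2),(1,1),(0,1)),((1,2),(0,1),(1,2))]) (T := [(0,1,0),(0,1,0),(0,1,0),(1,0,1),(1,0,1),(1,0,1),(2,2,0),(2,2,1)]) (by decide +kernel)⟩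

theorem B3_10 : GT ([3,2,2], [4,3]) :=
  ⟨by decide, by decide, cert_Q (ls := [((0,0),(0,2),(0,1)),((1,0),(2,0),(0,3)),((2,0),(1,1),(1,0)),((0,1),(0,1),(0,0)),((1,1),(2,1),(1,2)),((2,1),(1,0),(1,1)),((0,2),(0,0),(0,2))]) (T := [(0,0,0),(0,0,0),(0,0,0),(1,2,0),(1,2,1),(2,1,1),(2,1,1)]) (by decide +kernel)⟩

theorem B3_11 : GT ([3,3,3], [4,4,1]) :=
  ⟨by decide, by decide, cert_Q (ls := [((0,0),(1,2),(0,1)),((1,0),(2,1),(1,2)),((2,0),(0,1),(0,3)),((0,1),(1,1),(0,0)),((1,1),(2,2),(1,3)),((2,1),(0,0),(1,1)),((0,2),(1,0),(0,2)),((1,2),(2,0),(1,0)),((2,2),(0,2),(2,0))]) (T := [(0,1,0),(0,1,0),(0,1,0),(1,2,1),(1,2,1),(1,2,1),(2,0,0),(2,0,1),(2,0,2)]) (by decide +kernel)⟩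

theorem B3_12 : GT ([3,3,3,3], [6,6]) :=
  GT_of_conj (Y' := [4,4,4]) (by decide) (by decide) (by decide) (cert_Q (ls := [((0,0),(2,1),(0,1)),((1,0),(2,0),(0,2)),((2,0),(1,3),(0,4)),((0,1),(1,1),(1,1)),((1,1),(2,3),(0,5)),((2,1),(0,3),(1,3)),((0,2),(1,0),(1,4)),((1,2),(0,1),(1,0)),((2,2),(1,2),(0,0)),((0,3),(2,2),(0,3)),((1,3),(0,0),(1,2)),((2,3),(0,2),(1,5))]) (T := [(0,1,1),(0,1,1),(0,2,0),(0,2,0),(1,0,1),(1,0,1),(1,2,0),(1,2,0),(2,0,1),(2,0,1),(2,1,0),(2,1,0)]) (by decide +kernel))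

theorem B3_13 : GT ([3,1,1], [2,2,1]) :=
  ⟨by decide, by decide, cert_Q (ls := [((0,0),(0,1),(1,1)),((1,0),(1,0),(0,1)),((2,0),(0,0),(2,0)),((0,1),(0,2),(1,0)),((0,2),(2,0),(0,0))]) (T := [(0,0,1),(0,0,1),(0,2,0),(1,1,0),(2,0,2)]) (by decide +kernel)⟩

theorem B3_14 : GT ([3,3,3], [3,3,3]) :=
  ⟨by decide, by decide, cert_Q (ls := [((0,0),(0,2),(2,2)),((1,0),(1,0),(0,2)),((2,0),(2,1),(1,0)),((0,1),(2,2),(0,1)),((1,1),(1,2),(0,0)),((2,1),(2,0),(1,2)),((0,2),(0,1),(2,0)),((1,2),(0,0),(1,1)),((2,2),(1,1),(2,1))]) (T := [(0,0,2),(0,0,2),(0,2,0),(1,0,1),(1,1,0),(1,1,0),(2,1,2),(2,2,1),(2,2,1)]) (by decide +kernel)⟩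

theorem B3_15 : GT ([3,3,1,1,1], [3,3,3]) :=
  GT_of_conj (Y' := [5,2,2]) (by decide) (by decide) (by decide) (cert_Q (ls := [((0,0),(0,2),(1,2)),((1,0),(0,4),(2,1)),((2,0),(2,1),(0,2)),((0,1),(1,1),(0,1)),((1,1),(0,1),(2,2)),((2,1),(2,0),(0,0)),((0,2),(0,3),(1,0)),((0,3),(1,0),(2,0)),((0,4),(0,0),(1,1))]) (T := [(0,0,1),(0,0,1),(0,0,1),(0,1,0),(0,1,2),(1,0,2),(1,0,2),(2,2,0),(2,2,0)]) (by decide +kernel))

theorem B3_16 : GT ([3,1,1,1], [2,2,2]) :=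
  ⟨by decide, by decide, cert_Q (ls := [((0,0),(0,1),(2,1)),((1,0),(0,2),(0,0)),((2,0),(2,0),(0,1)),((3,0),(3,0),(1,0)),((0,1),(1,0),(1,1)),((0,2),(0,0),(2,0))]) (T := [(0,0,2),(0,0,2),(0,1,1),(1,0,0),(2,2,0),(3,3,1)]) (by decide +kernel)⟩

theorem B3_17 : GT ([3,2,2,2], [3,3,3]) :=
  GT_of_conj (Y' := [4,4,1]) (by decide) (by decide) (by decide) (cert_Q (ls := [((0,0),(1,3),(1,0)),((1,0),(1,1),(0,2)),((2,0),(0,2),(1,1)),((0,1),(0,3),(2,2)),((1,1),(1,2),(0,0)),((0,2),(0,0),(2,0)),((1,2),(2,0),(1,2)),((0,3),(0,1),(2,1)),((1,3),(1,0),(0,1))]) (T := [(0,0,2),(0,0,2),(0,0,2),(0,1,1),(1,1,0),(1,1,0),(1,1,0),(1,2,1),(2,0,1)]) (by decide +kernel))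

theorem B3_18 : GT ([3,3,1,1], [3,3,2]) :=
  GT_of_conj (Y' := [4,2,2]) (by decide) (by decide) (by decide) (cert_Q (ls := [((0,0),(0,3),(0,2)),((1,0),(0,2),(2,0)),((2,0),(1,1),(1,0)),((0,1),(0,0),(0,0)),((1,1),(2,0),(1,2)),((2,1),(1,0),(2,1)),((0,2),(2,1),(1,1)),((0,3),(0,1),(0,1))]) (T := [(0,0,0),(0,0,0),(0,0,0),(0,2,1),(1,0,2),(1,2,1),(2,1,1),(2,1,2)]) (by decide +kernel))

theorem B3_19 : GT ([3,3,2], [4,3,1]) :=
  ⟨by decide, by decide, cert_Q (ls := [((0,0),(0,2),(0,3)),((1,0),(2,0),(0,1)),((2,0),(1,2),(1,0)),((0,1),(0,1),(0,2)),((1,1),(2,1),(0,0)),((2,1),(1,1),(1,1)),((0,2),(1,0),(1,2)),((1,2),(0,0),(2,0))]) (T := [(0,0,0),(0,0,0),(0,1,1),(1,0,2),(1,2,0),(1,2,0),(2,1,1),(2,1,1)]) (by decide +kernel)⟩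

theorem B3_20 : GT ([3,3,2], [3,3,2]) :=
  ⟨by decide, by decide, cert_Q (ls := [((0,0),(2,1),(0,2)),((1,0),(0,1),(2,1)),((2,0),(1,0),(1,2)),((0,1),(0,0),(1,1)),((1,1),(1,1),(0,0)),((2,1),(1,2),(1,0)),((0,2),(2,0),(0,1)),((1,2),(0,2),(2,0))]) (T := [(0,0,1),(0,2,0),(0,2,0),(1,0,2),(1,0,2),(1,1,0),(2,1,1),(2,1,1)]) (by decide +kernel)⟩

theorem B3_21 : GT ([4,2,1,1], [3,3,2]) :=
  ⟨by decide, by decide, cert_Q (ls := [((0,0),(0,3),(0,2)),((1,0),(0,2),(2,0)),((2,0),(1,1),(1,0)),((3,0),(1,0),(2,1)),((0,1),(0,0),(0,0)),((1,1),(2,0),(1,2)),((0,2),(3,0),(1,1)),((0,3),(0,1),(0,1))]) (T := [(0,0,0),(0,0,0),(0,0,0),(0,3,1),(1,0,2),(1,2,1),(2,1,1),(3,1,2)]) (by decide +kernel)⟩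

theorem B3_22 : GT ([4,2,2,1], [4,4,1]) :=
  GT_of_conj (Y' := [4,3,1,1]) (by decide) (by decide) (by decide) (cert_Q (ls := [((0,0),(1,2),(1,3)),((1,0),(0,3),(0,3)),((2,0),(1,1),(0,0)),((3,0),(3,0),(1,0)),((0,1),(0,2),(0,2)),((1,1),(0,0),(2,0)),((0,2),(0,1),(0,1)),((1,2),(2,0),(1,1)),((0,3),(1,0),(1,2))]) (T := [(0,0,0),(0,0,0),(0,1,1),(0,1,1),(1,0,0),(1,0,2),(1,2,1),(2,1,0),(3,3,1)]) (by decide +kernel))

theorem B3_23 : GT ([4,3,3,1], [4,4,3]) :=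
  ⟨by decide, by decide, cert_Q (ls := [((0,0),(3,0),(2,0)),((1,0),(0,1),(0,0)),((2,0),(2,0),(1,3)),((3,0),(1,0),(2,1)),((0,1),(0,0),(0,3)),((1,1),(2,2),(2,2)),((2,1),(1,2),(1,1)),((0,2),(2,1),(0,1)),((1,2),(0,2),(0,2)),((2,2),(1,1),(1,0)),((0,3),(0,3),(1,2))]) (T := [(0,0,0),(0,0,1),(0,2,0),(0,3,2),(1,0,0),(1,0,0),(1,2,2),(2,1,1),(2,1,1),(2,2,1),(3,1,2)]) (by decide +kernel)⟩

theorem B3_24 : GT ([3,1,1,1], [3,3]) :=
  GT_of_conj (Y' := [4,1,1]) (by decide) (by decide) (by decide) (cert_Q (ls := [((0,0),(0,2),(0,1)),((1,0),(0,3),(1,2)),((2,0),(2,0),(1,1)),((0,1),(0,0),(0,2)),((0,2),(1,0),(1,0)),((0,3),(0,1),(0,0))]) (T := [(0,0,0),(0,0,0),(0,0,0),(0,1,1),(1,0,1),(2,2,1)]) (by decide +kernel))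

theorem B3_25 : GT ([4,4,2,2], [6,5,1]) :=
  ⟨by decide, by decide, cert_Q (ls := [((0,0),(0,3),(0,4)),((1,0),(0,2),(0,5)),((2,0),(1,2),(0,2)),((3,0),(2,0),(1,0)),((0,1),(0,0),(0,1)),((1,1),(1,0),(1,4)),((2,1),(3,0),(2,0)),((3,1),(2,1),(1,3)),((0,2),(1,1),(1,2)),((1,2),(1,3),(0,0)),((0,3),(3,1),(1,1)),((1,3),(0,1),(0,3))]) (T := [(0,0,0),(0,0,0),(0,1,1),(0,3,1),(1,0,0),(1,0,0),(1,1,0),(1,1,1),(2,1,0),(2,3,2),(3,2,1),(3,2,1)]) (by decide +kernel)⟩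

theorem B3_26 : GT ([4,4,2,2], [5,5,2]) :=
  ⟨by decide, by decide, cert_Q (ls := [((0,0),(0,2),(0,3)),((1,0),(1,3),(0,2)),((2,0),(0,1),(1,3)),((3,0),(0,3),(2,0)),((0,1),(2,0),(1,0)),((1,1),(1,2),(0,0)),((2,1),(2,1),(0,1)),((3,1),(3,0),(1,4)),((0,2),(3,1),(0,4)),((1,2),(0,0),(1,1)),((0,3),(1,1),(2,1)),((1,3),(1,0),(1,2))]) (T := [(0,0,0),(0,1,2),(0,2,1),(0,3,0),(1,0,1),(1,1,0),(1,1,0),(1,1,1),(2,0,1),(2,2,0),(3,0,2),(3,3,1)]) (by decide +kernel)⟩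

theorem B3_27 : GT ([3,3,2,2], [4,3,3]) :=
  GT_of_conj (Y' := [4,4,2]) (by decide) (by decide) (by decide) (cert_Q (ls := [((0,0),(1,3),(0,3)),((1,0),(1,2),(1,2)),((2,0),(0,1),(2,0)),((0,1),(2,1),(0,2)),((1,1),(0,3),(0,1)),((2,1),(0,0),(2,2)),((0,2),(2,0),(0,0)),((1,2),(0,2),(1,0)),((0,3),(1,0),(2,1)),((1,3),(1,1),(1,1))]) (T := [(0,1,0),(0,1,2),(0,2,0),(0,2,0),(1,0,0),(1,0,1),(1,1,1),(1,1,1),(2,0,2),(2,0,2)]) (by decide +kernel))

theorem B3_28 : GT ([4,2,1,1], [4,4]) :=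
  ⟨by decide, by decide, cert_Q (ls := [((0,0),(0,2),(0,2)),((1,0),(0,3),(1,0)),((2,0),(1,1),(1,2)),((3,0),(2,0),(0,3)),((0,1),(0,0),(0,0)),((1,1),(1,0),(1,1)),((0,2),(3,0),(1,3)),((0,3),(0,1),(0,1))]) (T := [(0,0,0),(0,0,0),(0,0,0),(0,3,1),(1,0,1),(1,1,1),(2,1,1),(3,2,0)]) (by decide +kernel)⟩

theorem B3_29 : GT ([4,3,2,1], [5,5]) :=
  ⟨by decide, by decide, cert_Q (ls := [((0,0),(1,2),(0,4)),((1,0),(0,2),(1,1)),((2,0),(0,1),(0,0)),((3,0),(2,1),(1,4)),((0,1),(1,1),(0,3)),((1,1),(0,3),(1,3)),((2,1),(2,0),(1,2)),((0,2),(0,0),(1,0)),((1,2),(3,0),(0,2)),((0,3),(1,0),(0,1))]) (T := [(0,0,1),(0,1,0),(0,1,0),(0,1,0),(1,0,1),(1,0,1),(1,3,0),(2,0,0),(2,2,1),(3,2,1)]) (by decide +kernel)⟩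

theorem B3_30 : GT ([4,1,1,1], [3,3,1]) :=
  ⟨by decide, by decide, cert_Q (ls := [((0,0),(0,1),(1,1)),((1,0),(0,2),(0,2)),((2,0),(3,0),(0,1)),((3,0),(1,0),(2,0)),((0,1),(0,0),(1,2)),((0,2),(0,3),(1,0)),((0,3),(2,0),(0,0))]) (T := [(0,0,1),(0,0,1),(0,0,1),(0,2,0),(1,0,0),(2,3,0),(3,1,2)]) (by decide +kernel)⟩

theorem B3_31 : GT ([4,1,1,1,1], [3,3,2]) :=
  ⟨by decide, by decide, cert_Q (ls := [((0,0),(0,3),(0,2)),((1,0),(0,2),(2,0)),((2,0),(3,0),(1,2)),((3,0),(2,0),(1,0)),((4,0),(1,0),(2,1)),((0,1),(0,0),(0,0)),((0,2),(4,0),(1,1)),((0,3),(0,1),(0,1))]) (T := [(0,0,0),(0,0,0),(0,0,0),(0,4,1),(1,0,2),(2,3,1),(3,2,1),(4,1,2)]) (by decide +kernel)⟩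

theorem B3_32 : GT ([4,4,3,3], [5,5,4]) :=
  ⟨by decide, by decide, cert_Q (ls := [((0,0),(0,1),(1,1)),((1,0),(3,1),(0,4)),((2,0),(2,2),(1,2)),((3,0),(1,3),(0,1)),((0,1),(1,2),(0,2)),((1,1),(0,2),(2,1)),((2,1),(1,1),(2,2)),((3,1),(2,1),(1,3)),((0,2),(0,0),(1,4)),((1,2),(0,3),(0,3)),((2,2),(1,0),(2,3)),((3,2),(3,0),(2,0)),((0,3),(2,0),(1,0)),((1,3),(3,2),(0,0))]) (T := [(0,0,1),(0,0,1),(0,1,0),(0,2,1),(1,0,0),(1,0,2),(1,3,0),(1,3,0),(2,1,2),(2,1,2),(2,2,1),(3,1,0),(3,2,1),(3,3,2)]) (by decide +kernel)⟩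

theorem B3_33 : GT ([6,2,1,1,1,1], [4,4,4]) :=
  ⟨by decide, by decide, cert_Q (ls := [((0,0),(0,4),(1,3)),((1,0),(0,3),(0,3)),((2,0),(1,1),(0,0)),((3,0),(4,0),(2,0)),((4,0),(0,1),(2,3)),((5,0),(2,0),(0,1)),((0,1),(0,5),(1,2)),((1,1),(1,0),(2,2)),((0,2),(0,2),(1,1)),((0,3),(5,0),(2,1)),((0,4),(0,0),(0,2)),((0,5),(3,0),(1,0))]) (T := [(0,0,0),(0,0,1),(0,0,1),(0,0,1),(0,3,1),(0,5,2),(1,0,0),(1,1,2),(2,1,0),(3,4,2),(4,0,2),(5,2,0)]) (by decide +kernel)⟩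

theorem B3_good : ∀ x ∈ B3, GT x := by
  simp only [B3, List.forall_mem_cons, List.not_mem_nil, false_imp_iff, implies_true, and_true]
  exact ⟨B3_e, B3_0, B3_1, B3_2, B3_3, B3_4, B3_5, B3_6, B3_7, B3_8, B3_9, B3_10, B3_11, B3_12, B3_13, B3_14, B3_15, B3_16, B3_17, B3_18, B3_19, B3_20, B3_21, B3_22, B3_23, B3_24, B3_25, B3_26, B3_27, B3_28, B3_29, B3_30, B3_31, B3_32, B3_33⟩

/-- The records. -/
def R3 : List TR := [
  .b 0, .r [2,1], .b 1, .b 2, .r [3,2,1], .r [1,1,1], .c 0, .u 0 4, .r [1,1], .c 0, .b 3, .c 0,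
  .u 2 0, .b 4, .u 7 10, .b 5, .c 0, .r [1], .u 1 0, .b 6, .r [3,3,2,1], .c 0, .u 15 14, .c 0,
  .u 17 11, .c 0, .u 19 12, .c 0, .b 7, .u 0 11, .c 0, .u 0 19, .c 0, .u 26 18, .c 0, .u 28 16,
  .c 0, .b 8, .c 0, .u 29 0, .c 0, .u 24 29, .c 0, .u 36 23, .c 0, .b 9, .c 0, .u 0 44,
  .c 0, .u 2 45, .c 0, .r [3,3,3,2,1], .c 0, .u 46 30, .c 0, .u 48 30, .c 0, .u 50 30, .c 0, .u 52 27,
  .c 0, .u 51 32, .c 0, .u 0 49, .c 0, .b 10, .u 0 54, .c 0, .u 61 34, .c 0, .u 63 34, .c 0,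
  .u 65 32, .c 0, .u 67 32, .c 0, .u 45 37, .c 0, .u 71 34, .c 0, .u 73 32, .c 0, .u 35 70, .u 73 0,
  .c 0, .u 38 71, .c 0, .u 80 37, .c 0, .u 42 70, .c 0, .u 44 71, .c 0, .r [3,3,3,3,2,1], .c 0, .u 88 41,
  .c 0, .u 90 41, .c 0, .u 92 41, .c 0, .u 94 41, .c 0, .u 96 39, .c 0, .u 98 38, .c 0, .b 11,
  .c 0, .u 43 0, .c 0, .u 104 42, .c 0, .u 106 42, .c 0, .u 108 42, .c 0, .u 110 42, .c 0, .u 112 42,
  .c 0, .b 12, .u 0 110, .u 113 0, .c 0, .u 3 111, .c 0, .u 120 48, .c 0, .u 122 48, .c 0, .u 124 47,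
  .c 0, .u 126 47, .c 0, .u 88 103, .c 0, .u 130 49, .c 0, .u 132 49, .c 0, .u 94 102, .u 132 0, .c 0,
  .u 97 102, .c 0, .u 139 54, .c 0, .u 101 100, .c 0, .u 103 100, .c 0, .b 13, .c 0, .r [2,1,1], .c 0,
  .u 138 153, .c 0, .u 140 154, .c 0, .r [2,2], .r [2,2,1], .c 0, .u 153 160, .c 0, .u 155 161, .c 0, .r [3,1,1],
  .u 150 10, .u 151 157, .u 152 10, .b 14, .b 15, .u 126 0, .c 0, .u 128 128, .u 129 0, .c 0, .u 174 174, .c 0,
  .u 176 160, .c 0, .u 135 3, .c 0, .b 16, .c 0, .b 17, .u 140 0, .c 0, .c 13, .c 3, .b 18,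
  .c 0, .u 146 147, .c 0, .u 149 191, .c 0, .u 193 10, .c 0, .u 195 14, .c 0, .c 186, .c 0, .c 184,
  .c 0, .c 185, .c 0, .u 200 48, .u 198 36, .u 197 205, .u 192 3, .u 201 44, .u 202 195, .c 175, .c 0, .u 168 197,
  .c 0, .u 210 51, .u 211 202, .u 188 215, .u 210 13, .u 204 217, .c 10, .c 10, .c 185, .c 0, .c 10, .c 0,
  .u 221 57, .u 222 57, .u 212 4, .u 213 3, .b 19, .u 226 66, .u 227 217, .b 20, .u 189 226, .b 21, .c 204, .c 0,
  .c 204, .c 0, .c 202, .c 0, .c 202, .c 0, .c 202, .c 0, .c 200, .c 0, .c 200, .c 0,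
  .c 44, .c 44, .c 44, .c 44, .r [1,1,1,1], .c 0, .u 0 99, .u 241 87, .c 0, .u 251 0, .u 244 7, .u 253 72,
  .b 22, .c 36, .c 36, .c 36, .c 36, .c 36, .u 12 104, .u 13 255, .u 262 17, .b 23, .u 264 18, .u 257 259,
  .c 0, .u 0 273, .u 98 274, .c 61, .c 61, .c 61, .c 61, .c 61, .c 13, .c 13, .c 13, .c 13,
  .c 13, .c 11, .c 11, .c 256, .c 0, .c 256, .c 0, .c 254, .c 0, .c 254, .c 0, .c 254,
  .c 0, .c 252, .c 0, .c 252, .c 0, .u 47 102, .u 48 101, .u 300 52, .u 279 305, .c 0, .u 0 306, .u 53 104,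
  .u 302 28, .u 284 309, .c 0, .u 0 311, .u 270 298, .c 0, .u 0 314, .c 11, .c 0, .c 10, .c 0, .c 11,
  .c 0, .c 12, .c 0, .c 11, .c 0, .c 10, .c 0, .u 73 121, .u 322 44, .u 18 322, .u 327 69, .u 317 6,
  .u 326 45, .u 157 165, .u 80 123, .u 329 40, .u 25 311, .u 334 71, .u 24 313, .u 333 38, .u 164 327, .u 338 71, .u 36 330, .u 89 125,
  .u 338 19, .u 34 333, .u 343 71, .u 33 335, .u 172 145, .u 95 127, .u 44 194, .u 40 343, .u 349 72, .u 42 197, .u 40 198, .b 24,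
  .u 353 72, .u 343 5, .u 104 129, .u 345 5, .u 49 192, .u 358 74, .u 348 6, .u 320 176, .u 361 69, .u 59 352, .u 112 132, .u 361 355,
  .c 0, .u 0 356, .u 59 357, .u 368 70, .u 58 359, .u 330 197, .u 120 132, .u 369 23, .u 65 366, .u 374 52, .u 72 175, .u 125 131,
  .u 374 24, .u 70 178, .u 68 179, .c 48, .c 48, .c 48, .c 48, .c 48, .c 48, .c 48, .u 117 365, .c 0,
  .u 386 0, .u 379 7, .u 140 133, .u 219 370, .c 0, .u 391 0, .b 25, .c 0, .u 224 0, .u 387 212, .c 0, .c 0,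
  .u 398 0, .u 391 15, .u 230 219, .u 380 394, .c 0, .u 403 0, .b 26, .u 157 145, .u 369 387, .c 0, .u 408 0, .b 27,
  .b 28, .c 0, .u 412 0, .u 146 243, .u 244 244, .u 167 151, .u 416 36, .u 398 398, .c 0, .u 0 413, .u 420 38, .u 154 176,
  .u 174 153, .u 423 39, .u 254 179, .u 255 179, .c 67, .c 67, .c 67, .c 65, .c 65, .c 65, .c 65, .c 65,
  .u 186 156, .u 427 7, .u 17 274, .u 440 46, .u 430 7, .u 191 158, .u 432 7, .u 136 260, .u 434 8, .u 195 154, .u 25 287, .u 26 438,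
  .u 449 38, .u 147 277, .u 200 153, .u 449 413, .c 0, .u 0 444, .u 147 282, .u 145 283, .u 457 74, .u 36 260, .u 208 137, .u 457 26,
  .u 39 261, .u 462 75, .u 155 214, .u 461 27, .u 292 188, .c 141, .c 141, .c 141, .c 141, .c 141, .c 141, .c 141,
  .u 476 76, .c 0, .u 475 0, .u 465 7, .u 466 219, .c 0, .u 479 0, .u 307 476, .c 0, .u 479 0, .u 486 474, .c 0,
  .u 0 481, .u 489 302, .c 0, .u 488 0, .u 478 16, .u 493 315, .c 101, .c 101, .c 101, .c 99, .c 97, .c 94,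
  .c 94, .c 94, .u 488 218, .c 0, .u 501 0, .u 499 33, .u 481 499, .c 0, .u 0 496, .u 501 322, .c 0, .u 508 0,
  .u 498 202, .c 0, .u 0 502, .u 501 228, .c 0, .u 514 0, .u 512 42, .u 31 507, .u 506 345, .c 0, .u 0 319, .c 166,
  .c 166, .c 166, .c 166, .c 166, .c 166, .c 166, .c 166, .u 517 261, .c 0, .u 530 0, .u 520 9, .u 27 367,
  .u 533 51, .u 523 9, .u 524 263, .c 0, .u 537 0, .u 527 11, .u 54 374, .u 529 12, .c 103, .c 103, .c 103, .c 103,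
  .c 103, .c 103, .c 103, .c 103, .c 103, .u 550 81, .u 46 353, .u 552 81, .u 550 28, .u 49 354, .u 555 82, .u 45 356,
  .u 554 29, .u 73 358, .c 220, .c 220, .c 220, .c 220, .c 220, .c 220, .c 220, .c 220, .c 65, .c 65,
  .c 63, .c 61, .c 59, .c 57, .c 57, .c 57, .c 55, .c 157, .c 157, .c 155, .c 155, .c 155,
  .c 155, .c 155, .c 155, .c 155, .u 582 24, .u 564 563, .c 0, .u 0 579, .u 338 81, .u 587 26, .u 569 582, .c 0,
  .u 0 584, .u 591 28, .u 556 599, .c 0, .u 0 588, .u 595 31, .u 409 590, .c 228, .c 228, .c 228, .c 228, .c 228,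
  .c 228, .c 228, .c 228, .c 228, .c 58, .c 58, .c 58, .c 58, .c 58, .c 58, .c 58, .c 58,
  .c 58, .c 160, .c 160, .c 160, .c 160, .c 160, .c 160, .c 160, .c 160, .c 160, .u 376 158, .u 625 25,
  .u 36 622, .u 630 66, .u 43 431, .u 381 159, .u 630 25, .u 41 434, .u 635 68, .u 39 436, .u 447 437, .c 10, .c 0, .c 11,
  .c 0, .c 12, .c 0, .r [1,1,1,1,1], .c 0, .u 0 324, .c 16, .c 0, .c 17, .c 0, .c 18, .c 0,
  .c 19, .c 0, .c 20, .c 0, .c 21, .c 0, .c 22, .c 0, .c 23, .c 0, .u 17 336, .u 664 94,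
  .u 654 21, .u 415 180, .u 664 53, .u 75 465, .u 23 338, .u 670 95, .u 660 14, .u 421 181, .u 670 55, .u 484 471, .u 664 12, .u 30 342,
  .u 677 98, .u 90 470, .u 428 183, .u 677 57, .u 88 473, .u 36 344, .u 683 99, .u 91 474, .u 434 186, .u 683 59, .u 497 479, .u 498 478,
  .u 438 183, .u 687 46, .u 669 686, .u 99 0, .u 47 350, .u 694 100, .u 107 480, .u 445 179, .u 694 40, .u 105 483, .u 53 353, .u 700 100,
  .u 104 486, .u 699 39, .u 513 488, .u 58 355, .u 705 102, .u 118 487, .u 456 182, .u 120 487, .u 116 490, .u 64 357, .u 711 103, .u 119 491,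
  .u 462 185, .u 117 493, .u 525 496, .u 526 495, .u 466 184, .u 707 11, .u 714 714, .u 127 0, .u 75 363, .u 722 108, .u 712 13, .u 473 184,
  .u 714 12, .u 133 500, .u 81 366, .u 728 110, .u 718 13, .u 719 13, .u 541 505, .u 481 188, .u 145 504, .u 141 675, .u 89 367, .u 736 113,
  .u 149 506, .u 487 189, .u 736 432, .c 0, .u 0 510, .u 149 511, .u 97 372, .u 744 117, .u 148 514, .u 556 516, .u 557 516, .u 102 374,
  .u 749 105, .u 162 511, .u 500 196, .u 749 42, .u 160 514, .u 108 375, .u 755 98, .u 168 511, .u 506 198, .u 755 42, .u 166 514, .u 760 97,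
  .u 164 516, .u 572 517, .c 58, .c 58, .c 58, .c 58, .c 58, .c 58, .c 58, .c 58, .c 58, .c 58,
  .c 58, .c 58, .c 58, .u 525 206, .u 272 558, .c 0, .u 776 0, .b 29, .u 188 0, .u 136 384, .u 278 562, .c 0,
  .u 782 0, .u 775 17, .u 536 212, .u 303 569, .c 0, .u 787 0, .u 198 533, .u 146 388, .u 308 572, .c 0, .u 792 0, .u 785 21,
  .u 757 622, .c 0, .u 796 0, .u 610 542, .u 550 222, .u 380 583, .c 0, .u 801 0, .c 85, .u 213 0, .u 161 394, .u 386 587,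
  .c 0, .u 807 0, .u 223 548, .u 561 228, .u 505 536, .c 0, .u 812 0, .u 223 553, .u 171 399, .u 507 541, .c 0, .u 817 0,
  .u 224 558, .u 782 636, .c 0, .u 821 0, .u 635 562, .u 180 403, .u 824 61, .u 240 561, .u 578 235, .u 827 61, .u 238 564, .u 186 404,
  .u 830 61, .u 246 562, .u 584 235, .u 833 61, .u 244 565, .u 835 62, .u 242 567, .u 650 568, .u 590 238, .u 254 567, .c 151, .u 251 0,
  .u 199 411, .u 538 627, .c 0, .u 848 0, .u 261 572, .u 599 242, .u 110 574, .u 259 575, .u 207 416, .u 814 577, .c 0, .u 856 0,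
  .u 260 580, .u 668 582, .u 669 582, .u 214 420, .u 861 82, .u 851 17, .u 612 249, .u 853 14, .u 272 584, .u 220 421, .u 867 77, .u 857 15,
  .u 618 251, .u 859 12, .u 278 587, .u 872 73, .u 862 13, .u 684 590, .u 229 426, .u 876 72, .u 289 585, .u 627 255, .u 291 583, .u 287 588,
  .u 235 425, .u 882 67, .u 295 585, .u 633 257, .u 144 587, .u 293 588, .u 887 63, .u 291 590, .u 699 591, .u 639 246, .u 888 46, .b 30,
  .u 300 0, .u 248 432, .u 895 126, .u 308 574, .u 646 240, .u 895 45, .u 306 577, .u 254 434, .u 901 126, .u 309 578, .u 652 240, .u 901 44,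
  .u 715 583, .u 716 582, .c 230, .c 230, .c 230, .c 230, .c 230, .c 230, .c 230, .c 230, .c 230, .c 230,
  .c 230, .c 230, .c 230, .u 924 916, .c 0, .u 0 714, .c 0, .u 924 0, .u 420 717, .c 0, .u 924 0, .u 423 453,
  .u 283 443, .u 425 891, .c 0, .u 932 0, .u 922 20, .u 423 895, .c 0, .u 936 0, .u 452 729, .c 0, .u 936 0, .u 918 901,
  .c 0, .u 0 739, .u 297 452, .u 459 905, .c 0, .u 946 0, .u 936 28, .u 908 769, .c 0, .u 947 0, .u 466 463, .u 682 146,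
  .c 0, .u 954 0, .u 533 747, .c 0, .u 954 0, .u 953 793, .c 0, .u 455 0, .u 315 465, .u 540 923, .c 0, .u 964 0,
  .u 23 864, .u 696 703, .c 0, .u 968 0, .u 661 706, .c 0, .u 968 0, .u 30 764, .u 327 474, .u 801 711, .c 0, .u 976 0,
  .u 35 767, .u 805 680, .c 0, .u 977 0, .u 496 802, .u 336 476, .u 986 979, .c 0, .u 0 179, .c 0, .u 987 0, .u 483 487,
  .u 401 950, .c 0, .u 991 0, .u 989 79, .u 51 301, .u 348 477, .u 402 956, .c 0, .u 997 0, .u 56 785, .u 402 960, .c 0,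
  .u 1001 0, .u 999 83, .u 61 788, .u 814 965, .c 0, .u 1006 0, .u 522 493, .u 820 808, .c 207, .c 205, .c 204, .c 204,
  .c 202, .c 202, .c 202, .c 200, .c 200, .c 200, .c 198, .c 198, .c 196, .c 196, .u 377 490, .u 1024 97,
  .u 1014 13, .u 521 816, .c 0, .u 1028 0, .u 1018 14, .u 88 310, .u 385 491, .u 1032 93, .u 1022 15, .u 549 824, .c 0, .u 1036 0,
  .u 1026 16, .u 96 812, .u 1039 89, .u 1029 17, .u 868 1002, .c 0, .u 1003 0, .u 398 500, .u 1045 88, .u 1035 807, .c 0, .u 543 0,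
  .u 627 839, .c 0, .u 1051 0, .u 1049 631, .c 0, .u 0 823, .u 113 996, .u 410 507, .u 1057 86, .u 116 829, .u 748 796, .c 0,
  .u 1061 0, .u 120 832, .u 121 832, .u 1064 84, .u 1054 820, .c 0, .u 582 0, .u 1028 880, .u 1069 159, .u 1067 58, .u 566 602, .u 426 517,
  .u 1073 160, .u 132 1049, .u 1075 159, .u 1073 58, .u 135 838, .u 432 519, .u 1079 160, .u 138 837, .u 1081 161, .u 1079 59, .u 141 838, .u 773 1045,
  .c 0, .u 1046 0, .c 354, .c 354, .c 354, .c 354, .c 354, .c 354, .c 354, .c 352, .c 352, .c 352,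
  .c 352, .c 352, .c 352, .c 352, .u 455 531, .u 597 873, .c 0, .u 1101 0, .u 1094 15, .u 855 174, .u 602 876, .c 0,
  .u 1106 0, .u 168 329, .u 465 536, .u 601 881, .c 0, .u 1111 0, .u 1104 19, .u 865 170, .u 632 886, .c 0, .u 1116 0, .u 178 862,
  .u 1081 54, .c 0, .u 1120 0, .u 1113 23, .u 935 637, .c 81, .c 81, .c 79, .c 77, .c 75, .c 75, .c 75,
  .c 75, .c 75, .c 73, .c 73, .c 73, .c 73, .c 71, .c 71, .u 890 154, .u 1139 52, .u 1138 746, .c 0,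
  .u 552 0, .u 500 552, .u 1144 54, .u 1137 1144, .c 0, .u 1128 0, .u 209 0, .u 901 155, .u 1150 57, .u 212 887, .u 509 555, .u 1153 57,
  .u 215 886, .u 907 152, .u 1156 58, .u 218 888, .u 971 647, .c 286, .c 286, .c 286, .c 286, .c 286, .c 286, .c 286,
  .c 286, .c 286, .c 286, .c 286, .c 286, .c 286, .c 286, .c 286, .u 926 250, .u 1167 13, .u 1157 782, .c 0,
  .u 588 0, .u 536 568, .u 1183 74, .u 1173 16, .u 934 246, .u 1175 15, .u 245 906, .u 542 570, .u 1189 70, .u 1179 16, .u 940 241, .u 1181 16,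
  .u 251 909, .u 1183 17, .u 944 238, .u 142 904, .u 1192 1190, .c 0, .u 606 0, .u 554 577, .u 779 970, .c 0, .u 1203 0, .u 262 1178,
  .u 954 234, .u 152 908, .u 265 915, .u 562 581, .u 901 911, .c 0, .u 1211 0, .u 270 916, .u 962 233, .u 617 147, .u 273 917, .u 1026 149,
  .u 571 573, .u 1218 128, .u 631 750, .u 969 307, .u 1218 53, .u 280 329, .u 577 566, .u 1224 128, .u 283 909, .u 975 307, .u 1224 53, .u 286 906,
  .u 583 566, .u 1230 129, .u 289 907, .u 1229 55, .u 1043 760, .c 570, .c 570, .c 570, .c 570, .c 570, .c 570, .c 570,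
  .c 570, .c 570, .c 570, .c 570, .c 570, .c 570, .u 262 851, .c 0, .u 998 0, .u 745 1047, .c 0, .u 1249 0,
  .u 1244 1249, .c 0, .u 0 474, .u 1245 770, .c 0, .u 1007 0, .u 754 1087, .c 0, .u 1261 0, .u 1251 22, .u 278 1083, .c 0,
  .u 1014 0, .u 781 1063, .c 0, .u 1265 0, .u 1247 1097, .c 0, .u 0 1068, .u 1261 781, .c 0, .u 1023 0, .u 790 1103, .c 0,
  .u 1277 0, .u 1267 32, .u 1239 791, .c 0, .u 1278 0, .u 1285 1110, .c 0, .u 0 1026, .c 360, .c 358, .c 358, .c 358,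
  .c 356, .c 356, .c 354, .c 352, .c 350, .c 350, .c 348, .c 348, .c 346, .c 346, .u 1288 729, .c 0,
  .u 1050 0, .u 317 521, .c 0, .u 1304 0, .u 1294 713, .c 0, .u 0 615, .b 31, .u 324 0, .c 0, .u 1060 0, .u 1309 72,
  .u 42 621, .u 1303 739, .c 0, .u 1065 0, .u 724 1145, .c 0, .u 1319 0, .u 13 1105, .b 32, .c 0, .u 1150 0, .c 0,
  .u 1074 0, .u 1323 80, .u 56 1112, .u 1138 1156, .c 0, .u 1330 0, .u 1320 1142, .c 0, .u 0 1118, .u 50 1062, .c 558, .c 556,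
  .c 555, .c 555, .c 553, .c 553, .c 553, .c 551, .c 551, .c 551, .c 549, .c 549, .c 547, .c 547,
  .u 1338 816, .c 0, .u 1100 0, .u 1352 100, .u 1342 15, .u 849 1174, .c 0, .u 1105 0, .u 1346 16, .u 87 638, .u 1348 819, .c 0,
  .u 1110 0, .u 1362 94, .u 1352 19, .u 879 1184, .c 0, .u 1115 0, .u 1356 20, .u 97 1142, .u 1369 88, .u 1359 21, .u 87 1087, .c 270,
  .c 268, .c 268, .c 268, .c 266, .c 266, .c 266, .c 264, .c 264, .c 264, .c 262, .c 262, .c 260,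
  .c 260, .c 260, .u 794 991, .c 0, .u 1138 0, .u 1387 52, .u 136 498, .u 1381 778, .c 0, .u 1143 0, .u 1395 155, .u 89 1157,
  .u 804 1217, .c 0, .u 1148 0, .u 1397 56, .u 130 1162, .u 1391 784, .c 0, .u 1153 0, .u 1405 159, .u 99 1161, .u 1217 1227, .c 0,
  .u 1158 0, .u 1407 61, .u 140 1166, .u 79 1167, .c 695, .c 695, .c 694, .c 694, .c 694, .c 694, .c 694, .c 694,
  .c 694, .c 694, .c 694, .c 694, .c 694, .c 694, .c 75, .c 75, .c 75, .c 73, .c 73, .c 73,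
  .c 71, .c 71, .c 71, .c 69, .c 69, .c 69, .c 69, .c 69, .c 69, .c 418, .c 418, .c 418,
  .c 416, .c 416, .c 416, .c 416, .c 416, .c 416, .c 414, .c 414, .c 414, .c 414, .c 414, .c 412,
  .u 1206 153, .u 1455 42, .u 1454 150, .c 0, .u 1039 0, .u 1451 868, .c 0, .u 1213 0, .u 1462 46, .u 159 1199, .u 1216 148, .u 1465 46,
  .u 198 1202, .u 1459 870, .c 0, .u 1221 0, .u 1470 48, .u 167 1202, .u 1224 145, .u 1473 49, .u 206 1205, .u 145 1206, .c 618, .c 618,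
  .c 618, .c 618, .c 618, .c 618, .c 618, .c 618, .c 618, .c 618, .c 618, .c 618, .c 618, .c 618,
  .c 618, .u 1243 242, .u 1484 13, .u 1474 187, .c 0, .u 1076 0, .u 1488 944, .c 0, .u 1250 0, .u 997 1276, .c 0, .u 1504 0,
  .u 1494 20, .u 1255 238, .u 1496 19, .u 237 1227, .u 1498 950, .c 0, .u 1260 0, .u 1027 1286, .c 0, .u 1514 0, .u 1504 24, .u 1265 235,
  .u 1506 24, .u 247 1234, .u 1508 25, .c 342, .c 342, .c 340, .c 340, .c 340, .c 340, .c 340, .c 340, .c 340,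
  .c 340, .c 340, .c 340, .c 340, .c 340, .c 340, .c 340, .u 1285 299, .u 1537 121, .u 231 645, .u 1288 299, .u 1537 55,
  .u 270 648, .u 1291 299, .u 1543 121, .u 237 1222, .u 1294 299, .u 1543 55, .u 276 1225, .u 1297 301, .u 1549 122, .u 279 1226, .u 1548 57, .u 268 1165,
  .c 863, .c 863, .c 862, .c 862, .c 862, .c 862, .c 862, .c 862, .c 862, .c 862, .c 862, .c 862,
  .c 862, .c 862, .c 265, .c 263, .c 261, .c 258, .c 258, .c 258, .c 256, .c 254, .c 254, .c 250,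
  .c 250, .c 250, .c 248, .c 246, .c 246, .c 599, .c 595, .c 595, .c 593, .c 593, .c 593, .c 593,
  .c 591, .c 591, .c 589, .c 589, .c 589, .c 587, .c 587, .c 587, .u 1009 1290, .c 0, .u 1599 0, .u 1597 44,
  .u 1579 1294, .c 0, .u 0 911, .u 958 293, .u 1012 1298, .c 0, .u 1607 0, .u 1586 1306, .c 0, .u 0 1395, .u 1018 1301, .c 0,
  .u 1613 0, .u 1611 52, .u 12 1400, .u 970 291, .u 1427 1310, .c 0, .u 1619 0, .u 1598 1310, .c 0, .u 0 1407, .u 1433 1313, .c 0,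
  .u 1625 0, .u 1623 59, .u 1588 1618, .c 0, .u 0 1414, .u 346 1116, .c 804, .c 804, .c 804, .c 804, .c 804, .c 804,
  .c 804, .c 804, .c 804, .c 804, .c 804, .c 804, .c 804, .c 804, .c 804, .c 188, .c 188, .c 186,
  .c 184, .c 184, .c 184, .c 184, .c 184, .c 184, .c 182, .c 182, .c 182, .c 182, .c 182, .c 182,
  .c 182, .c 520, .c 520, .c 518, .c 518, .c 518, .c 515, .c 515, .c 515, .c 515, .c 515, .c 515,
  .c 515, .c 515, .c 515, .c 515, .c 515, .u 1032 289, .u 1679 123, .u 70 1441, .u 1681 122, .u 1679 45, .u 80 1444, .u 1038 285,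
  .u 1685 123, .u 76 1441, .u 1687 122, .u 1685 45, .u 86 1444, .u 1044 281, .u 1691 124, .u 70 1447, .u 1690 47, .u 65 1449, .c 946, .c 946,
  .c 946, .c 946, .c 946, .c 946, .c 946, .c 946, .c 946, .c 946, .c 946, .c 946, .c 946, .c 946,
  .c 946, .c 320, .c 320, .c 320, .c 318, .c 318, .c 318, .c 316, .c 316, .c 316, .c 314, .c 314,
  .c 314, .c 312, .c 312, .c 312, .c 312, .c 656, .c 656, .c 656, .c 656, .c 656, .c 656, .c 656,
  .c 656, .c 656, .c 656, .c 656, .c 656, .c 656, .c 656, .c 656, .c 654, .c 63, .c 63, .c 63,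
  .c 63, .c 63, .c 63, .c 63, .c 63, .c 63, .c 63, .c 63, .c 63, .c 63, .c 63, .c 63,
  .c 63, .c 63, .c 868, .c 868, .c 867, .c 867, .c 867, .c 867, .c 867, .c 867, .c 867, .c 867,
  .c 867, .c 867, .c 867, .c 867, .c 867, .c 867, .c 238, .c 238, .c 238, .c 238, .c 238, .c 238,
  .c 238, .c 238, .c 238, .c 238, .c 238, .c 238, .c 238, .c 238, .c 238, .c 238, .c 238, .c 574,
  .c 574, .c 574, .c 574, .c 574, .c 574, .c 574, .c 574, .c 574, .c 574, .c 574, .c 574, .c 574,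
  .c 574, .c 574, .c 574, .c 574, .u 1558 253, .u 1807 48, .u 208 918, .u 1166 572, .u 1813 112, .u 204 1492, .u 1564 253, .u 1813 48,
  .u 214 1495, .u 1172 572, .u 1819 112, .u 217 1496, .u 1570 254, .u 1819 48, .u 194 1501, .u 1824 114, .u 196 1501, .u 1653 1646, .c 0, .u 1638 0,
  .c 17, .c 0, .u 221 1497, .u 229 1498, .u 1811 989, .u 231 0, .u 206 1489, .u 1833 1647, .c 0, .u 0 1485, .u 506 1311, .u 1835 996,
  .u 238 0, .u 1420 1837, .c 0, .u 241 0, .u 1845 36, .u 8 1475, .u 218 1476, .u 238 1474, .u 246 1475, .u 1660 441, .u 241 1468, .u 249 1469,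
  .u 1431 1849, .u 251 0, .u 226 1451, .u 1434 1834, .u 254 0, .u 1668 528, .u 256 16, .u 1670 1473, .c 0, .u 1862 0, .u 25 1426, .u 235 1427,
  .u 1854 5, .u 263 1426, .u 1677 586, .u 1678 1301, .c 0, .u 1870 0, .u 242 1414, .u 1699 1588, .c 0, .u 1684 0, .u 1453 1868, .u 273 0,
  .u 544 1214, .u 1373 1874, .u 276 0, .c 26, .u 278 0, .u 253 1383, .u 273 1377, .u 281 1378, .u 601 879, .c 45, .u 284 0, .u 278 1344,
  .u 286 1345, .u 606 910, .u 1386 1884, .u 289 0, .c 33, .c 29, .u 1884 1, .u 293 1326, .u 1718 1697, .c 0, .u 1709 0, .u 1727 1628,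
  .c 0, .u 1712 0, .u 1881 1896, .c 0, .u 1883 0, .u 303 0, .u 574 901, .u 298 1305, .u 306 1306, .u 1870 1638, .c 0, .u 1722 0,
  .c 21, .u 311 0, .c 39, .u 313 0, .u 584 937, .c 86, .c 86, .u 1898 1499, .c 0, .u 0 1595, .u 1884 1884, .c 0,
  .u 0 1594, .u 4 1592, .u 2 1581, .c 46, .u 1444 1401, .c 0, .u 1931 0, .c 0, .u 1743 1405, .c 0, .u 1932 0, .c 0,
  .c 54, .u 1927 9, .u 17 1581, .u 15 1579, .u 1751 1442, .c 0, .u 1943 0, .u 19 1574, .u 20 1574, .u 24 1572, .u 22 1567, .c 90,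
  .u 24 1545, .u 28 1542, .u 29 1538, .u 30 1529, .u 1763 1344, .c 0, .u 1952 0, .c 0, .u 328 1372, .c 0, .c 56, .u 38 1520,
  .u 1950 1, .u 40 1513, .u 38 1508, .u 39 1507, .u 43 1506, .u 44 1504, .c 122, .c 120, .u 1958 1, .u 48 1484, .u 46 1480, .c 26,
  .u 51 1467, .u 49 1454, .c 86, .c 86, .c 86, .u 56 1445, .u 57 1435, .u 55 1430, .c 106, .u 60 1412, .u 1972 1, .c 21,
  .u 63 1396, .u 64 1392, .c 70, .c 70, .u 67 1369, .u 68 1367, .u 69 1347, .u 1981 161, .c 0, .u 391 1667, .c 0, .u 1974 1492,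
  .c 0, .u 0 1671, .u 2002 1810, .c 0, .u 0 1670, .c 79, .u 2 1657, .c 124, .u 721 1652, .c 0, .u 2007 0, .c 0,
  .u 725 1572, .c 0, .u 2008 0, .c 0, .u 384 1522, .c 0, .u 2004 10, .u 18 1658, .u 16 1656, .u 734 1647, .c 0, .u 2020 0,
  .c 0, .u 2011 53, .c 0, .c 52, .u 27 1651, .u 25 1646, .c 172, .u 27 1624, .u 2018 80, .c 0, .u 109 1633, .c 0,
  .u 35 1610, .u 701 1597, .c 0, .u 2033 0, .c 0, .u 2027 143, .c 0, .c 140, .u 43 1601, .u 2031 1, .c 60, .b 33,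
  .c 0, .u 762 0, .c 0, .u 2045 0, .c 0, .c 66, .u 53 1592, .u 54 1590, .c 211, .u 425 1693, .c 0, .c 40,
  .c 40, .c 40, .c 118, .u 62 1554, .u 60 1541, .u 2051 174, .c 0, .u 461 1531, .c 0, .u 782 1116, .c 0, .u 70 1535,
  .c 90, .u 2059 92, .c 0, .c 204, .c 31, .c 31, .c 114, .u 78 1487, .u 79 1483, .c 163, .u 2068 166, .c 0,
  .u 2070 93, .c 0, .u 161 1469, .c 0, .u 87 1441, .c 251, .c 83, .u 166 1748, .c 0, .u 168 1747, .c 0, .u 2070 1500,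
  .c 0, .u 0 260, .u 811 1567, .c 0, .u 2097 0, .c 0, .u 470 1579, .c 0, .c 215, .c 41, .c 41, .c 130,
  .u 2102 136, .c 0, .c 132, .u 2086 1521, .c 0, .u 0 1736, .u 17 1737, .u 502 1689, .c 0, .u 511 1691, .c 0, .c 82,
  .c 164, .u 2121 1634, .c 0, .u 0 790, .c 214, .u 2119 227, .c 0, .c 216, .c 48, .c 48, .c 255, .u 2125 0,
  .c 0, .u 2127 148, .c 0, .u 207 1532, .c 0, .u 40 258, .u 1945 1957, .c 0, .u 853 0, .c 287, .c 113, .c 113,
  .c 194, .c 31, .c 31, .c 251, .u 861 1225, .c 0, .u 225 1595, .c 0, .u 227 1594, .c 0, .u 57 259, .c 275,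
  .c 101, .c 101, .u 230 1689, .c 0, .c 22, .c 20, .u 549 1515, .c 0, .u 558 1517, .c 0, .c 77, .c 172,
  .u 240 1502, .c 0, .u 1682 1676, .c 0, .u 168 0, .u 2167 542, .c 0, .u 0 759, .c 0, .u 2135 1864, .c 0, .u 0 763,
  .c 0, .u 549 1691, .c 0, .u 255 0, .c 0, .b 34, .u 1993 0, .c 0, .u 260 0, .c 0]

/-- The table. -/
def L3 : List TF := runT B3 R3 []

theorem L3_good : ∀ x ∈ L3, GT x := runT_sound B3_good R3 [] (by simp)

/-- A fact of the table. -/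
def memLeaf (L : List TF) (Y e : List ℕ) : Bool := memT (nzL Y, nzL e) L

lemma fact_of_mem {Y e : List ℕ} (hY : srt Y = true) (he : srt e = true)
    (hm : (nzL Y, nzL e) ∈ L3) : TT (yd Y) (yd e) := by
  obtain ⟨h1, h2, h3⟩ := L3_good _ hm
  simp only at h1 h2 h3
  rwa [yd_nzL hY h1, yd_nzL he h2] at h3

lemma fact_of_memLeaf {Y e : List ℕ} (hY : srt Y = true) (he : srt e = true)
    (hm : memLeaf L3 Y e = true) : TT (yd Y) (yd e) :=
  fact_of_mem hY he (mem_of_memT hm)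

/-- The leaves. -/
def chkLeaves (L : List TF) : Bool :=
  ((List.range 5).all fun i => (List.range 6).all fun c => (List.range 8).all fun b =>
    let y := i + 2
    let M := 3 * y - 3
    if 2 * b + 3 * c ≤ M then memLeaf L [y, y - 1, y - 2] (E3 (M - 2 * b - 3 * c) b c) else true) &&
  memLeaf L [1, 1, 1] (E3 3 0 0) && memLeaf L [2, 2, 2] (E3 0 0 2) && memLeaf L [4, 4, 4] (E3 0 6 0) &&
  (P3opts.all fun c => memLeaf L [2, 1, 0] (E3 c.1 c.2.1 c.2.2)) &&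
  ((allBits 3).all fun bs =>
    (H3 (bs.getD 0 false) (bs.getD 1 false) (bs.getD 2 false)).all fun c =>
      memLeaf L (rowsW (Fw bs)) (E3 c.1 c.2.1 c.2.2)) &&
  memLeaf L (rowsW (Fw [false, false, false])) (E3 0 0 1) &&
  memLeaf L (rowsW (Fw [true, true, true])) (E3 0 0 2) &&
  (maskData.all fun m =>
    memLeaf L (rowsW m.g) (E3 0 0 m.p) &&
    memLeaf L [m.A + m.j0, m.B + m.j0, m.C + m.j0] (E3 0 0 (m.q + m.j0)) &&
    memLeaf L [m.A + (m.j0 + 1), m.B + (m.j0 + 1), m.C + (m.j0 + 1)] (E3 0 0 (m.q + (m.j0 + 1))))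

/-- Is an item left to the table? -/
def itemNeeded (b : List Bool) (d c : ℕ) : Bool :=
  let x := b.length
  let A := area (Fw b)
  let a := A - c - d
  Nat.blt 0 d && Nat.ble d c && Nat.ble c a && Nat.ble (c + d) A &&
    !(Nat.ble 5 x && Nat.ble x (a - c)) &&
    !(Nat.ble 8 x && Nat.ble (2 * x - 3) (c - d)) &&
    !(Nat.ble 7 x && k3ok x (b.getD 0 false) (b.getD 2 false) (b.getD 4 false) (a - c) (c - d) d)

/-- The items of one bit string left to the table. -/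
def itemsF (b : List Bool) : List TF :=
  (List.range (area (Fw b) / 3 + 1)).flatMap fun d =>
    (List.range ((area (Fw b) - d) / 2 + 1)).filterMap fun c =>
      if itemNeeded b d c then
        some (nzL (rowsW (Fw b)), nzL [area (Fw b) - c - d, c, d])
      else none

/-- The bit strings left to the table. -/
def smallBits : List (List Bool) := allBits 4 ++ allBits 5 ++ allBits 6 ++ allBits 7 ++ exc8

/-- All the targets, in the order of the records. -/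
def targets3 : List TF := smallBits.flatMap itemsF

/-- A subsequence, evaluated by the kernel. -/
def subL : List TF → List TF → Bool
  | [], _ => true
  | _ :: _, [] => false
  | x :: xs, y :: ys =>
    if leqT x.1 y.1 && leqT x.2 y.2 then subL xs ys else subL (x :: xs) ys

lemma mem_of_subL {ts L : List TF} (h : subL ts L = true) : ∀ x ∈ ts, x ∈ L := by
  induction L generalizing ts with
  | nil =>
    cases ts with
    | nil => simp
    | cons x xs => simp [subL] at h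
  | cons y ys ih =>
    cases ts with
    | nil => simp
    | cons x xs =>
      simp only [subL] at h
      split_ifs at h with hc
      · simp only [Bool.and_eq_true] at hc
        have hxy : x = y := Prod.ext (eq_of_leqT hc.1) (eq_of_leqT hc.2)
        intro z hz
        rcases List.mem_cons.1 hz with rfl | hz
        · rw [hxy]; simp
        · exact List.mem_cons_of_mem _ (ih h z hz)
      · intro z hz
        exact List.mem_cons_of_mem _ (ih h z hz)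

theorem chkLeaves_L3 : chkLeaves L3 = true := by decide +kernel

theorem chkTargets_L3 : subL targets3.reverse L3 = true := by decide +kernel

theorem chkBox_true : chkBox = true := by decide +kernel

lemma mem_L3_of_target {x : TF} (h : x ∈ targets3) : x ∈ L3 :=
  mem_of_subL chkTargets_L3 x (List.mem_reverse.2 h)

/-- The base of the three-row lemma. -/
theorem f3Base : F3Base := by
  have hl := chkLeaves_L3
  simp only [chkLeaves, Bool.and_eq_true, List.all_eq_true] at hl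
  obtain ⟨⟨⟨⟨⟨⟨⟨⟨h1, h2⟩, h3⟩, h4⟩, h5⟩, h6⟩, h7⟩, h8⟩, h9⟩ := hl
  refine
    { stair := ?_, s111 := fact_of_memLeaf (by decide) (srt_E3 _ _ _) h2,
      s222 := fact_of_memLeaf (by decide) (srt_E3 _ _ _) h3,
      s444 := fact_of_memLeaf (by decide) (srt_E3 _ _ _) h4, p3 := ?_, h3 := ?_,
      d000 := fact_of_memLeaf (srt_rowsW _) (srt_E3 _ _ _) h7,
      d111 := fact_of_memLeaf (srt_rowsW _) (srt_E3 _ _ _) h8, mp := ?_, m0 := ?_, m1 := ?_,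
      box := chkBox_true, small := ?_ }
  · intro y a b c hy hy6 hm
    have hc : c < 6 := by omega
    have hb : b < 8 := by omega
    have := h1 (y - 2) (List.mem_range.2 (by omega)) c (List.mem_range.2 hc) b (List.mem_range.2 hb)
    have e : y - 2 + 2 = y := by omega
    simp only [e] at this
    rw [if_pos (by omega)] at this
    have e2 : 3 * y - 3 - 2 * b - 3 * c = a := by omega
    rw [e2] at this
    refine fact_of_memLeaf ?_ (srt_E3 _ _ _) this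
    simp only [srt_cons_cons, Bool.and_eq_true]
    refine ⟨Nat.ble_eq_true_of_le (by omega), Nat.ble_eq_true_of_le (by omega), rfl⟩
  · intro c hc
    exact fact_of_memLeaf (by decide) (srt_E3 _ _ _) (h5 c hc)
  · intro b0 b2 b4 c hc
    have := h6 [b0, b2, b4] (mem_allBits [b0, b2, b4]) c (by simpa using hc)
    exact fact_of_memLeaf (srt_rowsW _) (srt_E3 _ _ _) this
  · intro m hm
    exact fact_of_memLeaf (srt_rowsW _) (srt_E3 _ _ _) (by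
      have := h9 m hm
      exact this.1.1)
  · intro m hm
    obtain ⟨-, -, -, h4', h5', -⟩ := mask_facts m hm
    refine fact_of_memLeaf ?_ (srt_E3 _ _ _) (by
      have := h9 m hm
      exact this.1.2)
    simp only [srt_cons_cons, Bool.and_eq_true]
    refine ⟨Nat.ble_eq_true_of_le (by omega), Nat.ble_eq_true_of_le (by omega), rfl⟩
  · intro m hm
    obtain ⟨-, -, -, h4', h5', -⟩ := mask_facts m hm
    refine fact_of_memLeaf ?_ (srt_E3 _ _ _) (by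
      have := h9 m hm
      exact this.2)
    simp only [srt_cons_cons, Bool.and_eq_true]
    refine ⟨Nat.ble_eq_true_of_le (by omega), Nat.ble_eq_true_of_le (by omega), rfl⟩
  · intro b hb n1 n2 n3 hn3 hmass hA hC hk
    have hbs : b ∈ smallBits := by
      simp only [smallBits, List.mem_append]
      rcases hb with ⟨h7, h4⟩ | he
      · have hmem := mem_allBits b
        have : b.length = 4 ∨ b.length = 5 ∨ b.length = 6 ∨ b.length = 7 := by omega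
        rcases this with e | e | e | e <;> rw [e] at hmem <;> simp [hmem]
      · exact Or.inr he
    -- the item
    have hneed : itemNeeded b n3 (n2 + n3) = true := by
      simp only [itemNeeded]
      have e0 : area (Fw b) - (n2 + n3) - n3 = n1 + n2 + n3 := by omega
      have e1 : n1 + n2 + n3 - (n2 + n3) = n1 := by omega
      have e2 : n2 + n3 - n3 = n2 := by omega
      rw [e0, e1, e2]
      simp only [Bool.and_eq_true, Bool.not_eq_true', Bool.and_eq_false_iff]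
      refine ⟨⟨⟨⟨⟨⟨?_, ?_⟩, ?_⟩, ?_⟩, ?_⟩, ?_⟩, ?_⟩
      · simpa [Nat.blt] using hn3
      · exact Nat.ble_eq_true_of_le (by omega)
      · exact Nat.ble_eq_true_of_le (by omega)
      · exact Nat.ble_eq_true_of_le (by omega)
      · by_cases h5 : 5 ≤ b.length
        · right
          apply Bool.eq_false_iff.2
          intro h
          exact hA ⟨h5, Nat.le_of_ble_eq_true h⟩
        · left
          apply Bool.eq_false_iff.2
          intro h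
          exact h5 (Nat.le_of_ble_eq_true h)
      · by_cases h5 : 8 ≤ b.length
        · right
          apply Bool.eq_false_iff.2
          intro h
          exact hC ⟨h5, Nat.le_of_ble_eq_true h⟩
        · left
          apply Bool.eq_false_iff.2
          intro h
          exact h5 (Nat.le_of_ble_eq_true h)
      · by_cases h5 : 7 ≤ b.length
        · right
          apply Bool.eq_false_iff.2
          intro h
          exact hk ⟨h5, h⟩
        · left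
          apply Bool.eq_false_iff.2
          intro h
          exact h5 (Nat.le_of_ble_eq_true h)
    have hitem : (nzL (rowsW (Fw b)), nzL [area (Fw b) - (n2 + n3) - n3, n2 + n3, n3]) ∈ itemsF b := by
      simp only [itemsF, List.mem_flatMap, List.mem_range, List.mem_filterMap]
      refine ⟨n3, by omega, n2 + n3, by omega, ?_⟩
      rw [if_pos hneed]
    have htg : (nzL (rowsW (Fw b)), nzL [area (Fw b) - (n2 + n3) - n3, n2 + n3, n3]) ∈ targets3 :=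
      List.mem_flatMap.2 ⟨b, hbs, hitem⟩
    have e0 : [area (Fw b) - (n2 + n3) - n3, n2 + n3, n3] = E3 n1 n2 n3 := by
      simp only [E3, List.cons.injEq, and_true]
      omega
    rw [e0] at htg
    exact fact_of_mem (srt_rowsW _) (srt_E3 _ _ _) (mem_L3_of_target htg)

/-- **Few-row lemma, three rows**, in column counts. -/
theorem TT_F3E (b : List Bool) (hb : 4 ≤ b.length) (n1 n2 n3 : ℕ)
    (hm : n1 + 2 * n2 + 3 * n3 = area (Fw b)) : TT (shape (Fw b)) (yd (E3 n1 n2 n3)) :=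
  TT_F3_of_base f3Base _ b rfl hb n1 n2 n3 hm

/-- **Few-row lemma, three rows**: every word `F(b)` with at least four blocks hosts every partition
with at most three rows of the right size. -/
theorem TT_F3 (b : List Bool) (hb : 4 ≤ b.length) (h1 h2 h3 : ℕ) (h21 : h2 ≤ h1) (h32 : h3 ≤ h2)
    (hsum : h1 + h2 + h3 = area (Fw b)) : TT (shape (Fw b)) (yd [h1, h2, h3]) := by
  have := TT_F3E b hb (h1 - h2) (h2 - h3) h3 (by omega)
  have e : E3 (h1 - h2) (h2 - h3) h3 = [h1, h2, h3] := by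
    simp only [E3, List.cons.injEq, and_true]
    omega
  rwa [e] at this

/-- **Few-row lemma at the pair level**: a tile `F(b)` hosts three columns on the pair `(Y, Y')`. -/
theorem Q_F3_cols (b : List Bool) (hb : 4 ≤ b.length) (h1 h2 h3 : ℕ) (h21 : h2 ≤ h1) (h32 : h3 ≤ h2)
    (hsum : h1 + h2 + h3 = area (Fw b)) :
    Q (shape (Fw b)) (shape (Fw b)).transpose (colsD ({h1, h2, h3} : Multiset ℕ)) := by
  have h := (TT_F3 b hb h1 h2 h3 h21 h32 hsum).conj23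
  have hs : srt [h1, h2, h3] = true := by
    simp only [srt_cons_cons, Bool.and_eq_true]
    exact ⟨Nat.ble_eq_true_of_le h21, Nat.ble_eq_true_of_le h32, rfl⟩
  rw [yd_transpose_eq_colsD hs] at h
  exact h

end Crest.Agent.Lib.Saxl
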