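import Crest.Agent.Lib.Saxl.PolyVal

/-!
# Saxl foundation: certificates by evaluation of a coefficient of `P3`

Given explicit tableaux (one list of letters, each letter carrying its three cells) and a target
monomial (a list of triples of rows), the coefficient of the monomial in
`P3 (poly t) (poly u) (poly v)` is computed by backtracking, with zero pruning.
-/

set_option autoImplicit false
set_option linter.unusedSectionVars false

namespace Crest.Agent.Lib.Saxl

open Finset

/-! ### Arrangements of a multiset -/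

/-- Exponent vector of a list. -/
noncomputable def expL (T : List Vr) : Vr →₀ ℕ := (T.map fun v => Finsupp.single v 1).sum

/-- Exponent vector of a function. -/
noncomputable def arr {n : ℕ} (xs : Fin n → Vr) : Vr →₀ ℕ := ∑ l, Finsupp.single (xs l) 1

lemma expL_of_mem {x : Vr} {T : List Vr} (h : x ∈ T) :
    expL T = Finsupp.single x 1 + expL (T.erase x) := by
  unfold expL
  rw [((List.perm_cons_erase h).map _).sum_eq]
  simp

lemma mem_of_expL_ne {T : List Vr} {v : Vr} (h : expL T v ≠ 0) : v ∈ T := by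
  induction T with
  | nil => simp [expL] at h
  | cons x T ih =>
    have e : expL (x :: T) = Finsupp.single x 1 + expL T := by simp [expL]
    rw [e, Finsupp.add_apply] at h
    by_cases hv : x = v
    · simp [hv]
    · rw [Finsupp.single_eq_of_ne (Ne.symm hv), zero_add] at h
      exact List.mem_cons_of_mem _ (ih h)

@[simp] lemma arr_cons {n : ℕ} (x : Vr) (xs : Fin n → Vr) :
    arr (Fin.cons x xs : Fin (n + 1) → Vr) = Finsupp.single x 1 + arr xs := by
  simp [arr, Fin.sum_univ_succ]

lemma arr_apply_ne {n : ℕ} (xs : Fin n → Vr) (l : Fin n) : arr xs (xs l) ≠ 0 := by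
  unfold arr
  rw [Finsupp.finsetSum_apply]
  intro h
  rw [Finset.sum_eq_zero_iff] at h
  have := h l (Finset.mem_univ l)
  simp at this

open Classical in
/-- The finite set of all arrangements of `T`. -/
noncomputable def AF (n : ℕ) (T : List Vr) : Finset (Fin n → Vr) :=
  (Fintype.piFinset fun _ : Fin n => T.toFinset).filter fun xs => arr xs = expL T

lemma mem_AF {n : ℕ} {T : List Vr} {xs : Fin n → Vr} : xs ∈ AF n T ↔ arr xs = expL T := by
  unfold AF
  rw [Finset.mem_filter, Fintype.mem_piFinset]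
  constructor
  · exact fun h => h.2
  · intro h
    refine ⟨fun l => ?_, h⟩
    rw [List.mem_toFinset]
    apply mem_of_expL_ne
    rw [← h]
    exact arr_apply_ne xs l

/-- Sum over all arrangements, by recursion. -/
def dsum : (n : ℕ) → List Vr → ((Fin n → Vr) → ℤ) → ℤ
  | 0, _, G => G Fin.elim0
  | n + 1, T, G => (T.dedup.map fun x => dsum n (T.erase x) fun xs => G (Fin.cons x xs)).sum

lemma dsum_spec (n : ℕ) (T : List Vr) (hT : T.length = n) (G : (Fin n → Vr) → ℤ) :
    dsum n T G = ∑ xs ∈ AF n T, G xs := by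
  classical
  induction n generalizing T with
  | zero =>
    have hT0 : T = [] := List.length_eq_zero_iff.1 hT
    subst hT0
    have h : AF 0 [] = {Fin.elim0} := by
      ext xs
      rw [mem_AF, Finset.mem_singleton]
      constructor
      · intro _; exact Subsingleton.elim _ _
      · intro _; simp [arr, expL]
    rw [h, Finset.sum_singleton]
    rfl
  | succ n ih =>
    have h1 : ∀ x ∈ T.dedup, dsum n (T.erase x) (fun xs => G (Fin.cons x xs)) =
        ∑ xs ∈ AF n (T.erase x), G (Fin.cons x xs) := by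
      intro x hx
      apply ih
      rw [List.length_erase_of_mem (List.mem_dedup.1 hx), hT]
      rfl
    show (T.dedup.map fun x => dsum n (T.erase x) fun xs => G (Fin.cons x xs)).sum = _
    rw [List.map_congr_left h1, ← List.sum_toFinset _ (List.nodup_dedup T), Finset.sum_sigma']
    refine Finset.sum_bij' (fun p _ => (Fin.cons p.1 p.2 : Fin (n + 1) → Vr))
      (fun xs _ => ⟨xs 0, Fin.tail xs⟩) ?_ ?_ ?_ ?_ ?_
    · rintro ⟨x, xs⟩ hp
      rw [Finset.mem_sigma] at hp
      rw [mem_AF, arr_cons, mem_AF.1 hp.2, ← expL_of_mem]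
      simpa using hp.1
    · intro xs hxs
      rw [mem_AF] at hxs
      have hcons : (Fin.cons (xs 0) (Fin.tail xs) : Fin (n + 1) → Vr) = xs := Fin.cons_self_tail xs
      have hmem : xs 0 ∈ T := by
        apply mem_of_expL_ne
        rw [← hxs]
        exact arr_apply_ne xs 0
      rw [Finset.mem_sigma]
      refine ⟨by simpa using hmem, ?_⟩
      rw [mem_AF]
      have := hxs
      rw [← hcons, arr_cons, expL_of_mem hmem] at this
      exact add_left_cancel this
    · rintro ⟨x, xs⟩ _
      simp
    · intro xs _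
      exact Fin.cons_self_tail xs
    · rintro ⟨x, xs⟩ _
      rfl

lemma dsum_mul_left (n : ℕ) (T : List Vr) (hT : T.length = n) (c : ℤ) (G : (Fin n → Vr) → ℤ) :
    dsum n T (fun xs => c * G xs) = c * dsum n T G := by
  rw [dsum_spec n T hT, dsum_spec n T hT, Finset.mul_sum]

/-! ### The coefficient -/

variable {n : ℕ}

/-- The three components of an arrangement. -/
def pi1 (xs : Fin n → Vr) : Word (Fin n) := fun l => (xs l).1
def pi2 (xs : Fin n → Vr) : Word (Fin n) := fun l => (xs l).2.1
def pi3 (xs : Fin n → Vr) : Word (Fin n) := fun l => (xs l).2.2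

lemma coeff_P3 (x y z : Mod (Fin n)) (T : List Vr) :
    MvPolynomial.coeff (expL T) (P3 x y z) =
      ∑ xs ∈ AF n T, x (pi1 xs) * y (pi2 xs) * z (pi3 xs) := by
  classical
  set S : Finset (Word (Fin n)) := x.support ∪ y.support ∪ z.support ∪
    (AF n T).image pi1 ∪ (AF n T).image pi2 ∪ (AF n T).image pi3 with hS
  have h1 : x.support ⊆ S := fun w hw => by simp only [hS, Finset.mem_union]; tauto
  have h2 : y.support ⊆ S := fun w hw => by simp only [hS, Finset.mem_union]; tauto
  have h3 : z.support ⊆ S := fun w hw => by simp only [hS, Finset.mem_union]; tauto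
  have h4 : ∀ xs ∈ AF n T, pi1 xs ∈ S := fun xs hx => by
    have := Finset.mem_image_of_mem pi1 hx
    simp only [hS, Finset.mem_union]; tauto
  have h5 : ∀ xs ∈ AF n T, pi2 xs ∈ S := fun xs hx => by
    have := Finset.mem_image_of_mem pi2 hx
    simp only [hS, Finset.mem_union]; tauto
  have h6 : ∀ xs ∈ AF n T, pi3 xs ∈ S := fun xs hx => by
    have := Finset.mem_image_of_mem pi3 hx
    simp only [hS, Finset.mem_union]; tauto
  rw [P3_eq_sum S x y z h1 h2 h3]
  simp only [MvPolynomial.coeff_sum, MvPolynomial.coeff_smul, mono, MvPolynomial.coeff_monomial,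
    smul_eq_mul, mul_ite, mul_one, mul_zero]
  have e : ∑ a ∈ S, ∑ b ∈ S, ∑ c ∈ S,
      (if Exp (a, b, c) = expL T then x a * y b * z c else 0) =
      ∑ p ∈ S ×ˢ S ×ˢ S, (if Exp (p.1, p.2.1, p.2.2) = expL T then
        x p.1 * y p.2.1 * z p.2.2 else 0) := by
    rw [Finset.sum_product]
    refine Finset.sum_congr rfl fun a _ => ?_
    rw [Finset.sum_product]
  rw [e, ← Finset.sum_filter]
  refine Finset.sum_bij' (fun p _ => fun l => (p.1 l, p.2.1 l, p.2.2 l))
    (fun xs _ => (pi1 xs, pi2 xs, pi3 xs)) ?_ ?_ ?_ ?_ ?_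
  · rintro ⟨a, b, c⟩ hp
    rw [Finset.mem_filter] at hp
    rw [mem_AF]
    exact hp.2
  · intro xs hxs
    rw [Finset.mem_filter, Finset.mem_product, Finset.mem_product]
    refine ⟨⟨h4 xs hxs, h5 xs hxs, h6 xs hxs⟩, ?_⟩
    exact mem_AF.1 hxs
  · rintro ⟨a, b, c⟩ _
    rfl
  · intro xs _
    rfl
  · rintro ⟨a, b, c⟩ _
    rfl

/-! ### Triangular products -/

section tri
variable {A : Type} (o : A → ℤ) (g : A → A → ℤ)

/-- The triangular product. -/
def tri : List A → List A → ℤ
  | _, [] => 1
  | prev, a :: l => (o a * (prev.map fun b => g b a).prod) * tri (a :: prev) l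

lemma prod_Iio_succ {β : Type} [CommMonoid β] {m : ℕ} (q : Fin m) (h : Fin (m + 1) → β) :
    ∏ p ∈ Iio q.succ, h p = h 0 * ∏ p ∈ Iio q, h p.succ := by
  classical
  have e : Iio q.succ = insert (0 : Fin (m + 1)) ((Iio q).map (Fin.succEmb m)) := by
    ext p
    simp only [Finset.mem_Iio, Finset.mem_insert, Finset.mem_map, Fin.coe_succEmb]
    refine Fin.cases ?_ (fun p' => ?_) p
    · simp [Fin.succ_pos]
    · simp only [Fin.succ_lt_succ_iff, Fin.succ_ne_zero, false_or]
      constructor
      · intro hp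
        exact ⟨p', hp, rfl⟩
      · rintro ⟨r, hr, e⟩
        have : r = p' := Fin.succ_injective _ e
        rwa [← this]
  rw [e, Finset.prod_insert, Finset.prod_map]
  · rfl
  · simp [Fin.succ_ne_zero]

lemma tri_ofFn {m : ℕ} (u : Fin m → A) (prev : List A) :
    tri o g prev (List.ofFn u) = (∏ q, o (u q)) * (∏ q, (prev.map fun b => g b (u q)).prod) *
      ∏ q, ∏ p ∈ Iio q, g (u p) (u q) := by
  induction m generalizing prev with
  | zero => simp [tri]
  | succ m ih =>
    rw [List.ofFn_succ, tri, ih]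
    simp only [Fin.prod_univ_succ, Function.comp, List.map_cons, List.prod_cons,
      Finset.prod_mul_distrib, prod_Iio_succ]
    have h0 : (Iio (0 : Fin (m + 1))) = ∅ := by
      ext p; simp
    rw [h0, Finset.prod_empty, one_mul]
    ring

end tri

/-! ### Backtracking -/

/-- Information on a letter: its three cells. -/
abbrev Info := (ℕ × ℕ) × (ℕ × ℕ) × (ℕ × ℕ)

section bt
variable (o : Info × Vr → ℤ) (g : Info × Vr → Info × Vr → ℤ)

/-- Product with early exit. -/
def prodG (a : Info × Vr) : List (Info × Vr) → ℤ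
  | [] => 1
  | b :: l => if g b a = 0 then 0 else g b a * prodG a l

lemma prodG_eq (a : Info × Vr) (l : List (Info × Vr)) :
    prodG g a l = (l.map fun b => g b a).prod := by
  induction l with
  | nil => rfl
  | cons b l ih =>
    rw [prodG, List.map_cons, List.prod_cons, ih]
    by_cases h : g b a = 0
    · simp [h]
    · simp [h]

/-- The factor of a new letter. -/
def fac (a : Info × Vr) (prev : List (Info × Vr)) : ℤ :=
  if o a = 0 then 0 else o a * prodG g a prev

lemma fac_eq (a : Info × Vr) (prev : List (Info × Vr)) :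
    fac o g a prev = o a * (prev.map fun b => g b a).prod := by
  unfold fac
  rw [prodG_eq]
  by_cases h : o a = 0
  · simp [h]
  · simp [h]

/-- The backtracking evaluator. -/
def bt : List Info → List (Info × Vr) → List Vr → ℤ
  | [], _, _ => 1
  | i :: l, prev, T =>
    (T.dedup.map fun x =>
      if fac o g (i, x) prev = 0 then 0
      else fac o g (i, x) prev * bt l ((i, x) :: prev) (T.erase x)).sum

theorem bt_spec (m : ℕ) (ls : Fin m → Info) (prev : List (Info × Vr)) (T : List Vr)
    (hT : T.length = m) :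
    bt o g (List.ofFn ls) prev T =
      dsum m T fun xs => tri o g prev (List.ofFn fun q => (ls q, xs q)) := by
  induction m generalizing prev T with
  | zero =>
    simp [bt, dsum, tri]
  | succ m ih =>
    rw [List.ofFn_succ]
    show (T.dedup.map _).sum = (T.dedup.map _).sum
    congr 1
    refine List.map_congr_left fun x hx => ?_
    have hlen : (T.erase x).length = m := by
      rw [List.length_erase_of_mem (List.mem_dedup.1 hx), hT]
      rfl
    have e : ∀ xs : Fin m → Vr, tri o g prev (List.ofFn fun q => (ls q, (Fin.cons x xs : Fin (m + 1) → Vr) q)) =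
        fac o g (ls 0, x) prev * tri o g ((ls 0, x) :: prev) (List.ofFn fun q => (ls q.succ, xs q)) := by
      intro xs
      rw [List.ofFn_succ, tri, fac_eq]
      simp
    simp only [e]
    rw [dsum_mul_left m _ hlen]
    by_cases hf : fac o g (ls 0, x) prev = 0
    · rw [if_pos hf, hf, zero_mul]
    · rw [if_neg hf, ih _ _ _ hlen]

end bt

/-! ### The concrete factors -/

/-- Membership factor. -/
def ok1 (a : List ℕ) (r c : ℕ) : ℤ := if c < a.getD r 0 then 1 else 0

/-- The pair factor of one shape. -/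
def pf1 (cell : ℕ × ℕ) (w : ℕ) (cell' : ℕ × ℕ) (w' : ℕ) : ℤ :=
  if cell.2 = cell'.2 then sgnZ w w' * sgnZ cell.1 cell'.1 else 1

/-- Membership factor of a letter. -/
def okA (a b c : List ℕ) (p : Info × Vr) : ℤ :=
  if p.1.1.2 < a.getD p.2.1 0 ∧ p.1.2.1.2 < b.getD p.2.2.1 0 ∧ p.1.2.2.2 < c.getD p.2.2.2 0
  then 1 else 0

lemma okA_eq (a b c : List ℕ) (p : Info × Vr) :
    okA a b c p = ok1 a p.2.1 p.1.1.2 * ok1 b p.2.2.1 p.1.2.1.2 * ok1 c p.2.2.2 p.1.2.2.2 := by
  unfold okA ok1
  by_cases h1 : p.1.1.2 < a.getD p.2.1 0 <;> by_cases h2 : p.1.2.1.2 < b.getD p.2.2.1 0 <;>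
    by_cases h3 : p.1.2.2.2 < c.getD p.2.2.2 0 <;>
    simp only [h1, h2, h3, and_self, and_true, true_and, false_and, and_false, if_true, if_false,
      mul_one, mul_zero, zero_mul]

/-- The pair factor of two letters. -/
def gA (p q : Info × Vr) : ℤ :=
  pf1 p.1.1 p.2.1 q.1.1 q.2.1 * pf1 p.1.2.1 p.2.2.1 q.1.2.1 q.2.2.1 *
    pf1 p.1.2.2 p.2.2.2 q.1.2.2 q.2.2.2

/-! ### Tableaux from data -/

lemma exists_tab (a : List ℕ) (ha : srt a = true) {m : ℕ} (cs : Fin m → ℕ × ℕ)
    (hinj : Function.Injective cs) (hm : ∀ q, (cs q).2 < a.getD (cs q).1 0) (hl : a.sum = m) :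
    ∃ t : (yd a).cells ≃ Fin m, ∀ q, (t.symm q).1 = cs q := by
  let f : Fin m → (yd a).cells := fun q =>
    ⟨cs q, by
      rw [YoungDiagram.mem_cells, mem_yd ha]
      exact hm _⟩
  have hinj' : Function.Injective f := by
    intro p q e
    exact hinj (congrArg Subtype.val e)
  have hcard : Fintype.card (Fin m) = Fintype.card (yd a).cells := by
    rw [Fintype.card_fin, Fintype.card_coe]
    have := card_yd ha
    unfold YoungDiagram.card at this
    omega
  have hbij := (Fintype.bijective_iff_injective_and_card f).2 ⟨hinj', hcard⟩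
  refine ⟨(Equiv.ofBijective f hbij).symm, fun q => ?_⟩
  simp [f]

lemma injective_of_nodup_map {β : Type} (ls : List Info) (f : Info → β)
    (h : (ls.map f).Nodup) : Function.Injective fun q : Fin ls.length => f (ls.get q) := by
  intro p q e
  have hp : p.1 < (ls.map f).length := by simp
  have hq : q.1 < (ls.map f).length := by simp
  have := (List.Nodup.getElem_inj_iff h (hi := hp) (hj := hq)).1 (by simpa using e)
  exact Fin.ext this

/-- Value of a polytabloid on a tableau from data. -/
lemma Ez_of_tab {a : List ℕ} (ha : srt a = true) {m : ℕ} (t : (yd a).cells ≃ Fin m)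
    (r c : Fin m → ℕ) (hr : ∀ q, rw t q = r q) (hc : ∀ q, cl t q = c q) (w : Fin m → ℕ) :
    Ez t w = (∏ q, ok1 a (w q) (c q)) * ∏ q, ∏ p ∈ Iio q, pfz r c w p q := by
  have e1 : rw t = r := funext hr
  have e2 : cl t = c := funext hc
  unfold Ez
  rw [e1, e2]
  congr 1
  refine Finset.prod_congr rfl fun q _ => ?_
  unfold ok1
  by_cases h : c q < a.getD (w q) 0
  · rw [if_pos h, if_pos]
    rw [YoungDiagram.mem_cells, mem_yd ha]
    exact h
  · rw [if_neg h, if_neg]
    rw [YoungDiagram.mem_cells, mem_yd ha]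
    exact h

/-- All checks of a certificate. -/
def CertOK (a b c : List ℕ) (ls : List Info) (T : List Vr) : Prop :=
  srt a = true ∧ srt b = true ∧ srt c = true ∧ T.length = ls.length ∧
  a.sum = ls.length ∧ b.sum = ls.length ∧ c.sum = ls.length ∧
  (ls.map fun i => i.1).Nodup ∧ (ls.map fun i => i.2.1).Nodup ∧ (ls.map fun i => i.2.2).Nodup ∧
  (∀ i ∈ ls, i.1.2 < a.getD i.1.1 0 ∧ i.2.1.2 < b.getD i.2.1.1 0 ∧ i.2.2.2 < c.getD i.2.2.1 0) ∧
  bt (okA a b c) gA ls [] T ≠ 0

instance (a b c : List ℕ) (ls : List Info) (T : List Vr) : Decidable (CertOK a b c ls T) := by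
  unfold CertOK
  infer_instance

/-- **The certificate theorem.** -/
theorem cert_Q {a b c : List ℕ} {ls : List Info} {T : List Vr} (h : CertOK a b c ls T) :
    Q (yd a) (yd b) (yd c) := by
  classical
  obtain ⟨ha, hb, hc, hT, hsa, hsb, hsc, hna, hnb, hnc, hm, hne⟩ := h
  -- the tableaux
  obtain ⟨t, ht⟩ := exists_tab a ha (fun q : Fin ls.length => (ls.get q).1)
    (injective_of_nodup_map ls _ hna) (fun q => (hm _ (List.get_mem _ _)).1) hsa
  obtain ⟨u, hu⟩ := exists_tab b hb (fun q : Fin ls.length => (ls.get q).2.1)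
    (injective_of_nodup_map ls _ hnb) (fun q => (hm _ (List.get_mem _ _)).2.1) hsb
  obtain ⟨v, hv⟩ := exists_tab c hc (fun q : Fin ls.length => (ls.get q).2.2)
    (injective_of_nodup_map ls _ hnc) (fun q => (hm _ (List.get_mem _ _)).2.2) hsc
  have hval : ∀ xs : Fin ls.length → Vr,
      Ez t (pi1 xs) * Ez u (pi2 xs) * Ez v (pi3 xs) =
        tri (okA a b c) gA [] (List.ofFn fun q => (ls.get q, xs q)) := by
    intro xs
    rw [tri_ofFn]
    rw [Ez_of_tab ha t (fun q => (ls.get q).1.1) (fun q => (ls.get q).1.2)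
        (fun q => by simp [rw, ht]) (fun q => by simp [cl, ht]),
      Ez_of_tab hb u (fun q => (ls.get q).2.1.1) (fun q => (ls.get q).2.1.2)
        (fun q => by simp [rw, hu]) (fun q => by simp [cl, hu]),
      Ez_of_tab hc v (fun q => (ls.get q).2.2.1) (fun q => (ls.get q).2.2.2)
        (fun q => by simp [rw, hv]) (fun q => by simp [cl, hv])]
    simp only [okA_eq, gA, List.map_nil, List.prod_nil, Finset.prod_const_one, mul_one,
      Finset.prod_mul_distrib]
    have e1 : ∀ (q p : Fin ls.length), pfz (fun q => (ls.get q).1.1) (fun q => (ls.get q).1.2)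
        (pi1 xs) p q = pf1 (ls.get p).1 (xs p).1 (ls.get q).1 (xs q).1 := fun _ _ => rfl
    have e2 : ∀ (q p : Fin ls.length), pfz (fun q => (ls.get q).2.1.1) (fun q => (ls.get q).2.1.2)
        (pi2 xs) p q = pf1 (ls.get p).2.1 (xs p).2.1 (ls.get q).2.1 (xs q).2.1 := fun _ _ => rfl
    have e3 : ∀ (q p : Fin ls.length), pfz (fun q => (ls.get q).2.2.1) (fun q => (ls.get q).2.2.2)
        (pi3 xs) p q = pf1 (ls.get p).2.2 (xs p).2.2 (ls.get q).2.2 (xs q).2.2 := fun _ _ => rfl
    simp only [e1, e2, e3, pi1, pi2, pi3]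
    ring
  have hcoeff : MvPolynomial.coeff (expL T) (P3 (poly t) (poly u) (poly v)) =
      ((bt (okA a b c) gA ls [] T : ℤ) : ℂ) := by
    have e : bt (okA a b c) gA ls [] T = bt (okA a b c) gA (List.ofFn ls.get) [] T := by
      rw [List.ofFn_get]
    rw [e, bt_spec _ _ ls.length ls.get [] T hT, dsum_spec _ T hT, coeff_P3, Int.cast_sum]
    refine Finset.sum_congr rfl fun xs _ => ?_
    rw [← hval, poly_apply_eq, poly_apply_eq, poly_apply_eq]
    push_cast
    rfl
  have hP : P3 (poly t) (poly u) (poly v) ≠ 0 := by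
    intro h0
    rw [h0, MvPolynomial.coeff_zero] at hcoeff
    apply hne
    exact_mod_cast hcoeff.symm
  obtain ⟨w, hw⟩ := exists_Tr_ne_of_P3_ne hP
  have hQL : QL (Fin ls.length) (yd a) (yd b) (yd c) := ⟨t, u, v, w, hw⟩
  exact hQL.toQ

end Crest.Agent.Lib.Saxl
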