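import Crest.Agent.Lib.Saxl.Word
import Crest.Agent.Lib.Saxl.PolyCert

/-!
# Saxl: the few-row lemma on the words `F(b)` (helper23)

`Fw b` is the concatenation of the blocks `EN` (bit `true`) and `NE` (bit `false`): the rows are
`i - 1 + b_i`, `i = 1, ..., x`.  Choosing a set `K` of blocks, the grid which puts the `N` of the
blocks of `K` into the second row group and the `E` of the blocks of `K` into the second column
group has as pieces `F(b ∖ K)`, `F(b|_K)` and the two words of the mask (`grid_F`).
-/

set_option autoImplicit false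
set_option linter.unusedSectionVars false

namespace Crest.Agent.Lib.Saxl

/-- A block: `true` is `EN`, `false` is `NE`. -/
def blkF : Bool → List Bool
  | true => [true, false]
  | false => [false, true]

/-- The word `F(b)`. -/
def Fw : List Bool → List Bool
  | [] => []
  | t :: b => blkF t ++ Fw b

/-- The tagged block. -/
def gblk (g t : Bool) : List GLet :=
  if t then [(true, g, g), (false, g, g)] else [(false, g, g), (true, g, g)]

/-- The grid word of a list of pairs (mask, bit). The blocks with mask `false` are the set `K`. -/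
def gwF : List (Bool × Bool) → List GLet
  | [] => []
  | x :: l => gblk x.1 x.2 ++ gwF l

lemma gLetters_append (a b : List GLet) : gLetters (a ++ b) = gLetters a ++ gLetters b := by
  simp [gLetters]

lemma piece1_append (a b : List GLet) : piece1 (a ++ b) = piece1 a ++ piece1 b := by
  simp [piece1, keepE, group1]

lemma piece2_append (a b : List GLet) : piece2 (a ++ b) = piece2 a ++ piece2 b := by
  simp [piece2, keepE, group1]

lemma piece3_append (a b : List GLet) : piece3 (a ++ b) = piece3 a ++ piece3 b := by
  simp [piece3, keepE, group2]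

lemma piece4_append (a b : List GLet) : piece4 (a ++ b) = piece4 a ++ piece4 b := by
  simp [piece4, keepE, group2]

lemma gLetters_gwF (l : List (Bool × Bool)) : gLetters (gwF l) = Fw (l.map Prod.snd) := by
  induction l with
  | nil => rfl
  | cons x l ih =>
    obtain ⟨g, t⟩ := x
    simp only [gwF, List.map_cons, Fw, gLetters_append, ih]
    cases g <;> cases t <;> rfl

lemma piece1_gwF (l : List (Bool × Bool)) :
    piece1 (gwF l) = Fw ((l.filter (·.1)).map Prod.snd) := by
  induction l with
  | nil => rfl
  | cons x l ih =>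
    obtain ⟨g, t⟩ := x
    simp only [gwF, piece1_append, ih]
    cases g <;> cases t <;> simp [Fw, blkF, gblk] <;> rfl

lemma piece4_gwF (l : List (Bool × Bool)) :
    piece4 (gwF l) = Fw ((l.filter (!·.1)).map Prod.snd) := by
  induction l with
  | nil => rfl
  | cons x l ih =>
    obtain ⟨g, t⟩ := x
    simp only [gwF, piece4_append, ih]
    cases g <;> cases t <;> simp [Fw, blkF, gblk] <;> rfl

lemma piece2_gwF (l : List (Bool × Bool)) : piece2 (gwF l) = l.map (fun x => !x.1) := by
  induction l with
  | nil => rfl
  | cons x l ih =>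
    obtain ⟨g, t⟩ := x
    simp only [gwF, piece2_append, ih]
    cases g <;> cases t <;> rfl

lemma piece3_gwF (l : List (Bool × Bool)) : piece3 (gwF l) = l.map (·.1) := by
  induction l with
  | nil => rfl
  | cons x l ih =>
    obtain ⟨g, t⟩ := x
    simp only [gwF, piece3_append, ih]
    cases g <;> cases t <;> rfl

/-- **Block-deletion grid.** -/
theorem grid_F (l : List (Bool × Bool)) {c1 c2 c3 c4 : YoungDiagram}
    (h1 : TT (shape (Fw ((l.filter (·.1)).map Prod.snd))) c1)
    (h2 : TT (shape (l.map (fun x => !x.1))) c2)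
    (h3 : TT (shape (l.map (·.1))) c3)
    (h4 : TT (shape (Fw ((l.filter (!·.1)).map Prod.snd))) c4) :
    TT (shape (Fw (l.map Prod.snd))) (addD (addD c1 c2) (addD c3 c4)) := by
  rw [← gLetters_gwF]
  refine TT.grid (gwF l) ?_ ?_ ?_ ?_
  · rwa [piece1_gwF]
  · rwa [piece2_gwF]
  · rwa [piece3_gwF]
  · rwa [piece4_gwF]

lemma area_F_grid (l : List (Bool × Bool)) :
    area (Fw (l.map Prod.snd)) = area (Fw ((l.filter (·.1)).map Prod.snd))
      + area (l.map (fun x => !x.1)) + area (l.map (·.1))
      + area (Fw ((l.filter (!·.1)).map Prod.snd)) := by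
  have := area_grid (gwF l)
  rwa [gLetters_gwF, piece1_gwF, piece2_gwF, piece3_gwF, piece4_gwF] at this

/-- The bits which are not in `K`. -/
def mk (b : List Bool) : List (Bool × Bool) := b.map fun t => (true, t)

@[simp] lemma mk_map_snd (b : List Bool) : (mk b).map Prod.snd = b := by
  simp [mk, Function.comp_def]

@[simp] lemma mk_map_fst (b : List Bool) : (mk b).map (·.1) = List.replicate b.length true := by
  simp [mk, Function.comp_def, List.map_const']

@[simp] lemma mk_map_notfst (b : List Bool) :
    (mk b).map (fun x => !x.1) = List.replicate b.length false := by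
  simp [mk, Function.comp_def, List.map_const']

@[simp] lemma mk_filter (b : List Bool) : (mk b).filter (·.1) = mk b := by
  simp [mk, List.filter_map, Function.comp_def]

@[simp] lemma mk_filter_not (b : List Bool) : (mk b).filter (!·.1) = [] := by
  simp [mk, List.filter_map, Function.comp_def]

/-! ### Rows of the mask words -/

lemma rowsW_append_replicate_true (w : List Bool) (j : ℕ) :
    rowsW (w ++ List.replicate j true) = rowsW w := by
  induction j with
  | zero => simp
  | succ j ih =>
    rw [List.replicate_succ', ← List.append_assoc, rowsW_append_true, ih]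

lemma rowsW_replicate_true_append (w : List Bool) (j : ℕ) :
    rowsW (List.replicate j true ++ w) = (rowsW w).map (· + j) := by
  induction j with
  | zero => simp
  | succ j ih =>
    rw [List.replicate_succ, List.cons_append, rowsW_cons_true, ih]
    simp [Function.comp_def, Nat.add_assoc]

lemma flipW_append (a b : List Bool) : flipW (a ++ b) = flipW b ++ flipW a := by
  simp [flipW]

lemma flipW_replicate_true (j : ℕ) : flipW (List.replicate j true) = List.replicate j false := by
  simp [flipW, List.map_replicate]

/-- `TT` does not see conjugation of the first shape. -/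
theorem TT.transpose {X c : YoungDiagram} (h : TT X c) : TT X.transpose c := Q.conj12 h

theorem TT.of_rowsW_mask {w : List Bool} {c : YoungDiagram} (h : TT (shape w) c) (j : ℕ) :
    TT (shape (w ++ List.replicate j true)) c := by
  unfold shape at h ⊢
  rwa [rowsW_append_replicate_true]

/-- The complement mask word. -/
theorem TT.compl_mask {w w' : List Bool} (hw : flipW w' = w) (j : ℕ) {c : YoungDiagram}
    (h : TT (yd ((rowsW w').map (· + j))) c) : TT (shape (w ++ List.replicate j false)) c := by
  have e : w ++ List.replicate j false = flipW (List.replicate j true ++ w') := by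
    rw [flipW_append, flipW_replicate_true, hw]
  rw [e, shape_flipW]
  apply TT.transpose
  unfold shape
  rwa [rowsW_replicate_true_append]

/-! ### Row leaves -/

lemma yd_two_add {a b c d : ℕ} (h1 : b ≤ a) (h2 : d ≤ c) :
    yd [a + c, b + d] = addD (yd [a, b]) (yd [c, d]) := by
  have s1 : srt [a, b] = true := by simp [srt, h1]
  have s2 : srt [c, d] = true := by simp [srt, h2]
  rw [← yd_addR s1 s2]
  rfl

lemma yd_two_zero (a : ℕ) : yd [a, 0] = yd [a] := by
  apply ext_rowLen
  intro i
  have s1 : srt [a, 0] = true := by simp [srt]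
  have s2 : srt [a] = true := rfl
  rw [rowLen_yd s1, rowLen_yd s2]
  rcases i with _ | _ | i <;> simp

/-- Any word hosts its area as a single row. -/
theorem TT.rowW (w : List Bool) : TT (shape w) (yd [area w, 0]) := by
  rw [yd_two_zero, yd_single, ← card_shape]
  exact TT.row _

/-! ### Areas -/

lemma area_cons_false (w : List Bool) : area (false :: w) = area w := by
  simp [area, rowsW_cons_false]

lemma sum_map_add_one (l : List ℕ) : (l.map (· + 1)).sum = l.sum + l.length := by
  induction l with
  | nil => rfl
  | cons x l ih =>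
    simp only [List.map_cons, List.sum_cons, List.length_cons, ih]
    omega

lemma area_cons_true (w : List Bool) : area (true :: w) = area w + nN w := by
  simp only [area, rowsW_cons_true, sum_map_add_one]
  rw [rowsW, rowsAux_length]

lemma area_replicate_false (j : ℕ) : area (List.replicate j false) = 0 := by
  induction j with
  | zero => rfl
  | succ j ih => rw [List.replicate_succ, area_cons_false, ih]

lemma area_replicate_true (j : ℕ) : area (List.replicate j true) = 0 := by
  unfold area
  have := rowsW_append_replicate_true [] j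
  simp only [List.nil_append] at this
  rw [this]
  rfl

lemma nN_replicate_false (j : ℕ) : nN (List.replicate j false) = j := by
  simp [nN]

/-- `0 + 1 + ... + (n - 1)`. -/
def stairN : ℕ → ℕ
  | 0 => 0
  | n + 1 => stairN n + n

lemma stairN_ge (x : ℕ) (hx : 8 ≤ x) : 5 * x ≤ stairN x + 12 := by
  induction x, hx using Nat.le_induction with
  | base => decide
  | succ x hx ih =>
    simp only [stairN]
    omega

lemma area_Fw_cons (t : Bool) (b : List Bool) :
    area (Fw (t :: b)) = area (Fw b) + b.length + t.toNat := by
  have h := area_F_grid ((false, t) :: mk b)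
  simp only [List.map_cons, mk_map_snd, List.filter_cons, mk_filter,
    mk_filter_not, mk_map_fst, mk_map_notfst, Bool.not_false, if_true, if_false,
    Bool.false_eq_true, List.map_nil] at h
  rw [h]
  have e1 : area (true :: List.replicate b.length false) = b.length := by
    rw [area_cons_true, area_replicate_false, nN_replicate_false]; omega
  have e2 : area (false :: List.replicate b.length true) = 0 := by
    rw [area_cons_false, area_replicate_true]
  have e3 : area (Fw [t]) = t.toNat := by cases t <;> rfl
  rw [e1, e2, e3]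
  omega

theorem area_Fw (b : List Bool) : area (Fw b) = stairN b.length + b.count true := by
  induction b with
  | nil => rfl
  | cons t b ih =>
    rw [area_Fw_cons, ih]
    cases t <;> simp [stairN] <;> omega

/-! ### Rule A: deleting one block -/

/-- Deleting the first block: a row leaf, no hypothesis. -/
theorem ruleA (t : Bool) (b : List Bool) {h1 h2 : ℕ} (hle : h2 ≤ h1)
    (h : TT (shape (Fw b)) (yd [h1, h2])) :
    TT (shape (Fw (t :: b))) (yd [h1 + (b.length + t.toNat), h2]) := by
  have h' := grid_F ((false, t) :: mk b) (c1 := yd [h1, h2]) (c2 := yd [b.length, 0])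
    (c3 := yd [0, 0]) (c4 := yd [t.toNat, 0]) (by simpa using h)
    (by
      simp only [List.map_cons, mk_map_notfst, Bool.not_false]
      have := TT.rowW (true :: List.replicate b.length false)
      rwa [area_cons_true, area_replicate_false, nN_replicate_false, Nat.zero_add] at this)
    (by
      simp only [List.map_cons, mk_map_fst]
      have := TT.rowW (false :: List.replicate b.length true)
      rwa [area_cons_false, area_replicate_true] at this)
    (by
      have := TT.rowW (Fw [t])
      have e3 : area (Fw [t]) = t.toNat := by cases t <;> rfl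
      rw [e3] at this
      simpa using this)
  simp only [List.map_cons, mk_map_snd] at h'
  rw [← yd_two_add hle (Nat.zero_le _), ← yd_two_add (Nat.zero_le _) (Nat.zero_le _),
    ← yd_two_add (by omega) (by omega)] at h'
  have e : [h1 + (b.length + t.toNat), h2] = [h1 + b.length + (0 + t.toNat), h2 + 0 + (0 + 0)] := by
    simp; omega
  rw [e]
  exact h'

/-! ### Leaves for Rule C -/

theorem TT.yd_add {a b e f : List ℕ} (ha : srt a = true) (hb : srt b = true) (he : srt e = true)
    (hf : srt f = true) (h1 : TT (yd a) (yd e)) (h2 : TT (yd b) (yd f)) :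
    TT (yd (addR a b)) (yd (addR e f)) := by
  rw [yd_addR ha hb, yd_addR he hf]
  exact h1.add h2

lemma leaf2222 : TT (yd [2, 2, 2, 2]) (yd [4, 4]) :=
  cert_Q (ls := [((0,0),(3,1),(1,2)),((1,0),(1,0),(0,0)),((2,0),(0,0),(1,1)),((3,0),(2,1),(0,3)),((0,1),(3,0),(1,0)),((1,1),(1,1),(0,2)),((2,1),(0,1),(1,3)),((3,1),(2,0),(0,1))])
    (T := [(0,3,1),(0,3,1),(1,1,0),(1,1,0),(2,0,1),(2,0,1),(3,2,0),(3,2,0)]) (by decide +kernel)

lemma leaf3333 : TT (yd [3, 3, 3, 3]) (yd [6, 6]) := by
  have h : TT (yd [4, 4, 4]) (yd [6, 6]) :=
    cert_Q (ls := [((0,0),(1,2),(1,5)),((1,0),(0,0),(0,1)),((2,0),(2,1),(0,5)),((0,1),(1,1),(1,0)),((1,1),(0,1),(0,3)),((2,1),(2,2),(1,1)),((0,2),(1,3),(1,3)),((1,2),(0,3),(0,2)),((2,2),(2,0),(1,2)),((0,3),(0,2),(0,4)),((1,3),(1,0),(1,4)),((2,3),(2,3),(0,0))])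
      (T := [(0,0,0),(0,1,1),(0,1,1),(0,1,1),(1,0,0),(1,0,0),(1,0,0),(1,1,1),(2,2,0),(2,2,0),(2,2,1),(2,2,1)]) (by decide +kernel)
  have e : conjL [4, 4, 4] = [3, 3, 3, 3] := by decide
  have := TT.transpose h
  rwa [← yd_conjL (by decide : srt [4, 4, 4] = true), e] at this

lemma leaf0000 : TT (yd [0, 0, 0, 0]) (yd [0, 0]) :=
  cert_Q (ls := []) (T := []) (by decide +kernel)

lemma leaf2200 : TT (yd [2, 2, 0, 0]) (yd [2, 2]) :=
  cert_Q (ls := [((0,0),(0,0),(1,0)),((1,0),(1,1),(0,1)),((0,1),(0,1),(1,1)),((1,1),(1,0),(0,0))])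
    (T := [(0,0,1),(0,0,1),(1,1,0),(1,1,0)]) (by decide +kernel)

lemma leaf3311 : TT (yd [3, 3, 1, 1]) (yd [4, 4]) :=
  cert_Q (ls := [((0,0),(0,2),(0,2)),((1,0),(1,1),(1,2)),((2,0),(2,0),(0,1)),((3,0),(3,0),(0,3)),((0,1),(0,1),(1,3)),((1,1),(1,0),(1,0)),((0,2),(0,0),(0,0)),((1,2),(1,2),(1,1))])
    (T := [(0,0,0),(0,0,0),(0,0,1),(1,1,1),(1,1,1),(1,1,1),(2,2,0),(3,3,0)]) (by decide +kernel)

/-- Rectangles of height four. -/
theorem leaf_rect (a : ℕ) (ha : a ≠ 1) : TT (yd [a, a, a, a]) (yd [2 * a, 2 * a]) := by
  induction a using Nat.strong_induction_on with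
  | _ a ih =>
    match a, ha with
    | 0, _ => exact leaf0000
    | 2, _ => exact leaf2222
    | 3, _ => exact leaf3333
    | a + 4, _ =>
      have := TT.yd_add (a := [a + 2, a + 2, a + 2, a + 2]) (b := [2, 2, 2, 2])
        (e := [2 * (a + 2), 2 * (a + 2)]) (f := [4, 4]) (by simp [srt]) (by simp [srt])
        (by simp [srt]) (by simp [srt]) (ih (a + 2) (by omega) (by omega)) leaf2222
      simpa [addR, Nat.add_assoc, Nat.mul_add] using this

/-- Two and two rows. -/
theorem leaf_two (a : ℕ) : TT (yd [a + 2, a + 2, a, a]) (yd [2 * a + 2, 2 * a + 2]) := by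
  induction a using Nat.strong_induction_on with
  | _ a ih =>
    match a with
    | 0 => exact leaf2200
    | 1 => exact leaf3311
    | a + 2 =>
      have := TT.yd_add (a := [a + 2, a + 2, a, a]) (b := [2, 2, 2, 2])
        (e := [2 * a + 2, 2 * a + 2]) (f := [4, 4]) (by simp [srt]) (by simp [srt])
        (by simp [srt]) (by simp [srt]) (ih a (by omega)) leaf2222
      simpa [addR, Nat.add_assoc, Nat.mul_add] using this

/-! ### Rule C: deleting four blocks out of the first six -/

lemma yd_two_add' {a b c d : ℕ} (h1 : b ≤ a) (h2 : d ≤ c) {x y : ℕ} (hx : x = a + c)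
    (hy : y = b + d) : addD (yd [a, b]) (yd [c, d]) = yd [x, y] := by
  rw [hx, hy, yd_two_add h1 h2]

/-- Summing four two-row pieces. -/
lemma add4 {a b m2 m3 m4 : ℕ} (hab : b ≤ a) :
    addD (addD (yd [a, b]) (yd [m2, m2])) (addD (yd [m3, m3]) (yd [m4, m4]))
      = yd [a + (m2 + m3 + m4), b + (m2 + m3 + m4)] := by
  have e1 := yd_two_add (a := m3) (b := m3) (c := m4) (d := m4) le_rfl le_rfl
  have e2 := yd_two_add hab (le_refl m2)
  have e3 := yd_two_add (a := a + m2) (b := b + m2) (c := m3 + m4) (d := m3 + m4) (by omega) le_rfl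
  rw [← e1, ← e2, ← e3]
  have e4 : a + m2 + (m3 + m4) = a + (m2 + m3 + m4) := by omega
  have e5 : b + m2 + (m3 + m4) = b + (m2 + m3 + m4) := by omega
  rw [e4, e5]

section ruleC
variable (t0 t1 t2 t3 t4 t5 : Bool) (b2 : List Bool) {a c m4 : ℕ}

/-- `K` = the blocks `0, 1, 2, 3` of the window. -/
theorem ruleC1 (hac : c ≤ a) (hD : TT (shape (Fw [t0, t1, t2, t3])) (yd [m4, m4]))
    (hR : TT (shape (Fw (t4 :: t5 :: b2))) (yd [a, c])) :
    TT (shape (Fw (t0 :: t1 :: t2 :: t3 :: t4 :: t5 :: b2)))
      (yd [a + (2 * b2.length + 4 + m4), c + (2 * b2.length + 4 + m4)]) := by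
  have h := grid_F ((false, t0) :: (false, t1) :: (false, t2) :: (false, t3) :: (true, t4) ::
      (true, t5) :: mk b2) (c1 := yd [a, c]) (c2 := yd [2 * (2 + b2.length), 2 * (2 + b2.length)])
      (c3 := yd [0, 0]) (c4 := yd [m4, m4])
      (by simpa using hR)
      (by
        simp only [List.map_cons, mk_map_notfst, Bool.not_false, Bool.not_true]
        exact TT.compl_mask (w := [true, true, true, true, false, false])
          (w' := [true, true, false, false, false, false]) rfl _
          (leaf_rect (2 + b2.length) (by omega)))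
      (by
        simp only [List.map_cons, mk_map_fst]
        exact TT.of_rowsW_mask (w := [false, false, false, false, true, true]) leaf0000 _)
      (by simpa using hD)
  simp only [List.map_cons, mk_map_snd] at h
  rw [add4 hac] at h
  have e : a + (2 * b2.length + 4 + m4) = a + (2 * (2 + b2.length) + 0 + m4) := by omega
  have e' : c + (2 * b2.length + 4 + m4) = c + (2 * (2 + b2.length) + 0 + m4) := by omega
  rw [e, e']
  exact h

/-- `K` = the blocks `0, 1, 4, 5` of the window. -/
theorem ruleC2 (hac : c ≤ a) (hD : TT (shape (Fw [t0, t1, t4, t5])) (yd [m4, m4]))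
    (hR : TT (shape (Fw (t2 :: t3 :: b2))) (yd [a, c])) :
    TT (shape (Fw (t0 :: t1 :: t2 :: t3 :: t4 :: t5 :: b2)))
      (yd [a + (2 * b2.length + 4 + m4), c + (2 * b2.length + 4 + m4)]) := by
  have h := grid_F ((false, t0) :: (false, t1) :: (true, t2) :: (true, t3) :: (false, t4) ::
      (false, t5) :: mk b2) (c1 := yd [a, c]) (c2 := yd [2 * b2.length + 2, 2 * b2.length + 2])
      (c3 := yd [2, 2]) (c4 := yd [m4, m4])
      (by simpa using hR)
      (by
        simp only [List.map_cons, mk_map_notfst, Bool.not_false, Bool.not_true]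
        refine TT.compl_mask (w := [true, true, false, false, true, true])
          (w' := [false, false, true, true, false, false]) rfl _ ?_
        have e : rowsW [false, false, true, true, false, false] = [2, 2, 0, 0] := rfl
        rw [e]
        simp only [List.map_cons, List.map_nil]
        have := leaf_two b2.length
        rwa [Nat.zero_add, Nat.add_comm 2])
      (by
        simp only [List.map_cons, mk_map_fst]
        exact TT.of_rowsW_mask (w := [false, false, true, true, false, false]) leaf2200 _)
      (by simpa using hD)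
  simp only [List.map_cons, mk_map_snd] at h
  rw [add4 hac] at h
  have e : a + (2 * b2.length + 4 + m4) = a + (2 * b2.length + 2 + 2 + m4) := by omega
  have e' : c + (2 * b2.length + 4 + m4) = c + (2 * b2.length + 2 + 2 + m4) := by omega
  rw [e, e']
  exact h

/-- `K` = the blocks `2, 3, 4, 5` of the window. -/
theorem ruleC3 (hj : b2.length ≠ 1) (hac : c ≤ a)
    (hD : TT (shape (Fw [t2, t3, t4, t5])) (yd [m4, m4]))
    (hR : TT (shape (Fw (t0 :: t1 :: b2))) (yd [a, c])) :
    TT (shape (Fw (t0 :: t1 :: t2 :: t3 :: t4 :: t5 :: b2)))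
      (yd [a + (2 * b2.length + 4 + m4), c + (2 * b2.length + 4 + m4)]) := by
  have h := grid_F ((true, t0) :: (true, t1) :: (false, t2) :: (false, t3) :: (false, t4) ::
      (false, t5) :: mk b2) (c1 := yd [a, c]) (c2 := yd [2 * b2.length, 2 * b2.length])
      (c3 := yd [4, 4]) (c4 := yd [m4, m4])
      (by simpa using hR)
      (by
        simp only [List.map_cons, mk_map_notfst, Bool.not_false, Bool.not_true]
        refine TT.compl_mask (w := [false, false, true, true, true, true])
          (w' := [false, false, false, false, true, true]) rfl _ ?_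
        have e : rowsW [false, false, false, false, true, true] = [0, 0, 0, 0] := rfl
        rw [e]
        simp only [List.map_cons, List.map_nil]
        have := leaf_rect b2.length hj
        rwa [Nat.zero_add])
      (by
        simp only [List.map_cons, mk_map_fst]
        exact TT.of_rowsW_mask (w := [true, true, false, false, false, false]) leaf2222 _)
      (by simpa using hD)
  simp only [List.map_cons, mk_map_snd] at h
  rw [add4 hac] at h
  exact h

end ruleC

/-! ### The induction -/

/-- The base of the induction: four blocks, or few blocks and a small difference. -/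
def F2Base : Prop :=
  ∀ b : List Bool, 4 ≤ b.length → b.length ≤ 7 → ∀ h1 h2 : ℕ, h2 ≤ h1 →
    h1 + h2 = area (Fw b) → (b.length = 4 ∨ h1 < h2 + b.length) → TT (shape (Fw b)) (yd [h1, h2])

/-- **Few-row lemma, two rows.** -/
theorem TT_F2_of_base (hB : F2Base) (n : ℕ) : ∀ b : List Bool, b.length = n → 4 ≤ n →
    ∀ h1 h2 : ℕ, h2 ≤ h1 → h1 + h2 = area (Fw b) → TT (shape (Fw b)) (yd [h1, h2]) := by
  induction n using Nat.strong_induction_on with
  | _ n ih =>
    intro b hb hn h1 h2 h21 hsum
    by_cases h4 : n = 4
    · exact hB b (by omega) (by omega) h1 h2 h21 hsum (Or.inl (by omega))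
    by_cases hA : n + h2 ≤ h1
    · -- delete the first block
      obtain ⟨t, b', rfl⟩ : ∃ t b', b = t :: b' := by
        cases b with
        | nil => simp at hb; omega
        | cons t b' => exact ⟨t, b', rfl⟩
      simp only [List.length_cons] at hb
      have hm : b'.length + t.toNat ≤ n := by
        cases t <;> simp <;> omega
      have hsum' := hsum
      rw [area_Fw_cons] at hsum'
      have h := ih b'.length (by omega) b' rfl (by omega) (h1 - (b'.length + t.toNat)) h2 (by omega)
        (by omega)
      have h' := ruleA t b' (by omega) h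
      rwa [Nat.sub_add_cancel (by omega)] at h'
    by_cases h7 : n ≤ 7
    · exact hB b (by omega) (by omega) h1 h2 h21 hsum (Or.inr (by omega))
    -- the core: delete four blocks out of the first six
    obtain ⟨t0, t1, t2, t3, t4, t5, b2, rfl⟩ :
        ∃ t0 t1 t2 t3 t4 t5 b2, b = t0 :: t1 :: t2 :: t3 :: t4 :: t5 :: b2 := by
      match b, hb with
      | t0 :: t1 :: t2 :: t3 :: t4 :: t5 :: b2, _ => exact ⟨t0, t1, t2, t3, t4, t5, b2, rfl⟩
      | [], hb => simp at hb; omega
      | [_], hb => simp at hb; omega
      | [_, _], hb => simp at hb; omega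
      | [_, _, _], hb => simp at hb; omega
      | [_, _, _, _], hb => simp at hb; omega
      | [_, _, _, _, _], hb => simp at hb; omega
    simp only [List.length_cons] at hb
    have hj : 2 ≤ b2.length := by omega
    have hst := stairN_ge n (by omega)
    have harea := area_Fw (t0 :: t1 :: t2 :: t3 :: t4 :: t5 :: b2)
    simp only [List.length_cons] at harea
    rw [hb] at harea
    have hcnt : (t0 :: t1 :: t2 :: t3 :: t4 :: t5 :: b2).count true
        = t0.toNat + t1.toNat + t2.toNat + t3.toNat + t4.toNat + t5.toNat + b2.count true := by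
      cases t0 <;> cases t1 <;> cases t2 <;> cases t3 <;> cases t4 <;> cases t5 <;>
        simp <;> omega
    rw [hcnt] at harea
    -- the generic step
    have step : ∀ (D R : List Bool) (m4 : ℕ), D.length = 4 → R.length = n - 4 →
        D.count true + R.count true
          = t0.toNat + t1.toNat + t2.toNat + t3.toNat + t4.toNat + t5.toNat + b2.count true →
        2 * m4 = 6 + D.count true →
        (∀ {a c m : ℕ}, c ≤ a → TT (shape (Fw D)) (yd [m, m]) → TT (shape (Fw R)) (yd [a, c]) →
          TT (shape (Fw (t0 :: t1 :: t2 :: t3 :: t4 :: t5 :: b2)))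
            (yd [a + (2 * b2.length + 4 + m), c + (2 * b2.length + 4 + m)])) →
        TT (shape (Fw (t0 :: t1 :: t2 :: t3 :: t4 :: t5 :: b2))) (yd [h1, h2]) := by
      intro D R m4 hDl hRl hc hm4 hstep
      have hDa : area (Fw D) = 6 + D.count true := by
        rw [area_Fw, hDl]; rfl
      have hRa := area_Fw R
      rw [hRl] at hRa
      have hst2 : stairN n = stairN (n - 4) + (n - 4) + (n - 3) + (n - 2) + (n - 1) := by
        obtain ⟨k, rfl⟩ : ∃ k, n = k + 4 := ⟨n - 4, by omega⟩
        simp only [Nat.add_sub_cancel, stairN]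
        have e1 : k + 4 - 3 = k + 1 := by omega
        have e2 : k + 4 - 2 = k + 2 := by omega
        have e3 : k + 4 - 1 = k + 3 := by omega
        rw [e1, e2, e3]
      have hle : 2 * b2.length + 4 + m4 ≤ h2 := by omega
      have hD : TT (shape (Fw D)) (yd [m4, m4]) :=
        hB D (by omega) (by omega) m4 m4 le_rfl (by omega) (Or.inl hDl)
      have hR := ih (n - 4) (by omega) R hRl (by omega)
        (h1 - (2 * b2.length + 4 + m4)) (h2 - (2 * b2.length + 4 + m4)) (by omega)
        (by omega)
      have := hstep (by omega) hD hR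
      rwa [Nat.sub_add_cancel (by omega), Nat.sub_add_cancel (by omega)] at this
    have hR1 : (t4 :: t5 :: b2).length = n - 4 := by simp; omega
    have hR2 : (t2 :: t3 :: b2).length = n - 4 := by simp; omega
    have hR3 : (t0 :: t1 :: b2).length = n - 4 := by simp; omega
    have cnt4 : ∀ s0 s1 s2 s3 : Bool, [s0, s1, s2, s3].count true
        = s0.toNat + s1.toNat + s2.toNat + s3.toNat := by
      intro s0 s1 s2 s3
      cases s0 <;> cases s1 <;> cases s2 <;> cases s3 <;> rfl
    have cnt2 : ∀ s0 s1 : Bool, (s0 :: s1 :: b2).count true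
        = s0.toNat + s1.toNat + b2.count true := by
      intro s0 s1
      cases s0 <;> cases s1 <;> simp <;> omega
    by_cases e1 : (t0.toNat + t1.toNat + t2.toNat + t3.toNat) % 2 = 0
    · exact step [t0, t1, t2, t3] (t4 :: t5 :: b2) ((6 + (t0.toNat + t1.toNat + t2.toNat + t3.toNat)) / 2)
        rfl hR1 (by rw [cnt4, cnt2]; omega) (by rw [cnt4]; omega)
        (fun hac hD hR => ruleC1 t0 t1 t2 t3 t4 t5 b2 hac hD hR)
    by_cases e2 : (t0.toNat + t1.toNat + t4.toNat + t5.toNat) % 2 = 0
    · exact step [t0, t1, t4, t5] (t2 :: t3 :: b2) ((6 + (t0.toNat + t1.toNat + t4.toNat + t5.toNat)) / 2)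
        rfl hR2 (by rw [cnt4, cnt2]; omega) (by rw [cnt4]; omega)
        (fun hac hD hR => ruleC2 t0 t1 t2 t3 t4 t5 b2 hac hD hR)
    · have e3 : (t2.toNat + t3.toNat + t4.toNat + t5.toNat) % 2 = 0 := by omega
      exact step [t2, t3, t4, t5] (t0 :: t1 :: b2) ((6 + (t2.toNat + t3.toNat + t4.toNat + t5.toNat)) / 2)
        rfl hR3 (by rw [cnt4, cnt2]; omega) (by rw [cnt4]; omega)
        (fun hac hD hR => ruleC3 t0 t1 t2 t3 t4 t5 b2 (by omega) hac hD hR)

end Crest.Agent.Lib.Saxl
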