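import Crest.Agent.Lib.Saxl.FewRowB

/-!
# Saxl: the few-row lemma on the words `F(b)`, three rows (helper23)

Partitions with at most three rows are written in column counts, `E3 a b c = (a+b+c, b+c, c)`.
Induction on the number of blocks: the third row empty is the two-row lemma; `a ≥ x` deletes one
block; `b ≥ 2x-3` deletes four blocks out of the first six; `c ≥ x-1` deletes three blocks of equal
bit out of the first eight; otherwise the blocks `0, 2, 4` are deleted: the mask piece
`(y, y-1, y-2)` hosts every partition with at most three rows, and a finite check does the rest.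
-/

set_option autoImplicit false
set_option linter.unusedSectionVars false

namespace Crest.Agent.Lib.Saxl

/-- Partitions with at most three rows, by column counts. -/
def E3 (a b c : ℕ) : List ℕ := [a + b + c, b + c, c]

lemma srt_E3 (a b c : ℕ) : srt (E3 a b c) = true := by
  simp only [E3, srt_cons_cons, Bool.and_eq_true]
  refine ⟨Nat.ble_eq_true_of_le (by omega), Nat.ble_eq_true_of_le (by omega), rfl⟩

lemma addD_E3 (a b c a' b' c' : ℕ) :
    addD (yd (E3 a b c)) (yd (E3 a' b' c')) = yd (E3 (a + a') (b + b') (c + c')) := by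
  rw [← yd_addR (srt_E3 a b c) (srt_E3 a' b' c')]
  congr 1
  simp only [E3, addR, List.cons.injEq, and_true]
  refine ⟨by omega, by omega⟩

/-- The non-zero rows. -/
def nzL (l : List ℕ) : List ℕ := l.filter fun x => Nat.blt 0 x

lemma yd_nzL {l : List ℕ} (hl : srt l = true) (hn : srt (nzL l) = true) : yd (nzL l) = yd l := by
  apply ext_colLen
  intro j
  rw [colLen_yd hn, colLen_yd hl, nzL, List.countP_filter]
  congr 1
  funext x
  rw [Bool.eq_iff_iff]
  simp only [Bool.and_eq_true, Nat.blt, Nat.ble_eq]
  omega

lemma yd_E3_zero (a b : ℕ) : yd (E3 a b 0) = yd [a + b, b] := by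
  apply ext_colLen
  intro j
  have s2 : srt [a + b, b] = true := by simp [srt]
  rw [colLen_yd (srt_E3 _ _ _), colLen_yd s2]
  simp [E3, List.countP_cons, Nat.blt]

lemma yd_E3_row (a : ℕ) : yd (E3 a 0 0) = rowD a := by
  rw [yd_E3_zero, Nat.add_zero, yd_two_zero, yd_single]

lemma yd_E3_two (m : ℕ) : yd (E3 0 m 0) = yd [m, m] := by
  rw [yd_E3_zero, Nat.zero_add]

/-- Any word hosts its area as a single row. -/
theorem TT.rowE (w : List Bool) : TT (shape w) (yd (E3 (area w) 0 0)) := by
  rw [yd_E3_row, ← card_shape]
  exact TT.row _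

/-! ### Masks -/

/-- The bits not deleted by a mask. -/
def rOf (g w : List Bool) : List Bool := ((List.zip g w).filter (·.1)).map Prod.snd

/-- The bits deleted by a mask. -/
def dOf (g w : List Bool) : List Bool := ((List.zip g w).filter (!·.1)).map Prod.snd

/-- **Grid of a mask**: the pieces are the two remainders and the mask words. -/
theorem grid_mask (g w b2 : List Bool) (hlen : g.length = w.length) {c1 c2 c3 c4 : YoungDiagram}
    (h1 : TT (shape (Fw (rOf g w ++ b2))) c1)
    (h2 : TT (yd ((rowsW g.reverse).map (· + b2.length))) c2)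
    (h3 : TT (shape g) c3)
    (h4 : TT (shape (Fw (dOf g w))) c4) :
    TT (shape (Fw (w ++ b2))) (addD (addD c1 c2) (addD c3 c4)) := by
  have hfst : (List.zip g w).map Prod.fst = g := List.map_fst_zip (by omega)
  have hsnd : (List.zip g w).map Prod.snd = w := List.map_snd_zip (by omega)
  have h := grid_F (List.zip g w ++ mk b2) (c1 := c1) (c2 := c2) (c3 := c3) (c4 := c4) ?_ ?_ ?_ ?_
  · rw [List.map_append, mk_map_snd, hsnd] at h
    exact h
  · rw [List.filter_append, mk_filter, List.map_append, mk_map_snd]
    exact h1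
  · rw [List.map_append, mk_map_notfst]
    have e : (List.zip g w).map (fun x => !x.1) = g.map not := by
      rw [← hfst, List.map_map]
      simp [hfst, Function.comp_def]
    rw [e]
    refine TT.compl_mask (w' := g.reverse) ?_ _ h2
    simp [flipW, List.map_reverse]
  · rw [List.map_append, mk_map_fst]
    have e : (List.zip g w).map (·.1) = g := hfst
    rw [e]
    exact TT.of_rowsW_mask h3 _
  · rw [List.filter_append, mk_filter_not, List.append_nil]
    exact h4

lemma count_rOf_dOf (g w : List Bool) (hlen : g.length = w.length) :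
    (rOf g w).count true + (dOf g w).count true = w.count true := by
  have hsnd : (List.zip g w).map Prod.snd = w := List.map_snd_zip (by omega)
  have key : ∀ u : List (Bool × Bool), ((u.filter (·.1)).map Prod.snd).count true
      + ((u.filter (!·.1)).map Prod.snd).count true = (u.map Prod.snd).count true := by
    intro u
    induction u with
    | nil => rfl
    | cons x u ih =>
      obtain ⟨a, t⟩ := x
      cases a <;> cases t <;> simp <;> omega
  have := key (List.zip g w)
  rw [hsnd] at this
  exact this

lemma length_rOf_dOf (g w : List Bool) (hlen : g.length = w.length) :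
    (rOf g w).length + (dOf g w).length = w.length := by
  have hsnd : (List.zip g w).map Prod.snd = w := List.map_snd_zip (by omega)
  have key : ∀ u : List (Bool × Bool), ((u.filter (·.1)).map Prod.snd).length
      + ((u.filter (!·.1)).map Prod.snd).length = (u.map Prod.snd).length := by
    intro u
    induction u with
    | nil => rfl
    | cons x u ih =>
      obtain ⟨a, t⟩ := x
      cases a <;> simp at ih ⊢ <;> omega
  have := key (List.zip g w)
  rw [hsnd] at this
  exact this

/-! ### The three reductions -/

/-- Deleting the first block. -/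
theorem ruleA3 (t : Bool) (b : List Bool) {n1 n2 n3 : ℕ}
    (h : TT (shape (Fw b)) (yd (E3 n1 n2 n3))) :
    TT (shape (Fw (t :: b))) (yd (E3 (n1 + (b.length + t.toNat)) n2 n3)) := by
  have h' := grid_F ((false, t) :: mk b) (c1 := yd (E3 n1 n2 n3)) (c2 := yd (E3 b.length 0 0))
    (c3 := yd (E3 0 0 0)) (c4 := yd (E3 t.toNat 0 0)) (by simpa using h)
    (by
      simp only [List.map_cons, mk_map_notfst, Bool.not_false]
      have := TT.rowE (true :: List.replicate b.length false)
      rwa [area_cons_true, area_replicate_false, nN_replicate_false, Nat.zero_add] at this)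
    (by
      simp only [List.map_cons, mk_map_fst]
      have := TT.rowE (false :: List.replicate b.length true)
      rwa [area_cons_false, area_replicate_true] at this)
    (by
      have := TT.rowE (Fw [t])
      have e3 : area (Fw [t]) = t.toNat := by cases t <;> rfl
      rw [e3] at this
      simpa using this)
  simp only [List.map_cons, mk_map_snd] at h'
  rw [addD_E3, addD_E3, addD_E3] at h'
  have e : E3 (n1 + (b.length + t.toNat)) n2 n3
      = E3 (n1 + b.length + (0 + t.toNat)) (n2 + 0 + (0 + 0)) (n3 + 0 + (0 + 0)) := by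
    simp only [E3, List.cons.injEq, and_true]
    refine ⟨by omega, by omega, by omega⟩
  rw [e]
  exact h'

/-- Summing the pieces of rule C. -/
lemma add4E (n1 n2 n3 m2 m3 m4 : ℕ) :
    addD (addD (yd (E3 n1 n2 n3)) (yd [m2, m2])) (addD (yd [m3, m3]) (yd [m4, m4]))
      = yd (E3 n1 (n2 + (m2 + m3 + m4)) n3) := by
  rw [← yd_E3_two, ← yd_E3_two, ← yd_E3_two, addD_E3, addD_E3, addD_E3]
  have e : E3 n1 (n2 + (m2 + m3 + m4)) n3
      = E3 (n1 + 0 + (0 + 0)) (n2 + m2 + (m3 + m4)) (n3 + 0 + (0 + 0)) := by
    simp only [E3, List.cons.injEq, and_true]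
    refine ⟨by omega, by omega, by omega⟩
  rw [e]

section ruleC
variable (t0 t1 t2 t3 t4 t5 : Bool) (b2 : List Bool) {n1 n2 n3 m4 : ℕ}

theorem ruleC1E (hD : TT (shape (Fw [t0, t1, t2, t3])) (yd [m4, m4]))
    (hR : TT (shape (Fw (t4 :: t5 :: b2))) (yd (E3 n1 n2 n3))) :
    TT (shape (Fw (t0 :: t1 :: t2 :: t3 :: t4 :: t5 :: b2)))
      (yd (E3 n1 (n2 + (2 * b2.length + 4 + m4)) n3)) := by
  have h := grid_F ((false, t0) :: (false, t1) :: (false, t2) :: (false, t3) :: (true, t4) ::
      (true, t5) :: mk b2) (c1 := yd (E3 n1 n2 n3))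
      (c2 := yd [2 * (2 + b2.length), 2 * (2 + b2.length)])
      (c3 := yd [0, 0]) (c4 := yd [m4, m4])
      (by simpa using hR)
      (by
        simp only [List.map_cons, mk_map_notfst, Bool.not_false, Bool.not_true]
        exact TT.compl_mask (w := [true, true, true, true, false, false])
          (w' := [true, true, false, false, false, false]) rfl _
          (leaf_rect (2 + b2.length) (by omega)))
      (by
        simp only [List.map_cons, mk_map_fst]
        exact TT.of_rowsW_mask (w := [false, false, false, false, true, true]) leaf0000 _)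
      (by simpa using hD)
  simp only [List.map_cons, mk_map_snd] at h
  rw [add4E] at h
  have e : 2 * b2.length + 4 + m4 = 2 * (2 + b2.length) + 0 + m4 := by omega
  rw [e]
  exact h

theorem ruleC2E (hD : TT (shape (Fw [t0, t1, t4, t5])) (yd [m4, m4]))
    (hR : TT (shape (Fw (t2 :: t3 :: b2))) (yd (E3 n1 n2 n3))) :
    TT (shape (Fw (t0 :: t1 :: t2 :: t3 :: t4 :: t5 :: b2)))
      (yd (E3 n1 (n2 + (2 * b2.length + 4 + m4)) n3)) := by
  have h := grid_F ((false, t0) :: (false, t1) :: (true, t2) :: (true, t3) :: (false, t4) ::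
      (false, t5) :: mk b2) (c1 := yd (E3 n1 n2 n3))
      (c2 := yd [2 * b2.length + 2, 2 * b2.length + 2])
      (c3 := yd [2, 2]) (c4 := yd [m4, m4])
      (by simpa using hR)
      (by
        simp only [List.map_cons, mk_map_notfst, Bool.not_false, Bool.not_true]
        refine TT.compl_mask (w := [true, true, false, false, true, true])
          (w' := [false, false, true, true, false, false]) rfl _ ?_
        have e : rowsW [false, false, true, true, false, false] = [2, 2, 0, 0] := rfl
        rw [e]
        simp only [List.map_cons, List.map_nil]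
        have := leaf_two b2.length
        rwa [Nat.zero_add, Nat.add_comm 2])
      (by
        simp only [List.map_cons, mk_map_fst]
        exact TT.of_rowsW_mask (w := [false, false, true, true, false, false]) leaf2200 _)
      (by simpa using hD)
  simp only [List.map_cons, mk_map_snd] at h
  rw [add4E] at h
  have e : 2 * b2.length + 4 + m4 = 2 * b2.length + 2 + 2 + m4 := by omega
  rw [e]
  exact h

theorem ruleC3E (hj : b2.length ≠ 1) (hD : TT (shape (Fw [t2, t3, t4, t5])) (yd [m4, m4]))
    (hR : TT (shape (Fw (t0 :: t1 :: b2))) (yd (E3 n1 n2 n3))) :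
    TT (shape (Fw (t0 :: t1 :: t2 :: t3 :: t4 :: t5 :: b2)))
      (yd (E3 n1 (n2 + (2 * b2.length + 4 + m4)) n3)) := by
  have h := grid_F ((true, t0) :: (true, t1) :: (false, t2) :: (false, t3) :: (false, t4) ::
      (false, t5) :: mk b2) (c1 := yd (E3 n1 n2 n3))
      (c2 := yd [2 * b2.length, 2 * b2.length])
      (c3 := yd [4, 4]) (c4 := yd [m4, m4])
      (by simpa using hR)
      (by
        simp only [List.map_cons, mk_map_notfst, Bool.not_false, Bool.not_true]
        refine TT.compl_mask (w := [false, false, true, true, true, true])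
          (w' := [false, false, false, false, true, true]) rfl _ ?_
        have e : rowsW [false, false, false, false, true, true] = [0, 0, 0, 0] := rfl
        rw [e]
        simp only [List.map_cons, List.map_nil]
        have := leaf_rect b2.length hj
        rwa [Nat.zero_add])
      (by
        simp only [List.map_cons, mk_map_fst]
        exact TT.of_rowsW_mask (w := [true, true, false, false, false, false]) leaf2222 _)
      (by simpa using hD)
  simp only [List.map_cons, mk_map_snd] at h
  rw [add4E] at h
  exact h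

end ruleC

/-! ### Data of the finite checks -/

/-- Options for the piece `(2,1)`. -/
def P3opts : List (ℕ × ℕ × ℕ) := [(3, 0, 0), (1, 1, 0), (0, 0, 1)]

/-- What the word `F` of the three bits hosts. -/
def H3 : Bool → Bool → Bool → List (ℕ × ℕ × ℕ)
  | false, false, false => [(3, 0, 0), (1, 1, 0), (0, 0, 1)]
  | false, true, false => [(4, 0, 0), (0, 2, 0)]
  | false, false, true => [(4, 0, 0), (2, 1, 0), (0, 2, 0), (1, 0, 1)]
  | true, false, false => [(4, 0, 0), (2, 1, 0), (0, 2, 0), (1, 0, 1)]
  | true, true, true => [(6, 0, 0), (4, 1, 0), (2, 2, 0), (0, 3, 0), (3, 0, 1), (1, 1, 1), (0, 0, 2)]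
  | _, _, _ => [(5, 0, 0), (3, 1, 0), (1, 2, 0), (2, 0, 1), (0, 1, 1)]

/-- Splitting `M` into column counts below `r`. -/
def splitOK (r1 r2 r3 M m3 m1 : ℕ) : Bool :=
  Nat.ble m3 r3 && Nat.ble (3 * m3) M && Nat.ble m1 r1 && Nat.ble m1 (M - 3 * m3) &&
    Nat.beq ((M - 3 * m3 - m1) % 2) 0 && Nat.ble ((M - 3 * m3 - m1) / 2) r2

/-- Is there a split? -/
def splitAny (r1 r2 r3 M : ℕ) : Bool :=
  (List.range (r3 + 1)).any fun m3 =>
    [M - 3 * m3, r1, r1 - 1].any fun m1 => splitOK r1 r2 r3 M m3 m1

/-- The finite check of the reduction by the blocks `0, 2, 4`. -/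
def k3ok (x : ℕ) (b0 b2 b4 : Bool) (n1 n2 n3 : ℕ) : Bool :=
  P3opts.any fun c3 => (H3 b0 b2 b4).any fun c4 =>
    Nat.ble (c3.1 + c4.1) n1 && Nat.ble (c3.2.1 + c4.2.1) n2 && Nat.ble (c3.2.2 + c4.2.2) n3 &&
      splitAny (n1 - (c3.1 + c4.1)) (n2 - (c3.2.1 + c4.2.1)) (n3 - (c3.2.2 + c4.2.2))
        (3 * (x - 3) - 3)

/-- The box: the three reductions A, C, B all fail. -/
def chkBox : Bool :=
  (List.range 8).all fun i =>
    (allBits 3).all fun bs =>
      (List.range (i + 8)).all fun n1 =>
        (List.range (i + 6)).all fun n3' =>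
          (List.range (2 * (i + 8) - 3)).all fun n2 =>
            let n := n1 + 2 * n2 + 3 * (n3' + 1)
            let s := bs.count true
            if stairN (i + 8) + s ≤ n ∧ n ≤ stairN (i + 8) + s + (i + 5) then
              k3ok (i + 8) (bs.getD 0 false) (bs.getD 1 false) (bs.getD 2 false) n1 n2 (n3' + 1)
            else true

/-- A mask with its data: the mask, the rows of its reversal, the heights of the two rectangles,
the first admissible shift. -/
structure MD where
  g : List Bool
  A : ℕ
  B : ℕ
  C : ℕ
  p : ℕ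
  q : ℕ
  j0 : ℕ

/-- The masks of the rule deleting three blocks of equal bit. -/
def maskData : List MD :=
  [⟨[false, false, false, true, true, true, true, true], 5, 5, 5, 0, 5, 0⟩,
   ⟨[false, true, true, false, true, true, false, true], 5, 3, 1, 2, 3, 0⟩,
   ⟨[true, false, true, false, true, false, true, true], 4, 3, 2, 2, 3, 0⟩,
   ⟨[false, true, true, true, false, false, true, true], 5, 2, 2, 2, 3, 0⟩,
   ⟨[true, true, false, false, false, true, true, true], 3, 3, 3, 2, 3, 0⟩,
   ⟨[true, false, true, true, false, true, true, false], 4, 2, 0, 3, 2, 0⟩,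
   ⟨[true, false, false, true, true, true, false, true], 4, 4, 1, 2, 3, 0⟩,
   ⟨[true, true, false, false, true, true, true, false], 3, 3, 0, 3, 2, 0⟩,
   ⟨[true, true, false, true, false, true, false, true], 3, 2, 1, 3, 2, 0⟩,
   ⟨[false, true, true, true, true, false, true, false], 5, 1, 0, 3, 2, 1⟩,
   ⟨[true, true, false, true, true, true, false, false], 3, 0, 0, 4, 1, 1⟩]

/-- The three deleted bits are equal. -/
def goodB (g w : List Bool) : Bool :=
  match dOf g w with
  | [t1, t2, t3] => (t1 == t2) && (t2 == t3)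
  | _ => false

/-- The bit strings of length 8 for which no mask works with no shift. -/
def exc8 : List (List Bool) :=
  [[false, true, false, true, true, false, false, false],
   [true, true, false, true, true, false, false, false],
   [false, true, false, true, true, false, true, false],
   [true, false, true, false, false, true, false, true],
   [false, false, true, false, false, true, true, true],
   [true, false, true, false, false, true, true, true]]

/-- The check of the data of the masks. -/
def chkMasks : Bool :=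
  maskData.all fun m =>
    (m.g.length == 8) && leqT (rowsW m.g.reverse) [m.A, m.B, m.C] && (m.p + m.q == 5) &&
      Nat.ble m.B m.A && Nat.ble m.C m.B &&
      Nat.beq (m.A + m.B + m.C) (3 * m.q)

theorem chkMasks_true : chkMasks = true := by decide +kernel

/-- The masks cover all bit strings of length 8. -/
def chkCover : Bool :=
  (allBits 8).all fun w =>
    (maskData.any fun m => goodB m.g w) &&
      (exc8.any (fun e => leqB e w) || maskData.any fun m => Nat.beq m.j0 0 && goodB m.g w)
where
  leqB (a b : List Bool) : Bool := a == b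

theorem chkCover_true : chkCover = true := by decide +kernel

lemma P3opts_mass : ∀ c ∈ P3opts, c.1 + 2 * c.2.1 + 3 * c.2.2 = 3 := by decide

lemma H3_mass : ∀ b0 b2 b4 : Bool, ∀ c ∈ H3 b0 b2 b4,
    c.1 + 2 * c.2.1 + 3 * c.2.2 = 3 + b0.toNat + b2.toNat + b4.toNat := by decide

lemma stairN_add3 (k : ℕ) : stairN (k + 3) = stairN k + k + (k + 1) + (k + 2) := rfl

lemma count5 (b0 b1 b2 b3 b4 : Bool) (b' : List Bool) :
    (b0 :: b1 :: b2 :: b3 :: b4 :: b').count true
      = b0.toNat + b1.toNat + b2.toNat + b3.toNat + b4.toNat + b'.count true := by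
  cases b0 <;> cases b1 <;> cases b2 <;> cases b3 <;> cases b4 <;> simp <;> omega

lemma count2 (b1 b3 : Bool) (b' : List Bool) :
    (b1 :: b3 :: b').count true = b1.toNat + b3.toNat + b'.count true := by
  cases b1 <;> cases b3 <;> simp <;> omega

lemma mask_facts : ∀ m ∈ maskData, m.g.length = 8 ∧ rowsW m.g.reverse = [m.A, m.B, m.C] ∧
    m.p + m.q = 5 ∧ m.B ≤ m.A ∧ m.C ≤ m.B ∧ m.j0 ≤ 1 := by decide +kernel

lemma stairN_ge16 (x : ℕ) (hx : 16 ≤ x) : 8 * x < stairN x + 15 := by
  induction x, hx using Nat.le_induction with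
  | base => decide
  | succ x hx ih =>
    simp only [stairN]
    omega

lemma cover_facts (w : List Bool) (hw : w.length = 8) :
    (∃ m ∈ maskData, goodB m.g w = true) ∧
      (w ∈ exc8 ∨ ∃ m ∈ maskData, m.j0 = 0 ∧ goodB m.g w = true) := by
  have h := chkCover_true
  simp only [chkCover, List.all_eq_true, Bool.and_eq_true, List.any_eq_true, Bool.or_eq_true,
    beq_iff_eq] at h
  have hmem := mem_allBits w
  rw [hw] at hmem
  obtain ⟨⟨m, hm, hg⟩, h2⟩ := h w hmem
  refine ⟨⟨m, hm, hg⟩, ?_⟩
  rcases h2 with ⟨e, he, hew⟩ | ⟨m', hm', h0, hg'⟩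
  · left
    have : e = w := by simpa [chkCover.leqB] using hew
    rwa [this] at he
  · right
    exact ⟨m', hm', Nat.eq_of_beq_eq_true h0, hg'⟩

/-! ### Leaves -/

/-- The facts taken from the kernel table. -/
structure F3Base : Prop where
  stair : ∀ y a b c : ℕ, 2 ≤ y → y ≤ 6 → a + 2 * b + 3 * c = 3 * y - 3 →
    TT (yd [y, y - 1, y - 2]) (yd (E3 a b c))
  s111 : TT (yd [1, 1, 1]) (yd (E3 3 0 0))
  s222 : TT (yd [2, 2, 2]) (yd (E3 0 0 2))
  s444 : TT (yd [4, 4, 4]) (yd (E3 0 6 0))
  p3 : ∀ c ∈ P3opts, TT (yd [2, 1, 0]) (yd (E3 c.1 c.2.1 c.2.2))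
  h3 : ∀ b0 b2 b4 : Bool, ∀ c ∈ H3 b0 b2 b4,
    TT (shape (Fw [b0, b2, b4])) (yd (E3 c.1 c.2.1 c.2.2))
  d000 : TT (shape (Fw [false, false, false])) (yd (E3 0 0 1))
  d111 : TT (shape (Fw [true, true, true])) (yd (E3 0 0 2))
  mp : ∀ m ∈ maskData, TT (shape m.g) (yd (E3 0 0 m.p))
  m0 : ∀ m ∈ maskData, TT (yd [m.A + m.j0, m.B + m.j0, m.C + m.j0]) (yd (E3 0 0 (m.q + m.j0)))
  m1 : ∀ m ∈ maskData, TT (yd [m.A + (m.j0 + 1), m.B + (m.j0 + 1), m.C + (m.j0 + 1)])
    (yd (E3 0 0 (m.q + (m.j0 + 1))))
  box : chkBox = true
  small : ∀ b : List Bool, (b.length ≤ 7 ∧ 4 ≤ b.length ∨ b ∈ exc8) → ∀ n1 n2 n3 : ℕ, 1 ≤ n3 →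
    n1 + 2 * n2 + 3 * n3 = area (Fw b) → ¬ (5 ≤ b.length ∧ b.length ≤ n1) →
    ¬ (8 ≤ b.length ∧ 2 * b.length - 3 ≤ n2) →
    ¬ (7 ≤ b.length ∧ k3ok b.length (b.getD 0 false) (b.getD 2 false) (b.getD 4 false) n1 n2 n3 = true) →
    TT (shape (Fw b)) (yd (E3 n1 n2 n3))

variable (H : F3Base)
include H

/-- The piece `(y, y-1, y-2)` hosts all partitions with at most three rows. -/
theorem leafStair (y : ℕ) : 2 ≤ y → ∀ a b c : ℕ, a + 2 * b + 3 * c = 3 * y - 3 →
    TT (yd [y, y - 1, y - 2]) (yd (E3 a b c)) := by
  induction y using Nat.strong_induction_on with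
  | _ y ih =>
    intro hy a b c hm
    by_cases h6 : y ≤ 6
    · exact H.stair y a b c hy h6 hm
    by_cases ha : 3 ≤ a
    · have h := (ih (y - 1) (by omega) (by omega) (a - 3) b c (by omega)).add H.s111
      rw [addD_E3, ← yd_addR (by simp [srt]; omega) (by simp [srt])] at h
      have e1 : addR [y - 1, y - 1 - 1, y - 1 - 2] [1, 1, 1] = [y, y - 1, y - 2] := by
        simp only [addR, List.cons.injEq, and_true]
        refine ⟨by omega, by omega, by omega⟩
      have e2 : a - 3 + 3 = a := by omega
      rwa [e1, e2, Nat.add_zero, Nat.add_zero] at h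
    by_cases hc : 2 ≤ c
    · have h := (ih (y - 2) (by omega) (by omega) a b (c - 2) (by omega)).add H.s222
      rw [addD_E3, ← yd_addR (by simp [srt]; omega) (by simp [srt])] at h
      have e1 : addR [y - 2, y - 2 - 1, y - 2 - 2] [2, 2, 2] = [y, y - 1, y - 2] := by
        simp only [addR, List.cons.injEq, and_true]
        refine ⟨by omega, by omega, by omega⟩
      have e2 : c - 2 + 2 = c := by omega
      rwa [e1, e2, Nat.add_zero, Nat.add_zero] at h
    have hb : 6 ≤ b := by omega
    have h := (ih (y - 4) (by omega) (by omega) a (b - 6) c (by omega)).add H.s444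
    rw [addD_E3, ← yd_addR (by simp [srt]; omega) (by simp [srt])] at h
    have e1 : addR [y - 4, y - 4 - 1, y - 4 - 2] [4, 4, 4] = [y, y - 1, y - 2] := by
      simp only [addR, List.cons.injEq, and_true]
      refine ⟨by omega, by omega, by omega⟩
    have e2 : b - 6 + 6 = b := by omega
    rwa [e1, e2, Nat.add_zero, Nat.add_zero] at h

/-- The mask rectangles, all shifts. -/
theorem leafMask (m : MD) (hm : m ∈ maskData) (hs : m.C ≤ m.B ∧ m.B ≤ m.A) (j : ℕ) :
    TT (yd [m.A + (m.j0 + j), m.B + (m.j0 + j), m.C + (m.j0 + j)])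
      (yd (E3 0 0 (m.q + (m.j0 + j)))) := by
  induction j using Nat.strong_induction_on with
  | _ j ih =>
    match j with
    | 0 => exact H.m0 m hm
    | 1 => exact H.m1 m hm
    | j + 2 =>
      have h := (ih j (by omega)).add H.s222
      rw [addD_E3, ← yd_addR (by simp [srt]; omega) (by simp [srt])] at h
      have e1 : addR [m.A + (m.j0 + j), m.B + (m.j0 + j), m.C + (m.j0 + j)] [2, 2, 2]
          = [m.A + (m.j0 + (j + 2)), m.B + (m.j0 + (j + 2)), m.C + (m.j0 + (j + 2))] := by
        simp only [addR, List.cons.injEq, and_true]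
        refine ⟨by omega, by omega, by omega⟩
      have e2 : m.q + (m.j0 + j) + 2 = m.q + (m.j0 + (j + 2)) := by omega
      rwa [e1, e2, Nat.add_zero, Nat.add_zero] at h

/-! ### The reduction by the blocks `0, 2, 4` -/

theorem k3step (b0 b1 b2 b3 b4 : Bool) (b' : List Bool) {n1 n2 n3 : ℕ}
    (hk : k3ok (b'.length + 5) b0 b2 b4 n1 n2 n3 = true)
    (hmass : n1 + 2 * n2 + 3 * n3 = area (Fw (b0 :: b1 :: b2 :: b3 :: b4 :: b')))
    (hchild : ∀ a b c : ℕ, a + 2 * b + 3 * c = area (Fw (b1 :: b3 :: b')) →
      TT (shape (Fw (b1 :: b3 :: b'))) (yd (E3 a b c))) :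
    TT (shape (Fw (b0 :: b1 :: b2 :: b3 :: b4 :: b'))) (yd (E3 n1 n2 n3)) := by
  simp only [k3ok, List.any_eq_true, Bool.and_eq_true] at hk
  obtain ⟨c3, h3, c4, h4, ⟨⟨l1, l2⟩, l3⟩, hs⟩ := hk
  have l1 := Nat.le_of_ble_eq_true l1
  have l2 := Nat.le_of_ble_eq_true l2
  have l3 := Nat.le_of_ble_eq_true l3
  simp only [splitAny, List.any_eq_true, splitOK, Bool.and_eq_true] at hs
  obtain ⟨m3, -, m1, -, ⟨⟨⟨⟨⟨s1, s2⟩, s3⟩, s4⟩, s5⟩, s6⟩⟩ := hs
  have s1 := Nat.le_of_ble_eq_true s1
  have s2 := Nat.le_of_ble_eq_true s2
  have s3 := Nat.le_of_ble_eq_true s3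
  have s4 := Nat.le_of_ble_eq_true s4
  have s5 := Nat.eq_of_beq_eq_true s5
  have s6 := Nat.le_of_ble_eq_true s6
  set M := 3 * (b'.length + 5 - 3) - 3 with hM
  set m2 := (M - 3 * m3 - m1) / 2 with hm2
  have hm2' : m1 + 2 * m2 + 3 * m3 = M := by omega
  have mc3 := P3opts_mass c3 h3
  have mc4 := H3_mass b0 b2 b4 c4 h4
  -- masses
  have ha1 := area_Fw (b0 :: b1 :: b2 :: b3 :: b4 :: b')
  have ha2 := area_Fw (b1 :: b3 :: b')
  rw [count5] at ha1
  rw [count2] at ha2
  simp only [List.length_cons] at ha1 ha2
  have e5 : b'.length + 1 + 1 + 1 + 1 + 1 = (b'.length + 2) + 3 := by omega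
  have e2 : b'.length + 1 + 1 = b'.length + 2 := by omega
  rw [e5, stairN_add3] at ha1
  rw [e2] at ha2
  have hchildm : (n1 - (c3.1 + c4.1) - m1) + 2 * (n2 - (c3.2.1 + c4.2.1) - m2)
      + 3 * (n3 - (c3.2.2 + c4.2.2) - m3) = area (Fw (b1 :: b3 :: b')) := by
    have hM2 : M = 3 * b'.length + 3 := by omega
    omega
  have hc := hchild _ _ _ hchildm
  have hP2 : TT (yd ((rowsW [false, true, false, true, false].reverse).map (· + b'.length)))
      (yd (E3 m1 m2 m3)) := by
    have e : (rowsW [false, true, false, true, false].reverse).map (· + b'.length)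
        = [b'.length + 2, b'.length + 2 - 1, b'.length + 2 - 2] := by
      have e0 : rowsW [false, true, false, true, false].reverse = [2, 1, 0] := rfl
      rw [e0]
      simp only [List.map_cons, List.map_nil, List.cons.injEq, and_true]
      refine ⟨by omega, by omega, by omega⟩
    rw [e]
    exact leafStair H _ (by omega) _ _ _ (by omega)
  have hP3 : TT (shape [false, true, false, true, false]) (yd (E3 c3.1 c3.2.1 c3.2.2)) :=
    H.p3 c3 h3
  have hP4 : TT (shape (Fw (dOf [false, true, false, true, false] [b0, b1, b2, b3, b4])))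
      (yd (E3 c4.1 c4.2.1 c4.2.2)) := H.h3 b0 b2 b4 c4 h4
  have hg := grid_mask [false, true, false, true, false] [b0, b1, b2, b3, b4] b' rfl
    (c1 := yd (E3 _ _ _)) hc hP2 hP3 hP4
  rw [addD_E3, addD_E3, addD_E3] at hg
  have e : E3 n1 n2 n3 = E3 (n1 - (c3.1 + c4.1) - m1 + m1 + (c3.1 + c4.1))
      (n2 - (c3.2.1 + c4.2.1) - m2 + m2 + (c3.2.1 + c4.2.1))
      (n3 - (c3.2.2 + c4.2.2) - m3 + m3 + (c3.2.2 + c4.2.2)) := by
    have e1 : n1 - (c3.1 + c4.1) - m1 + m1 + (c3.1 + c4.1) = n1 := by omega
    have e2 : n2 - (c3.2.1 + c4.2.1) - m2 + m2 + (c3.2.1 + c4.2.1) = n2 := by omega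
    have e3 : n3 - (c3.2.2 + c4.2.2) - m3 + m3 + (c3.2.2 + c4.2.2) = n3 := by omega
    rw [e1, e2, e3]
  rw [e]
  exact hg

/-! ### Deleting three blocks of equal bit -/

theorem ruleB3 (m : MD) (hm : m ∈ maskData) (w b2 : List Bool) (hw : w.length = 8)
    (hgood : goodB m.g w = true) (hj : m.j0 ≤ b2.length) {n1 n2 n3 : ℕ}
    (hchild : TT (shape (Fw (rOf m.g w ++ b2))) (yd (E3 n1 n2 n3))) :
    ∃ t : Bool, dOf m.g w = [t, t, t] ∧
      TT (shape (Fw (w ++ b2))) (yd (E3 n1 n2 (n3 + (b2.length + 5) + (1 + t.toNat)))) := by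
  obtain ⟨h1, h2, h3, h4, h5, h6⟩ := mask_facts m hm
  have hd : ∃ t : Bool, dOf m.g w = [t, t, t] := by
    unfold goodB at hgood
    split at hgood
    · rename_i t1 t2 t3 hD
      simp only [Bool.and_eq_true, beq_iff_eq] at hgood
      obtain ⟨rfl, rfl⟩ := hgood
      exact ⟨t1, hD⟩
    · cases hgood
  obtain ⟨t, ht⟩ := hd
  refine ⟨t, ht, ?_⟩
  have hP2 : TT (yd ((rowsW m.g.reverse).map (· + b2.length))) (yd (E3 0 0 (m.q + b2.length))) := by
    rw [h2]
    have := leafMask H m hm ⟨h5, h4⟩ (b2.length - m.j0)
    have e : m.j0 + (b2.length - m.j0) = b2.length := by omega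
    rw [e] at this
    exact this
  have hP4 : TT (shape (Fw (dOf m.g w))) (yd (E3 0 0 (1 + t.toNat))) := by
    rw [ht]
    cases t
    · exact H.d000
    · exact H.d111
  have hg := grid_mask m.g w b2 (by omega) hchild hP2 (H.mp m hm) hP4
  rw [addD_E3, addD_E3, addD_E3] at hg
  have e : E3 n1 n2 (n3 + (b2.length + 5) + (1 + t.toNat))
      = E3 (n1 + 0 + (0 + 0)) (n2 + 0 + (0 + 0))
        (n3 + (m.q + b2.length) + (m.p + (1 + t.toNat))) := by
    simp only [E3, List.cons.injEq, and_true]
    refine ⟨by omega, by omega, by omega⟩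
  rw [e]
  exact hg

/-- **Few-row lemma, three rows.** -/
theorem TT_F3_of_base (n : ℕ) : ∀ b : List Bool, b.length = n → 4 ≤ n →
    ∀ n1 n2 n3 : ℕ, n1 + 2 * n2 + 3 * n3 = area (Fw b) →
      TT (shape (Fw b)) (yd (E3 n1 n2 n3)) := by
  induction n using Nat.strong_induction_on with
  | _ n ih =>
    intro b hb hn n1 n2 n3 hmass
    by_cases h30 : n3 = 0
    · subst h30
      rw [yd_E3_zero]
      exact TT_F2 b (by omega) (n1 + n2) n2 (by omega) (by omega)
    by_cases hA : 5 ≤ n ∧ n ≤ n1
    · -- delete the first block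
      obtain ⟨t, b', rfl⟩ : ∃ t b', b = t :: b' := by
        cases b with
        | nil => simp at hb; omega
        | cons t b' => exact ⟨t, b', rfl⟩
      simp only [List.length_cons] at hb
      have hm : b'.length + t.toNat ≤ n := by
        cases t <;> simp <;> omega
      have hmass' := hmass
      rw [area_Fw_cons] at hmass'
      have h := ih b'.length (by omega) b' rfl (by omega) (n1 - (b'.length + t.toNat)) n2 n3
        (by omega)
      have h' := ruleA3 t b' h
      rwa [Nat.sub_add_cancel (by omega)] at h'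
    by_cases hC : 8 ≤ n ∧ 2 * n - 3 ≤ n2
    · -- the core: delete four blocks out of the first six
      obtain ⟨t0, t1, t2, t3, t4, t5, b2, rfl⟩ :
          ∃ t0 t1 t2 t3 t4 t5 b2, b = t0 :: t1 :: t2 :: t3 :: t4 :: t5 :: b2 := by
        match b, hb with
        | t0 :: t1 :: t2 :: t3 :: t4 :: t5 :: b2, _ => exact ⟨t0, t1, t2, t3, t4, t5, b2, rfl⟩
        | [], hb => simp at hb; omega
        | [_], hb => simp at hb; omega
        | [_, _], hb => simp at hb; omega
        | [_, _, _], hb => simp at hb; omega
        | [_, _, _, _], hb => simp at hb; omega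
        | [_, _, _, _, _], hb => simp at hb; omega
      simp only [List.length_cons] at hb
      have hj : 2 ≤ b2.length := by omega
      have harea := area_Fw (t0 :: t1 :: t2 :: t3 :: t4 :: t5 :: b2)
      simp only [List.length_cons] at harea
      rw [hb] at harea
      have hcnt : (t0 :: t1 :: t2 :: t3 :: t4 :: t5 :: b2).count true
          = t0.toNat + t1.toNat + t2.toNat + t3.toNat + t4.toNat + t5.toNat + b2.count true := by
        cases t0 <;> cases t1 <;> cases t2 <;> cases t3 <;> cases t4 <;> cases t5 <;>
          simp <;> omega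
      rw [hcnt] at harea
      have step : ∀ (D R : List Bool) (m4 : ℕ), D.length = 4 → R.length = n - 4 →
          D.count true + R.count true
            = t0.toNat + t1.toNat + t2.toNat + t3.toNat + t4.toNat + t5.toNat + b2.count true →
          2 * m4 = 6 + D.count true →
          (∀ {c : ℕ} {m : ℕ}, TT (shape (Fw D)) (yd [m, m]) →
            TT (shape (Fw R)) (yd (E3 n1 c n3)) →
            TT (shape (Fw (t0 :: t1 :: t2 :: t3 :: t4 :: t5 :: b2)))
              (yd (E3 n1 (c + (2 * b2.length + 4 + m)) n3))) →
          TT (shape (Fw (t0 :: t1 :: t2 :: t3 :: t4 :: t5 :: b2))) (yd (E3 n1 n2 n3)) := by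
        intro D R m4 hDl hRl hc hm4 hstep
        have hDa : area (Fw D) = 6 + D.count true := by
          rw [area_Fw, hDl]; rfl
        have hRa := area_Fw R
        rw [hRl] at hRa
        have hst2 : stairN n = stairN (n - 4) + (n - 4) + (n - 3) + (n - 2) + (n - 1) := by
          obtain ⟨k, rfl⟩ : ∃ k, n = k + 4 := ⟨n - 4, by omega⟩
          simp only [Nat.add_sub_cancel, stairN]
          have e1 : k + 4 - 3 = k + 1 := by omega
          have e2 : k + 4 - 2 = k + 2 := by omega
          have e3 : k + 4 - 1 = k + 3 := by omega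
          rw [e1, e2, e3]
        have hDc : D.count true ≤ D.length := List.count_le_length
        have hle : 2 * b2.length + 4 + m4 ≤ n2 := by omega
        have hD : TT (shape (Fw D)) (yd [m4, m4]) :=
          TT_F2 D (by omega) m4 m4 le_rfl (by omega)
        have hR := ih (n - 4) (by omega) R hRl (by omega)
          n1 (n2 - (2 * b2.length + 4 + m4)) n3 (by omega)
        have := hstep hD hR
        rwa [Nat.sub_add_cancel (by omega)] at this
      have hR1 : (t4 :: t5 :: b2).length = n - 4 := by simp; omega
      have hR2 : (t2 :: t3 :: b2).length = n - 4 := by simp; omega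
      have hR3 : (t0 :: t1 :: b2).length = n - 4 := by simp; omega
      have cnt4 : ∀ s0 s1 s2 s3 : Bool, [s0, s1, s2, s3].count true
          = s0.toNat + s1.toNat + s2.toNat + s3.toNat := by
        intro s0 s1 s2 s3
        cases s0 <;> cases s1 <;> cases s2 <;> cases s3 <;> rfl
      by_cases e1 : (t0.toNat + t1.toNat + t2.toNat + t3.toNat) % 2 = 0
      · exact step [t0, t1, t2, t3] (t4 :: t5 :: b2)
          ((6 + (t0.toNat + t1.toNat + t2.toNat + t3.toNat)) / 2)
          rfl hR1 (by rw [cnt4, count2]; omega) (by rw [cnt4]; omega)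
          (fun hD hR => ruleC1E t0 t1 t2 t3 t4 t5 b2 hD hR)
      by_cases e2 : (t0.toNat + t1.toNat + t4.toNat + t5.toNat) % 2 = 0
      · exact step [t0, t1, t4, t5] (t2 :: t3 :: b2)
          ((6 + (t0.toNat + t1.toNat + t4.toNat + t5.toNat)) / 2)
          rfl hR2 (by rw [cnt4, count2]; omega) (by rw [cnt4]; omega)
          (fun hD hR => ruleC2E t0 t1 t2 t3 t4 t5 b2 hD hR)
      · have e3 : (t2.toNat + t3.toNat + t4.toNat + t5.toNat) % 2 = 0 := by omega
        exact step [t2, t3, t4, t5] (t0 :: t1 :: b2)
          ((6 + (t2.toNat + t3.toNat + t4.toNat + t5.toNat)) / 2)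
          rfl hR3 (by rw [cnt4, count2]; omega) (by rw [cnt4]; omega)
          (fun hD hR => ruleC3E t0 t1 t2 t3 t4 t5 b2 (by omega) hD hR)
    -- a general step by the blocks 0, 2, 4
    have k3 : 7 ≤ n → k3ok n (b.getD 0 false) (b.getD 2 false) (b.getD 4 false) n1 n2 n3 = true →
        TT (shape (Fw b)) (yd (E3 n1 n2 n3)) := by
      intro h7 hk
      obtain ⟨b0, b1, b2, b3, b4, b', rfl⟩ :
          ∃ b0 b1 b2 b3 b4 b', b = b0 :: b1 :: b2 :: b3 :: b4 :: b' := by
        match b, hb with
        | b0 :: b1 :: b2 :: b3 :: b4 :: b', _ => exact ⟨b0, b1, b2, b3, b4, b', rfl⟩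
        | [], hb => simp at hb; omega
        | [_], hb => simp at hb; omega
        | [_, _], hb => simp at hb; omega
        | [_, _, _], hb => simp at hb; omega
        | [_, _, _, _], hb => simp at hb; omega
      simp only [List.length_cons] at hb
      have e : b'.length + 5 = n := by omega
      refine k3step H b0 b1 b2 b3 b4 b' ?_ hmass ?_
      · rw [e]
        simpa using hk
      · intro a c d hm
        exact ih (b'.length + 2) (by omega) _ (by simp) (by omega) a c d hm
    by_cases h8 : 8 ≤ n
    · by_cases hB : n - 1 ≤ n3 ∧ (9 ≤ n ∨ b ∉ exc8)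
      · -- delete three blocks of equal bit
        obtain ⟨w, b2, hwl, rfl⟩ : ∃ w b2, w.length = 8 ∧ b = w ++ b2 :=
          ⟨b.take 8, b.drop 8, by simp; omega, by simp⟩
        have hbl : b2.length = n - 8 := by
          simp only [List.length_append] at hb
          omega
        have hm : ∃ m ∈ maskData, goodB m.g w = true ∧ m.j0 ≤ b2.length := by
          obtain ⟨⟨m, hm, hg⟩, h2⟩ := cover_facts w hwl
          by_cases h9 : 9 ≤ n
          · have := (mask_facts m hm).2.2.2.2.2
            exact ⟨m, hm, hg, by omega⟩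
          · have hn8 : n = 8 := by omega
            have hb2 : b2 = [] := by
              apply List.length_eq_zero_iff.1
              omega
            subst hb2
            rcases h2 with h2 | ⟨m', hm', h0, hg'⟩
            · exfalso
              apply (hB.2.resolve_left h9)
              simpa using h2
            · exact ⟨m', hm', hg', by omega⟩
        obtain ⟨m, hm, hg, hj⟩ := hm
        obtain ⟨hgl, -, -, -, -, -⟩ := mask_facts m hm
        -- the deleted bits
        have hd : ∃ t : Bool, dOf m.g w = [t, t, t] := by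
          unfold goodB at hg
          split at hg
          · rename_i t1 t2 t3 hD
            simp only [Bool.and_eq_true, beq_iff_eq] at hg
            obtain ⟨rfl, rfl⟩ := hg
            exact ⟨t1, hD⟩
          · cases hg
        obtain ⟨t, ht⟩ := hd
        have hlen := length_rOf_dOf m.g w (by omega)
        have hcnt := count_rOf_dOf m.g w (by omega)
        rw [ht] at hlen hcnt
        simp only [List.length_cons, List.length_nil] at hlen
        have ct : [t, t, t].count true = 3 * t.toNat := by cases t <;> rfl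
        rw [ct] at hcnt
        have harea := area_Fw (w ++ b2)
        simp only [List.length_append, List.count_append] at harea
        have hRl : (rOf m.g w ++ b2).length = n - 3 := by
          simp only [List.length_append]
          omega
        have harea2 := area_Fw (rOf m.g w ++ b2)
        rw [hRl] at harea2
        simp only [List.count_append] at harea2
        have hst : stairN (n - 3 + 3) = stairN (n - 3) + (n - 3) + (n - 3 + 1) + (n - 3 + 2) :=
          stairN_add3 _
        have e3 : n - 3 + 3 = w.length + b2.length := by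
          simp only [List.length_append] at hb
          omega
        rw [e3] at hst
        have hsmall : t.toNat ≤ 1 := by cases t <;> simp
        have hle : b2.length + 5 + (1 + t.toNat) ≤ n3 := by
          have := hB.1
          omega
        have hc := ih (n - 3) (by omega) (rOf m.g w ++ b2) hRl (by omega) n1 n2
          (n3 - (b2.length + 5 + (1 + t.toNat))) (by omega)
        obtain ⟨t', ht', hres⟩ := ruleB3 H m hm w b2 hwl hg hj hc
        have htt : t' = t := by
          rw [ht] at ht'
          simpa using ht'.symm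
        subst htt
        have e : n3 - (b2.length + 5 + (1 + t'.toNat)) + (b2.length + 5) + (1 + t'.toNat) = n3 := by
          omega
        rwa [e] at hres
      by_cases hbox : n3 ≤ n - 2
      · -- the box
        refine k3 (by omega) ?_
        by_cases h16 : n ≤ 15
        · have h := H.box
          simp only [chkBox, List.all_eq_true, List.mem_range] at h
          obtain ⟨b0, b1, b2, b3, b4, b', hbe⟩ :
              ∃ b0 b1 b2 b3 b4 b', b = b0 :: b1 :: b2 :: b3 :: b4 :: b' := by
            match b, hb with
            | b0 :: b1 :: b2 :: b3 :: b4 :: b', _ => exact ⟨b0, b1, b2, b3, b4, b', rfl⟩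
            | [], hb => simp at hb; omega
            | [_], hb => simp at hb; omega
            | [_, _], hb => simp at hb; omega
            | [_, _, _], hb => simp at hb; omega
            | [_, _, _, _], hb => simp at hb; omega
          subst hbe
          simp only [List.length_cons] at hb
          have hinst := h (n - 8) (by omega) [b0, b2, b4] (mem_allBits [b0, b2, b4]) n1 (by omega)
            (n3 - 1) (by omega) n2 (by omega)
          have e8 : n - 8 + 8 = n := by omega
          have e1 : n3 - 1 + 1 = n3 := by omega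
          rw [e8, e1] at hinst
          have hcnt : [b0, b2, b4].count true = b0.toNat + b2.toNat + b4.toNat := by
            cases b0 <;> cases b2 <;> cases b4 <;> rfl
          have harea := area_Fw (b0 :: b1 :: b2 :: b3 :: b4 :: b')
          rw [count5] at harea
          simp only [List.length_cons] at harea
          have e5 : b'.length + 1 + 1 + 1 + 1 + 1 = n := by omega
          rw [e5] at harea
          have hc1 : b1.toNat ≤ 1 := by cases b1 <;> simp
          have hc3 : b3.toNat ≤ 1 := by cases b3 <;> simp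
          have hc' : b'.count true ≤ b'.length := List.count_le_length
          simp only [hcnt] at hinst
          rw [if_pos (by constructor <;> omega)] at hinst
          simpa using hinst
        · exfalso
          have := stairN_ge16 n (by omega)
          have harea := area_Fw b
          rw [hb] at harea
          have hn1 : n1 ≤ n - 1 := by
            by_contra hcon
            exact hA ⟨by omega, by omega⟩
          have hn2 : n2 + 3 < 2 * n := by
            by_contra hcon
            exact hC ⟨by omega, by omega⟩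
          omega
      · -- the exceptional strings with eight blocks
        have hn8 : n = 8 ∧ b ∈ exc8 := by
          by_contra hcon
          apply hB
          refine ⟨by omega, ?_⟩
          by_cases h9 : 9 ≤ n
          · exact Or.inl h9
          · right
            intro he
            exact hcon ⟨by omega, he⟩
        by_cases hk : k3ok n (b.getD 0 false) (b.getD 2 false) (b.getD 4 false) n1 n2 n3 = true
        · exact k3 (by omega) hk
        · refine H.small b (Or.inr hn8.2) n1 n2 n3 (by omega) hmass ?_ ?_ ?_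
          · rw [hb]; exact hA
          · rw [hb]; exact hC
          · rw [hb]
            intro hc
            exact hk hc.2
    · by_cases hk : 7 ≤ n ∧ k3ok n (b.getD 0 false) (b.getD 2 false) (b.getD 4 false) n1 n2 n3 = true
      · exact k3 hk.1 hk.2
      · refine H.small b (Or.inl ⟨by omega, by omega⟩) n1 n2 n3 (by omega) hmass ?_ ?_ ?_
        · rw [hb]; exact hA
        · rw [hb]; exact hC
        · rw [hb]; exact hk

end Crest.Agent.Lib.Saxl
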