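import Crest.Agent.Lib.Saxl.Add
import Crest.Prelude.Def_SpechtModule

/-!
# Saxl foundation: from the relation `QL` to intertwining maps
-/

set_option autoImplicit false
set_option linter.unusedSectionVars false

namespace Crest.Agent.Lib.Saxl

open Equiv Representation TensorProduct

variable {L : Type} [Fintype L] [DecidableEq L]

/-- The bilinear form as a linear functional. -/
noncomputable def Bf (v : Mod L) : Mod L →ₗ[ℂ] ℂ where
  toFun s := B v s
  map_add' := B_add_right v
  map_smul' c s := B_smul_right c v s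

variable {D1 D2 D3 : Finset (ℕ × ℕ)}

/-- The map into the tensor product. -/
noncomputable def phi (x : Sp D1 L) (y : Sp D2 L) (z : Sp D3 L) :
    Sp D3 L →ₗ[ℂ] (Sp D1 L ⊗[ℂ] Sp D2 L) :=
  ∑ g : Perm L, (LinearMap.toSpanSingleton ℂ _ (repSp D1 L g x ⊗ₜ[ℂ] repSp D2 L g y)) ∘ₗ
    (Bf (rep L g z.1)) ∘ₗ (Sp D3 L).subtype

lemma phi_apply (x : Sp D1 L) (y : Sp D2 L) (z : Sp D3 L) (s : Sp D3 L) :
    phi x y z s = ∑ g : Perm L, B (rep L g z.1) s.1 • (repSp D1 L g x ⊗ₜ[ℂ] repSp D2 L g y) := by
  simp [phi, LinearMap.sum_apply, Bf]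

lemma B_rep_right (g : Perm L) (x y : Mod L) : B x (rep L g y) = B (rep L g⁻¹ x) y := by
  rw [B_rep, inv_inv]

lemma rep_mul_apply (g h : Perm L) (x : Mod L) : rep L (g * h) x = rep L g (rep L h x) := by
  rw [map_mul]; rfl

lemma phi_intertwine (x : Sp D1 L) (y : Sp D2 L) (z : Sp D3 L) (h : Perm L) (s : Sp D3 L) :
    phi x y z (repSp D3 L h s) =
      Representation.tprod (repSp D1 L) (repSp D2 L) h (phi x y z s) := by
  rw [phi_apply, phi_apply, map_sum]
  symm
  refine Fintype.sum_equiv (Equiv.mulLeft h) _ _ ?_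
  intro g
  rw [map_smul, Representation.tprod_apply, TensorProduct.map_tmul, repSp_coe, B_rep_right]
  simp only [Equiv.coe_mulLeft]
  rw [← rep_mul_apply, inv_mul_cancel_left, map_mul, map_mul]
  rfl

/-- Evaluation on the tensor product. -/
noncomputable def evT (w1 w2 : Word L) : Sp D1 L ⊗[ℂ] Sp D2 L →ₗ[ℂ] ℂ :=
  TensorProduct.lift ((LinearMap.mul ℂ ℂ).compl₁₂
    ((Finsupp.lapply w1) ∘ₗ (Sp D1 L).subtype) ((Finsupp.lapply w2) ∘ₗ (Sp D2 L).subtype))

@[simp] lemma evT_tmul (w1 w2 : Word L) (a : Sp D1 L) (b : Sp D2 L) :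
    evT w1 w2 (a ⊗ₜ[ℂ] b) = a.1 w1 * b.1 w2 := by
  simp [evT]

lemma phi_ne_zero (x : Sp D1 L) (y : Sp D2 L) (z : Sp D3 L) (w : Tri L)
    (hw : Tr (fun _ => 1) x.1 y.1 z.1 w ≠ 0) : ∃ s, phi x y z s ≠ 0 := by
  obtain ⟨w1, w2, w3⟩ := w
  let Z : Mod L := ∑ g : Perm L, (rep L g x.1 w1 * rep L g y.1 w2) • rep L g z.1
  have hZmem : Z ∈ Sp D3 L :=
    Submodule.sum_mem _ fun g _ => Submodule.smul_mem _ _ (rep_mem_Sp g z.2)
  have hZ : Z ≠ 0 := by
    intro h0
    apply hw
    have := congrArg (fun v : Mod L => v w3) h0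
    simp only [Z, Finsupp.finsetSum_apply, Finsupp.smul_apply, smul_eq_mul, Finsupp.zero_apply] at this
    simp only [Tr, one_mul]
    exact this
  refine ⟨⟨cj Z, cj_mem_Sp hZmem⟩, ?_⟩
  intro h0
  apply hZ
  apply B_cj_self_eq_zero
  have h1 := congrArg (evT w1 w2) h0
  rw [phi_apply, map_zero, map_sum] at h1
  simp only [map_smul, evT_tmul, repSp_coe, smul_eq_mul] at h1
  simp only [Z, B_sum_left, B_smul_left]
  rw [← h1]
  refine Finset.sum_congr rfl fun g _ => ?_
  ring

/-- An equivariant nonzero map from `QL`. -/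
theorem exists_intertwiner_of_QL {a b c : YoungDiagram} (h : QL L a b c) :
    ∃ f : IntertwiningMap (repSp c.cells L) (tprod (repSp a.cells L) (repSp b.cells L)), f ≠ 0 := by
  obtain ⟨t, u, v, w, hw⟩ := h
  let x : Sp a.cells L := ⟨poly t, poly_mem_Sp t⟩
  let y : Sp b.cells L := ⟨poly u, poly_mem_Sp u⟩
  let z : Sp c.cells L := ⟨poly v, poly_mem_Sp v⟩
  obtain ⟨s, hs⟩ := phi_ne_zero x y z w hw
  refine ⟨⟨phi x y z, ?_⟩, ?_⟩
  · intro g
    ext1 s'
    exact phi_intertwine x y z g s'
  · intro h0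
    apply hs
    have := congrArg (fun f : IntertwiningMap (repSp c.cells L) (tprod (repSp a.cells L) (repSp b.cells L)) => f s) h0
    exact this

/-- From the relation for all shapes, to all irreducibles. -/
theorem nontrivial_intertwining {W : Type} [AddCommGroup W] [Module ℂ W] [FiniteDimensional ℂ W]
    (a b : YoungDiagram) (H : ∀ c : YoungDiagram, c.card = Fintype.card L → QL L a b c)
    (σ : Representation ℂ (Perm L) W) (hσ : Representation.IsIrreducible σ) :
    ∃ f : IntertwiningMap σ (tprod (repSp a.cells L) (repSp b.cells L)), f ≠ 0 := by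
  obtain ⟨c, hc, ⟨e⟩⟩ := exists_equiv_repSp σ hσ
  obtain ⟨f, hf⟩ := exists_intertwiner_of_QL (H c hc)
  refine ⟨f.comp e.toIntertwiningMap, ?_⟩
  intro h0
  apply hf
  apply IntertwiningMap.ext
  apply LinearMap.ext
  intro s
  have h1 : (f.comp e.toIntertwiningMap) (e.toLinearEquiv.symm s) = 0 := by
    rw [h0]; rfl
  have h2 : (f.comp e.toIntertwiningMap) (e.toLinearEquiv.symm s) = f s := by
    show f (e.toLinearEquiv (e.toLinearEquiv.symm s)) = f s
    rw [LinearEquiv.apply_symm_apply]
  rw [h2] at h1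
  exact h1

/-! ### Bridge to the prelude -/

section bridge

open Crest.AlgebraR.Specht

variable (D : Finset (ℕ × ℕ))

lemma columnGroup_eq (t : D ≃ Fin D.card) : columnGroup t = colGroup t := by
  ext σ
  simp only [columnGroup, Finset.mem_filter, Finset.mem_univ, true_and, mem_colGroup]
  rfl

lemma polytabloid_eq (t : D ≃ Fin D.card) : polytabloid t = poly t := by
  unfold polytabloid poly
  rw [columnGroup_eq]
  refine Finset.sum_congr rfl fun σ _ => ?_
  rfl

lemma range_polytabloid :
    (Set.range fun t : D ≃ Fin D.card => polytabloid t) = Set.range fun t : D ≃ Fin D.card => poly t := by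
  congr 1
  funext t
  exact polytabloid_eq D t

lemma specht_toSubmodule :
    (spechtSubrep D).toSubmodule = Sp D (Fin D.card) := by
  apply le_antisymm
  · refine sInf_le ⟨?_, ?_⟩
    · rintro _ ⟨t, rfl⟩
      show polytabloid t ∈ Sp D (Fin D.card)
      rw [polytabloid_eq]
      exact poly_mem_Sp t
    · intro g v hv
      exact rep_mem_Sp g hv
  · refine le_sInf ?_
    rintro p ⟨hp, -⟩
    rw [range_polytabloid] at hp
    exact Submodule.span_le.2 hp

/-- Identification of the Specht subrepresentation with the Specht span. -/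
noncomputable def kappa : (spechtSubrep D).toSubmodule ≃ₗ[ℂ] Sp D (Fin D.card) :=
  LinearEquiv.ofEq _ _ (specht_toSubmodule D)

lemma kappa_coe (x : (spechtSubrep D).toSubmodule) : ((kappa D x : Sp D (Fin D.card)) : Mod (Fin D.card)) = x.1 := rfl

lemma kappa_spechtRep (g : Perm (Fin D.card)) (x : (spechtSubrep D).toSubmodule) :
    kappa D (spechtRep D g x) = repSp D (Fin D.card) g (kappa D x) := rfl

variable {D}

/-- General conclusion in terms of the prelude's Specht representations. -/
theorem final_specht (a : YoungDiagram)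
    (H : ∀ c : YoungDiagram, c.card = a.cells.card → QL (Fin a.cells.card) a a c)
    {W : Type} [AddCommGroup W] [Module ℂ W] [FiniteDimensional ℂ W]
    (σ : Representation ℂ (Perm (Fin a.cells.card)) W) (hσ : Representation.IsIrreducible σ) :
    Nontrivial (IntertwiningMap σ (tprod (spechtRep a.cells) (spechtRep a.cells))) := by
  obtain ⟨f, hf⟩ := nontrivial_intertwining a a
    (fun c hc => H c (by simpa using hc)) σ hσ
  let K : ((Sp a.cells (Fin a.cells.card)) ⊗[ℂ] (Sp a.cells (Fin a.cells.card))) ≃ₗ[ℂ]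
      ((spechtSubrep a.cells).toSubmodule ⊗[ℂ] (spechtSubrep a.cells).toSubmodule) :=
    TensorProduct.congr (kappa a.cells).symm (kappa a.cells).symm
  have hK : ∀ (g : Perm (Fin a.cells.card)) (v : (Sp a.cells (Fin a.cells.card)) ⊗[ℂ] (Sp a.cells (Fin a.cells.card))),
      K (tprod (repSp a.cells (Fin a.cells.card)) (repSp a.cells (Fin a.cells.card)) g v) =
        tprod (spechtRep a.cells) (spechtRep a.cells) g (K v) := by
    intro g v
    induction v using TensorProduct.induction_on with
    | zero => simp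
    | add x y hx hy => simp only [map_add, hx, hy]
    | tmul x y =>
      simp only [Representation.tprod_apply, TensorProduct.map_tmul, K, TensorProduct.congr_tmul]
      rfl
  let F : IntertwiningMap σ (tprod (spechtRep a.cells) (spechtRep a.cells)) :=
    ⟨K.toLinearMap ∘ₗ f.toLinearMap, by
      intro g
      ext1 x
      show K (f (σ g x)) = tprod (spechtRep a.cells) (spechtRep a.cells) g (K (f x))
      rw [← hK, f.isIntertwining]⟩
  refine ⟨⟨F, 0, ?_⟩⟩
  intro h0
  apply hf
  apply IntertwiningMap.ext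
  apply LinearMap.ext
  intro s
  have h1 : F s = 0 := by rw [h0]; rfl
  have h2 : K (f s) = 0 := h1
  rw [LinearEquiv.map_eq_zero_iff] at h2
  exact h2

end bridge

end Crest.Agent.Lib.Saxl
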