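import Crest.Agent.Lib.Saxl.BitMatrix

/-!
# Saxl: Gale-Ryser with availability sets (helper63)

Rows `j : ι`, levels `p : κ`, availability `avail j p : Bool`, row sums `D`, column sums `E`,
`∑ D = ∑ E`.  If for every set `S` of levels `∑_{p∈S} E p ≤ ∑_j min (D j) #{p∈S | avail j p}` there
is a Boolean matrix `M ≤ avail` with exactly these row and column sums.

Proof: take a valid matrix (row sums `≤ D`, column sums `≤ E`, `M ≤ avail`) of maximal total.  If a
column `q` is deficient: `Reach M k x` says `x` can be raised by a chain of `k` exchanges ending in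
a row with slack.  The exchange along a shortest chain does not destroy the rest of the chain, so a
deficient column is not reachable; the set of all non-reachable levels then violates the hypothesis.

`exists_boolMatrix` is the `Fintype` form, `exists_listMatrix` the `List (List Bool)` form that plugs
into `colOf` (`BitMatrix`), `coverN` (`TileBits`).
-/

set_option autoImplicit false
set_option linter.unusedSectionVars false

namespace Crest.Agent.Lib.Saxl

namespace GR

variable {ι κ : Type*} [Fintype ι] [Fintype κ] [DecidableEq ι] [DecidableEq κ]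

/-- One value of a Boolean function raised: the sum of the indicators grows by one. -/
lemma sum_toNat_of_flip {α : Type*} [Fintype α] [DecidableEq α] (f g : α → Bool) (a : α)
    (hf : f a = false) (hg : g a = true) (h : ∀ x, x ≠ a → f x = g x) :
    ∑ x, (g x).toNat = ∑ x, (f x).toNat + 1 := by
  rw [← Finset.add_sum_erase _ _ (Finset.mem_univ a), ← Finset.add_sum_erase _ (fun x => (f x).toNat)
    (Finset.mem_univ a)]
  have : ∑ x ∈ Finset.univ.erase a, (g x).toNat = ∑ x ∈ Finset.univ.erase a, (f x).toNat := by
    apply Finset.sum_congr rfl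
    intro x hx
    rw [h x (Finset.ne_of_mem_erase hx)]
  rw [this, hf, hg]
  simp
  omega

/-- Row sum. -/
def rowSum (M : ι → κ → Bool) (j : ι) : ℕ := ∑ p, (M j p).toNat

/-- Column sum. -/
def colSum (M : ι → κ → Bool) (p : κ) : ℕ := ∑ j, (M j p).toNat

/-- Total number of ones. -/
def total (M : ι → κ → Bool) : ℕ := ∑ j, rowSum M j

lemma total_eq_col (M : ι → κ → Bool) : total M = ∑ p, colSum M p := by
  unfold total rowSum colSum
  exact Finset.sum_comm

/-- A valid partial matrix. -/
structure Valid (avail : ι → κ → Bool) (D : ι → ℕ) (E : κ → ℕ) (M : ι → κ → Bool) : Prop where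
  le_avail : ∀ j p, M j p = true → avail j p = true
  row_le : ∀ j, rowSum M j ≤ D j
  col_le : ∀ p, colSum M p ≤ E p

/-- `x` can be raised by a chain of `k` exchanges ending in a row with slack. -/
def Reach (avail : ι → κ → Bool) (D : ι → ℕ) (M : ι → κ → Bool) : ℕ → κ → Prop
  | 0, x => ∃ j, avail j x = true ∧ M j x = false ∧ rowSum M j < D j
  | k + 1, x => ∃ j y, avail j x = true ∧ M j x = false ∧ M j y = true ∧
      Reach avail D M k y

/-- Raise the entry `(j, q)`. -/
def raise (M : ι → κ → Bool) (j : ι) (q : κ) : ι → κ → Bool :=
  fun j' p => if j' = j ∧ p = q then true else M j' p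

/-- Raise `(j, q)` and lower `(j, y)`. -/
def swapE (M : ι → κ → Bool) (j : ι) (q y : κ) : ι → κ → Bool :=
  fun j' p => if j' = j then (if p = q then true else if p = y then false else M j p) else M j' p

lemma raise_valid {avail : ι → κ → Bool} {D : ι → ℕ} {E : κ → ℕ} {M : ι → κ → Bool}
    (hM : Valid avail D E M) {j : ι} {q : κ} (ha : avail j q = true) (hf : M j q = false)
    (hr : rowSum M j < D j) (hc : colSum M q < E q) :
    Valid avail D E (raise M j q) ∧ total M < total (raise M j q) := by
  have hrow : rowSum (raise M j q) j = rowSum M j + 1 := by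
    unfold rowSum
    apply sum_toNat_of_flip (M j) (raise M j q j) q hf
    · simp [raise]
    · intro x hx
      simp [raise, hx]
  have hrow' : ∀ j', j' ≠ j → rowSum (raise M j q) j' = rowSum M j' := by
    intro j' hj'
    unfold rowSum
    apply Finset.sum_congr rfl
    intro x _
    simp [raise, hj']
  have hcol : colSum (raise M j q) q = colSum M q + 1 := by
    unfold colSum
    apply sum_toNat_of_flip (fun j' => M j' q) (fun j' => raise M j q j' q) j hf
    · simp [raise]
    · intro x hx
      simp [raise, hx]
  have hcol' : ∀ p, p ≠ q → colSum (raise M j q) p = colSum M p := by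
    intro p hp
    unfold colSum
    apply Finset.sum_congr rfl
    intro x _
    simp [raise, hp]
  refine ⟨⟨?_, ?_, ?_⟩, ?_⟩
  · intro j' p h
    by_cases hh : j' = j ∧ p = q
    · rw [hh.1, hh.2]; exact ha
    · have : raise M j q j' p = M j' p := by simp [raise, hh]
      rw [this] at h
      exact hM.le_avail _ _ h
  · intro j'
    by_cases hj : j' = j
    · subst hj; rw [hrow]; exact hr
    · rw [hrow' _ hj]; exact hM.row_le _
  · intro p
    by_cases hp : p = q
    · subst hp; rw [hcol]; exact hc
    · rw [hcol' _ hp]; exact hM.col_le _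
  · unfold total
    rw [← Finset.add_sum_erase _ _ (Finset.mem_univ j),
      ← Finset.add_sum_erase _ (fun j' => rowSum (raise M j q) j') (Finset.mem_univ j)]
    have : ∑ x ∈ Finset.univ.erase j, rowSum (raise M j q) x = ∑ x ∈ Finset.univ.erase j, rowSum M x := by
      apply Finset.sum_congr rfl
      intro x hx
      exact hrow' x (Finset.ne_of_mem_erase hx)
    rw [this, hrow]
    omega

lemma swapE_spec {avail : ι → κ → Bool} {D : ι → ℕ} {E : κ → ℕ} {M : ι → κ → Bool}
    (hM : Valid avail D E M) {j : ι} {q y : κ} (ha : avail j q = true) (hf : M j q = false)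
    (ht : M j y = true) (hc : colSum M q < E q) :
    Valid avail D E (swapE M j q y) ∧ total (swapE M j q y) = total M ∧
      colSum (swapE M j q y) y < E y := by
  have hqy : y ≠ q := by
    intro h
    rw [h, hf] at ht
    exact Bool.noConfusion ht
  have hrow : rowSum (swapE M j q y) j = rowSum M j := by
    have h1 : rowSum (raise M j q) j = rowSum M j + 1 := by
      unfold rowSum
      apply sum_toNat_of_flip (M j) (raise M j q j) q hf
      · simp [raise]
      · intro x hx
        simp [raise, hx]
    have h2 : rowSum (raise M j q) j = rowSum (swapE M j q y) j + 1 := by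
      unfold rowSum
      apply sum_toNat_of_flip (swapE M j q y j) (raise M j q j) y
      · simp [swapE, hqy]
      · simp [raise, hqy, ht]
      · intro x hx
        by_cases hxq : x = q
        · simp [swapE, raise, hxq]
        · simp [swapE, raise, hxq, hx]
    omega
  have hrow' : ∀ j', j' ≠ j → rowSum (swapE M j q y) j' = rowSum M j' := by
    intro j' hj'
    unfold rowSum
    apply Finset.sum_congr rfl
    intro x _
    simp [swapE, hj']
  have hcolq : colSum (swapE M j q y) q = colSum M q + 1 := by
    unfold colSum
    apply sum_toNat_of_flip (fun j' => M j' q) (fun j' => swapE M j q y j' q) j hf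
    · simp [swapE]
    · intro x hx
      simp [swapE, hx]
  have hcoly : colSum M y = colSum (swapE M j q y) y + 1 := by
    unfold colSum
    apply sum_toNat_of_flip (fun j' => swapE M j q y j' y) (fun j' => M j' y) j
    · simp [swapE, hqy]
    · exact ht
    · intro x hx
      simp [swapE, hx]
  have hcol' : ∀ p, p ≠ q → p ≠ y → colSum (swapE M j q y) p = colSum M p := by
    intro p hp hp'
    unfold colSum
    apply Finset.sum_congr rfl
    intro x _
    by_cases hx : x = j
    · simp [swapE, hx, hp, hp']
    · simp [swapE, hx]
  refine ⟨⟨?_, ?_, ?_⟩, ?_, ?_⟩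
  · intro j' p h
    by_cases hj : j' = j
    · subst hj
      by_cases hp : p = q
      · rw [hp]; exact ha
      · by_cases hp' : p = y
        · simp [swapE, hp', hqy] at h
        · have : swapE M j' q y j' p = M j' p := by simp [swapE, hp, hp']
          rw [this] at h
          exact hM.le_avail _ _ h
    · have : swapE M j q y j' p = M j' p := by simp [swapE, hj]
      rw [this] at h
      exact hM.le_avail _ _ h
  · intro j'
    by_cases hj : j' = j
    · subst hj; rw [hrow]; exact hM.row_le _
    · rw [hrow' _ hj]; exact hM.row_le _
  · intro p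
    by_cases hp : p = q
    · subst hp; rw [hcolq]; exact hc
    · by_cases hp' : p = y
      · subst hp'
        have := hM.col_le p
        omega
      · rw [hcol' _ hp hp']; exact hM.col_le _
  · unfold total
    apply Finset.sum_congr rfl
    intro x _
    by_cases hx : x = j
    · subst hx; exact hrow
    · exact hrow' x hx
  · have := hM.col_le y
    omega

lemma rowSum_swapE (M : ι → κ → Bool) (j j' : ι) (q y : κ) (hj : j' ≠ j) :
    rowSum (swapE M j q y) j' = rowSum M j' := by
  unfold rowSum
  apply Finset.sum_congr rfl
  intro x _
  simp [swapE, hj]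

/-- The exchange along a shortest chain keeps the chain from `y` on. -/
lemma reach_swapE {avail : ι → κ → Bool} {D : ι → ℕ} {M : ι → κ → Bool} {j : ι} {q y : κ} {k : ℕ}
    (haq : avail j q = true) (hf : M j q = false) (ht : M j y = true)
    (hq : ∀ d, d < k + 1 → ¬ Reach avail D M d q)
    (hy : ∀ d, d < k → ¬ Reach avail D M d y) :
    ∀ m, m ≤ k → ∀ x, Reach avail D M m x → Reach avail D (swapE M j q y) m x := by
  intro m
  induction m with
  | zero =>
    intro _ x hx
    obtain ⟨j', ha, hM, hs⟩ := hx
    by_cases hj : j' = j
    · exfalso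
      subst hj
      exact hq 0 (by omega) ⟨j', haq, hf, hs⟩
    · refine ⟨j', ha, ?_, ?_⟩
      · simpa [swapE, hj] using hM
      · rw [rowSum_swapE _ _ _ _ _ hj]; exact hs
  | succ m ih =>
    intro hm x hx
    obtain ⟨j', z, ha, hMx, hMz, hr⟩ := hx
    have hr' := ih (by omega) z hr
    by_cases hj : j' = j
    · subst hj
      have hxq : x ≠ q := by
        rintro rfl
        exact hq (m + 1) (by omega) ⟨j', z, ha, hMx, hMz, hr⟩
      have hxy : x ≠ y := by
        rintro rfl
        rw [ht] at hMx
        exact Bool.noConfusion hMx
      have hzy : z ≠ y := by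
        rintro rfl
        exact hy m (by omega) hr
      have hzq : z ≠ q := by
        rintro rfl
        rw [hf] at hMz
        exact Bool.noConfusion hMz
      refine ⟨j', z, ha, ?_, ?_, hr'⟩
      · simp [swapE, hxq, hxy, hMx]
      · simp [swapE, hzq, hzy, hMz]
    · refine ⟨j', z, ha, ?_, ?_, hr'⟩
      · simpa [swapE, hj] using hMx
      · simpa [swapE, hj] using hMz

/-- A deficient reachable column can be augmented. -/
lemma augment {avail : ι → κ → Bool} {D : ι → ℕ} {E : κ → ℕ} (k : ℕ) :
    ∀ (M : ι → κ → Bool) (q : κ), Valid avail D E M → colSum M q < E q → Reach avail D M k q →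
      ∃ M', Valid avail D E M' ∧ total M < total M' := by
  induction k using Nat.strong_induction_on with
  | _ k ih =>
    intro M q hM hc hr
    by_cases hmin : ∃ d, d < k ∧ Reach avail D M d q
    · obtain ⟨d, hd, hrd⟩ := hmin
      exact ih d hd M q hM hc hrd
    · have hmin' : ∀ d, d < k → ¬ Reach avail D M d q := fun d hd h => hmin ⟨d, hd, h⟩
      cases k with
      | zero =>
        obtain ⟨j, ha, hf, hs⟩ := hr
        obtain ⟨h1, h2⟩ := raise_valid hM ha hf hs hc
        exact ⟨_, h1, h2⟩
      | succ k =>
        obtain ⟨j, y, ha, hf, ht, hry⟩ := hr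
        obtain ⟨h1, h2, h3⟩ := swapE_spec hM ha hf ht hc
        have hy : ∀ d, d < k → ¬ Reach avail D M d y := by
          intro d hd hrd
          exact hmin' (d + 1) (by omega) ⟨j, y, ha, hf, ht, hrd⟩
        have hry' := reach_swapE ha hf ht hmin' hy k le_rfl y hry
        obtain ⟨M', hM', hlt⟩ := ih k (by omega) _ y h1 h3 hry'
        exact ⟨M', hM', by omega⟩

/-- **Gale-Ryser with availability sets.** -/
theorem exists_boolMatrix (avail : ι → κ → Bool) (D : ι → ℕ) (E : κ → ℕ)
    (hsum : ∑ j, D j = ∑ p, E p)
    (hGR : ∀ S : Finset κ, ∑ p ∈ S, E p ≤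
      ∑ j, min (D j) (S.filter fun p => avail j p = true).card) :
    ∃ M : ι → κ → Bool, (∀ j p, M j p = true → avail j p = true) ∧
      (∀ j, ∑ p, (M j p).toNat = D j) ∧ (∀ p, ∑ j, (M j p).toNat = E p) := by
  classical
  -- a valid matrix of maximal total
  let V : Finset (ι → κ → Bool) := Finset.univ.filter (fun M => Valid avail D E M)
  have hzero : Valid avail D E (fun _ _ => false) := by
    refine ⟨?_, ?_, ?_⟩
    · intro j p h; simp at h
    · intro j; simp [rowSum]
    · intro p; simp [colSum]
  have hV : V.Nonempty := ⟨_, by simp [V]; exact hzero⟩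
  obtain ⟨M, hMV, hmax⟩ := Finset.exists_max_image V total hV
  have hM : Valid avail D E M := by simpa [V] using hMV
  have hnoR : ∀ q k, colSum M q < E q → ¬ Reach avail D M k q := by
    intro q k hc hr
    obtain ⟨M', hM', hlt⟩ := augment k M q hM hc hr
    have := hmax M' (by simp [V]; exact hM')
    omega
  have hfull : ∀ p, colSum M p = E p := by
    by_contra hne
    push Not at hne
    obtain ⟨q, hq⟩ := hne
    have hqlt : colSum M q < E q := lt_of_le_of_ne (hM.col_le q) hq
    let S : Finset κ := Finset.univ.filter (fun x => ∀ k, ¬ Reach avail D M k x)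
    have hqS : q ∈ S := by
      simp only [S, Finset.mem_filter, Finset.mem_univ, true_and]
      intro k
      exact hnoR q k hqlt
    -- lower bound per row
    have hrowS : ∀ j, min (D j) (S.filter fun p => avail j p = true).card
        ≤ ∑ p ∈ S, (M j p).toNat := by
      intro j
      by_cases hex : ∃ x ∈ S, avail j x = true ∧ M j x = false
      · obtain ⟨x, hxS, hax, hfx⟩ := hex
        have hxnR : ∀ k, ¬ Reach avail D M k x := by
          simpa [S] using hxS
        have hfullrow : ¬ rowSum M j < D j := fun h => hxnR 0 ⟨j, hax, hfx, h⟩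
        have hall : ∀ y, M j y = true → y ∈ S := by
          intro y hy
          simp only [S, Finset.mem_filter, Finset.mem_univ, true_and]
          intro k hk
          exact hxnR (k + 1) ⟨j, y, hax, hfx, hy, hk⟩
        have heq : ∑ p ∈ S, (M j p).toNat = rowSum M j := by
          unfold rowSum
          apply Finset.sum_subset (Finset.subset_univ S)
          intro y _ hy
          have : M j y ≠ true := fun h => hy (hall y h)
          have hb : M j y = false := by simpa using this
          rw [hb]
          rfl
        rw [heq]
        have := hM.row_le j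
        exact le_trans (min_le_left _ _) (by omega)
      · push Not at hex
        have hone : ∀ x ∈ S.filter (fun p => avail j p = true), (M j x).toNat = 1 := by
          intro x hx
          rw [Finset.mem_filter] at hx
          have h := hex x hx.1 hx.2
          have hb : M j x = true := by
            cases hh : M j x with
            | true => rfl
            | false => exact absurd hh h
          rw [hb]
          rfl
        have hle : (S.filter fun p => avail j p = true).card ≤ ∑ p ∈ S, (M j p).toNat := by
          calc (S.filter fun p => avail j p = true).card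
              = ∑ x ∈ S.filter (fun p => avail j p = true), (M j x).toNat := by
                rw [Finset.sum_congr rfl hone]; simp
            _ ≤ ∑ p ∈ S, (M j p).toNat :=
                Finset.sum_le_sum_of_subset (Finset.filter_subset _ _)
        exact le_trans (min_le_right _ _) hle
    have h1 : ∑ p ∈ S, E p ≤ ∑ p ∈ S, colSum M p := by
      calc ∑ p ∈ S, E p ≤ ∑ j, min (D j) (S.filter fun p => avail j p = true).card := hGR S
        _ ≤ ∑ j, ∑ p ∈ S, (M j p).toNat := Finset.sum_le_sum fun j _ => hrowS j
        _ = ∑ p ∈ S, colSum M p := by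
            unfold colSum
            exact Finset.sum_comm
    have h2 : ∑ p ∈ S, colSum M p < ∑ p ∈ S, E p :=
      Finset.sum_lt_sum (fun p _ => hM.col_le p) ⟨q, hqS, hqlt⟩
    omega
  have hrowfull : ∀ j, rowSum M j = D j := by
    have htot : ∑ j, rowSum M j = ∑ j, D j := by
      have := total_eq_col M
      unfold total at this
      rw [this, hsum]
      exact Finset.sum_congr rfl fun p _ => hfull p
    intro j
    have := (Finset.sum_eq_sum_iff_of_le (fun j _ => hM.row_le j)).1 htot
    exact this j (Finset.mem_univ j)
  exact ⟨M, hM.le_avail, hrowfull, hfull⟩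

end GR

lemma count_true_eq_sum_toNat (l : List Bool) : l.count true = (l.map Bool.toNat).sum := by
  induction l with
  | nil => rfl
  | cons a l ih =>
    cases a <;> simp [ih]; omega

lemma count_true_ofFn {n : ℕ} (f : Fin n → Bool) :
    (List.ofFn f).count true = ∑ i, (f i).toNat := by
  rw [count_true_eq_sum_toNat, List.map_ofFn, List.sum_ofFn]
  rfl

/-- **List form.**  `l` = row sums, `s` levels, `E p` column sums (`p < s`), `a i p` availability.
Output: rows of length `s`, one per entry of `l`, with exact row sums and `colOf` counts. -/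
theorem exists_listMatrix (l : List ℕ) (s : ℕ) (E : ℕ → ℕ) (a : ℕ → ℕ → Bool)
    (hsum : l.sum = ∑ p : Fin s, E p)
    (hGR : ∀ S : Finset (Fin s), ∑ p ∈ S, E p ≤
      ∑ j : Fin l.length, min (l.get j) (S.filter fun p : Fin s => a j p = true).card) :
    ∃ M : List (List Bool), M.length = l.length ∧
      (∀ i (h : i < M.length), (M[i]'h).length = s) ∧
      (∀ i (h : i < M.length) (h' : i < l.length), (M[i]'h).count true = l[i]'h') ∧
      (∀ i (h : i < M.length) p (hp : p < (M[i]'h).length), (M[i]'h)[p]'hp = true → a i p = true) ∧
      (∀ p, p < s → (colOf M p).count true = E p) := by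
  have hsum' : ∑ j : Fin l.length, l.get j = ∑ p : Fin s, E p := by
    rw [← hsum]
    have := List.sum_ofFn (f := fun j : Fin l.length => l.get j)
    rw [← this, List.ofFn_get]
  obtain ⟨B, hB1, hB2, hB3⟩ := GR.exists_boolMatrix (ι := Fin l.length) (κ := Fin s)
    (fun j p => a j p) (fun j => l.get j) (fun p => E p) hsum' hGR
  refine ⟨List.ofFn fun i => List.ofFn fun p => B i p, by simp, ?_, ?_, ?_, ?_⟩
  · intro i h
    simp
  · intro i h h'
    simp only [List.getElem_ofFn]
    rw [count_true_ofFn, hB2]
    rfl
  · intro i h p hp hb
    simp only [List.getElem_ofFn] at hb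
    have hlen : i < l.length := by simpa using h
    have hps : p < s := by simpa using hp
    exact hB1 ⟨i, hlen⟩ ⟨p, hps⟩ hb
  · intro p hp
    have hcol : colOf (List.ofFn fun i => List.ofFn fun p => B i p) p
        = List.ofFn fun i => B i ⟨p, hp⟩ := by
      unfold colOf
      rw [List.map_ofFn]
      congr 1
      funext i
      simp [List.getD_eq_getElem?_getD, hp]
    rw [hcol, count_true_ofFn]
    exact hB3 ⟨p, hp⟩

end Crest.Agent.Lib.Saxl
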