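import Crest.Agent.Lib.Saxl.TagGlue

/-!
# Saxl: the strips of the hard parent `x` even, `c = 1`

`hard1W a = (NE) (EN)^a E E N N (EN)^a (NE)`, `x = 2 a + 4`, child `chainW a' b' []`, `s = 2 (n + 2)`.

Three pairs are forced: the first block `NE`, the last block `NE`, the centre `EENN`.  The other pairs are
given by two half lists `pL`, `pR` of `n` positions in `[2, a + 1]`.

`hard1_tagData`: the `TagData` of the lists `hV`, `hW`, with only order hypotheses on `pL`, `pR`.
`hard1_colQ`: the closed form of the columns of `Q`.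
-/

set_option autoImplicit false
set_option linter.unusedSectionVars false

namespace Crest.Agent.Lib.Saxl

open Finset

/-- A list with a new first entry. -/
def consL (c : ℕ) (p : ℕ → ℕ) (k : ℕ) : ℕ := if k = 0 then c else p (k - 1)

@[simp] lemma consL_zero (c : ℕ) (p : ℕ → ℕ) : consL c p 0 = c := rfl

@[simp] lemma consL_succ (c : ℕ) (p : ℕ → ℕ) (k : ℕ) : consL c p (k + 1) = p k := by
  simp [consL]

lemma consL_forall {p : ℕ → ℕ} {n c : ℕ} {Q : ℕ → Prop} (h0 : Q c) (h1 : ∀ k, k < n → Q (p k)) :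
    ∀ k, k < n + 1 → Q (consL c p k) := by
  intro k hk
  cases k with
  | zero => simpa using h0
  | succ k =>
    rw [consL_succ]
    exact h1 k (by omega)

lemma cnt_consL (c : ℕ) (p : ℕ → ℕ) (n v : ℕ) : cnt (consL c p) (n + 1) v = ind c v + cnt p n v := by
  unfold cnt
  rw [sum_range_succ']
  simp only [consL_succ, consL_zero]
  ring

lemma sum_consL (c : ℕ) (p : ℕ → ℕ) (n : ℕ) :
    ∑ k ∈ range (n + 1), consL c p k = c + ∑ k ∈ range n, p k := by
  rw [sum_range_succ']
  simp only [consL_succ, consL_zero]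
  ring

lemma consL_strict {p : ℕ → ℕ} {n c : ℕ} (hp : ∀ i j, i < j → j < n → p i < p j)
    (h : ∀ k, k < n → c < p k) : ∀ i j, i < j → j < n + 1 → consL c p i < consL c p j := by
  intro i j hij hj
  cases j with
  | zero => omega
  | succ j =>
    cases i with
    | zero =>
      rw [consL_zero, consL_succ]
      exact h j (by omega)
    | succ i =>
      rw [consL_succ, consL_succ]
      exact hp i j (by omega) (by omega)

lemma consL_santi {p : ℕ → ℕ} {n c : ℕ} (hp : ∀ i j, i < j → j < n → p j < p i)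
    (h : ∀ k, k < n → p k < c) : ∀ i j, i < j → j < n + 1 → consL c p j < consL c p i := by
  intro i j hij hj
  cases j with
  | zero => omega
  | succ j =>
    cases i with
    | zero =>
      rw [consL_zero, consL_succ]
      exact h j (by omega)
    | succ i =>
      rw [consL_succ, consL_succ]
      exact hp i j (by omega) (by omega)

lemma mono_of_strict {p : ℕ → ℕ} {n : ℕ} (hp : ∀ i j, i < j → j < n → p i < p j) :
    ∀ i j, i ≤ j → j < n → p i ≤ p j := by
  intro i j hij hj
  rcases Nat.lt_or_eq_of_le hij with g | g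
  · exact (hp i j g hj).le
  · rw [g]

lemma anti_of_santi {p : ℕ → ℕ} {n : ℕ} (hp : ∀ i j, i < j → j < n → p j < p i) :
    ∀ i j, i ≤ j → j < n → p j ≤ p i := by
  intro i j hij hj
  rcases Nat.lt_or_eq_of_le hij with g | g
  · exact (hp i j g hj).le
  · rw [g]

lemma consL_anti {p : ℕ → ℕ} {n c : ℕ} (hp : ∀ i j, i ≤ j → j < n → p j ≤ p i)
    (h : ∀ k, k < n → p k ≤ c) : ∀ i j, i ≤ j → j < n + 1 → consL c p j ≤ consL c p i := by
  intro i j hij hj
  cases j with
  | zero =>
    have : i = 0 := by omega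
    rw [this]
  | succ j =>
    cases i with
    | zero =>
      rw [consL_zero, consL_succ]
      exact h j (by omega)
    | succ i =>
      rw [consL_succ, consL_succ]
      exact hp i j (by omega) (by omega)

/-- The row function of `hard1W a`. -/
def PH (a v : ℕ) : ℕ :=
  v + 1 + ind (a + 3) v + ind (2 * a + 3) v - ind 1 v - ind (a + 2) v - ind (2 * a + 4) v

lemma PH_add (a v : ℕ) : PH a v + ind 1 v + ind (a + 2) v + ind (2 * a + 4) v =
    v + 1 + ind (a + 3) v + ind (2 * a + 3) v := by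
  unfold PH ind
  split_ifs <;> omega

/-- The sorted list of the deleted rows. -/
def hV (a w t0 n : ℕ) (pL pR : ℕ → ℕ) : ℕ → ℕ :=
  joinL (ins (consL 0 pL) (n + 1) (a + 3))
    (ins (consL (2 * a + 3) fun k => 2 * a + 5 - pR k) (t0 + 1) (2 * a + 5 - w)) (n + 1 + 1)

/-- The sorted list of the deleted columns. -/
def hW (a w c0 t0 n : ℕ) (pL pR : ℕ → ℕ) : ℕ → ℕ :=
  joinL (ins (consL 1 pL) (t0 + 1) w)
    (ins (consL (2 * a + 4) fun k => 2 * a + 5 - pR k) (n + 1) c0) (n + 1 + 1)

/-- The columns of `Q` in closed form, largest first. -/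
def hQ (y a a' w t0 n : ℕ) (pL pR : ℕ → ℕ) : ℕ → ℕ :=
  joinL (ins (consL y fun k => y + k + 2 - pL k) (t0 + 1) (y - a'))
    (ins (consL 0 fun k => pR k + (if k < t0 then 1 else 0) - (k + 3)) (n + 1) (y + n - a)) (n + 1 + 1)

/-- The order conditions on a half list for the hard parent. -/
structure HLite (n t0 w a : ℕ) (p : ℕ → ℕ) : Prop where
  pm : ∀ i j, i < j → j < n → p i < p j
  p2 : ∀ k, k < n → 2 ≤ p k
  pH : ∀ k, k < n → p k ≤ a + 1
  ow1 : ∀ k, k < n → k < t0 → p k < w
  ow2 : ∀ k, k < n → t0 ≤ k → w < p k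

lemma strict_cnt_le {f : ℕ → ℕ} {m : ℕ} (hm : ∀ i j, i < j → j < m → f i < f j)
    (h1 : ∀ i, i < m → 1 ≤ f i) (v : ℕ) : cnt f m v ≤ v := by
  induction v with
  | zero => rw [cnt_zero h1]
  | succ v ih =>
    rcases cnt_step hm v with h | ⟨h, _⟩ <;> omega

lemma strict_cnt_step {f : ℕ → ℕ} {m : ℕ} (hm : ∀ i j, i < j → j < m → f i < f j) (v : ℕ) :
    cnt f m (v + 1) ≤ cnt f m v + 1 := by
  rcases cnt_step hm v with h | ⟨h, _⟩ <;> omega

section hard
variable {a a' b' n t0 w c0 y : ℕ} {pL pR : ℕ → ℕ}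

/-- The facts common to `hard1_tagData` and `hard1_colQ`. -/
structure HFacts (a a' b' n t0 w c0 y : ℕ) (pL pR : ℕ → ℕ) : Prop where
  hy0 : 0 < y
  hy1 : y + 2 * (n + 1 + 1) = 2 * a + 4
  hy2 : y = 2 * (a' + b')
  ht0 : t0 ≤ n
  hw : w = a' + t0 + 2
  hc0 : c0 = if w < a + 2 then a + 2 else a + 3
  hL : HLite n t0 w a pL
  hR : HLite n t0 w a pR

variable (F : HFacts a a' b' n t0 w c0 y pL pR)
include F

lemma HFacts.hw2 : w ≤ a + 2 := by
  have h1 := F.hy1
  have h2 := F.hy2
  have h3 := F.ht0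
  have h4 := F.hw
  omega

lemma HFacts.hc1 : w < c0 ∧ a + 2 ≤ c0 ∧ c0 ≤ a + 3 ∧ (c0 = a + 2 ∨ (c0 = a + 3 ∧ w = a + 2)) := by
  have h1 := F.hw2
  rw [F.hc0]
  split_ifs with g
  · exact ⟨g, by omega, by omega, Or.inl rfl⟩
  · exact ⟨by omega, by omega, by omega, Or.inr ⟨rfl, by omega⟩⟩

lemma HFacts.hqm : ∀ i j, i < j → j < n →
    (fun k => 2 * a + 5 - pR k) j < (fun k => 2 * a + 5 - pR k) i := by
  intro i j hij hj
  have h1 := F.hR.pm i j hij hj
  have h2 := F.hR.pH j hj
  simp only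
  omega

lemma HFacts.hqb : ∀ k, k < n → a + 4 ≤ 2 * a + 5 - pR k ∧ 2 * a + 5 - pR k ≤ 2 * a + 3 := by
  intro k hk
  have h1 := F.hR.p2 k hk
  have h2 := F.hR.pH k hk
  omega

lemma HFacts.hqS : ∀ k, k < n → (k < t0 → 2 * a + 5 - w < 2 * a + 5 - pR k) ∧
    (t0 ≤ k → 2 * a + 5 - pR k < 2 * a + 5 - w) := by
  intro k hk
  have h1 := F.hR.pH k hk
  have h2 := F.hw2
  constructor
  · intro g
    have := F.hR.ow1 k hk g
    omega
  · intro g
    have := F.hR.ow2 k hk g
    omega

lemma HFacts.hVm : ∀ i j, i ≤ j → j < 2 * (n + 1 + 1) → hV a w t0 n pL pR i ≤ hV a w t0 n pL pR j := by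
  have hw1 := F.hw2
  have hw0 := F.hw
  have ht := F.ht0
  unfold hV
  apply joinL_mono (T := a + 3)
  · apply ins_mono (mono_of_strict (consL_strict F.hL.pm fun k hk => by
      have := F.hL.p2 k hk
      omega))
    · intro k _ _
      refine consL_forall (n := n) (Q := fun c => c ≤ a + 3) (by omega) (fun k hk => ?_) k (by omega)
      have := F.hL.pH k hk
      omega
    · intro k hk hk2
      omega
    · exact le_rfl
  · apply ins_anti (consL_anti (anti_of_santi F.hqm) fun k hk => (F.hqb k hk).2)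
    · intro k hk hk2
      cases k with
      | zero =>
        simp only [consL_zero]
        omega
      | succ k =>
        rw [consL_succ]
        exact ((F.hqS k (by omega)).1 (by omega)).le
    · intro k hk hk2
      cases k with
      | zero => omega
      | succ k =>
        rw [consL_succ]
        exact ((F.hqS k (by omega)).2 (by omega)).le
    · omega
  · apply ins_forall (Q := fun c => c ≤ a + 3) le_rfl
    · intro k hk
      refine consL_forall (n := n) (Q := fun c => c ≤ a + 3) (by omega) (fun k hk => ?_) k hk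
      have := F.hL.pH k hk
      omega
    · exact le_rfl
  · apply ins_forall (Q := fun c => a + 3 ≤ c) (by omega)
    · intro k hk
      refine consL_forall (n := n) (Q := fun c => a + 3 ≤ c) (by omega) (fun k hk => ?_) k hk
      have := (F.hqb k hk).1
      omega
    · omega

lemma HFacts.hVx : ∀ i, i < 2 * (n + 1 + 1) → hV a w t0 n pL pR i ≤ 2 * a + 4 := by
  have hw1 := F.hw2
  have hw0 := F.hw
  have ht := F.ht0
  unfold hV
  apply joinL_forall (Q := fun c => c ≤ 2 * a + 4)
  · apply ins_forall (Q := fun c => c ≤ 2 * a + 4) le_rfl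
    · intro k hk
      refine consL_forall (n := n) (Q := fun c => c ≤ 2 * a + 4) (by omega) (fun k hk => ?_) k hk
      have := F.hL.pH k hk
      omega
    · omega
  · apply ins_forall (Q := fun c => c ≤ 2 * a + 4) (by omega)
    · intro k hk
      refine consL_forall (n := n) (Q := fun c => c ≤ 2 * a + 4) (by omega) (fun k hk => ?_) k hk
      have := (F.hqb k hk).2
      omega
    · omega

lemma HFacts.hWm : ∀ i j, i < j → j < 2 * (n + 1 + 1) →
    hW a w c0 t0 n pL pR i < hW a w c0 t0 n pL pR j := by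
  have hw1 := F.hw2
  have hw0 := F.hw
  have ht := F.ht0
  obtain ⟨c1, c2, c3, c4⟩ := F.hc1
  unfold hW
  apply joinL_strict (T := c0)
  · apply ins_strict (consL_strict F.hL.pm fun k hk => by
      have := F.hL.p2 k hk
      omega)
    · intro k hk hk2
      cases k with
      | zero =>
        simp only [consL_zero]
        omega
      | succ k =>
        rw [consL_succ]
        exact F.hL.ow1 k (by omega) (by omega)
    · intro k hk hk2
      cases k with
      | zero => omega
      | succ k =>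
        rw [consL_succ]
        exact F.hL.ow2 k (by omega) (by omega)
    · omega
  · apply ins_santi (consL_santi F.hqm fun k hk => by
      have := (F.hqb k hk).2
      omega)
    · intro k hk hk2
      cases k with
      | zero =>
        simp only [consL_zero]
        omega
      | succ k =>
        rw [consL_succ]
        have := (F.hqb k (by omega)).1
        omega
    · intro k hk hk2
      omega
    · exact le_rfl
  · apply ins_forall (Q := fun c => c < c0) (by omega)
    · intro k hk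
      refine consL_forall (n := n) (Q := fun c => c < c0) (by omega) (fun k hk => ?_) k hk
      have := F.hL.pH k hk
      omega
    · exact c1
  · apply ins_forall (Q := fun c => c0 ≤ c) le_rfl
    · intro k hk
      refine consL_forall (n := n) (Q := fun c => c0 ≤ c) (by omega) (fun k hk => ?_) k hk
      have := (F.hqb k hk).1
      omega
    · exact le_rfl

lemma HFacts.hW1 : ∀ i, i < 2 * (n + 1 + 1) → 1 ≤ hW a w c0 t0 n pL pR i := by
  have hw0 := F.hw
  have ht := F.ht0
  obtain ⟨c1, c2, c3, c4⟩ := F.hc1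
  unfold hW
  apply joinL_forall (Q := fun c => 1 ≤ c)
  · apply ins_forall (Q := fun c => 1 ≤ c) (by omega)
    · intro k hk
      refine consL_forall (n := n) (Q := fun c => 1 ≤ c) (by omega) (fun k hk => ?_) k hk
      have := F.hL.p2 k hk
      omega
    · omega
  · apply ins_forall (Q := fun c => 1 ≤ c) le_rfl
    · intro k hk
      refine consL_forall (n := n) (Q := fun c => 1 ≤ c) (by omega) (fun k hk => ?_) k hk
      have := (F.hqb k hk).1
      omega
    · omega

lemma HFacts.hWx : ∀ i, i < 2 * (n + 1 + 1) → hW a w c0 t0 n pL pR i ≤ 2 * a + 4 := by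
  have hw1 := F.hw2
  have ht := F.ht0
  obtain ⟨c1, c2, c3, c4⟩ := F.hc1
  unfold hW
  apply joinL_forall (Q := fun c => c ≤ 2 * a + 4)
  · apply ins_forall (Q := fun c => c ≤ 2 * a + 4) (by omega)
    · intro k hk
      refine consL_forall (n := n) (Q := fun c => c ≤ 2 * a + 4) (by omega) (fun k hk => ?_) k hk
      have := F.hL.pH k hk
      omega
    · omega
  · apply ins_forall (Q := fun c => c ≤ 2 * a + 4) le_rfl
    · intro k hk
      refine consL_forall (n := n) (Q := fun c => c ≤ 2 * a + 4) (by omega) (fun k hk => ?_) k hk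
      have := (F.hqb k hk).2
      omega
    · omega

lemma HFacts.hcV (v : ℕ) : cnt (hV a w t0 n pL pR) (2 * (n + 1 + 1)) v =
    1 + cnt pL n v + (ind (2 * a + 3) v + cnt (fun k => 2 * a + 5 - pR k) n v) + ind (a + 3) v +
      ind (2 * a + 5 - w) v := by
  have ht := F.ht0
  unfold hV
  rw [cnt_join _ _ (by omega) (by omega), cnt_consL, cnt_consL]
  have : ind 0 v = 1 := ind_of_le (Nat.zero_le _)
  rw [this]

lemma HFacts.hcW (v : ℕ) : cnt (hW a w c0 t0 n pL pR) (2 * (n + 1 + 1)) v =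
    ind 1 v + cnt pL n v + (ind (2 * a + 4) v + cnt (fun k => 2 * a + 5 - pR k) n v) + ind w v +
      ind c0 v := by
  have ht := F.ht0
  unfold hW
  rw [cnt_join _ _ (by omega) (by omega), cnt_consL, cnt_consL]

/-- The auxiliary strict list. -/
def hY (a w t0 n : ℕ) (pL pR : ℕ → ℕ) : ℕ → ℕ :=
  joinL (ins (consL 1 pL) (n + 1) (a + 2))
    (ins (consL (2 * a + 4) fun k => 2 * a + 5 - pR k) (t0 + 1) (2 * a + 5 - w)) (n + 1 + 1)

lemma HFacts.hYm : ∀ i j, i < j → j < 2 * (n + 1 + 1) → hY a w t0 n pL pR i < hY a w t0 n pL pR j := by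
  have hw1 := F.hw2
  have hw0 := F.hw
  have ht := F.ht0
  unfold hY
  apply joinL_strict (T := a + 3)
  · apply ins_strict (consL_strict F.hL.pm fun k hk => by
      have := F.hL.p2 k hk
      omega)
    · intro k hk hk2
      cases k with
      | zero =>
        simp only [consL_zero]
        omega
      | succ k =>
        rw [consL_succ]
        have := F.hL.pH k (by omega)
        omega
    · intro k hk hk2
      omega
    · exact le_rfl
  · apply ins_santi (consL_santi F.hqm fun k hk => by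
      have := (F.hqb k hk).2
      omega)
    · intro k hk hk2
      cases k with
      | zero =>
        simp only [consL_zero]
        omega
      | succ k =>
        rw [consL_succ]
        exact (F.hqS k (by omega)).1 (by omega)
    · intro k hk hk2
      cases k with
      | zero => omega
      | succ k =>
        rw [consL_succ]
        exact (F.hqS k (by omega)).2 (by omega)
    · omega
  · apply ins_forall (Q := fun c => c < a + 3) le_rfl
    · intro k hk
      refine consL_forall (n := n) (Q := fun c => c < a + 3) (by omega) (fun k hk => ?_) k hk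
      have := F.hL.pH k hk
      omega
    · omega
  · apply ins_forall (Q := fun c => a + 3 ≤ c) (by omega)
    · intro k hk
      refine consL_forall (n := n) (Q := fun c => a + 3 ≤ c) (by omega) (fun k hk => ?_) k hk
      have := (F.hqb k hk).1
      omega
    · omega

lemma HFacts.hcY (v : ℕ) : cnt (hY a w t0 n pL pR) (2 * (n + 1 + 1)) v =
    ind 1 v + cnt pL n v + (ind (2 * a + 4) v + cnt (fun k => 2 * a + 5 - pR k) n v) + ind (a + 2) v +
      ind (2 * a + 5 - w) v := by
  have ht := F.ht0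
  unfold hY
  rw [cnt_join _ _ (by omega) (by omega), cnt_consL, cnt_consL]

lemma HFacts.hY1 : ∀ i, i < 2 * (n + 1 + 1) → 1 ≤ hY a w t0 n pL pR i := by
  have hw1 := F.hw2
  have ht := F.ht0
  unfold hY
  apply joinL_forall (Q := fun c => 1 ≤ c)
  · apply ins_forall (Q := fun c => 1 ≤ c) le_rfl
    · intro k hk
      refine consL_forall (n := n) (Q := fun c => 1 ≤ c) (by omega) (fun k hk => ?_) k hk
      have := F.hL.p2 k hk
      omega
    · omega
  · apply ins_forall (Q := fun c => 1 ≤ c) (by omega)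
    · intro k hk
      refine consL_forall (n := n) (Q := fun c => 1 ≤ c) (by omega) (fun k hk => ?_) k hk
      have := (F.hqb k hk).1
      omega
    · omega

/-- `K` and `ρ`. -/
lemma HFacts.hKeq (v : ℕ) : cnt (hV a w t0 n pL pR) (2 * (n + 1 + 1)) v ≤ PH a v ∧
    PH a v - cnt (hV a w t0 n pL pR) (2 * (n + 1 + 1)) v +
      cnt (hY a w t0 n pL pR) (2 * (n + 1 + 1)) v = v := by
  have h1 := PH_add a v
  have h2 := F.hcV v
  have h3 := F.hcY v
  have h4 := strict_cnt_le F.hYm F.hY1 v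
  generalize cnt (hV a w t0 n pL pR) (2 * (n + 1 + 1)) v = A at *
  generalize cnt (hY a w t0 n pL pR) (2 * (n + 1 + 1)) v = B at *
  generalize cnt pL n v = C at *
  generalize cnt (fun k => 2 * a + 5 - pR k) n v = D at *
  generalize PH a v = E at *
  omega

lemma HFacts.hq0 (u : ℕ) (hu : u ≤ a + 3) : cnt (fun k => 2 * a + 5 - pR k) n u = n - n :=
  cnt_eq_above le_rfl (fun k hk => by
    have := (F.hqb k hk).1
    show u < 2 * a + 5 - pR k
    omega) (fun k h3 h4 => by omega)

lemma HFacts.K_one : PH a 0 - cnt (hV a w t0 n pL pR) (2 * (n + 1 + 1)) 0 = 0 := by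
  have := (F.hKeq 0).2
  omega

lemma HFacts.K_left {k : ℕ} (hk : k < n) :
    PH a (pL k - 1) - cnt (hV a w t0 n pL pR) (2 * (n + 1 + 1)) (pL k - 1) + (k + 2) = pL k := by
  have hpge2 : ∀ k, k < n → k + 2 ≤ pL k := by
    intro k
    induction k with
    | zero => exact fun hk => F.hL.p2 0 hk
    | succ k ih =>
      intro hk
      have h1 := ih (by omega)
      have h2 := F.hL.pm k (k + 1) (by omega) hk
      omega
  have h1 := hpge2 k hk
  have h2 := F.hL.pH k hk
  have hw1 := F.hw2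
  have h4 := cnt_rank_pred F.hL.pm hk (by omega)
  have h5 := F.hcY (pL k - 1)
  rw [F.hq0 _ (by omega), ind_of_le (by omega : 1 ≤ pL k - 1),
    ind_of_lt (by omega : pL k - 1 < 2 * a + 4), ind_of_lt (by omega : pL k - 1 < a + 2),
    ind_of_lt (by omega : pL k - 1 < 2 * a + 5 - w), h4] at h5
  have h6 := (F.hKeq (pL k - 1)).2
  omega

lemma HFacts.K_w : PH a (w - 1) - cnt (hV a w t0 n pL pR) (2 * (n + 1 + 1)) (w - 1) = a' := by
  have hw0 := F.hw
  have hw1 := F.hw2
  have ht0 := F.ht0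
  have h4 : cnt pL n (w - 1) = t0 := cnt_eq_below ht0
    (fun k hk => by
      have := F.hL.ow1 k (by omega) hk
      omega)
    (fun k h3 h4 => by
      have := F.hL.ow2 k h4 h3
      omega)
  have h5 := F.hcY (w - 1)
  rw [F.hq0 _ (by omega), ind_of_le (by omega : 1 ≤ w - 1),
    ind_of_lt (by omega : w - 1 < 2 * a + 4), ind_of_lt (by omega : w - 1 < a + 2),
    ind_of_lt (by omega : w - 1 < 2 * a + 5 - w), h4] at h5
  have h6 := (F.hKeq (w - 1)).2
  omega

lemma HFacts.K_right {k : ℕ} (hk : k < n) :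
    PH a ((2 * a + 5 - pR k) - 1) -
      cnt (hV a w t0 n pL pR) (2 * (n + 1 + 1)) ((2 * a + 5 - pR k) - 1) +
      (n + (n - (k + 1)) + 2 + (if k < t0 then 1 else 0)) = (2 * a + 5 - pR k) - 1 := by
  have hb := F.hqb k hk
  have hp1 := F.hR.p2 k hk
  have hp2 := F.hR.pH k hk
  have hw1 := F.hw2
  have h3 : cnt (fun k => 2 * a + 5 - pR k) n ((2 * a + 5 - pR k) - 1) = n - (k + 1) := by
    apply cnt_eq_above (by omega)
    · intro i hi
      show (2 * a + 5 - pR k) - 1 < 2 * a + 5 - pR i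
      rcases Nat.lt_succ_iff_lt_or_eq.1 hi with g | g
      · have := F.hqm i k g hk
        simp only at this
        omega
      · rw [g]
        omega
    · intro i h3 h4
      show 2 * a + 5 - pR i ≤ (2 * a + 5 - pR k) - 1
      have := F.hqm k i (by omega) h4
      simp only at this
      omega
  have h5 : ind (2 * a + 5 - w) ((2 * a + 5 - pR k) - 1) = if k < t0 then 1 else 0 := by
    by_cases c : k < t0
    · rw [if_pos c, ind_of_le]
      have := (F.hqS k hk).1 c
      omega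
    · rw [if_neg c, ind_of_lt]
      have := (F.hqS k hk).2 (by omega)
      omega
  have h6 : cnt pL n ((2 * a + 5 - pR k) - 1) = n := cnt_top fun i hi => by
    have := F.hL.pH i hi
    omega
  have h7 := F.hcY ((2 * a + 5 - pR k) - 1)
  rw [h3, h5, h6, ind_of_le (by omega : 1 ≤ (2 * a + 5 - pR k) - 1),
    ind_of_lt (by omega : (2 * a + 5 - pR k) - 1 < 2 * a + 4),
    ind_of_le (by omega : a + 2 ≤ (2 * a + 5 - pR k) - 1)] at h7
  have h8 := (F.hKeq ((2 * a + 5 - pR k) - 1)).2
  rw [h7] at h8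
  generalize (if k < t0 then 1 else 0 : ℕ) = a1 at *
  omega

lemma HFacts.K_top : PH a (2 * a + 4 - 1) - cnt (hV a w t0 n pL pR) (2 * (n + 1 + 1)) (2 * a + 4 - 1) =
    y := by
  have hw1 := F.hw2
  have hw0 := F.hw
  have hy1 := F.hy1
  have h7 := F.hcY (2 * a + 4 - 1)
  have h8 : cnt pL n (2 * a + 4 - 1) = n := cnt_top fun i hi => by
    have := F.hL.pH i hi
    omega
  have h9 : cnt (fun k => 2 * a + 5 - pR k) n (2 * a + 4 - 1) = n := cnt_top fun i hi => by
    have := (F.hqb i hi).2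
    show 2 * a + 5 - pR i ≤ 2 * a + 4 - 1
    omega
  rw [h8, h9, ind_of_le (by omega : 1 ≤ 2 * a + 4 - 1),
    ind_of_lt (by omega : 2 * a + 4 - 1 < 2 * a + 4), ind_of_le (by omega : a + 2 ≤ 2 * a + 4 - 1),
    ind_of_le (by omega : 2 * a + 5 - w ≤ 2 * a + 4 - 1)] at h7
  have h6 := (F.hKeq (2 * a + 4 - 1)).2
  omega

lemma HFacts.K_c0 : PH a (c0 - 1) - cnt (hV a w t0 n pL pR) (2 * (n + 1 + 1)) (c0 - 1) + n = a := by
  have hw1 := F.hw2
  have hw0 := F.hw
  obtain ⟨c1, c2, c3, c4⟩ := F.hc1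
  have h7 := F.hcY (c0 - 1)
  have h8 : cnt pL n (c0 - 1) = n := cnt_top fun i hi => by
    have := F.hL.pH i hi
    omega
  rw [h8, F.hq0 _ (by omega), ind_of_le (by omega : 1 ≤ c0 - 1),
    ind_of_lt (by omega : c0 - 1 < 2 * a + 4),
    ind_of_lt (by
      rcases c4 with g | ⟨g, g2⟩ <;> omega : c0 - 1 < 2 * a + 5 - w)] at h7
  have h6 := (F.hKeq (c0 - 1)).2
  rcases c4 with g | ⟨g, g2⟩
  · rw [ind_of_lt (by omega : c0 - 1 < a + 2)] at h7
    omega
  · rw [ind_of_le (by omega : a + 2 ≤ c0 - 1)] at h7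
    omega

end hard

/-- **The list layer of a strip of the hard parent.** -/
theorem hard1_tagData {a a' b' n t0 w c0 y : ℕ} {pL pR : ℕ → ℕ}
    (F : HFacts a a' b' n t0 w c0 y pL pR) :
    TagData (2 * a + 4) y (2 * (n + 1 + 1)) (hV a w t0 n pL pR) (hW a w c0 t0 n pL pR) (PH a)
      (PC a' (y - a') 0 0) := by
  have hy0 := F.hy0
  have hy1 := F.hy1
  have hy2 := F.hy2
  have ht0 := F.ht0
  have hw0 := F.hw
  have hw1 := F.hw2
  obtain ⟨c1, c2, c3, c4⟩ := F.hc1
  have hf1 : 1 ≤ y - a' := by omega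
  have hf2 : y - a' ≠ 0 := by omega
  have hP0 : ind 0 0 ≤ ind 0 0 := le_rfl
  refine ⟨by omega, F.hVm, F.hVx, F.hWm, F.hW1, F.hWx, fun v => (F.hKeq v).1, ?_, PC_mono hf1 hf2 hP0, ?_,
    ?_, ?_⟩
  · intro v
    have h1 := (F.hKeq v).2
    have h2 := (F.hKeq (v + 1)).2
    have h3 := strict_cnt_step F.hYm v
    omega
  · intro v _ hk
    have hCs := strict_cnt_step F.hWm
    have hCle := strict_cnt_le F.hWm F.hW1
    have hq0 : ∀ u, u ≤ a + 3 → cnt (fun k => 2 * a + 5 - pR k) n u = n - n := fun u hu =>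
      cnt_eq_above le_rfl (fun k hk => by
        have := (F.hqb k hk).1
        show u < 2 * a + 5 - pR k
        omega) (fun k h3 h4 => by omega)
    have hlw : w - cnt (hW a w c0 t0 n pL pR) (2 * (n + 1 + 1)) w = a' := by
      rw [F.hcW, hq0 w (by omega), ind_of_le (by omega : 1 ≤ w), ind_of_lt (by omega : w < 2 * a + 4),
        ind_of_le (le_refl w), ind_of_lt c1,
        cnt_eq_below ht0 (fun k hk => (F.hL.ow1 k (by omega) hk).le)
          (fun k h3 h4 => F.hL.ow2 k h4 h3)]
      omega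
    have hS1 : a + 3 ≤ 2 * a + 5 - w := by omega
    have hlS : (2 * a + 5 - w) - cnt (hW a w c0 t0 n pL pR) (2 * (n + 1 + 1)) (2 * a + 5 - w) =
        y - a' := by
      have e1 : cnt pL n (2 * a + 5 - w) = n := cnt_top fun k hk => by
        have := F.hL.pH k hk
        omega
      have e2 : cnt (fun k => 2 * a + 5 - pR k) n (2 * a + 5 - w) = n - t0 := cnt_eq_above ht0
        (fun k hk => (F.hqS k (by omega)).1 hk) (fun k h3 h4 => ((F.hqS k h4).2 h3).le)
      rw [F.hcW, e1, e2, ind_of_le (by omega : 1 ≤ 2 * a + 5 - w),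
        ind_of_lt (by omega : 2 * a + 5 - w < 2 * a + 4), ind_of_le (by omega : w ≤ 2 * a + 5 - w),
        ind_of_le (by
          rcases c4 with g | ⟨g, g2⟩ <;> omega : c0 ≤ 2 * a + 5 - w)]
      omega
    have e1 := ind_anchor hCs hCle hlw hk
    have e2 := ind_anchor hCs hCle hlS hk
    have p1 := PC_add (e := a') hf1 hf2 hP0 (v - cnt (hW a w c0 t0 n pL pR) (2 * (n + 1 + 1)) v)
    rw [e1, e2] at p1
    have p2 := (F.hKeq v).2
    have p3 := F.hcY v
    have p4 := F.hcW v
    have p5 := hCle v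
    have i2c : ind (a + 2) v = ind c0 v := by
      rcases c4 with g | ⟨g, g2⟩
      · rw [g]
      · rw [g]
        by_cases b : v = a + 2
        · exfalso
          subst b
          have k1 := F.hcW (a + 2 + 1)
          have k2 := F.hcW (a + 2)
          have i1 : ind w (a + 2 + 1) = 1 := ind_of_le (by omega)
          have i2 : ind w (a + 2) = 1 := ind_of_le (by omega)
          have i3 : ind c0 (a + 2 + 1) = 1 := ind_of_le (by omega)
          have i4 : ind c0 (a + 2) = 0 := ind_of_lt (by omega)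
          have i5 : cnt pL n (a + 2 + 1) = n := cnt_top fun k hk => by
            have := F.hL.pH k hk
            omega
          have i6 : cnt pL n (a + 2) = n := cnt_top fun k hk => by
            have := F.hL.pH k hk
            omega
          rw [hq0 _ (by omega), i1, i3, i5, ind_of_le (by omega : 1 ≤ a + 2 + 1),
            ind_of_lt (by omega : a + 2 + 1 < 2 * a + 4)] at k1
          rw [hq0 _ (by omega), i2, i4, i6, ind_of_le (by omega : 1 ≤ a + 2),
            ind_of_lt (by omega : a + 2 < 2 * a + 4)] at k2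
          rw [hk] at k1
          omega
        · unfold ind
          split_ifs <;> omega
    generalize PC a' (y - a') 0 0 (v - cnt (hW a w c0 t0 n pL pR) (2 * (n + 1 + 1)) v) = R at p1 ⊢
    generalize ind 0 (v - cnt (hW a w c0 t0 n pL pR) (2 * (n + 1 + 1)) v) = i0 at p1
    generalize cnt (hW a w c0 t0 n pL pR) (2 * (n + 1 + 1)) v = C at *
    generalize cnt (hY a w t0 n pL pR) (2 * (n + 1 + 1)) v = D at *
    generalize PH a v - cnt (hV a w t0 n pL pR) (2 * (n + 1 + 1)) v = K at *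
    omega
  · have h1 := PH_add a (2 * a + 4)
    rw [ind_of_le (by omega : 1 ≤ 2 * a + 4), ind_of_le (by omega : a + 2 ≤ 2 * a + 4),
      ind_of_le (le_refl (2 * a + 4)), ind_of_le (by omega : a + 3 ≤ 2 * a + 4),
      ind_of_le (by omega : 2 * a + 3 ≤ 2 * a + 4)] at h1
    omega
  · have h1 := PC_add (e := a') hf1 hf2 hP0 y
    rw [ind_of_le (by omega : y - a' ≤ y), ind_of_le (by omega : a' ≤ y)] at h1
    omega

/-- **The columns of `Q` in closed form, hard parent.** -/
theorem hard1_colQ {a a' b' n t0 w c0 y : ℕ} {pL pR : ℕ → ℕ}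
    (F : HFacts a a' b' n t0 w c0 y pL pR) :
    ∀ j, j < 2 * (n + 1 + 1) → y - (PH a (hW a w c0 t0 n pL pR j - 1) -
      cnt (hV a w t0 n pL pR) (2 * (n + 1 + 1)) (hW a w c0 t0 n pL pR j - 1)) =
      hQ y a a' w t0 n pL pR j := by
  have T := hard1_tagData F
  have hy1 := F.hy1
  have hy2 := F.hy2
  have ht0 := F.ht0
  have hw0 := F.hw
  have hw1 := F.hw2
  obtain ⟨c1, c2, c3, c4⟩ := F.hc1
  have hKv : ∀ v, PH a v - cnt (hV a w t0 n pL pR) (2 * (n + 1 + 1)) v =
      v - cnt (hY a w t0 n pL pR) (2 * (n + 1 + 1)) v := by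
    intro v
    have := (F.hKeq v).2
    omega
  have hKy : ∀ v, v ≤ 2 * a + 4 → v - cnt (hY a w t0 n pL pR) (2 * (n + 1 + 1)) v ≤ y := by
    intro v hv
    have h1 : Monotone fun u => PH a u - cnt (hV a w t0 n pL pR) (2 * (n + 1 + 1)) u :=
      monotone_nat_of_le_succ T.hK
    have h2 := h1 hv
    simp only at h2
    rw [T.hPx, cnt_top T.hVx, hKv] at h2
    omega
  have hq0 : ∀ u, u ≤ a + 3 → cnt (fun k => 2 * a + 5 - pR k) n u = n - n := fun u hu =>
    cnt_eq_above le_rfl (fun k hk => by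
      have := (F.hqb k hk).1
      show u < 2 * a + 5 - pR k
      omega) (fun k h3 h4 => by omega)
  -- `cnt Y` below the centre
  have hYlow : ∀ v, 1 ≤ v → v ≤ a + 1 → cnt (hY a w t0 n pL pR) (2 * (n + 1 + 1)) v = 1 + cnt pL n v := by
    intro v h1 h2
    rw [F.hcY, hq0 v (by omega), ind_of_le h1, ind_of_lt (by omega : v < 2 * a + 4),
      ind_of_lt (by omega : v < a + 2), ind_of_lt (by omega : v < 2 * a + 5 - w)]
    omega
  have hpge := strict_ge (fun k hk => by
    have := F.hL.p2 k hk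
    omega) F.hL.pm
  have hpge2 : ∀ k, k < n → k + 2 ≤ pL k := by
    have : ∀ k, k < n → k + 2 ≤ pL k := by
      intro k
      induction k with
      | zero => exact fun hk => F.hL.p2 0 hk
      | succ k ih =>
        intro hk
        have h1 := ih (by omega)
        have h2 := F.hL.pm k (k + 1) (by omega) hk
        omega
    exact this
  have hLk : ∀ k, k < n → y - (PH a (pL k - 1) - cnt (hV a w t0 n pL pR) (2 * (n + 1 + 1)) (pL k - 1)) =
      y + k + 2 - pL k := by
    intro k hk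
    have h1 := hpge2 k hk
    have h2 := F.hL.pH k hk
    have h3 := hKy (pL k - 1) (by omega)
    have h4 := cnt_rank_pred F.hL.pm hk (by omega)
    rw [hKv, hYlow _ (by omega) (by omega), h4]
    rw [hYlow _ (by omega) (by omega), h4] at h3
    omega
  have hRk : ∀ k, k < n →
      y - (PH a ((2 * a + 5 - pR k) - 1) - cnt (hV a w t0 n pL pR) (2 * (n + 1 + 1)) ((2 * a + 5 - pR k) - 1)) =
      pR k + (if k < t0 then 1 else 0) - (k + 3) := by
    intro k hk
    have hb := F.hqb k hk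
    have hp1 := F.hR.p2 k hk
    have hp2 := F.hR.pH k hk
    have h3 : cnt (fun k => 2 * a + 5 - pR k) n ((2 * a + 5 - pR k) - 1) = n - (k + 1) := by
      apply cnt_eq_above (by omega)
      · intro i hi
        show (2 * a + 5 - pR k) - 1 < 2 * a + 5 - pR i
        rcases Nat.lt_succ_iff_lt_or_eq.1 hi with g | g
        · have := F.hqm i k g hk
          simp only at this
          omega
        · rw [g]
          omega
      · intro i h3 h4
        show 2 * a + 5 - pR i ≤ (2 * a + 5 - pR k) - 1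
        have := F.hqm k i (by omega) h4
        simp only at this
        omega
    have h4 := hKy ((2 * a + 5 - pR k) - 1) (by omega)
    have h5 : ind (2 * a + 5 - w) ((2 * a + 5 - pR k) - 1) = if k < t0 then 1 else 0 := by
      by_cases c : k < t0
      · rw [if_pos c, ind_of_le]
        have := (F.hqS k hk).1 c
        omega
      · rw [if_neg c, ind_of_lt]
        have := (F.hqS k hk).2 (by omega)
        omega
    have h6 : cnt pL n ((2 * a + 5 - pR k) - 1) = n := cnt_top fun i hi => by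
      have := F.hL.pH i hi
      omega
    have h7 := F.hcY ((2 * a + 5 - pR k) - 1)
    rw [h3, h5, h6, ind_of_le (by omega : 1 ≤ (2 * a + 5 - pR k) - 1),
      ind_of_lt (by omega : (2 * a + 5 - pR k) - 1 < 2 * a + 4),
      ind_of_le (by omega : a + 2 ≤ (2 * a + 5 - pR k) - 1)] at h7
    have h8 := strict_cnt_le F.hYm F.hY1 ((2 * a + 5 - pR k) - 1)
    rw [hKv, h7]
    rw [h7] at h4 h8
    generalize (if k < t0 then 1 else 0 : ℕ) = a1 at *
    omega
  intro j hj
  by_cases hj2 : j < n + 1 + 1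
  · have e1 : hW a w c0 t0 n pL pR j = ins (consL 1 pL) (t0 + 1) w j := by
      unfold hW
      rw [joinL_lt hj2]
    have e2 : hQ y a a' w t0 n pL pR j =
        ins (consL y fun k => y + k + 2 - pL k) (t0 + 1) (y - a') j := by
      unfold hQ
      rw [joinL_lt hj2]
    rw [e1, e2]
    rcases lt_trichotomy j (t0 + 1) with b | b | b
    · rw [ins_lt b, ins_lt b]
      cases j with
      | zero =>
        rw [consL_zero, consL_zero, hKv]
        simp
      | succ k =>
        rw [consL_succ, consL_succ]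
        exact hLk k (by omega)
    · rw [b, ins_eq, ins_eq, hKv, hYlow _ (by omega) (by omega)]
      have h4 : cnt pL n (w - 1) = t0 := cnt_eq_below ht0
        (fun k hk => by
          have := F.hL.ow1 k (by omega) hk
          omega)
        (fun k h3 h4 => by
          have := F.hL.ow2 k h4 h3
          omega)
      rw [h4]
      congr 1
      omega
    · obtain ⟨k, rfl⟩ : ∃ k, j = k + 2 := ⟨j - 2, by omega⟩
      rw [ins_gt b, ins_gt b]
      have e3 : k + 2 - 1 = k + 1 := by omega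
      rw [e3, consL_succ, consL_succ]
      exact hLk k (by omega)
  · have e1 : hW a w c0 t0 n pL pR j =
        ins (consL (2 * a + 4) fun k => 2 * a + 5 - pR k) (n + 1) c0 (2 * (n + 1 + 1) - 1 - j) := by
      unfold hW
      rw [joinL_ge (by omega)]
    have e2 : hQ y a a' w t0 n pL pR j =
        ins (consL 0 fun k => pR k + (if k < t0 then 1 else 0) - (k + 3)) (n + 1) (y + n - a)
          (2 * (n + 1 + 1) - 1 - j) := by
      unfold hQ
      rw [joinL_ge (by omega)]
    rw [e1, e2]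
    obtain ⟨m, hm⟩ : ∃ m, m = 2 * (n + 1 + 1) - 1 - j := ⟨_, rfl⟩
    rw [← hm]
    rcases lt_trichotomy m (n + 1) with b | b | b
    · rw [ins_lt b, ins_lt b]
      cases m with
      | zero =>
        rw [consL_zero, consL_zero, hKv]
        have h7 := F.hcY (2 * a + 4 - 1)
        have h8 : cnt pL n (2 * a + 4 - 1) = n := cnt_top fun i hi => by
          have := F.hL.pH i hi
          omega
        have h9 : cnt (fun k => 2 * a + 5 - pR k) n (2 * a + 4 - 1) = n := cnt_top fun i hi => by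
          have := (F.hqb i hi).2
          show 2 * a + 5 - pR i ≤ 2 * a + 4 - 1
          omega
        rw [h8, h9, ind_of_le (by omega : 1 ≤ 2 * a + 4 - 1),
          ind_of_lt (by omega : 2 * a + 4 - 1 < 2 * a + 4), ind_of_le (by omega : a + 2 ≤ 2 * a + 4 - 1),
          ind_of_le (by omega : 2 * a + 5 - w ≤ 2 * a + 4 - 1)] at h7
        rw [h7]
        omega
      | succ k =>
        rw [consL_succ, consL_succ]
        exact hRk k (by omega)
    · rw [b, ins_eq, ins_eq, hKv]
      have h7 := F.hcY (c0 - 1)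
      have h8 : cnt pL n (c0 - 1) = n := cnt_top fun i hi => by
        have := F.hL.pH i hi
        omega
      rw [h8, hq0 _ (by omega), ind_of_le (by omega : 1 ≤ c0 - 1),
        ind_of_lt (by omega : c0 - 1 < 2 * a + 4),
        ind_of_lt (by
          rcases c4 with g | ⟨g, g2⟩ <;> omega : c0 - 1 < 2 * a + 5 - w)] at h7
      rcases c4 with g | ⟨g, g2⟩
      · rw [ind_of_lt (by omega : c0 - 1 < a + 2)] at h7
        rw [h7]
        omega
      · rw [ind_of_le (by omega : a + 2 ≤ c0 - 1)] at h7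
        rw [h7]
        omega
    · omega

/-! ### The corridors -/

/-- The zone of the `k`-th pair of a half of the hard parent. -/
def HZone (x s t0 k p : ℕ) : Prop :=
  (k < t0 ∧ (k + 1) * x ≤ p * s ∧ p * s < (k + 2) * x) ∨
  (t0 ≤ k ∧ (k + 2) * x ≤ p * s ∧ p * s < (k + 2) * x + s)

lemma mir_lo' {x s i j c ε q κ : ℕ} (hq : q + c = x + ε) (hij : i + j + 1 = s)
    (h1 : c * s ≤ j * x + x + ε * s + κ * s) : i * x ≤ (q + κ) * s := by
  have e1 : i * x + (j * x + x) = s * x := by rw [← hij]; ring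
  have e2 : (q + κ) * s + c * s = x * s + ε * s + κ * s := by
    have : (q + κ) * s + c * s = (q + c) * s + κ * s := by ring
    rw [this, hq]
    ring
  have e3 : s * x = x * s := Nat.mul_comm _ _
  omega

lemma mir_hi' {x s i j c ε q κ : ℕ} (hq : q + c = x + ε) (hij : i + j + 1 = s)
    (h2 : j * x + ε * s + κ * s ≤ c * s + s) : (q + κ) * s ≤ (i + 1) * x + s := by
  have e1 : (i + 1) * x + j * x = s * x := by rw [← hij]; ring
  have e2 : (q + κ) * s + c * s = x * s + ε * s + κ * s := by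
    have : (q + κ) * s + c * s = (q + c) * s + κ * s := by ring
    rw [this, hq]
    ring
  have e3 : s * x = x * s := Nat.mul_comm _ _
  omega

section corr
variable {a a' b' n t0 w c0 y : ℕ} {pL pR : ℕ → ℕ}

lemma HZone.le1 {x s k p : ℕ} (h : HZone x s t0 k p) : (k + 1) * x ≤ p * s ∧ p * s < (k + 2) * x + s := by
  rcases h with ⟨_, h1, h2⟩ | ⟨_, h1, h2⟩
  · exact ⟨h1, by omega⟩
  · refine ⟨?_, h2⟩
    have : (k + 1) * x ≤ (k + 2) * x := Nat.mul_le_mul_right _ (by omega)
    omega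

/-- The ranks of the rows. -/
lemma hard1_hR (F : HFacts a a' b' n t0 w c0 y pL pR)
    (hzL : ∀ k, k < n → HZone (2 * a + 4) (2 * (n + 1 + 1)) t0 k (pL k))
    (hzR : ∀ k, k < n → HZone (2 * a + 4) (2 * (n + 1 + 1)) t0 k (pR k))
    (hw1 : (t0 + 1) * (2 * a + 4) ≤ w * (2 * (n + 1 + 1)))
    (hw2 : w * (2 * (n + 1 + 1)) ≤ (t0 + 2) * (2 * a + 4) + 2 * (n + 1 + 1)) :
    ∀ i, i < 2 * (n + 1 + 1) → i * (2 * a + 4) ≤ (hV a w t0 n pL pR i + 1) * (2 * (n + 1 + 1)) ∧
      hV a w t0 n pL pR i * (2 * (n + 1 + 1)) ≤ (i + 1) * (2 * a + 4) + 2 * (n + 1 + 1) := by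
  intro i hi
  have ht0 := F.ht0
  have hw00 := F.hw2
  obtain ⟨x, hx⟩ : ∃ x, x = 2 * a + 4 := ⟨_, rfl⟩
  obtain ⟨s, hs⟩ : ∃ s, s = 2 * (n + 1 + 1) := ⟨_, rfl⟩
  rw [← hx, ← hs] at hzL hzR hw1 hw2 ⊢
  rw [← hs] at hi
  have hs0 : 0 < s := by omega
  by_cases h1 : i < n + 1 + 1
  · have e1 : hV a w t0 n pL pR i = ins (consL 0 pL) (n + 1) (a + 3) i := by
      unfold hV
      rw [joinL_lt h1]
    rw [e1]
    rcases lt_trichotomy i (n + 1) with b | b | b
    · rw [ins_lt b]
      cases i with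
      | zero =>
        simp only [consL_zero]
        constructor
        · simp
        · simp
      | succ k =>
        rw [consL_succ]
        have h2 := (hzL k (by omega)).le1
        constructor
        · have : (pL k + 1) * s = pL k * s + s := by ring
          omega
        · have e : k + 1 + 1 = k + 2 := rfl
          rw [e]
          omega
    · rw [b, ins_eq]
      constructor
      · have e3 : (n + 2) * x = (a + 2) * s := by rw [hx, hs]; ring
        have e4 : (n + 1) * x ≤ (n + 2) * x := Nat.mul_le_mul_right _ (by omega)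
        have e5 : (a + 2) * s ≤ (a + 3 + 1) * s := Nat.mul_le_mul_right _ (by omega)
        omega
      · have e3 : (n + 1 + 1) * x = (a + 2) * s := by rw [hx, hs]; ring
        have e5 : (a + 3) * s = (a + 2) * s + s := by ring
        omega
    · omega
  · have e1 : hV a w t0 n pL pR i =
        ins (consL (2 * a + 3) fun k => 2 * a + 5 - pR k) (t0 + 1) (2 * a + 5 - w) (s - 1 - i) := by
      unfold hV
      rw [joinL_ge (by omega), hs]
    rw [e1]
    obtain ⟨m, hm⟩ : ∃ m, m = s - 1 - i := ⟨_, rfl⟩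
    rw [← hm]
    have hij : i + m + 1 = s := by omega
    have hx1 : 2 * a + 5 = x + 1 := by omega
    rcases lt_trichotomy m (t0 + 1) with b | b | b
    · rw [ins_lt b]
      cases m with
      | zero =>
        simp only [consL_zero]
        have e2 : 2 * a + 3 + 1 = x := by omega
        rw [e2]
        constructor
        · have : i * x ≤ s * x := Nat.mul_le_mul_right _ (by omega)
          rw [Nat.mul_comm x s]
          exact this
        · have e3 : i + 1 = s := by omega
          rw [e3]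
          have : (2 * a + 3) * s ≤ x * s := Nat.mul_le_mul_right _ (by omega)
          rw [Nat.mul_comm s x]
          omega
      | succ k =>
        rw [consL_succ]
        have hk : k < n := by omega
        have hb := F.hR.pH k hk
        have hb2 := F.hR.p2 k hk
        have hz := hzR k hk
        have hq : (2 * a + 5 - pR k) + pR k = x + 1 := by omega
        rcases hz with ⟨_, z1, z2⟩ | ⟨g, _⟩
        · constructor
          · apply mir_lo' (c := pR k) (ε := 1) (j := k + 1) hq (by omega)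
            have e3 : (k + 2) * x = (k + 1) * x + x := by ring
            omega
          · have := mir_hi' (i := i) (c := pR k) (ε := 1) (j := k + 1) (κ := 0) (s := s) hq (by omega)
              (by omega)
            simpa using this
        · omega
    · rw [b, ins_eq]
      have hq : (2 * a + 5 - w) + w = x + 1 := by omega
      have hj : i + (t0 + 1) + 1 = s := by omega
      constructor
      · apply mir_lo' (c := w) (ε := 1) (j := t0 + 1) hq hj
        have e3 : (t0 + 2) * x = (t0 + 1) * x + x := by ring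
        omega
      · have := mir_hi' (i := i) (c := w) (ε := 1) (j := t0 + 1) (κ := 0) (s := s) hq hj (by omega)
        simpa using this
    · obtain ⟨k, rfl⟩ : ∃ k, m = k + 2 := ⟨m - 2, by omega⟩
      rw [ins_gt b]
      have e3 : k + 2 - 1 = k + 1 := by omega
      rw [e3, consL_succ]
      have hk : k < n := by omega
      have hb := F.hR.pH k hk
      have hb2 := F.hR.p2 k hk
      have hz := hzR k hk
      have hq : (2 * a + 5 - pR k) + pR k = x + 1 := by omega
      rcases hz with ⟨g, _⟩ | ⟨_, z1, z2⟩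
      · omega
      · constructor
        · apply mir_lo' (c := pR k) (ε := 1) (j := k + 2) hq (by omega)
          omega
        · have := mir_hi' (i := i) (c := pR k) (ε := 1) (j := k + 2) (κ := 0) (s := s) hq (by omega)
            (by omega)
          simpa using this

/-- The ranks of the columns. -/
lemma hard1_hC (F : HFacts a a' b' n t0 w c0 y pL pR) (hsx : 2 * (n + 1 + 1) ≤ 2 * a + 4)
    (hzL : ∀ k, k < n → HZone (2 * a + 4) (2 * (n + 1 + 1)) t0 k (pL k))
    (hzR : ∀ k, k < n → HZone (2 * a + 4) (2 * (n + 1 + 1)) t0 k (pR k))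
    (hw1 : (t0 + 1) * (2 * a + 4) ≤ w * (2 * (n + 1 + 1)))
    (hw2 : w * (2 * (n + 1 + 1)) ≤ (t0 + 2) * (2 * a + 4) + 2 * (n + 1 + 1)) :
    ∀ i, i < 2 * (n + 1 + 1) → ∃ κ, PH a (hW a w c0 t0 n pL pR i - 1) -
        cnt (hV a w t0 n pL pR) (2 * (n + 1 + 1)) (hW a w c0 t0 n pL pR i - 1) + i =
        hW a w c0 t0 n pL pR i - 1 + κ ∧
      i * (2 * a + 4) ≤ (hW a w c0 t0 n pL pR i + κ) * (2 * (n + 1 + 1)) ∧
      (hW a w c0 t0 n pL pR i + κ) * (2 * (n + 1 + 1)) ≤ (i + 1) * (2 * a + 4) + 2 * (n + 1 + 1) := by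
  intro i hi
  have ht0 := F.ht0
  have hw00 := F.hw2
  have hw0 := F.hw
  have hy1 := F.hy1
  have hy2 := F.hy2
  have hy0 := F.hy0
  obtain ⟨c1, c2, c3, c4⟩ := F.hc1
  obtain ⟨Wi, hWi⟩ : ∃ Wi, Wi = hW a w c0 t0 n pL pR i := ⟨_, rfl⟩
  rw [← hWi]
  obtain ⟨x, hx⟩ : ∃ x, x = 2 * a + 4 := ⟨_, rfl⟩
  obtain ⟨s, hs⟩ : ∃ s, s = 2 * (n + 1 + 1) := ⟨_, rfl⟩
  have hs0 : 0 < s := by omega
  by_cases h1 : i < n + 1 + 1
  · have e1 : Wi = ins (consL 1 pL) (t0 + 1) w i := by
      rw [hWi]
      unfold hW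
      rw [joinL_lt h1]
    rcases lt_trichotomy i (t0 + 1) with b | b | b
    · rw [ins_lt b] at e1
      cases i with
      | zero =>
        rw [consL_zero] at e1
        have k0 := F.K_one
        subst e1
        refine ⟨0, ?_, by simp, ?_⟩
        · simp only [Nat.sub_self, Nat.add_zero]
          exact k0
        · simp only [Nat.add_zero, Nat.one_mul, Nat.zero_add]
          omega
      | succ k =>
        rw [consL_succ] at e1
        have hk : k < n := by omega
        have k0 := F.K_left hk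
        subst e1
        rcases hzL k hk with ⟨_, z1, z2⟩ | ⟨g, _⟩
        · refine ⟨0, by omega, ?_, ?_⟩
          · rw [Nat.add_zero, ← hx, ← hs]
            rw [← hx, ← hs] at z1
            exact z1
          · rw [Nat.add_zero]
            have e : k + 1 + 1 = k + 2 := rfl
            rw [e]
            omega
        · omega
    · subst b
      rw [ins_eq] at e1
      have k0 := F.K_w
      subst e1
      refine ⟨0, by omega, ?_, ?_⟩
      · rw [Nat.add_zero]
        exact hw1
      · rw [Nat.add_zero]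
        exact hw2
    · obtain ⟨k, rfl⟩ : ∃ k, i = k + 2 := ⟨i - 2, by omega⟩
      rw [ins_gt b] at e1
      have e3 : k + 2 - 1 = k + 1 := by omega
      rw [e3, consL_succ] at e1
      have hk : k < n := by omega
      have k0 := F.K_left hk
      subst e1
      rcases hzL k hk with ⟨g, _⟩ | ⟨_, z1, z2⟩
      · omega
      · refine ⟨1, by omega, ?_, ?_⟩
        · have : (pL k + 1) * (2 * (n + 1 + 1)) = pL k * (2 * (n + 1 + 1)) + 2 * (n + 1 + 1) := by ring
          omega
        · have e4 : (pL k + 1) * (2 * (n + 1 + 1)) = pL k * (2 * (n + 1 + 1)) + 2 * (n + 1 + 1) := by ring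
          have e5 : (k + 2 + 1) * (2 * a + 4) = (k + 2) * (2 * a + 4) + (2 * a + 4) := by ring
          omega
  · have e1 : Wi = ins (consL (2 * a + 4) fun k => 2 * a + 5 - pR k) (n + 1) c0
        (2 * (n + 1 + 1) - 1 - i) := by
      rw [hWi]
      unfold hW
      rw [joinL_ge (by omega)]
    obtain ⟨m, hm⟩ : ∃ m, m = 2 * (n + 1 + 1) - 1 - i := ⟨_, rfl⟩
    rw [← hm] at e1
    have hij : i + m + 1 = 2 * (n + 1 + 1) := by omega
    rcases lt_trichotomy m (n + 1) with b | b | b
    · rw [ins_lt b] at e1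
      cases m with
      | zero =>
        rw [consL_zero] at e1
        have k0 := F.K_top
        subst e1
        refine ⟨0, by omega, ?_, ?_⟩
        · rw [Nat.add_zero, Nat.mul_comm (2 * a + 4) (2 * (n + 1 + 1))]
          exact Nat.mul_le_mul_right _ (by omega)
        · rw [Nat.add_zero]
          have e3 : i + 1 = 2 * (n + 1 + 1) := by omega
          rw [e3, Nat.mul_comm (2 * a + 4) (2 * (n + 1 + 1))]
          omega
      | succ k =>
        rw [consL_succ] at e1
        have hk : k < n := by omega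
        have hb := F.hR.pH k hk
        have hb2 := F.hR.p2 k hk
        have hq : (2 * a + 5 - pR k) + pR k = (2 * a + 4) + 1 := by omega
        have k0 := F.K_right hk
        subst e1
        rcases hzR k hk with ⟨g, z1, z2⟩ | ⟨g, z1, z2⟩
        · rw [if_pos g] at k0
          refine ⟨0, by omega, ?_, ?_⟩
          · apply mir_lo' (c := pR k) (ε := 1) (j := k + 1) hq (by omega)
            have e3 : (k + 2) * (2 * a + 4) = (k + 1) * (2 * a + 4) + (2 * a + 4) := by ring
            omega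
          · apply mir_hi' (c := pR k) (ε := 1) (j := k + 1) hq (by omega)
            omega
        · rw [if_neg (by omega)] at k0
          refine ⟨1, by omega, ?_, ?_⟩
          · apply mir_lo' (c := pR k) (ε := 1) (j := k + 1) hq (by omega)
            have e3 : (k + 2) * (2 * a + 4) = (k + 1) * (2 * a + 4) + (2 * a + 4) := by ring
            omega
          · apply mir_hi' (c := pR k) (ε := 1) (j := k + 1) hq (by omega)
            have e3 : (k + 2) * (2 * a + 4) = (k + 1) * (2 * a + 4) + (2 * a + 4) := by ring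
            omega
    · subst b
      rw [ins_eq] at e1
      have hi2 : i = n + 1 + 1 := by omega
      subst hi2
      have k0 := F.K_c0
      subst e1
      have e3 : (n + 1 + 1) * (2 * a + 4) = (a + 2) * (2 * (n + 1 + 1)) := by ring
      have e4 : (n + 1 + 1 + 1) * (2 * a + 4) = (a + 2) * (2 * (n + 1 + 1)) + (2 * a + 4) := by
        rw [← e3]
        ring
      have e5 : (a + 3) * (2 * (n + 1 + 1)) = (a + 2) * (2 * (n + 1 + 1)) + 2 * (n + 1 + 1) := by ring
      have g1 : (n + 1 + 1) * (2 * a + 4) ≤ (a + 3) * (2 * (n + 1 + 1)) := by omega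
      have g2 : (a + 3) * (2 * (n + 1 + 1)) ≤ (n + 1 + 1 + 1) * (2 * a + 4) + 2 * (n + 1 + 1) := by omega
      rcases c4 with g | ⟨g, g3⟩
      · refine ⟨1, by omega, ?_, ?_⟩
        · rw [g]
          exact g1
        · rw [g]
          exact g2
      · refine ⟨0, by omega, ?_, ?_⟩
        · rw [g]
          exact g1
        · rw [g]
          exact g2
    · omega

end corr

/-- The base of the window of `|Z|` for the hard parent. -/
def zH (a w n : ℕ) : ℕ := n * (2 * a + 5) + (2 * a + 3) + (a + 3) + (2 * a + 5 - w)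

/-- **The strip of the hard parent, corridors at error `1`, explicit lists.** -/
theorem hard1_strip_lists {a a' b' n t0 w c0 y : ℕ} {pL pR : ℕ → ℕ}
    (F : HFacts a a' b' n t0 w c0 y pL pR)
    (hzL : ∀ k, k < n → HZone (2 * a + 4) (2 * (n + 1 + 1)) t0 k (pL k))
    (hzR : ∀ k, k < n → HZone (2 * a + 4) (2 * (n + 1 + 1)) t0 k (pR k))
    (hw1 : (t0 + 1) * (2 * a + 4) ≤ w * (2 * (n + 1 + 1)))
    (hw2 : w * (2 * (n + 1 + 1)) ≤ (t0 + 2) * (2 * a + 4) + 2 * (n + 1 + 1)) :
    ∃ Z Q : YoungDiagram,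
      (∀ i, Z.rowLen i = if i < 2 * (n + 1 + 1) then hV a w t0 n pL pR (2 * (n + 1 + 1) - 1 - i) else 0) ∧
      (∀ j, j < 2 * (n + 1 + 1) → Q.colLen j = hQ y a a' w t0 n pL pR j) ∧
      (∀ j, 2 * (n + 1 + 1) ≤ j → Q.colLen j = 0) ∧
      Z.card + ∑ k ∈ range n, pR k = ∑ k ∈ range n, pL k + zH a w n ∧
      CorE ((2 * (n + 1 + 1) : ℕ) : ℚ) (((2 * a + 4 : ℕ) : ℚ) / ((2 * (n + 1 + 1) : ℕ) : ℚ)) 1 Z ∧
      CorE ((2 * (n + 1 + 1) : ℕ) : ℚ) ((y : ℚ) / ((2 * (n + 1 + 1) : ℕ) : ℚ)) 1 Q.transpose ∧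
      (∀ cA cQ cZ : YoungDiagram, TT (shape (cwP (PC a' (y - a') 0 0) y)) cA → TT Q cQ → TT Z cZ →
        TT (shape (cwP (PH a) (2 * a + 4))) (addD (addD cA cQ) cZ)) ∧
      area (cwP (PH a) (2 * a + 4)) = area (cwP (PC a' (y - a') 0 0) y) + Q.card + Z.card := by
  have T := hard1_tagData F
  have hsx : 2 * (n + 1 + 1) ≤ 2 * a + 4 := by
    have := F.hy1
    omega
  obtain ⟨Z, Q, ⟨z1, z2, z3⟩, z4, z5, z6, z7, z8⟩ := strip_of_lists_full T.hxy (by omega) F.hy0 T.hVm T.hVx
    T.hWm T.hW1 T.hWx T.hρP T.hK T.hP'm T.hkeep T.hPx T.hP'y (hard1_hR F hzL hzR hw1 hw2)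
    (hard1_hC F hsx hzL hzR hw1 hw2)
  refine ⟨Z, Q, ?_, ?_, z3, ?_, z5, z6, z7, z8⟩
  · intro i
    rw [z1]
    exact rowLen_shape_cnt T.hVm T.hVx i
  · intro j hj
    rw [z2 j hj]
    exact hard1_colQ F j hj
  · rw [z4]
    unfold hV zH
    rw [sum_join_id _ _ (by omega) (by have := F.ht0; omega), sum_consL, sum_consL]
    have h1 : ∑ k ∈ range n, (2 * a + 5 - pR k) + ∑ k ∈ range n, pR k = n * (2 * a + 5) := by
      rw [← sum_add_distrib]
      have : ∀ k ∈ range n, 2 * a + 5 - pR k + pR k = 2 * a + 5 := by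
        intro k hk
        have := F.hR.pH k (mem_range.1 hk)
        omega
      rw [sum_congr rfl this]
      simp
    omega

/-- The least position of the `k`-th pair of a half of the hard parent. -/
def loH (x s t0 k : ℕ) : ℕ := if k < t0 then gc x s (k + 1) else gc x s (k + 2)

/-- The largest position of the `k`-th pair of a half of the hard parent. -/
def hiH (x s t0 k : ℕ) : ℕ := if k < t0 then gc x s (k + 2) - 1 else gc x s (k + 2)

/-- The half width of the window of `|Z|` for the hard parent. -/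
def boxH (x s t0 n : ℕ) : ℕ := ∑ k ∈ range n, (hiH x s t0 k - loH x s t0 k)

lemma loH_le_hiH {x s t0 : ℕ} (hs : 0 < s) (hsx : s ≤ x) (k : ℕ) : loH x s t0 k ≤ hiH x s t0 k := by
  unfold loH hiH
  have h1 := gc_step1 hs hsx (k + 1)
  split_ifs
  · have e : k + 1 + 1 = k + 2 := rfl
    rw [e] at h1
    omega
  · exact le_rfl

lemma box_HZone {x s t0 k p : ℕ} (hs : 0 < s) (hsx : s ≤ x) (h1 : loH x s t0 k ≤ p)
    (h2 : p ≤ hiH x s t0 k) : HZone x s t0 k p := by
  have g1 := gc_spec hs x (k + 1)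
  have g2 := gc_spec hs x (k + 2)
  have g3 := gc_step1 hs hsx (k + 1)
  have e : k + 1 + 1 = k + 2 := rfl
  rw [e] at g3
  unfold loH at h1
  unfold hiH at h2
  by_cases c : k < t0
  · rw [if_pos c] at h1 h2
    refine Or.inl ⟨c, g1.1.trans (Nat.mul_le_mul_right _ h1), ?_⟩
    have h3 : (p + 1) * s ≤ gc x s (k + 2) * s := Nat.mul_le_mul_right _ (by omega)
    have h4 : (p + 1) * s = p * s + s := by ring
    omega
  · rw [if_neg c] at h1 h2
    have hp : p = gc x s (k + 2) := le_antisymm h2 h1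
    rw [hp]
    exact Or.inr ⟨by omega, g2.1, g2.2⟩

/-- The zones give the order conditions. -/
lemma HLite_of_HZone {x s n t0 w a : ℕ} {p : ℕ → ℕ} (hsx : s < x)
    (hz : ∀ k, k < n → HZone x s t0 k (p k)) (hw1 : (t0 + 1) * x ≤ w * s)
    (hw3 : t0 < n → w * s < (t0 + 2) * x) (hbd : (n + 1) * x + s ≤ (a + 2) * s) :
    HLite n t0 w a p := by
  have hlt : ∀ {a b : ℕ}, a * s < b * s → a < b := fun h => Nat.lt_of_mul_lt_mul_right h
  refine ⟨strict_of_succ ?_, ?_, ?_, ?_, ?_⟩
  · intro k hk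
    apply hlt
    have e1 : (k + 1 + 1) * x = (k + 2) * x := rfl
    have e2 : (k + 1 + 2) * x = (k + 2) * x + x := by ring
    rcases hz k (by omega) with ⟨a1, a2, a3⟩ | ⟨a1, a2, a3⟩ <;>
      rcases hz (k + 1) hk with ⟨b1, b2, b3⟩ | ⟨b1, b2, b3⟩
    · omega
    · omega
    · omega
    · omega
  · intro k hk
    have h1 := (hz k hk).le1
    by_contra hc
    have h2 : p k * s ≤ 1 * s := Nat.mul_le_mul_right _ (by omega)
    have h3 : x ≤ (k + 1) * x := Nat.le_mul_of_pos_left _ (by omega)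
    omega
  · intro k hk
    have h1 := (hz k hk).le1
    have h2 : (k + 2) * x ≤ (n + 1) * x := Nat.mul_le_mul_right _ (by omega)
    have h3 : p k < a + 2 := hlt (by omega)
    omega
  · intro k hk h1
    apply hlt
    rcases hz k hk with ⟨_, a2, a3⟩ | ⟨a1, _⟩
    · have h2 : (k + 2) * x ≤ (t0 + 1) * x := Nat.mul_le_mul_right _ (by omega)
      omega
    · omega
  · intro k hk h1
    apply hlt
    have h3 := hw3 (by omega)
    rcases hz k hk with ⟨a1, _⟩ | ⟨_, a2, a3⟩
    · omega
    · have h2 : (t0 + 2) * x ≤ (k + 2) * x := Nat.mul_le_mul_right _ (by omega)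
      omega

/-- The word of the hard parent. -/
lemma hard1_eq (a : ℕ) : hard1W a = cwP (PH a) (2 * a + 4) := by
  have h := cwP_Nb (hard1W a)
  have e0 : nE (hard1W a) = 2 * a + 4 := by
    unfold hard1W
    simp only [nE_append, nE_stairW]
    have e1 : nE ([false, true] : List Bool) = 1 := rfl
    have e2 : nE ([true, true, false, false] : List Bool) = 2 := rfl
    rw [e1, e2]
    omega
  rw [e0] at h
  conv_lhs => rw [← h]
  apply cwP_congr
  intro v hv
  unfold hard1W
  simp only [Nb_append, nE_append, nN_append, nE_stairW, nN_stairW, Nb_stair]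
  have e1 : nE ([false, true] : List Bool) = 1 := rfl
  have e2 : nE ([true, true, false, false] : List Bool) = 2 := rfl
  have e3 : nN ([false, true] : List Bool) = 1 := rfl
  have e4 : nN ([true, true, false, false] : List Bool) = 2 := rfl
  have e5 : ∀ k, Nb ([false, true] : List Bool) k = 1 := by
    intro k
    cases k <;> rfl
  have e6 : ∀ k, Nb ([true, true, false, false] : List Bool) k = if k < 2 then 0 else 2 := by
    intro k
    rcases k with _ | _ | k <;> rfl
  rw [e1, e2, e3, e4, e5, e5, e6]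
  unfold PH ind
  split_ifs <;> omega

/-- The data of the strip of the hard `XF n` with child `XF n'`. -/
structure XFHard (n n' n0 a a' b' : ℕ) : Prop where
  hx : sideH n = 2 * a + 4
  hy : sideH n' = 2 * (a' + b')
  hA : chainA n' = a'
  w1 : wordF n = cwP (PH a) (2 * a + 4)
  w2 : wordF n' = cwP (PC a' (sideH n' - a') 0 0) (sideH n')
  a1 : area (wordF n) = n
  a2 : area (wordF n') = n'
  hd : sideH n = sideH n' + 2 * (n0 + 1 + 1)
  hy0 : 0 < sideH n'

/-- **`XF n` is the hard parent, `XF n'` a chain without centre.** -/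
theorem XF_hard_data {n n' n0 : ℕ} (hn : n ≠ 2) (hn' : n' ≠ 2) (hn1' : 1 ≤ n')
    (hx0 : sideH n % 2 = 0) (hc1 : triN (sideH n) - n = 1)
    (hc' : (triN (sideH n') - n') % 2 = 0)
    (hd : sideH n = sideH n' + 2 * (n0 + 1 + 1)) (hy : 2 ≤ sideH n') :
    ∃ a a' b', XFHard n n' n0 a a' b' := by
  have hc2 := c_lt_side hn1'
  have hy0 : sideH n' % 2 = 0 := by omega
  have a1 := area_wordF n hn
  have a2 := area_wordF n' hn'
  have hW := wordF_chain_hard1 hx0 hc1
  have hW' := wordF_chain_even hy0 hc'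
  have eA' : chainA n' = (sideH n' - (triN (sideH n') - n')) / 2 := by
    unfold chainA
    rw [if_pos hy0, if_pos hc']
  generalize hc : triN (sideH n') - n' = c' at *
  generalize hy2 : sideH n' = y at *
  obtain ⟨a', ha'⟩ : ∃ a', a' = (y - c') / 2 := ⟨_, rfl⟩
  obtain ⟨b', hb'⟩ : ∃ b', b' = c' / 2 := ⟨_, rfl⟩
  rw [← ha', ← hb'] at hW'
  rw [← ha'] at eA'
  have e2 : y = 2 * (a' + b') := by omega
  obtain ⟨a, ha⟩ : ∃ a, a = (sideH n - 4) / 2 := ⟨_, rfl⟩
  rw [← ha] at hW
  have e1 : sideH n = 2 * a + 4 := by omega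
  refine ⟨a, a', b', e1, hy2.trans e2, eA', ?_, ?_, a1, a2, by rw [hy2]; exact hd, by rw [hy2]; omega⟩
  · rw [hW, hard1_eq]
  · rw [hW', chain_nil_eq, ← e2, hy2]

/-- **The master step for the hard parent, at list level.** Two copies of the half lists; tiles `lZ`,
`lQ` whose row sums and column sums are the lists of the two copies. -/
theorem TT_XF_hard1_of_lists {n n' n0 a a' b' t1 w1 c1 t2 w2 c2 : ℕ} (D : XFHard n n' n0 a a' b')
    {pL1 pR1 pL2 pR2 : ℕ → ℕ}
    (F1 : HFacts a a' b' n0 t1 w1 c1 (sideH n') pL1 pR1)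
    (F2 : HFacts a a' b' n0 t2 w2 c2 (sideH n') pL2 pR2)
    (lZ lQ : List YoungDiagram)
    (hZ₁ : ∀ i, (lZ.map fun Y => Y.rowLen i).sum = if i < 2 * (n0 + 1 + 1) then
      hV a w1 t1 n0 pL1 pR1 (2 * (n0 + 1 + 1) - 1 - i) else 0)
    (hZ₂ : ∀ i, (lZ.map fun Y => Y.colLen i).sum = if i < 2 * (n0 + 1 + 1) then
      hV a w2 t2 n0 pL2 pR2 (2 * (n0 + 1 + 1) - 1 - i) else 0)
    (hQ₁ : ∀ j, (lQ.map fun Y => Y.rowLen j).sum = if j < 2 * (n0 + 1 + 1) then
      hQ (sideH n') a a' w1 t1 n0 pL1 pR1 j else 0)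
    (hQ₂ : ∀ j, (lQ.map fun Y => Y.colLen j).sum = if j < 2 * (n0 + 1 + 1) then
      hQ (sideH n') a a' w2 t2 n0 pL2 pR2 j else 0)
    {cA : YoungDiagram} (hAT : TT (XF n') cA) :
    TT (XF n) (addD (addD cA (colsD ((lQ.map YoungDiagram.card : List ℕ) : Multiset ℕ)))
      (colsD ((lZ.map YoungDiagram.card : List ℕ) : Multiset ℕ))) := by
  have T1 := hard1_tagData F1
  have T2 := hard1_tagData F2
  have C1 := hard1_colQ F1
  have C2 := hard1_colQ F2
  unfold XF at hAT ⊢
  rw [D.w1]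
  rw [D.w2] at hAT
  refine TT_of_tags T1 T2 lZ lQ hZ₁ hZ₂ ?_ ?_ hAT
  · intro j
    rw [hQ₁]
    split_ifs with hj
    · exact (C1 j hj).symm
    · rfl
  · intro j
    rw [hQ₂]
    split_ifs with hj
    · exact (C2 j hj).symm
    · rfl

lemma F_le (t0 n : ℕ) {r : ℕ} (ht : t0 = min n r) : t0 ≤ n := by
  rw [ht]
  exact min_le_left _ _

/-- The rule for the rank of the single column. -/
lemma hard1_t0 {a a' b' n y t0 w : ℕ} (hy0 : 0 < y) (hy1 : y + 2 * (n + 1 + 1) = 2 * a + 4)
    (hy2 : y = 2 * (a' + b')) (hA : y ≤ (a' + 1) * (2 * (n + 1 + 1)))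
    (ht : t0 = min n ((a' + 1) * (2 * (n + 1 + 1)) / y - 1)) (hw : w = a' + t0 + 2) :
    (t0 + 1) * (2 * a + 4) ≤ w * (2 * (n + 1 + 1)) ∧
    w * (2 * (n + 1 + 1)) ≤ (t0 + 2) * (2 * a + 4) + 2 * (n + 1 + 1) ∧
    (t0 < n → w * (2 * (n + 1 + 1)) < (t0 + 2) * (2 * a + 4)) := by
  obtain ⟨s, hs⟩ : ∃ s, s = 2 * (n + 1 + 1) := ⟨_, rfl⟩
  rw [← hs] at hy1 hA ht ⊢
  have hx : 2 * a + 4 = y + s := by omega
  rw [hx]
  obtain ⟨q, hq⟩ : ∃ q, q = (a' + 1) * s / y := ⟨_, rfl⟩
  rw [← hq] at ht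
  have hq1 : 1 ≤ q := by
    rw [hq]
    exact (Nat.one_le_div_iff hy0).2 hA
  have hq2 : q * y ≤ (a' + 1) * s := by
    rw [hq]
    exact Nat.div_mul_le_self _ _
  have hq3 : (a' + 1) * s < (q + 1) * y := by
    rw [hq, Nat.mul_comm _ y]
    exact Nat.lt_mul_div_succ _ hy0
  have h0 : t0 + 1 ≤ q := by
    rw [ht]
    have := min_le_right n (q - 1)
    omega
  have hm : (t0 + 1) * y ≤ q * y := Nat.mul_le_mul_right _ h0
  have ew : w * s = (a' + 1) * s + (t0 + 1) * s := by rw [hw]; ring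
  have e1 : (t0 + 1) * (y + s) = (t0 + 1) * y + (t0 + 1) * s := by ring
  have e2 : (t0 + 2) * (y + s) = (t0 + 2) * y + (t0 + 1) * s + s := by ring
  refine ⟨by omega, ?_, ?_⟩
  · by_cases c : t0 < n
    · have hq4 : t0 = q - 1 := by
        rw [ht] at c ⊢
        exact min_eq_right (by
          by_contra hc
          rw [min_eq_left (by omega)] at c
          omega)
      have e3 : t0 + 2 = q + 1 := by omega
      rw [e3] at e2 ⊢
      omega
    · have h3 : t0 = n := by
        have := F_le t0 n ht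
        omega
      subst h3
      -- `a' + 1 ≤ y / 2 + 2`
      have e4 : (a' + 1) * s ≤ (t0 + 2) * y + s := by
        rw [hs]
        rw [hy2]
        have e5 : (a' + 1) * (2 * (t0 + 1 + 1)) = 2 * (t0 + 2) * a' + 2 * (t0 + 2) := by ring
        have e6 : (t0 + 2) * (2 * (a' + b')) + 2 * (t0 + 1 + 1) = 2 * (t0 + 2) * a' + 2 * (t0 + 2) * b' + 2 * (t0 + 2) := by ring
        rw [e5, e6]
        omega
      omega
  · intro c
    have hq4 : t0 = q - 1 := by
      rw [ht] at c ⊢
      exact min_eq_right (by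
        by_contra hc
        rw [min_eq_left (by omega)] at c
        omega)
    have e3 : t0 + 2 = q + 1 := by omega
    rw [e3] at e2 ⊢
    omega

/-- **The strip of the hard `XF n` with child `XF n'`, any lists in the boxes.**
`t0 = min n0 ((a' + 1) s / y - 1)`, `w = a' + t0 + 2`, `c0 = a + 2` (or `a + 3` if `w = a + 2`). -/
theorem XF_hard1_lists {n n' n0 a a' b' t0 w c0 : ℕ} (D : XFHard n n' n0 a a' b')
    (hA : sideH n' ≤ (a' + 1) * (2 * (n0 + 1 + 1)))
    (ht : t0 = min n0 ((a' + 1) * (2 * (n0 + 1 + 1)) / sideH n' - 1)) (hw : w = a' + t0 + 2)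
    (hc0 : c0 = if w < a + 2 then a + 2 else a + 3) {pL pR : ℕ → ℕ}
    (hpL : ∀ k, k < n0 → loH (sideH n) (2 * (n0 + 1 + 1)) t0 k ≤ pL k ∧
      pL k ≤ hiH (sideH n) (2 * (n0 + 1 + 1)) t0 k)
    (hpR : ∀ k, k < n0 → loH (sideH n) (2 * (n0 + 1 + 1)) t0 k ≤ pR k ∧
      pR k ≤ hiH (sideH n) (2 * (n0 + 1 + 1)) t0 k) :
    HFacts a a' b' n0 t0 w c0 (sideH n') pL pR ∧
    ∃ Z Q : YoungDiagram,
      (∀ i, Z.rowLen i = if i < 2 * (n0 + 1 + 1) then
        hV a w t0 n0 pL pR (2 * (n0 + 1 + 1) - 1 - i) else 0) ∧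
      (∀ j, j < 2 * (n0 + 1 + 1) → Q.colLen j = hQ (sideH n') a a' w t0 n0 pL pR j) ∧
      (∀ j, 2 * (n0 + 1 + 1) ≤ j → Q.colLen j = 0) ∧
      Z.card + ∑ k ∈ range n0, pR k = ∑ k ∈ range n0, pL k + zH a w n0 ∧
      n' + Q.card + Z.card = n ∧
      CorE ((2 * (n0 + 1 + 1) : ℕ) : ℚ) ((sideH n : ℚ) / ((2 * (n0 + 1 + 1) : ℕ) : ℚ)) 1 Z ∧
      CorE ((2 * (n0 + 1 + 1) : ℕ) : ℚ) ((sideH n' : ℚ) / ((2 * (n0 + 1 + 1) : ℕ) : ℚ)) 1 Q.transpose ∧
      ∀ cA cQ cZ : YoungDiagram, TT (XF n') cA → TT Q cQ → TT Z cZ →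
        TT (XF n) (addD (addD cA cQ) cZ) := by
  have hx := D.hx
  have hy := D.hy
  have hd := D.hd
  have hy0 := D.hy0
  have hy1 : sideH n' + 2 * (n0 + 1 + 1) = 2 * a + 4 := by omega
  obtain ⟨hw1, hw2, hw3⟩ := hard1_t0 hy0 hy1 hy hA ht hw
  rw [hx] at hpL hpR
  have hsx : 2 * (n0 + 1 + 1) < 2 * a + 4 := by omega
  have hs0 : 0 < 2 * (n0 + 1 + 1) := by omega
  have hzL : ∀ k, k < n0 → HZone (2 * a + 4) (2 * (n0 + 1 + 1)) t0 k (pL k) := fun k hk =>
    box_HZone hs0 hsx.le (hpL k hk).1 (hpL k hk).2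
  have hzR : ∀ k, k < n0 → HZone (2 * a + 4) (2 * (n0 + 1 + 1)) t0 k (pR k) := fun k hk =>
    box_HZone hs0 hsx.le (hpR k hk).1 (hpR k hk).2
  have hbd : (n0 + 1) * (2 * a + 4) + 2 * (n0 + 1 + 1) ≤ (a + 2) * (2 * (n0 + 1 + 1)) := by
    have e1 : (a + 2) * (2 * (n0 + 1 + 1)) = (n0 + 1 + 1) * (2 * a + 4) := by ring
    have e2 : (n0 + 1 + 1) * (2 * a + 4) = (n0 + 1) * (2 * a + 4) + (2 * a + 4) := by ring
    omega
  have hL := HLite_of_HZone hsx hzL hw1 hw3 hbd
  have hR := HLite_of_HZone hsx hzR hw1 hw3 hbd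
  have ht0 : t0 ≤ n0 := F_le t0 n0 ht
  have F : HFacts a a' b' n0 t0 w c0 (sideH n') pL pR :=
    ⟨hy0, hy1, hy, ht0, hw, hc0, hL, hR⟩
  refine ⟨F, ?_⟩
  obtain ⟨Z, Q, z1, z2, z3, z4, z5, z6, z7, z8⟩ := hard1_strip_lists F hzL hzR hw1 hw2
  refine ⟨Z, Q, z1, z2, z3, z4, ?_, ?_, z6, ?_⟩
  · have h1 := D.a1
    have h2 := D.a2
    rw [D.w1] at h1
    rw [D.w2] at h2
    omega
  · rw [hx]
    exact z5
  · intro cA cQ cZ h1 h2 h3
    unfold XF at h1 ⊢
    rw [D.w2] at h1
    rw [D.w1]
    exact z7 _ _ _ h1 h2 h3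

/-- **The window of the hard parent, by step lists.** -/
theorem XF_hard1_step {n n' n0 a a' b' t0 w z : ℕ} (D : XFHard n n' n0 a a' b')
    (hz1 : zH a w n0 ≤ z + boxH (sideH n) (2 * (n0 + 1 + 1)) t0 n0)
    (hz2 : z ≤ zH a w n0 + boxH (sideH n) (2 * (n0 + 1 + 1)) t0 n0) :
    ∃ K v, ∃ pL pR : ℕ → ℕ,
      ((pR = hiH (sideH n) (2 * (n0 + 1 + 1)) t0 ∧
        pL = stepL (loH (sideH n) (2 * (n0 + 1 + 1)) t0) (hiH (sideH n) (2 * (n0 + 1 + 1)) t0) K v) ∨
       (pL = hiH (sideH n) (2 * (n0 + 1 + 1)) t0 ∧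
        pR = stepL (loH (sideH n) (2 * (n0 + 1 + 1)) t0) (hiH (sideH n) (2 * (n0 + 1 + 1)) t0) K v)) ∧
      (∀ k, k < n0 → loH (sideH n) (2 * (n0 + 1 + 1)) t0 k ≤ pL k ∧
        pL k ≤ hiH (sideH n) (2 * (n0 + 1 + 1)) t0 k) ∧
      (∀ k, k < n0 → loH (sideH n) (2 * (n0 + 1 + 1)) t0 k ≤ pR k ∧
        pR k ≤ hiH (sideH n) (2 * (n0 + 1 + 1)) t0 k) ∧
      z + ∑ k ∈ range n0, pR k = ∑ k ∈ range n0, pL k + zH a w n0 := by
  have hx := D.hx
  have hd := D.hd
  have hy0 := D.hy0
  have hs0 : 0 < 2 * (n0 + 1 + 1) := by omega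
  have hsx : 2 * (n0 + 1 + 1) ≤ sideH n := by omega
  obtain ⟨lo, hlo⟩ : ∃ lo, lo = loH (sideH n) (2 * (n0 + 1 + 1)) t0 := ⟨_, rfl⟩
  obtain ⟨hi, hhi⟩ : ∃ hi, hi = hiH (sideH n) (2 * (n0 + 1 + 1)) t0 := ⟨_, rfl⟩
  have hbox : ∀ k, k < n0 → lo k ≤ hi k := fun k _ => by
    rw [hlo, hhi]
    exact loH_le_hiH hs0 hsx k
  have hsumW : boxH (sideH n) (2 * (n0 + 1 + 1)) t0 n0 + ∑ k ∈ range n0, lo k =
      ∑ k ∈ range n0, hi k := by
    unfold boxH
    rw [← sum_add_distrib]
    apply sum_congr rfl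
    intro k hk
    have := hbox k (mem_range.1 hk)
    rw [← hlo, ← hhi]
    omega
  rw [← hlo, ← hhi]
  by_cases c : z ≤ zH a w n0
  · obtain ⟨K, v, h3, h4⟩ := exists_step lo hi n0 hbox (∑ k ∈ range n0, hi k + z - zH a w n0) (by omega)
      (by omega)
    exact ⟨K, v, stepL lo hi K v, hi, Or.inl ⟨rfl, rfl⟩, h3, fun k hk => ⟨hbox k hk, le_rfl⟩, by omega⟩
  · obtain ⟨K, v, h3, h4⟩ := exists_step lo hi n0 hbox (∑ k ∈ range n0, hi k + zH a w n0 - z) (by omega)
      (by omega)
    exact ⟨K, v, hi, stepL lo hi K v, Or.inr ⟨rfl, rfl⟩, fun k hk => ⟨hbox k hk, le_rfl⟩, h3, by omega⟩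

/-- **The strip of the hard `XF n` with child `XF n'`**: every `|Z|` in the window. -/
theorem XF_hard1_strip {n n' n0 a a' b' t0 w c0 z : ℕ} (D : XFHard n n' n0 a a' b')
    (hA : sideH n' ≤ (a' + 1) * (2 * (n0 + 1 + 1)))
    (ht : t0 = min n0 ((a' + 1) * (2 * (n0 + 1 + 1)) / sideH n' - 1)) (hw : w = a' + t0 + 2)
    (hc0 : c0 = if w < a + 2 then a + 2 else a + 3)
    (hz1 : zH a w n0 ≤ z + boxH (sideH n) (2 * (n0 + 1 + 1)) t0 n0)
    (hz2 : z ≤ zH a w n0 + boxH (sideH n) (2 * (n0 + 1 + 1)) t0 n0) :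
    ∃ Z Q : YoungDiagram, Z.card = z ∧ n' + Q.card + z = n ∧
      CorE ((2 * (n0 + 1 + 1) : ℕ) : ℚ) ((sideH n : ℚ) / ((2 * (n0 + 1 + 1) : ℕ) : ℚ)) 1 Z ∧
      CorE ((2 * (n0 + 1 + 1) : ℕ) : ℚ) ((sideH n' : ℚ) / ((2 * (n0 + 1 + 1) : ℕ) : ℚ)) 1 Q.transpose ∧
      ∀ cA cQ cZ : YoungDiagram, TT (XF n') cA → TT Q cQ → TT Z cZ →
        TT (XF n) (addD (addD cA cQ) cZ) := by
  obtain ⟨K, v, pL, pR, -, h1, h2, h3⟩ := XF_hard1_step D hz1 hz2
  obtain ⟨-, Z, Q, -, -, -, z4, z5, z6, z7, z8⟩ := XF_hard1_lists D hA ht hw hc0 h1 h2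
  have e : Z.card = z := by omega
  exact ⟨Z, Q, e, by omega, z6, z7, z8⟩

end Crest.Agent.Lib.Saxl
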