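import Crest.Agent.Lib.Saxl.Defs

/-!
# Saxl foundation: James submodule theorem, irreducibility, non-isomorphism of Specht modules
-/

set_option autoImplicit false
set_option linter.unusedSectionVars false

namespace Crest.Agent.Lib.Saxl

open Equiv Finset

variable {L : Type} [Fintype L] [DecidableEq L]

/-! ### The trivial intersection of rows and columns -/

section general
variable {D : Finset (ℕ × ℕ)}

lemma eq_one_of_mem_colGroup_of_act_eq (t : D ≃ L) {σ : Perm L} (h : σ ∈ colGroup t)
    (h2 : act σ (rw t) = rw t) : σ = 1 := by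
  rw [mem_colGroup] at h
  have key : ∀ i, σ⁻¹ i = i := by
    intro i
    have h3 : rw t (σ⁻¹ i) = rw t i := congrFun h2 i
    have h4 : cl t (σ⁻¹ i) = cl t i := by
      have := h (σ⁻¹ i); simp at this; exact this.symm
    apply t.symm.injective
    apply Subtype.ext
    exact Prod.ext h3 h4
  ext i
  have := key (σ i)
  simp at this
  simp [← this]

lemma poly_apply_rw (t : D ≃ L) : poly t (rw t) = 1 := by
  unfold poly
  rw [Finsupp.finsetSum_apply]
  rw [Finset.sum_eq_single (1 : Perm L)]
  · simp
  · intro σ hσ hne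
    rw [Finsupp.smul_apply, Finsupp.single_apply, if_neg]
    · simp
    · intro h2
      exact hne (eq_one_of_mem_colGroup_of_act_eq t hσ h2)
  · intro h
    exact absurd (one_mem_colGroup t) h

lemma poly_ne_zero (t : D ≃ L) : poly t ≠ 0 := by
  intro h
  have := poly_apply_rw t
  rw [h] at this
  simp at this

lemma colGroup_card_ne_zero (t : D ≃ L) : ((colGroup t).card : ℂ) ≠ 0 := by
  have : (colGroup t).Nonempty := ⟨1, one_mem_colGroup t⟩
  exact_mod_cast (Finset.card_pos.2 this).ne'

/-- Injectivity of a word on the columns of a tableau. -/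
def ColInj (t : D ≃ L) (w : Word L) : Prop := ∀ a b, cl t a = cl t b → w a = w b → a = b

lemma kap_single_eq_zero (t : D ≃ L) (w : Word L) (h : ¬ ColInj t w) :
    kap t (Finsupp.single w 1) = 0 := by
  unfold ColInj at h
  push Not at h
  obtain ⟨a, b, hc, hw, hab⟩ := h
  have hτ : swap a b ∈ colGroup t := by
    rw [mem_colGroup]
    intro i
    by_cases h1 : i = a
    · subst h1; simp [hc]
    · by_cases h2 : i = b
      · subst h2; simp [hc]
      · rw [swap_apply_of_ne_of_ne h1 h2]
  have hact : act (swap a b) w = w := by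
    funext i
    show w ((swap a b).symm i) = w i
    rw [symm_swap]
    by_cases h1 : i = a
    · subst h1; simp [hw]
    · by_cases h2 : i = b
      · subst h2; simp [hw]
      · rw [swap_apply_of_ne_of_ne h1 h2]
  have h1 := kap_rep t hτ (Finsupp.single w 1)
  rw [rep_single, hact, sg_swap hab] at h1
  have h2 : (2 : ℂ) • kap t (Finsupp.single w 1) = 0 := by
    rw [two_smul]
    nth_rewrite 1 [h1]
    simp
  have h3 := smul_eq_zero.1 h2
  rcases h3 with h3 | h3
  · norm_num at h3
  · exact h3

end general

/-! ### Young diagrams -/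

variable {μ : YoungDiagram}

/-- Content of a word. -/
def HasContent (μ : YoungDiagram) (w : Word L) : Prop :=
  ∀ i, (Finset.univ.filter fun x => w x = i).card = μ.rowLen i

lemma card_lt_eq_sum (w : Word L) (k : ℕ) :
    (Finset.univ.filter fun x => w x < k).card =
      ∑ i ∈ Finset.range k, (Finset.univ.filter fun x => w x = i).card := by
  rw [Finset.card_eq_sum_card_fiberwise (f := w) (t := Finset.range k)]
  · refine Finset.sum_congr rfl fun i hi => ?_
    congr 1
    ext x
    simp only [Finset.mem_filter, Finset.mem_univ, true_and, Finset.mem_range] at *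
    constructor
    · exact fun h => h.2
    · intro h; exact ⟨h ▸ hi, h⟩
  · intro x hx
    simpa using hx

lemma cells_card_lt_eq_sum (μ : YoungDiagram) (k : ℕ) :
    (μ.cells.filter fun c => c.1 < k).card = ∑ i ∈ Finset.range k, μ.rowLen i := by
  rw [Finset.card_eq_sum_card_fiberwise (f := Prod.fst) (t := Finset.range k)]
  · refine Finset.sum_congr rfl fun i hi => ?_
    rw [YoungDiagram.rowLen_eq_card]
    congr 1
    ext c
    simp only [Finset.mem_filter, YoungDiagram.row, Finset.mem_range] at *
    constructor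
    · rintro ⟨⟨h1, _⟩, h3⟩; exact ⟨h1, h3⟩
    · rintro ⟨h1, h3⟩; exact ⟨⟨h1, h3 ▸ hi⟩, h3⟩
  · intro c hc
    simp only [Finset.coe_filter, Set.mem_ofPred_eq] at hc
    simpa using hc.2

lemma HasContent.card_lt {w : Word L} (h : HasContent μ w) (k : ℕ) :
    (Finset.univ.filter fun x => w x < k).card = (μ.cells.filter fun c => c.1 < k).card := by
  rw [card_lt_eq_sum, cells_card_lt_eq_sum]
  exact Finset.sum_congr rfl fun i _ => h i

section tableau
variable (t : μ.cells ≃ L)

lemma cell_mem (x : L) : (rw t x, cl t x) ∈ μ.cells := by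
  have : (t.symm x).1 ∈ μ.cells := (t.symm x).2
  exact this

lemma rw_lt_colLen (x : L) : rw t x < μ.colLen (cl t x) := by
  have := cell_mem t x
  exact YoungDiagram.mem_iff_lt_colLen.1 ((YoungDiagram.mem_cells _).1 this)

lemma col_card_le (j : ℕ) : (Finset.univ.filter fun x => cl t x = j).card ≤ μ.colLen j := by
  have : (Finset.univ.filter fun x => cl t x = j).card ≤ (Finset.range (μ.colLen j)).card := by
    refine Finset.card_le_card_of_injOn (rw t) ?_ ?_
    · intro x hx
      simp only [Finset.coe_filter, Finset.mem_univ, true_and, Set.mem_ofPred_eq] at hx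
      simp only [Finset.coe_range, Set.mem_Iio]
      rw [← hx]
      exact rw_lt_colLen t x
    · intro x hx y hy hxy
      simp only [Finset.coe_filter, Finset.mem_univ, true_and, Set.mem_ofPred_eq] at hx hy
      apply t.symm.injective
      apply Subtype.ext
      exact Prod.ext hxy (hx.trans hy.symm)
  simpa using this

lemma cells_col_lt_card (j k : ℕ) :
    (μ.cells.filter fun c => c.2 = j ∧ c.1 < k).card = min k (μ.colLen j) := by
  have : μ.cells.filter (fun c => c.2 = j ∧ c.1 < k) =
      (Finset.range (min k (μ.colLen j))) ×ˢ {j} := by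
    ext ⟨a, b⟩
    simp only [Finset.mem_filter, Finset.mem_product, Finset.mem_range, Finset.mem_singleton,
      lt_min_iff]
    constructor
    · rintro ⟨h1, h2, h3⟩
      refine ⟨⟨h3, ?_⟩, h2⟩
      subst h2
      exact YoungDiagram.mem_iff_lt_colLen.1 ((YoungDiagram.mem_cells _).1 h1)
    · rintro ⟨⟨h1, h2⟩, h3⟩
      subst h3
      exact ⟨(YoungDiagram.mem_cells _).2 (YoungDiagram.mem_iff_lt_colLen.2 h2), rfl, h1⟩
  rw [this]
  simp

variable {t}

lemma ColInj.fibre_le {w : Word L} (h : ColInj t w) (j k : ℕ) :
    (Finset.univ.filter fun x => cl t x = j ∧ w x < k).card ≤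
      (μ.cells.filter fun c => c.2 = j ∧ c.1 < k).card := by
  rw [cells_col_lt_card j k]
  apply le_min
  · have : (Finset.univ.filter fun x => cl t x = j ∧ w x < k).card ≤ (Finset.range k).card := by
      refine Finset.card_le_card_of_injOn w ?_ ?_
      · intro x hx
        simp only [Finset.coe_filter, Finset.mem_univ, true_and, Set.mem_ofPred_eq] at hx
        simpa using hx.2
      · intro x hx y hy hxy
        simp only [Finset.coe_filter, Finset.mem_univ, true_and, Set.mem_ofPred_eq] at hx hy
        exact h x y (hx.1.trans hy.1.symm) hxy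
    simpa using this
  · refine le_trans ?_ (col_card_le t j)
    apply Finset.card_le_card
    intro x hx
    simp only [Finset.mem_filter, Finset.mem_univ, true_and] at hx ⊢
    exact hx.1

lemma sum_fibre_left (w : Word L) (k : ℕ) :
    ∑ j ∈ μ.cells.image Prod.snd, (Finset.univ.filter fun x => cl t x = j ∧ w x < k).card =
      (Finset.univ.filter fun x => w x < k).card := by
  rw [Finset.card_eq_sum_card_fiberwise (s := Finset.univ.filter fun x => w x < k)
    (f := cl t) (t := μ.cells.image Prod.snd)]
  · refine Finset.sum_congr rfl fun j _ => ?_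
    congr 1
    ext x
    simp only [Finset.mem_filter, Finset.mem_univ, true_and]
    tauto
  · intro x _
    simp only [Finset.coe_image, Set.mem_image, Finset.mem_coe]
    exact ⟨_, cell_mem t x, rfl⟩

lemma sum_fibre_right (k : ℕ) :
    ∑ j ∈ μ.cells.image Prod.snd, (μ.cells.filter fun c => c.2 = j ∧ c.1 < k).card =
      (μ.cells.filter fun c => c.1 < k).card := by
  rw [Finset.card_eq_sum_card_fiberwise (s := μ.cells.filter fun c => c.1 < k)
    (f := Prod.snd) (t := μ.cells.image Prod.snd)]
  · refine Finset.sum_congr rfl fun j _ => ?_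
    congr 1
    ext c
    simp only [Finset.mem_filter]
    tauto
  · intro c hc
    simp only [Finset.coe_filter, Set.mem_ofPred_eq] at hc
    simp only [Finset.coe_image, Set.mem_image, Finset.mem_coe]
    exact ⟨c, hc.1, rfl⟩

lemma ColInj.card_lt_le {w : Word L} (h : ColInj t w) (k : ℕ) :
    (Finset.univ.filter fun x => w x < k).card ≤ (μ.cells.filter fun c => c.1 < k).card := by
  rw [← sum_fibre_left (t := t) w k, ← sum_fibre_right k]
  exact Finset.sum_le_sum fun j _ => h.fibre_le j k

lemma ColInj.lt_colLen {w : Word L} (h : ColInj t w) (hc : HasContent μ w) (x : L) :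
    w x < μ.colLen (cl t x) := by
  by_contra hlt
  push Not at hlt
  set j := cl t x with hj
  set k := μ.colLen j with hk
  have heq : ∑ j ∈ μ.cells.image Prod.snd, (Finset.univ.filter fun x => cl t x = j ∧ w x < k).card
      = ∑ j ∈ μ.cells.image Prod.snd, (μ.cells.filter fun c => c.2 = j ∧ c.1 < k).card := by
    rw [sum_fibre_left, sum_fibre_right]
    exact hc.card_lt k
  have hle : ∀ j ∈ μ.cells.image Prod.snd,
      (Finset.univ.filter fun x => cl t x = j ∧ w x < k).card ≤
        (μ.cells.filter fun c => c.2 = j ∧ c.1 < k).card := fun j _ => h.fibre_le j k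
  have hall := (Finset.sum_eq_sum_iff_of_le hle).1 heq
  have hjm : j ∈ μ.cells.image Prod.snd :=
    Finset.mem_image.2 ⟨_, cell_mem t x, rfl⟩
  have h1 := hall j hjm
  rw [cells_col_lt_card j k, ← hk, min_self] at h1
  have h2 : (Finset.univ.filter fun y => cl t y = j ∧ w y < k) ⊂
      (Finset.univ.filter fun y => cl t y = j) := by
    refine Finset.ssubset_iff_of_subset (fun y hy => ?_) |>.2 ⟨x, ?_, ?_⟩
    · simp only [Finset.mem_filter, Finset.mem_univ, true_and] at hy ⊢
      exact hy.1
    · simp [hj]
    · simp only [Finset.mem_filter, Finset.mem_univ, true_and, not_and, not_lt]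
      intro _; exact hlt
  have h3 := Finset.card_lt_card h2
  have h4 := col_card_le t j
  omega

/-- A column-injective word of the right content is a column-rearrangement of the row word. -/
lemma ColInj.exists_colGroup {w : Word L} (h : ColInj t w) (hc : HasContent μ w) :
    ∃ σ ∈ colGroup t, act σ (rw t) = w := by
  have hmem : ∀ x, (w x, cl t x) ∈ μ.cells := fun x =>
    (YoungDiagram.mem_cells _).2 (YoungDiagram.mem_iff_lt_colLen.2 (h.lt_colLen hc x))
  let f : L → L := fun x => t ⟨(w x, cl t x), hmem x⟩
  have finj : Function.Injective f := by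
    intro x y hxy
    have := t.injective hxy
    have h2 := congrArg Subtype.val this
    simp only [Prod.mk.injEq] at h2
    exact h x y h2.2 h2.1
  have fbij := Finite.injective_iff_bijective.1 finj
  let τ : Perm L := Equiv.ofBijective f fbij
  have hτ : ∀ x, τ x = f x := fun x => rfl
  have hcl : ∀ x, cl t (τ x) = cl t x := by
    intro x
    show (t.symm (t _)).1.2 = _
    simp
  have hrw : ∀ x, rw t (τ x) = w x := by
    intro x
    show (t.symm (t _)).1.1 = _
    simp
  refine ⟨τ⁻¹, ?_, ?_⟩
  · rw [mem_colGroup]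
    intro i
    have := hcl (τ⁻¹ i)
    simp at this
    exact this.symm
  · funext x
    show rw t ((τ⁻¹).symm x) = w x
    have : (τ⁻¹).symm x = τ x := rfl
    rw [this, hrw]

lemma kap_single_of_content {w : Word L} (t : μ.cells ≃ L) (hc : HasContent μ w) :
    ∃ c : ℂ, kap t (Finsupp.single w 1) = c • poly t := by
  by_cases h : ColInj t w
  · obtain ⟨σ, hσ, rfl⟩ := h.exists_colGroup hc
    refine ⟨sg σ, ?_⟩
    rw [← rep_single, kap_rep t hσ, ← poly_eq_kap]
  · exact ⟨0, by simp [kap_single_eq_zero t w h]⟩

end tableau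

lemma hasContent_rw (t : μ.cells ≃ L) : HasContent μ (rw t) := by
  intro i
  rw [YoungDiagram.rowLen_eq_card]
  refine Finset.card_bij (fun x _ => (t.symm x).1) ?_ ?_ ?_
  · intro x hx
    simp only [Finset.mem_filter, Finset.mem_univ, true_and] at hx
    exact YoungDiagram.mem_row_iff.2 ⟨(YoungDiagram.mem_cells _).1 (t.symm x).2, hx⟩
  · intro x _ y _ hxy
    exact t.symm.injective (Subtype.ext hxy)
  · intro c hc
    have h := YoungDiagram.mem_row_iff.1 hc
    refine ⟨t ⟨c, (YoungDiagram.mem_cells _).2 h.1⟩, ?_, ?_⟩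
    · simp only [Finset.mem_filter, Finset.mem_univ, true_and]
      show (t.symm (t _)).1.1 = i
      simpa using h.2
    · simp

lemma HasContent.act {w : Word L} (h : HasContent μ w) (σ : Perm L) : HasContent μ (act σ w) := by
  intro i
  rw [← h i]
  refine Finset.card_bij (fun x _ => σ⁻¹ x) ?_ ?_ ?_
  · intro x hx
    simp only [Finset.mem_filter, Finset.mem_univ, true_and] at hx ⊢
    exact hx
  · intro x _ y _ hxy
    exact σ⁻¹.injective hxy
  · intro y hy
    refine ⟨σ y, ?_, by simp⟩
    simp only [Finset.mem_filter, Finset.mem_univ, true_and] at hy ⊢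
    show w (σ.symm (σ y)) = i
    simpa using hy

/-- Everything in `Sp μ` is supported on words of content `μ`. -/
lemma content_of_mem_Sp {x : Mod L} (hx : x ∈ Sp μ.cells L) {w : Word L} (hw : x w ≠ 0) :
    HasContent μ w := by
  induction hx using Submodule.span_induction generalizing w with
  | mem x h =>
    obtain ⟨t, rfl⟩ := h
    simp only [poly, Finsupp.finsetSum_apply] at hw
    obtain ⟨σ, _, hσ⟩ := Finset.exists_ne_zero_of_sum_ne_zero hw
    rw [Finsupp.smul_apply, Finsupp.single_apply] at hσ
    split_ifs at hσ with he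
    · rw [← he]
      exact (hasContent_rw t).act σ
    · simp at hσ
  | zero => simp at hw
  | add x y _ _ hx hy =>
    rw [Finsupp.add_apply] at hw
    by_cases h0 : x w = 0
    · rw [h0, zero_add] at hw; exact hy hw
    · exact hx h0
  | smul a x _ hx =>
    rw [Finsupp.smul_apply] at hw
    apply hx
    intro h0
    simp [h0] at hw

lemma kap_eq_sum {D : Finset (ℕ × ℕ)} (t : D ≃ L) (x : Mod L) :
    kap t x = ∑ w ∈ x.support, x w • kap t (Finsupp.single w 1) := by
  conv_lhs => rw [← Finsupp.sum_single x]
  rw [Finsupp.sum, map_sum]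
  refine Finset.sum_congr rfl fun w _ => ?_
  rw [← map_smul]
  congr 1
  simp

lemma kap_of_mem_Sp (t : μ.cells ≃ L) {x : Mod L} (hx : x ∈ Sp μ.cells L) :
    ∃ c : ℂ, kap t x = c • poly t := by
  rw [kap_eq_sum]
  refine Finset.sum_induction _ (fun y => ∃ c : ℂ, y = c • poly t) ?_ ⟨0, by simp⟩ ?_
  · rintro a b ⟨c, rfl⟩ ⟨d, rfl⟩
    exact ⟨c + d, by rw [add_smul]⟩
  · intro w hw
    obtain ⟨c, hc⟩ := kap_single_of_content (w := w) t
      (content_of_mem_Sp hx (Finsupp.mem_support_iff.1 hw))
    exact ⟨x w * c, by rw [hc, smul_smul]⟩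

/-- **James' submodule theorem** in the form we need: Specht modules have no proper nonzero
invariant subspaces. -/
theorem invariant_eq (U : Submodule ℂ (Mod L)) (hU : U ≤ Sp μ.cells L)
    (hinv : ∀ g : Perm L, ∀ x ∈ U, rep L g x ∈ U) : U = ⊥ ∨ U = Sp μ.cells L := by
  by_cases h : U = ⊥
  · exact Or.inl h
  right
  obtain ⟨u, hu, hu0⟩ := (Submodule.ne_bot_iff U).1 h
  have hex : ∃ t : μ.cells ≃ L, kap t u ≠ 0 := by
    by_contra hall
    push Not at hall
    apply hu0
    apply eq_zero_of_B_poly (hU hu)
    intro t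
    rw [poly_eq_kap, ← B_kap, hall t]
    simp
  obtain ⟨t, ht⟩ := hex
  obtain ⟨c, hc⟩ := kap_of_mem_Sp t (hU hu)
  have hc0 : c ≠ 0 := by
    rintro rfl
    simp [hc] at ht
  have hkap : kap t u ∈ U := by
    rw [kap_apply]
    exact Submodule.sum_mem _ fun σ _ => Submodule.smul_mem _ _ (hinv σ u hu)
  have hpt : poly t ∈ U := by
    have := Submodule.smul_mem U c⁻¹ hkap
    rwa [hc, smul_smul, inv_mul_cancel₀ hc0, one_smul] at this
  apply le_antisymm hU
  rw [Sp, Submodule.span_le]
  rintro _ ⟨t', rfl⟩
  have : t' = t.trans (t.symm.trans t') := by ext; simp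
  simp only
  rw [this, ← rep_poly]
  exact hinv _ _ hpt

/-! ### Dominance -/

/-- Counting consequence of a nonzero column-alternating vector. -/
lemma dominance_of_kap {ν : YoungDiagram} (t : ν.cells ≃ L) {u : Mod L}
    (hu : u ∈ Sp μ.cells L) (h : kap t u ≠ 0) (k : ℕ) :
    (μ.cells.filter fun c => c.1 < k).card ≤ (ν.cells.filter fun c => c.1 < k).card := by
  -- find a word in the support with nonzero kap
  have : ∃ w ∈ u.support, kap t (Finsupp.single w 1) ≠ 0 := by
    by_contra hall
    push Not at hall
    apply h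
    rw [kap_eq_sum t u]
    exact Finset.sum_eq_zero fun w hw => by rw [hall w hw]; simp
  obtain ⟨w, hw, hk⟩ := this
  have hcw : HasContent μ w := content_of_mem_Sp hu (Finsupp.mem_support_iff.1 hw)
  have hinj : ColInj t w := by
    by_contra hn
    exact hk (kap_single_eq_zero t w hn)
  rw [← hcw.card_lt k]
  exact hinj.card_lt_le k

end Crest.Agent.Lib.Saxl
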