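import Crest.Agent.Lib.Saxl.Rows

/-!
# Saxl foundation: the word calculus

A shape is encoded by its boundary word, a `List Bool` with `true = E` (a column) and
`false = N` (a row).  Every `N` gives a row whose length is the number of `E`'s before it, so
`(EN)^m` is the staircase `(m, m-1, ..., 1)`; leading `N`'s and trailing `E`'s are invisible.

* `rowsW w` : the rows, non-increasing (`srt_rowsW`), `shape w = yd (rowsW w)`;
* `flipW w` : reverse and swap the letters, `shape (flipW w) = (shape w).transpose`;
* tagged words `List (Bool × Bool)`: `keepE b` keeps all `N` and the `E` with tag `b`,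
  `keepN b` keeps all `E` and the `N` with tag `b`; then
  `addD (shape (keepE true t)) (shape (keepE false t)) = shape (letters t)` (`addD_keepE`) and
  `unionD (shape (keepN true t)) (shape (keepN false t)) = shape (letters t)` (`unionD_keepN`);
* quadruply tagged words give the grids `X = (P₁ + P₂) ∪ (P₃ + P₄)`.

Everything is computable, so explicit instances can be checked by the kernel, and general
statements follow by list induction.
-/

set_option autoImplicit false
set_option linter.unusedSectionVars false

namespace Crest.Agent.Lib.Saxl

/-- Rows of a word, with `k` columns already passed. -/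
def rowsAux : List Bool → ℕ → List ℕ
  | [], _ => []
  | true :: t, k => rowsAux t (k + 1)
  | false :: t, k => rowsAux t k ++ [k]

/-- The rows of the shape of a word, longest first. -/
def rowsW (w : List Bool) : List ℕ := rowsAux w 0

/-- The number of `E` letters. -/
def nE (w : List Bool) : ℕ := w.count true

/-- The number of `N` letters. -/
def nN (w : List Bool) : ℕ := w.count false

/-- The shape of a word. -/
noncomputable def shape (w : List Bool) : YoungDiagram := yd (rowsW w)

lemma rowsAux_length (w : List Bool) (k : ℕ) : (rowsAux w k).length = nN w := by
  induction w generalizing k with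
  | nil => rfl
  | cons b t ih =>
    cases b with
    | true => simp [rowsAux, ih, nN]
    | false => simp [rowsAux, ih, nN]

lemma rowsAux_shift (w : List Bool) (k m : ℕ) :
    rowsAux w (k + m) = (rowsAux w k).map (· + m) := by
  induction w generalizing k with
  | nil => rfl
  | cons b t ih =>
    cases b with
    | true =>
      simp only [rowsAux]
      rw [show k + m + 1 = (k + 1) + m by omega]
      exact ih (k + 1)
    | false =>
      simp only [rowsAux, List.map_append, List.map_cons, List.map_nil]
      rw [ih k]

lemma rowsW_cons_true (t : List Bool) : rowsW (true :: t) = (rowsW t).map (· + 1) := by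
  show rowsAux t (0 + 1) = _
  rw [rowsAux_shift]; rfl

lemma rowsW_cons_false (t : List Bool) : rowsW (false :: t) = rowsW t ++ [0] := rfl

lemma rowsAux_append_false (w : List Bool) (k : ℕ) :
    rowsAux (w ++ [false]) k = (k + nE w) :: rowsAux w k := by
  induction w generalizing k with
  | nil => simp [rowsAux, nE]
  | cons b t ih =>
    cases b with
    | true =>
      simp only [List.cons_append, rowsAux, ih, nE, List.count_cons]
      simp
      omega
    | false =>
      simp only [List.cons_append, rowsAux, ih, nE, List.count_cons]
      simp

lemma rowsAux_append_true (w : List Bool) (k : ℕ) :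
    rowsAux (w ++ [true]) k = rowsAux w k := by
  induction w generalizing k with
  | nil => rfl
  | cons b t ih =>
    cases b with
    | true => simp only [List.cons_append, rowsAux, ih]
    | false => simp only [List.cons_append, rowsAux, ih]

lemma rowsW_append_false (w : List Bool) : rowsW (w ++ [false]) = nE w :: rowsW w := by
  simpa [rowsW] using rowsAux_append_false w 0

lemma rowsW_append_true (w : List Bool) : rowsW (w ++ [true]) = rowsW w :=
  rowsAux_append_true w 0

lemma le_nE_of_mem_rowsW {w : List Bool} {x : ℕ} (h : x ∈ rowsW w) : x ≤ nE w := by
  induction w using List.reverseRecOn generalizing x with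
  | nil => simp [rowsW, rowsAux] at h
  | append_singleton t b ih =>
    cases b with
    | true =>
      rw [rowsW_append_true] at h
      have := ih h
      simp [nE, List.count_append] at this ⊢
      omega
    | false =>
      rw [rowsW_append_false] at h
      rcases List.mem_cons.1 h with rfl | h
      · simp [nE, List.count_append]
      · have := ih h
        simp [nE, List.count_append] at this ⊢
        omega

lemma srt_rowsW (w : List Bool) : srt (rowsW w) = true := by
  induction w using List.reverseRecOn with
  | nil => rfl
  | append_singleton t b ih =>
    cases b with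
    | true => rw [rowsW_append_true]; exact ih
    | false =>
      rw [rowsW_append_false]
      cases hr : rowsW t with
      | nil => rfl
      | cons y l =>
        rw [srt_cons_cons, Bool.and_eq_true]
        refine ⟨Nat.ble_eq_true_of_le (le_nE_of_mem_rowsW (by rw [hr]; simp)), ?_⟩
        rw [← hr]; exact ih

lemma rowLen_shape (w : List Bool) (i : ℕ) : (shape w).rowLen i = (rowsW w).getD i 0 :=
  rowLen_yd (srt_rowsW w) i

lemma colLen_shape (w : List Bool) (j : ℕ) :
    (shape w).colLen j = (rowsW w).countP (fun x => Nat.blt j x) :=
  colLen_yd (srt_rowsW w) j

/-- The area of a word, the number of pairs (`E` before `N`). -/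
def area (w : List Bool) : ℕ := (rowsW w).sum

lemma card_shape (w : List Bool) : (shape w).card = area w := card_yd (srt_rowsW w)

/-! ### Conjugation -/

/-- Reverse and swap the letters. -/
def flipW (w : List Bool) : List Bool := (w.map not).reverse

lemma flipW_cons (b : Bool) (t : List Bool) : flipW (b :: t) = flipW t ++ [!b] := by
  simp [flipW]

lemma flipW_flipW (w : List Bool) : flipW (flipW w) = w := by
  simp [flipW, List.map_reverse, Function.comp_def]

lemma nE_flipW (w : List Bool) : nE (flipW w) = nN w := by
  induction w with
  | nil => rfl
  | cons b t ih =>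
    rw [flipW_cons]
    cases b <;> simp [nE, nN, List.count_append] at ih ⊢ <;> omega

lemma getD_rowsW_flipW (w : List Bool) (j : ℕ) :
    (rowsW (flipW w)).getD j 0 = (rowsW w).countP (fun x => Nat.blt j x) := by
  induction w generalizing j with
  | nil => simp [flipW, rowsW, rowsAux]
  | cons b t ih =>
    rw [flipW_cons]
    cases b with
    | true =>
      rw [show (!true) = false from rfl, rowsW_append_false, rowsW_cons_true, nE_flipW,
        List.countP_map]
      cases j with
      | zero =>
        simp only [List.getD_cons_zero]
        have : (rowsW t).countP ((fun x => Nat.blt 0 x) ∘ (· + 1)) = (rowsW t).length := by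
          rw [List.countP_eq_length]
          intro x _
          simp [Nat.blt]
        rw [this, rowsW, rowsAux_length]
      | succ j =>
        simp only [List.getD_cons_succ]
        rw [ih j]
        congr 1
    | false =>
      rw [show (!false) = true from rfl, rowsW_append_true, rowsW_cons_false, ih j,
        List.countP_append]
      simp [Nat.blt]

/-- The flipped word has the conjugate shape. -/
theorem shape_flipW (w : List Bool) : shape (flipW w) = (shape w).transpose := by
  apply ext_rowLen
  intro i
  rw [rowLen_shape, YoungDiagram.rowLen_transpose, colLen_shape, getD_rowsW_flipW]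

/-! ### Rows add -/

lemma getD_append_single_left {l : List ℕ} {a : ℕ} {i : ℕ} (h : i < l.length) :
    (l ++ [a]).getD i 0 = l.getD i 0 := by
  simp [List.getD_eq_getElem?_getD, List.getElem?_append_left h]

lemma addR_append_single {a b : List ℕ} (h : a.length = b.length) (x y : ℕ) :
    addR (a ++ [x]) (b ++ [y]) = addR a b ++ [x + y] := by
  induction a generalizing b with
  | nil =>
    cases b with
    | nil => rfl
    | cons _ _ => simp at h
  | cons u a ih =>
    cases b with
    | nil => simp at h
    | cons v b =>
      simp only [List.cons_append, addR]
      rw [ih (by simpa using h)]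

/-! ### Tagged words -/

/-- The letters of a tagged word. -/
def letters (t : List (Bool × Bool)) : List Bool := t.map Prod.fst

/-- Keep all `N` letters and the `E` letters with tag `b`. -/
def keepE (b : Bool) (t : List (Bool × Bool)) : List Bool :=
  (t.filter (fun x => !x.1 || x.2 == b)).map Prod.fst

/-- Keep all `E` letters and the `N` letters with tag `b`. -/
def keepN (b : Bool) (t : List (Bool × Bool)) : List Bool :=
  (t.filter (fun x => x.1 || x.2 == b)).map Prod.fst

lemma keepE_false_cons (b g : Bool) (t : List (Bool × Bool)) :
    keepE b ((false, g) :: t) = false :: keepE b t := by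
  simp [keepE]

lemma keepE_true_cons_same (b : Bool) (t : List (Bool × Bool)) :
    keepE b ((true, b) :: t) = true :: keepE b t := by
  simp [keepE]

lemma keepE_true_cons_ne (b : Bool) (t : List (Bool × Bool)) :
    keepE b ((true, !b) :: t) = keepE b t := by
  cases b <;> simp [keepE]

lemma nN_keepE (b : Bool) (t : List (Bool × Bool)) : nN (keepE b t) = nN (letters t) := by
  induction t with
  | nil => rfl
  | cons y t ih =>
    obtain ⟨l, g⟩ := y
    cases l
    · rw [keepE_false_cons]
      simpa [nN, letters, List.count_cons] using ih
    · by_cases h : g = b
      · subst h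
        rw [keepE_true_cons_same]
        simpa [nN, letters, List.count_cons] using ih
      · have : g = !b := by cases g <;> cases b <;> simp_all
        subst this
        rw [keepE_true_cons_ne]
        simpa [nN, letters, List.count_cons] using ih

lemma rowsAux_keepE (t : List (Bool × Bool)) (a b : ℕ) :
    addR (rowsAux (keepE true t) a) (rowsAux (keepE false t) b) = rowsAux (letters t) (a + b) := by
  induction t generalizing a b with
  | nil => rfl
  | cons x t ih =>
    obtain ⟨l, g⟩ := x
    cases l with
    | false =>
      rw [keepE_false_cons, keepE_false_cons]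
      show addR (rowsAux (keepE true t) a ++ [a]) (rowsAux (keepE false t) b ++ [b]) =
        rowsAux (letters t) (a + b) ++ [a + b]
      rw [addR_append_single (by rw [rowsAux_length, rowsAux_length, nN_keepE, nN_keepE]), ih]
    | true =>
      cases g with
      | true =>
        have e : keepE false ((true, true) :: t) = keepE false t := keepE_true_cons_ne false t
        rw [keepE_true_cons_same, e]
        show addR (rowsAux (keepE true t) (a + 1)) (rowsAux (keepE false t) b) =
          rowsAux (letters t) (a + b + 1)
        rw [ih, show a + 1 + b = a + b + 1 by omega]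
      | false =>
        have e : keepE true ((true, false) :: t) = keepE true t := keepE_true_cons_ne true t
        rw [keepE_true_cons_same, e]
        show addR (rowsAux (keepE true t) a) (rowsAux (keepE false t) (b + 1)) =
          rowsAux (letters t) (a + b + 1)
        rw [ih, show a + (b + 1) = a + b + 1 by omega]

/-- Splitting the columns of a word by a tag. -/
theorem addD_keepE (t : List (Bool × Bool)) :
    addD (shape (keepE true t)) (shape (keepE false t)) = shape (letters t) := by
  unfold shape
  rw [← yd_addR (srt_rowsW _) (srt_rowsW _)]
  congr 1
  exact rowsAux_keepE t 0 0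

/-- Swap the two letters of a tagged word, reversing. -/
def flipT (t : List (Bool × Bool)) : List (Bool × Bool) :=
  (t.map fun x => (!x.1, x.2)).reverse

lemma letters_flipT (t : List (Bool × Bool)) : letters (flipT t) = flipW (letters t) := by
  simp [flipT, letters, flipW, List.map_reverse, Function.comp_def]

lemma keepE_flipT (b : Bool) (t : List (Bool × Bool)) : keepE b (flipT t) = flipW (keepN b t) := by
  simp only [flipT, keepE, keepN, flipW, List.filter_reverse, List.map_reverse, List.filter_map,
    List.map_map]
  congr 2
  · congr 1
    funext x
    simp

/-- Splitting the rows of a word by a tag. -/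
theorem unionD_keepN (t : List (Bool × Bool)) :
    unionD (shape (keepN true t)) (shape (keepN false t)) = shape (letters t) := by
  have h := addD_keepE (flipT t)
  rw [keepE_flipT, keepE_flipT, letters_flipT, shape_flipW, shape_flipW, shape_flipW] at h
  unfold unionD
  rw [h]
  simp

/-! ### Grids `X = (P₁ + P₂) ∪ (P₃ + P₄)` -/

/-- A letter of a grid word: the letter, and two tags `(a, b)`.  For an `N` letter, `a` is the
row group.  For an `E` letter, `a` is the tag in the first group, `b` the tag in the second one. -/
abbrev GLet := Bool × Bool × Bool

/-- The letters of a grid word. -/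
def gLetters (t : List GLet) : List Bool := t.map Prod.fst

/-- Row tags. -/
def rowTag (t : List GLet) : List (Bool × Bool) := t.map fun x => (x.1, x.2.1)

/-- The word of the row group `true` with the tags of its columns. -/
def group1 (t : List GLet) : List (Bool × Bool) :=
  (t.filter fun x => x.1 || x.2.1).map fun x => (x.1, x.2.1)

/-- The word of the row group `false` with the tags of its columns. -/
def group2 (t : List GLet) : List (Bool × Bool) :=
  (t.filter fun x => x.1 || !x.2.1).map fun x => (x.1, x.2.2)

/-- The four pieces of a grid word. -/
def piece1 (t : List GLet) : List Bool := keepE true (group1 t)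
/-- The four pieces of a grid word. -/
def piece2 (t : List GLet) : List Bool := keepE false (group1 t)
/-- The four pieces of a grid word. -/
def piece3 (t : List GLet) : List Bool := keepE true (group2 t)
/-- The four pieces of a grid word. -/
def piece4 (t : List GLet) : List Bool := keepE false (group2 t)

lemma letters_group1 (t : List GLet) : letters (group1 t) = keepN true (rowTag t) := by
  simp [letters, group1, keepN, rowTag, List.filter_map, List.map_map, Function.comp_def]

lemma letters_group2 (t : List GLet) : letters (group2 t) = keepN false (rowTag t) := by
  simp [letters, group2, keepN, rowTag, List.filter_map, List.map_map, Function.comp_def]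

lemma letters_rowTag (t : List GLet) : letters (rowTag t) = gLetters t := by
  simp [letters, rowTag, gLetters, Function.comp_def]

/-- The grid identity: `X = (P₁ + P₂) ∪ (P₃ + P₄)`. -/
theorem grid_eq (t : List GLet) :
    unionD (addD (shape (piece1 t)) (shape (piece2 t))) (addD (shape (piece3 t)) (shape (piece4 t)))
      = shape (gLetters t) := by
  unfold piece1 piece2 piece3 piece4
  rw [addD_keepE, addD_keepE, letters_group1, letters_group2, unionD_keepN, letters_rowTag]

/-- The `T` relation: `Q X X c`. -/
def TT (X c : YoungDiagram) : Prop := Q X X c

/-- Semigroup rule: splitting `X` by columns and `c` by columns. -/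
theorem TT.add {X1 X2 c1 c2 : YoungDiagram} (h1 : TT X1 c1) (h2 : TT X2 c2) :
    TT (addD X1 X2) (addD c1 c2) := Q.add h1 h2

/-- Semigroup rule: splitting `X` by rows and `c` by columns. -/
theorem TT.union {X1 X2 c1 c2 : YoungDiagram} (h1 : TT X1 c1) (h2 : TT X2 c2) :
    TT (unionD X1 X2) (addD c1 c2) := Q.union12 h1 h2

/-- The flip at a self-conjugate shape. -/
theorem TT.flip {X c : YoungDiagram} (hX : X.transpose = X) (h : TT X c) : TT X c.transpose := by
  have := Q.conj23 h
  rwa [hX] at this

/-- The row leaf. -/
theorem TT.row (X : YoungDiagram) : TT X (rowD X.card) := Q.row X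

/-- Grid rule at the `T` level. -/
theorem TT.grid (t : List GLet) {c1 c2 c3 c4 : YoungDiagram}
    (h1 : TT (shape (piece1 t)) c1) (h2 : TT (shape (piece2 t)) c2)
    (h3 : TT (shape (piece3 t)) c3) (h4 : TT (shape (piece4 t)) c4) :
    TT (shape (gLetters t)) (addD (addD c1 c2) (addD c3 c4)) := by
  rw [← grid_eq]
  exact (h1.add h2).union (h3.add h4)

/-- Grid rule for pairs: both shapes are cut with the same grid type, independently. -/
theorem Q.grid (t u : List GLet) {c1 c2 c3 c4 : YoungDiagram}
    (h1 : Q (shape (piece1 t)) (shape (piece1 u)) c1)
    (h2 : Q (shape (piece2 t)) (shape (piece2 u)) c2)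
    (h3 : Q (shape (piece3 t)) (shape (piece3 u)) c3)
    (h4 : Q (shape (piece4 t)) (shape (piece4 u)) c4) :
    Q (shape (gLetters t)) (shape (gLetters u)) (addD (addD c1 c2) (addD c3 c4)) := by
  rw [← grid_eq t, ← grid_eq u]
  exact Q.union12 (Q.add h1 h2) (Q.add h3 h4)

/-! ### Invisible letters, staircases, doubles -/

/-- A leading `N` is invisible. -/
lemma shape_cons_false (w : List Bool) : shape (false :: w) = shape w := by
  apply ext_rowLen
  intro i
  rw [rowLen_shape, rowLen_shape, rowsW_cons_false]
  by_cases h : i < (rowsW w).length
  · exact getD_append_single_left h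
  · have h1 : (rowsW w).getD i 0 = 0 := List.getD_eq_default _ _ (by omega)
    rw [h1]
    by_cases h2 : i = (rowsW w).length
    · subst h2; simp
    · exact List.getD_eq_default _ _ (by simp; omega)

/-- A trailing `E` is invisible. -/
lemma shape_append_true (w : List Bool) : shape (w ++ [true]) = shape w := by
  unfold shape
  rw [rowsW_append_true]

/-- The word `(EN)^m`. -/
def stairW : ℕ → List Bool
  | 0 => []
  | m + 1 => stairW m ++ [true, false]

lemma nE_stairW (m : ℕ) : nE (stairW m) = m := by
  induction m with
  | zero => rfl
  | succ m ih => simp [stairW, nE, List.count_append] at ih ⊢; omega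

lemma rowsW_stairW (m : ℕ) : rowsW (stairW m) = (List.range m).reverse.map (· + 1) := by
  induction m with
  | zero => rfl
  | succ m ih =>
    have h : stairW (m + 1) = (stairW m ++ [true]) ++ [false] := by simp [stairW]
    rw [h, rowsW_append_false, rowsW_append_true, ih, List.range_succ]
    simp [nE, List.count_append]
    have := nE_stairW m
    simp [nE] at this
    omega

/-- The staircase is the shape of `(EN)^m`. -/
theorem shape_stairW (m : ℕ) : shape (stairW m) = stairD m := by
  apply ext_rowLen
  intro i
  rw [rowLen_shape, rowsW_stairW]
  apply eq_of_forall_lt_iff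
  intro j
  rw [← YoungDiagram.mem_iff_lt_rowLen, mem_stairD]
  by_cases h : i < m
  · rw [List.getD_eq_getElem _ _ (by simpa using h)]
    simp only [List.getElem_map, List.getElem_reverse, List.getElem_range, List.length_range]
    omega
  · rw [List.getD_eq_default _ _ (by simpa using h)]
    omega

/-- Drop the leading `N`. -/
def dropN : List Bool → List Bool
  | false :: t => dropN t
  | w => w

/-- The number of adjacent equal letters. -/
def adj : List Bool → ℕ
  | a :: b :: t => (if a == b then 1 else 0) + adj (b :: t)
  | _ => 0

/-- The number of doubles of a word: adjacent equal letters after dropping the invisible letters. -/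
def doubles (w : List Bool) : ℕ := adj (dropN (flipW (dropN (flipW w))))

/-! ### Cardinalities -/

lemma card_addD (a b : YoungDiagram) : (addD a b).card = a.card + b.card := colLen_addD_card a b

lemma card_transpose' (a : YoungDiagram) : a.transpose.card = a.card := by
  simp [YoungDiagram.card, YoungDiagram.transpose]

lemma card_unionD (a b : YoungDiagram) : (unionD a b).card = a.card + b.card := by
  unfold unionD
  rw [card_transpose', card_addD, card_transpose', card_transpose']

/-- Areas add over a grid. -/
theorem area_grid (t : List GLet) :
    area (gLetters t) = area (piece1 t) + area (piece2 t) + area (piece3 t) + area (piece4 t) := by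
  rw [← card_shape, ← grid_eq, card_unionD, card_addD, card_addD, card_shape, card_shape,
    card_shape, card_shape]
  omega

/-! ### Diagrams from multisets of columns -/

/-- The diagram with a given multiset of column heights. -/
noncomputable def colsD (m : Multiset ℕ) : YoungDiagram where
  cells := (Finset.range ((m.sup) + 1) ×ˢ Finset.range (Multiset.card m + 1)).filter
    fun c => c.2 < (m.filter fun h => c.1 < h).card
  isLowerSet := by
    classical
    rintro ⟨i, j⟩ ⟨i', j'⟩ ⟨hi, hj⟩ hc
    simp only [Finset.coe_filter, Finset.mem_product, Finset.mem_range, Set.mem_setOf_eq] at hc ⊢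
    simp only at hi hj
    obtain ⟨-, h2⟩ := hc
    have hle : (m.filter fun h => i < h).card ≤ (m.filter fun h => i' < h).card := by
      apply Multiset.card_le_card
      apply Multiset.monotone_filter_right
      intro h hh
      show i' < h
      have : i < h := hh
      omega
    have hle2 : (m.filter fun h => i' < h).card ≤ Multiset.card m :=
      Multiset.card_le_card (Multiset.filter_le _ _)
    refine ⟨⟨?_, ?_⟩, ?_⟩
    · have : 0 < (m.filter fun h => i' < h).card := by omega
      obtain ⟨h, hh⟩ := Multiset.card_pos_iff_exists_mem.1 this
      rw [Multiset.mem_filter] at hh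
      have : h ≤ m.sup := Multiset.le_sup hh.1
      omega
    · omega
    · omega

lemma mem_colsD {m : Multiset ℕ} {c : ℕ × ℕ} :
    c ∈ colsD m ↔ c.2 < (m.filter fun h => c.1 < h).card := by
  show c ∈ (Finset.range ((m.sup) + 1) ×ˢ Finset.range (Multiset.card m + 1)).filter _ ↔ _
  simp only [Finset.mem_filter, Finset.mem_product, Finset.mem_range]
  constructor
  · exact fun h => h.2
  · intro h
    have hle2 : (m.filter fun h => c.1 < h).card ≤ Multiset.card m :=
      Multiset.card_le_card (Multiset.filter_le _ _)
    refine ⟨⟨?_, by omega⟩, h⟩
    have : 0 < (m.filter fun h => c.1 < h).card := by omega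
    obtain ⟨x, hx⟩ := Multiset.card_pos_iff_exists_mem.1 this
    rw [Multiset.mem_filter] at hx
    have : x ≤ m.sup := Multiset.le_sup hx.1
    omega

lemma rowLen_colsD (m : Multiset ℕ) (i : ℕ) :
    (colsD m).rowLen i = (m.filter fun h => i < h).card := by
  apply eq_of_forall_lt_iff
  intro j
  rw [← YoungDiagram.mem_iff_lt_rowLen, mem_colsD]

/-- Columns are merged by `addD`. -/
theorem colsD_add (m1 m2 : Multiset ℕ) : colsD (m1 + m2) = addD (colsD m1) (colsD m2) := by
  apply ext_rowLen
  intro i
  rw [rowLen_addD, rowLen_colsD, rowLen_colsD, rowLen_colsD, Multiset.filter_add,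
    Multiset.card_add]

lemma colsD_zero : colsD 0 = ⊥ := by
  ext c
  simp [mem_colsD]

lemma colsD_singleton (h : ℕ) : colsD {h} = colD h := by
  apply ext_rowLen
  intro i
  rw [rowLen_colsD]
  unfold colD
  rw [YoungDiagram.rowLen_transpose]
  apply eq_of_forall_lt_iff
  intro j
  rw [← YoungDiagram.mem_iff_lt_colLen, mem_rowD]
  by_cases hi : i < h
  · simp only [Multiset.filter_singleton, hi, if_true, Multiset.card_singleton]
    simp
  · simp only [Multiset.filter_singleton, hi, if_false]
    simp

/-- The size of `colsD`. -/
theorem card_colsD (m : Multiset ℕ) : (colsD m).card = m.sum := by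
  induction m using Multiset.induction_on with
  | empty => rw [colsD_zero]; rfl
  | cons h m ih =>
    rw [← Multiset.singleton_add, colsD_add, card_addD, ih, colsD_singleton, Multiset.sum_add,
      Multiset.sum_singleton]
    unfold colD
    rw [card_transpose', card_rowD]

/-- The multiset of column heights of a diagram. -/
def colsOf (c : YoungDiagram) : Multiset ℕ := (Finset.range (c.rowLen 0)).val.map c.colLen

/-- Every diagram is given by its columns. -/
theorem colsD_colsOf (c : YoungDiagram) : colsD (colsOf c) = c := by
  classical
  apply ext_rowLen
  intro i
  rw [rowLen_colsD]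
  unfold colsOf
  rw [Multiset.filter_map, Multiset.card_map]
  have hle : c.rowLen i ≤ c.rowLen 0 := c.rowLen_anti _ _ (Nat.zero_le _)
  have : (Multiset.filter ((fun h => i < h) ∘ c.colLen) (Finset.range (c.rowLen 0)).val)
      = ((Finset.range (c.rowLen 0)).filter (fun j => i < c.colLen j)).val := rfl
  rw [this]
  have h2 : (Finset.range (c.rowLen 0)).filter (fun j => i < c.colLen j)
      = Finset.range (c.rowLen i) := by
    ext j
    simp only [Finset.mem_filter, Finset.mem_range]
    rw [← YoungDiagram.mem_iff_lt_colLen, YoungDiagram.mem_iff_lt_rowLen]
    constructor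
    · exact fun h => h.2
    · exact fun h => ⟨by omega, h⟩
  rw [h2]
  simp

/-- The sum of the columns is the size. -/
theorem sum_colsOf (c : YoungDiagram) : (colsOf c).sum = c.card := by
  rw [← card_colsD, colsD_colsOf]

/-- Any partition of the columns of `c` gives a decomposition of `c`. -/
theorem eq_addD_of_colsOf {c : YoungDiagram} {m1 m2 : Multiset ℕ} (h : colsOf c = m1 + m2) :
    c = addD (colsD m1) (colsD m2) := by
  rw [← colsD_add, ← h, colsD_colsOf]

end Crest.Agent.Lib.Saxl
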