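import Crest.Agent.Lib.Saxl.Corridor
import Crest.Agent.Lib.Saxl.Word

/-!
# Saxl: mechanical cuts of exact size

For a diagram `Y` with distinct nonzero rows and any `0 < T < |Y|`, there is a counting function `N`
(a digital line of slope `f = T/|Y|`, raised one column at a time) with `|cutV Y N| = T` and
`f m + β ≤ N m ≤ f m + β + 1`, `-1 ≤ β ≤ 0`.  Hence both children are again in a corridor
(`e ↦ f e + 1/2`).  No window on `T` at all.  The conjugate statement cuts rows when the columns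
are distinct.
-/

set_option autoImplicit false
set_option linter.unusedSectionVars false

namespace Crest.Agent.Lib.Saxl

open Finset

/-- The key of a column index: priority of raising the digital line. -/
def mechKey (a q K m : ℕ) : ℕ := (q - 1 - (a * m) % q) * K + m % K

/-- The digital line with slope `a/q`, raised at the indices whose key is below `τ`. -/
def mechN (a q K τ m : ℕ) : ℕ := a * m / q + if mechKey a q K m < τ then 1 else 0

lemma mechKey_step_noWrap {a q K m : ℕ} (ha : 0 < a) (hK : 0 < K)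
    (h : (a * m) % q + a < q) : mechKey a q K (m + 1) ≤ mechKey a q K m := by
  unfold mechKey
  have e1 : (a * (m + 1)) % q = (a * m) % q + a := by
    rw [Nat.mul_add, Nat.mul_one, Nat.add_mod]
    rw [Nat.mod_eq_of_lt (show a < q by omega)]
    rw [Nat.mod_eq_of_lt h]
  rw [e1]
  have h1 : (m + 1) % K < K := Nat.mod_lt _ hK
  obtain ⟨x, hx⟩ : ∃ x, q - 1 - (a * m) % q = x + a := ⟨q - 1 - (a * m) % q - a, by omega⟩
  have e2 : q - 1 - ((a * m) % q + a) = x := by omega
  rw [e2, hx, Nat.add_mul]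
  have h2 : K ≤ a * K := Nat.le_mul_of_pos_left K ha
  omega

lemma mechKey_step_wrap {a q K m : ℕ} (haq : a < q) (hK : 0 < K)
    (h : q ≤ (a * m) % q + a) : mechKey a q K m ≤ mechKey a q K (m + 1) := by
  unfold mechKey
  have hr : (a * m) % q < q := Nat.mod_lt _ (by omega)
  have e1 : (a * (m + 1)) % q = (a * m) % q + a - q := by
    have e2 : a * (m + 1) = a * m + a := by ring
    rw [e2, Nat.add_mod]
    rw [Nat.mod_eq_of_lt (show a < q from haq)]
    have h3 : (a * m) % q + a - q < q := by omega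
    rw [Nat.mod_eq_sub_mod h, Nat.mod_eq_of_lt h3]
  rw [e1]
  have h1 : m % K < K := Nat.mod_lt _ hK
  obtain ⟨x, hx⟩ : ∃ x, q - 1 - ((a * m) % q + a - q) = q - 1 - (a * m) % q + x + 1 :=
    ⟨q - a - 1, by omega⟩
  rw [hx, Nat.add_mul, Nat.add_mul]
  simp only [Nat.one_mul]
  omega

lemma div_step_noWrap {a q m : ℕ} (_hq : 0 < q) (h : (a * m) % q + a < q) :
    a * (m + 1) / q = a * m / q := by
  have e2 : a * (m + 1) = a * m + a := by ring
  rw [e2]
  have h1 := Nat.div_add_mod (a * m) q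
  apply Nat.div_eq_of_lt_le
  · rw [Nat.mul_comm (a * m / q) q]
    omega
  · have e3 : (a * m / q + 1) * q = q * (a * m / q) + q := by ring
    rw [e3]
    omega

lemma div_step_wrap {a q m : ℕ} (haq : a < q) (h : q ≤ (a * m) % q + a) :
    a * (m + 1) / q = a * m / q + 1 := by
  have e2 : a * (m + 1) = a * m + a := by ring
  rw [e2]
  have hq : 0 < q := by omega
  have h1 := Nat.div_add_mod (a * m) q
  have hr : (a * m) % q < q := Nat.mod_lt _ hq
  apply Nat.div_eq_of_lt_le
  · have e3 : (a * m / q + 1) * q = q * (a * m / q) + q := by ring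
    rw [e3]
    omega
  · have e3 : (a * m / q + 1 + 1) * q = q * (a * m / q) + q + q := by ring
    rw [e3]
    omega

/-- `mechN` is a counting function as long as `τ ≤ (q-1) K`. -/
lemma isCount_mechN {a q K τ : ℕ} (ha : 0 < a) (haq : a < q) (hK : 0 < K)
    (hτ : τ ≤ (q - 1) * K) : IsCount (mechN a q K τ) := by
  refine ⟨?_, fun m => ?_⟩
  · have : ¬ mechKey a q K 0 < τ := by
      unfold mechKey
      simp only [Nat.mul_zero, Nat.zero_mod, Nat.sub_zero, Nat.add_zero]
      omega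
    simp [mechN, this]
  · unfold mechN
    by_cases hw : (a * m) % q + a < q
    · rw [div_step_noWrap (by omega) hw]
      have h := mechKey_step_noWrap ha hK hw
      by_cases h1 : mechKey a q K m < τ
      · have h2 : mechKey a q K (m + 1) < τ := by omega
        simp [h1, h2]
      · by_cases h2 : mechKey a q K (m + 1) < τ <;> simp [h1, h2]
    · have hw' : q ≤ (a * m) % q + a := by omega
      rw [div_step_wrap haq hw']
      have h := mechKey_step_wrap haq hK hw'
      by_cases h1 : mechKey a q K (m + 1) < τ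
      · have h2 : mechKey a q K m < τ := by omega
        simp [h1, h2]
      · by_cases h2 : mechKey a q K m < τ <;> simp [h1, h2]

/-- Integer form of the two bounds: with `l = τ / K`. -/
lemma mechN_bounds {a q K τ : ℕ} (haq : a < q) (hK : 0 < K)
    (hτ : τ ≤ (q - 1) * K) (m : ℕ) :
    a * m + τ / K + 1 ≤ q * mechN a q K τ m + q ∧ q * mechN a q K τ m ≤ a * m + τ / K + 1 := by
  have hq : 0 < q := by omega
  have h1 : q * (a * m / q) + (a * m) % q = a * m := Nat.div_add_mod (a * m) q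
  have hrq : (a * m) % q < q := Nat.mod_lt _ hq
  have h2 : K * (τ / K) + τ % K = τ := Nat.div_add_mod τ K
  have h3 : τ % K < K := Nat.mod_lt _ hK
  have hlq : τ / K ≤ q - 1 := by
    have : τ / K ≤ ((q - 1) * K) / K := Nat.div_le_div_right hτ
    rwa [Nat.mul_div_cancel _ hK] at this
  have ht : m % K < K := Nat.mod_lt _ hK
  unfold mechN
  have hkey : mechKey a q K m = (q - 1 - (a * m) % q) * K + m % K := rfl
  generalize (a * m) % q = r at h1 hrq hkey
  generalize a * m / q = b at h1 ⊢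
  generalize τ / K = l at h2 hlq ⊢
  generalize τ % K = τ' at h2 h3
  generalize m % K = t at ht hkey
  generalize mechKey a q K m = key at hkey ⊢
  generalize a * m = A at h1 ⊢
  by_cases hc : key < τ
  · rw [if_pos hc]
    have hc' : q - 1 - r ≤ l := by
      by_contra hcon
      have h5 : (l + 1) * K ≤ (q - 1 - r) * K := Nat.mul_le_mul_right _ (by omega)
      have e : (l + 1) * K = K * l + K := by ring
      omega
    have e : q * (b + 1) = q * b + q := by ring
    constructor <;> omega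
  · rw [if_neg hc]
    have hc' : l ≤ q - 1 - r := by
      by_contra hcon
      have h5 : (q - 1 - r + 1) * K ≤ l * K := Nat.mul_le_mul_right _ (by omega)
      have e : (q - 1 - r + 1) * K = (q - 1 - r) * K + K := by ring
      have e' : l * K = K * l := by ring
      omega
    simp only [Nat.add_zero]
    constructor <;> omega

/-- Rational form of the bounds: `f m + β ≤ N m ≤ f m + β + 1`, `β = (l + 1 - q) / q`. -/
lemma mechN_bounds_rat {a q K τ : ℕ} (haq : a < q) (hK : 0 < K)
    (hτ : τ ≤ (q - 1) * K) (m : ℕ) :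
    ((a : ℚ) / q) * m + (((τ / K : ℕ) : ℚ) + 1 - q) / q ≤ (mechN a q K τ m : ℚ) ∧
      (mechN a q K τ m : ℚ) ≤ ((a : ℚ) / q) * m + (((τ / K : ℕ) : ℚ) + 1 - q) / q + 1 := by
  have hq : (0 : ℚ) < q := by
    have : 0 < q := by omega
    exact_mod_cast this
  obtain ⟨h1, h2⟩ := mechN_bounds haq hK hτ m
  have h1' : ((a : ℚ) * m + ((τ / K : ℕ) : ℚ) + 1) ≤ q * (mechN a q K τ m : ℚ) + q := by
    exact_mod_cast h1
  have h2' : q * (mechN a q K τ m : ℚ) ≤ (a : ℚ) * m + ((τ / K : ℕ) : ℚ) + 1 := by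
    exact_mod_cast h2
  constructor
  · have e : ((a : ℚ) / q) * m + (((τ / K : ℕ) : ℚ) + 1 - q) / q =
        ((a : ℚ) * m + ((τ / K : ℕ) : ℚ) + 1 - q) / q := by
      field_simp
      ring
    rw [e, div_le_iff₀ hq]
    linarith
  · have e : ((a : ℚ) / q) * m + (((τ / K : ℕ) : ℚ) + 1 - q) / q + 1 =
        ((a : ℚ) * m + ((τ / K : ℕ) : ℚ) + 1) / q := by
      field_simp
      ring
    rw [e, le_div_iff₀ hq]
    linarith

/-- Discrete intermediate value: unit steps. -/
lemma exists_eq_of_unit_steps (g : ℕ → ℕ) (hg : ∀ τ, g (τ + 1) ≤ g τ + 1) (M t : ℕ)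
    (h0 : g 0 ≤ t) (ht : t ≤ g M) : ∃ τ ≤ M, g τ = t := by
  induction M with
  | zero => exact ⟨0, le_rfl, by omega⟩
  | succ M ih =>
    by_cases h : t ≤ g M
    · obtain ⟨τ, h1, h2⟩ := ih h
      exact ⟨τ, by omega, h2⟩
    · refine ⟨M + 1, le_rfl, ?_⟩
      have := hg M
      omega

/-- The number of rows of `Y` whose key is below `τ`. -/
def mechCount (Y : YoungDiagram) (a q K τ : ℕ) : ℕ :=
  ((range (Y.colLen 0)).filter fun i => mechKey a q K (Y.rowLen i) < τ).card

lemma mechCount_step (Y : YoungDiagram) {a q K : ℕ} (hK : Y.rowLen 0 < K)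
    (hd : ∀ i j, i < Y.colLen 0 → j < Y.colLen 0 → Y.rowLen i = Y.rowLen j → i = j) (τ : ℕ) :
    mechCount Y a q K (τ + 1) ≤ mechCount Y a q K τ + 1 := by
  classical
  unfold mechCount
  have h1 : ((range (Y.colLen 0)).filter fun i => mechKey a q K (Y.rowLen i) < τ + 1) ⊆
      ((range (Y.colLen 0)).filter fun i => mechKey a q K (Y.rowLen i) < τ) ∪
      ((range (Y.colLen 0)).filter fun i => mechKey a q K (Y.rowLen i) = τ) := by
    intro i hi
    simp only [mem_filter, mem_union, mem_range] at hi ⊢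
    obtain ⟨h1, h2⟩ := hi
    by_cases h3 : mechKey a q K (Y.rowLen i) < τ
    · left; exact ⟨h1, h3⟩
    · right; exact ⟨h1, by omega⟩
  have h2 : ((range (Y.colLen 0)).filter fun i => mechKey a q K (Y.rowLen i) = τ).card ≤ 1 := by
    rw [Finset.card_le_one]
    intro i hi j hj
    simp only [mem_filter, mem_range] at hi hj
    apply hd i j hi.1 hj.1
    have e1 : mechKey a q K (Y.rowLen i) = mechKey a q K (Y.rowLen j) := by omega
    have hi' : Y.rowLen i < K := lt_of_le_of_lt (Y.rowLen_anti _ _ (Nat.zero_le i)) hK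
    have hj' : Y.rowLen j < K := lt_of_le_of_lt (Y.rowLen_anti _ _ (Nat.zero_le j)) hK
    unfold mechKey at e1
    rw [Nat.mod_eq_of_lt hi', Nat.mod_eq_of_lt hj'] at e1
    have hK0 : 0 < K := by omega
    have e2 := congrArg (· % K) e1
    simp only [Nat.mul_add_mod_of_lt hi', Nat.mul_add_mod_of_lt hj'] at e2
    have m1 : ((q - 1 - a * Y.rowLen i % q) * K + Y.rowLen i) % K = Y.rowLen i := by
      rw [Nat.add_comm, Nat.add_mul_mod_self_right, Nat.mod_eq_of_lt hi']
    have m2 : ((q - 1 - a * Y.rowLen j % q) * K + Y.rowLen j) % K = Y.rowLen j := by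
      rw [Nat.add_comm, Nat.add_mul_mod_self_right, Nat.mod_eq_of_lt hj']
    simpa [m1, m2] using e2
  calc _ ≤ _ := Finset.card_le_card h1
    _ ≤ _ := Finset.card_union_le _ _
    _ ≤ _ := by omega

lemma mechCount_zero (Y : YoungDiagram) (a q K : ℕ) : mechCount Y a q K 0 = 0 := by
  simp [mechCount]

lemma card_cutV_mechN (Y : YoungDiagram) {a q K τ : ℕ} (hN : IsCount (mechN a q K τ)) :
    (cutV Y (mechN a q K τ) hN).card =
      ∑ i ∈ range (Y.colLen 0), a * Y.rowLen i / q + mechCount Y a q K τ := by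
  classical
  rw [card_cutV]
  unfold mechN mechCount
  rw [Finset.sum_add_distrib, Finset.card_filter]

/-- The exact mechanical cut, counting function form. -/
theorem exists_mech_count (Y : YoungDiagram)
    (hd : ∀ i j, i < Y.colLen 0 → j < Y.colLen 0 → Y.rowLen i = Y.rowLen j → i = j)
    {T : ℕ} (hT0 : 0 < T) (hT : T < Y.card) :
    ∃ (N : ℕ → ℕ) (hN : IsCount N) (β : ℚ), (cutV Y N hN).card = T ∧ -1 ≤ β ∧ β ≤ 0 ∧
      (∀ m : ℕ, ((T : ℚ) / Y.card) * m + β ≤ (N m : ℚ)) ∧
      (∀ m : ℕ, (N m : ℚ) ≤ ((T : ℚ) / Y.card) * m + β + 1) := by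
  classical
  set q := Y.card with hq
  have hq0 : 0 < q := by omega
  set K := Y.rowLen 0 + 1 with hK
  have hK0 : 0 < K := by omega
  have hsum : q = ∑ i ∈ range (Y.colLen 0), Y.rowLen i := card_eq_sum_rowLen Y le_rfl
  set A := ∑ i ∈ range (Y.colLen 0), T * Y.rowLen i / q with hA
  -- the floor sum is at most `T`
  have hA1 : A ≤ T := by
    have h1 : q * A ≤ T * q := by
      calc q * A = ∑ i ∈ range (Y.colLen 0), q * (T * Y.rowLen i / q) := by
            rw [hA, Finset.mul_sum]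
        _ ≤ ∑ i ∈ range (Y.colLen 0), T * Y.rowLen i :=
            Finset.sum_le_sum fun i _ => Nat.mul_div_le _ _
        _ = T * q := by rw [← Finset.mul_sum, ← hsum]
    have h2 : q * A ≤ q * T := by rwa [Nat.mul_comm T q] at h1
    exact Nat.le_of_mul_le_mul_left h2 hq0
  -- the ceiling sum is at least `T`
  have hA2 : T ≤ A + mechCount Y T q K ((q - 1) * K) := by
    have h1 : T * q ≤ q * (A + mechCount Y T q K ((q - 1) * K)) := by
      have hterm : ∀ i ∈ range (Y.colLen 0), T * Y.rowLen i ≤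
          q * (T * Y.rowLen i / q) +
            q * (if mechKey T q K (Y.rowLen i) < (q - 1) * K then 1 else 0) := by
        intro i _
        have h3 := Nat.div_add_mod (T * Y.rowLen i) q
        have h4 : (T * Y.rowLen i) % q < q := Nat.mod_lt _ hq0
        by_cases hc : (T * Y.rowLen i) % q = 0
        · simp only [hc, Nat.add_zero] at h3
          omega
        · have : mechKey T q K (Y.rowLen i) < (q - 1) * K := by
            unfold mechKey
            have h5 : Y.rowLen i % K < K := Nat.mod_lt _ hK0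
            obtain ⟨x, hx⟩ : ∃ x, q - 1 = (q - 1 - (T * Y.rowLen i) % q) + x + 1 :=
              ⟨(T * Y.rowLen i) % q - 1, by omega⟩
            calc (q - 1 - (T * Y.rowLen i) % q) * K + Y.rowLen i % K
                < (q - 1 - (T * Y.rowLen i) % q) * K + K := by omega
              _ = (q - 1 - (T * Y.rowLen i) % q + 1) * K := by ring
              _ ≤ (q - 1) * K := Nat.mul_le_mul_right _ (by omega)
          rw [if_pos this]
          omega
      calc T * q = ∑ i ∈ range (Y.colLen 0), T * Y.rowLen i := by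
            rw [hsum, Finset.mul_sum]
        _ ≤ ∑ i ∈ range (Y.colLen 0), (q * (T * Y.rowLen i / q) +
            q * (if mechKey T q K (Y.rowLen i) < (q - 1) * K then 1 else 0)) :=
            Finset.sum_le_sum hterm
        _ = q * (A + mechCount Y T q K ((q - 1) * K)) := by
            rw [Finset.sum_add_distrib, ← Finset.mul_sum, ← Finset.mul_sum, ← Nat.mul_add]
            unfold mechCount
            rw [Finset.card_filter]
    have h2 : q * T ≤ q * (A + mechCount Y T q K ((q - 1) * K)) := by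
      rwa [Nat.mul_comm T q] at h1
    exact Nat.le_of_mul_le_mul_left h2 hq0
  obtain ⟨τ, hτ, hτ2⟩ := exists_eq_of_unit_steps (mechCount Y T q K)
    (mechCount_step Y (by omega) hd) ((q - 1) * K) (T - A)
    (by rw [mechCount_zero]; omega) (by omega)
  have hN := isCount_mechN (a := T) (q := q) (K := K) (τ := τ) hT0 hT hK0 hτ
  have hl : τ / K ≤ q - 1 := by
    have : τ / K ≤ ((q - 1) * K) / K := Nat.div_le_div_right hτ
    rwa [Nat.mul_div_cancel _ hK0] at this
  have hqQ : (0 : ℚ) < q := by exact_mod_cast hq0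
  refine ⟨mechN T q K τ, hN, (((τ / K : ℕ) : ℚ) + 1 - q) / q, ?_, ?_, ?_, ?_, ?_⟩
  · rw [card_cutV_mechN, hτ2]
    omega
  · rw [le_div_iff₀ hqQ]
    have : (0 : ℚ) ≤ ((τ / K : ℕ) : ℚ) := Nat.cast_nonneg _
    linarith
  · rw [div_le_iff₀ hqQ]
    have : ((τ / K : ℕ) : ℚ) ≤ ((q - 1 : ℕ) : ℚ) := by exact_mod_cast hl
    rw [Nat.cast_sub (by omega)] at this
    push_cast at this
    linarith
  · intro m
    exact (mechN_bounds_rat hT hK0 hτ m).1
  · intro m
    exact (mechN_bounds_rat hT hK0 hτ m).2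

/-- Nonzero rows differ by at least `D`. -/
def DropGe (Y : YoungDiagram) (D : ℕ) : Prop :=
  ∀ i, Y.rowLen (i + 1) ≠ 0 → Y.rowLen (i + 1) + D ≤ Y.rowLen i

lemma DropGe.distinct {Y : YoungDiagram} {D : ℕ} (hD : 0 < D) (h : DropGe Y D) :
    ∀ i j, i < Y.colLen 0 → j < Y.colLen 0 → Y.rowLen i = Y.rowLen j → i = j := by
  intro i j hi hj e
  by_contra hne
  wlog hij : i < j generalizing i j
  · exact this j i hj hi e.symm (Ne.symm hne) (by omega)
  have hj0 : Y.rowLen j ≠ 0 := by
    have := (rowLen_pos_iff Y j).2 hj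
    omega
  obtain ⟨k, rfl⟩ : ∃ k, j = k + 1 := ⟨j - 1, by omega⟩
  have h1 := h k hj0
  have h2 := Y.rowLen_anti i k (by omega)
  omega

/-- Child of a cut by a counting function with slope `f`: drops. -/
lemma DropGe.cutV {Y : YoungDiagram} {D D' : ℕ} (h : DropGe Y D) {N : ℕ → ℕ} (hN : IsCount N)
    {f β : ℚ} (hf : 0 ≤ f)
    (h1 : ∀ m : ℕ, f * m + β ≤ (N m : ℚ)) (h2 : ∀ m : ℕ, (N m : ℚ) ≤ f * m + β + 1)
    (hD : (D' : ℚ) < f * D) : DropGe (Saxl.cutV Y N hN) D' := by
  intro i hi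
  rw [rowLen_cutV] at hi ⊢
  rw [rowLen_cutV]
  have h0 : Y.rowLen (i + 1) ≠ 0 := by
    intro e
    rw [e, hN.1] at hi
    exact hi rfl
  have h3 := h i h0
  have h4 := h1 (Y.rowLen i)
  have h5 := h2 (Y.rowLen (i + 1))
  have h6 : (Y.rowLen (i + 1) : ℚ) + D ≤ (Y.rowLen i : ℚ) := by exact_mod_cast h3
  have h7 : f * ((Y.rowLen (i + 1) : ℚ) + D) ≤ f * (Y.rowLen i : ℚ) :=
    mul_le_mul_of_nonneg_left h6 hf
  have h8 : (N (Y.rowLen (i + 1)) : ℚ) + D' < (N (Y.rowLen i) : ℚ) + 1 := by
    nlinarith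
  have h9 : N (Y.rowLen (i + 1)) + D' < N (Y.rowLen i) + 1 := by exact_mod_cast h8
  omega

/-- **The exact cut of a corridor with distinct rows.**  `f = T/|Y|`. Both children are in corridors,
with errors `f e + 1/2`, `(1-f) e + 1/2` and the rows keep drops. -/
theorem CorE.exists_exact_cutV {ρ θ e : ℚ} {Y : YoungDiagram} {T D : ℕ} (hθ : 0 < θ)
    (h : CorE ρ θ e Y) (hD : 0 < D) (hdrop : DropGe Y D) (hT0 : 0 < T) (hT : T < Y.card) :
    ∃ (Y1 Y2 : YoungDiagram) (β : ℚ), addD Y1 Y2 = Y ∧ Y1.card = T ∧ Y2.card = Y.card - T ∧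
      -1 ≤ β ∧ β ≤ 0 ∧
      CorE (ρ + (β + 1 / 2) / (((T : ℚ) / Y.card) * θ)) (((T : ℚ) / Y.card) * θ)
        (((T : ℚ) / Y.card) * e + 1 / 2) Y1 ∧
      CorE (ρ - (β + 1 / 2) / ((1 - (T : ℚ) / Y.card) * θ)) ((1 - (T : ℚ) / Y.card) * θ)
        ((1 - (T : ℚ) / Y.card) * e + 1 / 2) Y2 ∧
      (∀ D' : ℕ, (D' : ℚ) < ((T : ℚ) / Y.card) * D → DropGe Y1 D') ∧
      (∀ D' : ℕ, (D' : ℚ) < (1 - (T : ℚ) / Y.card) * D → DropGe Y2 D') := by
  obtain ⟨N, hN, β, hc, hβ1, hβ2, hb1, hb2⟩ := exists_mech_count Y (hdrop.distinct hD) hT0 hT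
  set f : ℚ := (T : ℚ) / Y.card with hf
  have hYpos : (0 : ℚ) < Y.card := by
    have : 0 < Y.card := by omega
    exact_mod_cast this
  have hf0 : 0 < f := by
    have : (0 : ℚ) < T := by exact_mod_cast hT0
    exact div_pos this hYpos
  have hf1 : f < 1 := by
    have : (T : ℚ) < Y.card := by exact_mod_cast hT
    rw [hf, div_lt_one hYpos]
    exact this
  have hg0 : 0 < 1 - f := by linarith
  -- the complementary counting function
  have hb3 : ∀ m : ℕ, (1 - f) * m + (-β - 1) ≤ (((m - N m : ℕ)) : ℚ) := by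
    intro m
    have hle := hN.le_self m
    rw [Nat.cast_sub hle]
    have := hb2 m
    linarith
  have hb4 : ∀ m : ℕ, (((m - N m : ℕ)) : ℚ) ≤ (1 - f) * m + (-β - 1) + 1 := by
    intro m
    have hle := hN.le_self m
    rw [Nat.cast_sub hle]
    have := hb1 m
    linarith
  refine ⟨Saxl.cutV Y N hN, Saxl.cutV Y (fun m => m - N m) hN.compl, β, addD_cutV Y N hN, hc, ?_, hβ1, hβ2,
    ?_, ?_, ?_, ?_⟩
  · have h1 := congrArg YoungDiagram.card (addD_cutV Y N hN)
    rw [card_addD, hc] at h1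
    omega
  · have := h.cutV hN hθ hf0 hb1 (fun m => by simpa using hb2 m)
    have e1 : (f * e + 1 / 2) = f * e + (1 : ℚ) / 2 := rfl
    simpa using this
  · have := h.cutV hN.compl hθ hg0 hb3 (fun m => by simpa using hb4 m)
    have e1 : ρ + (-β - 1 + 1 / 2) / ((1 - f) * θ) = ρ - (β + 1 / 2) / ((1 - f) * θ) := by
      have : (-β - 1 + 1 / 2) = -(β + 1 / 2) := by ring
      rw [this, neg_div]
      ring
    rw [e1] at this
    simpa using this
  · intro D' hD'
    exact hdrop.cutV hN hf0.le hb1 hb2 hD'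
  · intro D' hD'
    exact hdrop.cutV hN.compl hg0.le hb3 hb4 hD'

/-! ### Strips: a balanced tree of column groups -/

lemma CorE.mono_e {ρ θ e e' : ℚ} {Y : YoungDiagram} (h : CorE ρ θ e Y) (he : e ≤ e') :
    CorE ρ θ e' Y := by
  intro i
  obtain ⟨h1, h2⟩ := h i
  refine ⟨by linarith, ?_⟩
  rcases h2 with h2 | h2
  · left; exact h2
  · right; linarith

/-- A binary tree of column groups: every leaf is a group, hosted by one piece. -/
inductive GTree where
  | leaf (g : Multiset ℕ) : GTree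
  | node (l r : GTree) : GTree

namespace GTree

/-- The total height of the columns. -/
def mass : GTree → ℕ
  | leaf g => g.sum
  | node l r => mass l + mass r

/-- All the columns. -/
noncomputable def cols : GTree → Multiset ℕ
  | leaf g => g
  | node l r => cols l + cols r

lemma sum_cols (t : GTree) : (cols t).sum = mass t := by
  induction t with
  | leaf g => rfl
  | node l r ihl ihr => simp [cols, mass, ihl, ihr]

/-- The groups at the leaves. -/
def leaves : GTree → List (Multiset ℕ)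
  | leaf g => [g]
  | node l r => leaves l ++ leaves r

/-- Balanced with parameter `E`: each child has at most the fraction `1 - 1/(2E)` of the mass
of its parent, and the parent has slope `μ * mass > 2E`, and both children are nonempty. -/
def Bal (μ E : ℚ) : GTree → Prop
  | leaf _ => True
  | node l r =>
    0 < mass l ∧ 0 < mass r ∧
    (mass l : ℚ) ≤ (1 - 1 / (2 * E)) * (mass l + mass r) ∧
    (mass r : ℚ) ≤ (1 - 1 / (2 * E)) * (mass l + mass r) ∧
    2 * E < μ * (mass l + mass r) ∧ Bal μ E l ∧ Bal μ E r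

end GTree

/-- The class of the pieces coming out of a strip: mass `m`, slope `μ m`, row error `E`, centre within
`E/(μ m)` of `ρ₀`, drops at least `μ m - 2E`. -/
def StripPiece (μ E ρ₀ : ℚ) (m : ℕ) (Y : YoungDiagram) : Prop :=
  Y.card = m ∧ (∃ ρ : ℚ, |ρ - ρ₀| ≤ E / (μ * m) ∧ CorE ρ (μ * m) E Y) ∧
    ∃ D : ℕ, DropGe Y D ∧ μ * m - 2 * E ≤ (D : ℚ)

/-- **A strip hosts a balanced tree of column groups**: if each piece of the class hosts its group
then the strip hosts all the columns. -/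
theorem TT_of_gtree {μ E ρ₀ : ℚ} (hμ : 0 < μ) (hE : 0 < E) (t : GTree) :
    ∀ Y : YoungDiagram, GTree.Bal μ E t → 0 < GTree.mass t → StripPiece μ E ρ₀ (GTree.mass t) Y →
      (∀ g ∈ GTree.leaves t, ∀ Y' : YoungDiagram, StripPiece μ E ρ₀ g.sum Y' → TT Y' (colsD g)) →
      TT Y (colsD (GTree.cols t)) := by
  induction t with
  | leaf g =>
    intro Y _ _ hY hl
    exact hl g (by simp [GTree.leaves]) Y hY
  | node l r ihl ihr =>
    intro Y hB hm hY hl
    obtain ⟨hl0, hr0, hfl, hfr, hs, hBl, hBr⟩ := hB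
    obtain ⟨hc, ⟨ρ, hρ, hcor⟩, D, hD, hDge⟩ := hY
    simp only [GTree.mass] at hc hρ hcor hDge hm
    set L := GTree.mass l with hL
    set R := GTree.mass r with hR
    have hLQ : (0 : ℚ) < L := by exact_mod_cast hl0
    have hRQ : (0 : ℚ) < R := by exact_mod_cast hr0
    have hMQ : (0 : ℚ) < (L : ℚ) + R := by linarith
    have hcast : ((L + R : ℕ) : ℚ) = (L : ℚ) + R := by push_cast; ring
    rw [hcast] at hρ hcor hDge
    have hD0 : 0 < D := by
      have h1 : (0 : ℚ) < D := by linarith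
      exact_mod_cast h1
    have hcard : (Y.card : ℚ) = (L : ℚ) + R := by rw [hc]; exact hcast
    have hθ : 0 < μ * ((L : ℚ) + R) := mul_pos hμ hMQ
    obtain ⟨Y1, Y2, β, hadd, hc1, hc2, hβ1, hβ2, hC1, hC2, hD1, hD2⟩ :=
      CorE.exists_exact_cutV (T := L) hθ hcor hD0 hD hl0 (by omega)
    rw [hcard] at hC1 hC2 hD1 hD2
    have hf : (L : ℚ) / ((L : ℚ) + R) = (L : ℚ) / ((L : ℚ) + R) := rfl
    set f : ℚ := (L : ℚ) / ((L : ℚ) + R) with hfdef
    have hf0 : 0 < f := div_pos hLQ hMQ
    have hfL : f * ((L : ℚ) + R) = L := by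
      rw [hfdef]; field_simp
    have hg : 1 - f = (R : ℚ) / ((L : ℚ) + R) := by
      rw [hfdef]; field_simp; ring
    have hg0 : 0 < 1 - f := by rw [hg]; exact div_pos hRQ hMQ
    have hgR : (1 - f) * ((L : ℚ) + R) = R := by
      rw [hg]; field_simp
    have hθ1 : f * (μ * ((L : ℚ) + R)) = μ * L := by
      calc f * (μ * ((L : ℚ) + R)) = μ * (f * ((L : ℚ) + R)) := by ring
        _ = μ * L := by rw [hfL]
    have hθ2 : (1 - f) * (μ * ((L : ℚ) + R)) = μ * R := by
      calc (1 - f) * (μ * ((L : ℚ) + R)) = μ * ((1 - f) * ((L : ℚ) + R)) := by ring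
        _ = μ * R := by rw [hgR]
    rw [hθ1] at hC1
    rw [hθ2] at hC2
    -- fractions
    have hE2 : 0 < 2 * E := by linarith
    have hfl' : f ≤ 1 - 1 / (2 * E) := by
      rw [hfdef, div_le_iff₀ hMQ]; exact hfl
    have hfr' : 1 - f ≤ 1 - 1 / (2 * E) := by
      rw [hg, div_le_iff₀ hMQ]; exact hfr
    have h12 : (1 / (2 * E)) * (2 * E) = 1 := by field_simp
    have hEf : f * E + 1 / 2 ≤ E := by
      have : f * (2 * E) ≤ (1 - 1 / (2 * E)) * (2 * E) :=
        mul_le_mul_of_nonneg_right hfl' hE2.le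
      nlinarith
    have hEg : (1 - f) * E + 1 / 2 ≤ E := by
      have : (1 - f) * (2 * E) ≤ (1 - 1 / (2 * E)) * (2 * E) :=
        mul_le_mul_of_nonneg_right hfr' hE2.le
      nlinarith
    have hβabs : |β + 1 / 2| ≤ 1 / 2 := by
      rw [abs_le]; constructor <;> linarith
    have hμL : 0 < μ * L := mul_pos hμ hLQ
    have hμR : 0 < μ * R := mul_pos hμ hRQ
    -- left child
    have hY1 : StripPiece μ E ρ₀ L Y1 := by
      refine ⟨hc1, ⟨_, ?_, hC1.mono_e hEf⟩, ?_⟩
      · have h1 : |ρ + (β + 1 / 2) / (μ * L) - ρ₀| ≤ |ρ - ρ₀| + |(β + 1 / 2) / (μ * L)| := by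
          have : ρ + (β + 1 / 2) / (μ * L) - ρ₀ = (ρ - ρ₀) + (β + 1 / 2) / (μ * L) := by ring
          rw [this]
          exact abs_add_le _ _
        have h2 : |(β + 1 / 2) / (μ * L)| ≤ (1 / 2) / (μ * L) := by
          rw [abs_div, abs_of_pos hμL]
          exact div_le_div_of_nonneg_right hβabs hμL.le
        have h3 : E / (μ * ((L : ℚ) + R)) = f * E / (μ * L) := by
          rw [hfdef]; field_simp
        rw [h3] at hρ
        have h4 : f * E / (μ * L) + (1 / 2) / (μ * L) ≤ E / (μ * L) := by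
          rw [← add_div]
          exact div_le_div_of_nonneg_right hEf hμL.le
        linarith
      · obtain ⟨D', h1, h2⟩ : ∃ D' : ℕ, (D' : ℚ) < f * D ∧ f * D - 1 ≤ (D' : ℚ) := by
          have hp : 0 < f * (D : ℚ) := mul_pos hf0 (by exact_mod_cast hD0)
          refine ⟨⌈f * (D : ℚ)⌉₊ - 1, ?_, ?_⟩
          · have h3 : 0 < ⌈f * (D : ℚ)⌉₊ := Nat.ceil_pos.2 hp
            have h4 := Nat.ceil_lt_add_one hp.le
            rw [Nat.cast_sub (by omega)]
            push_cast
            linarith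
          · have h3 : 0 < ⌈f * (D : ℚ)⌉₊ := Nat.ceil_pos.2 hp
            have h4 := Nat.le_ceil (f * (D : ℚ))
            rw [Nat.cast_sub (by omega)]
            push_cast
            linarith
        refine ⟨D', hD1 D' h1, ?_⟩
        have h5 : f * (μ * ((L : ℚ) + R) - 2 * E) ≤ f * (D : ℚ) :=
          mul_le_mul_of_nonneg_left hDge hf0.le
        have h6 : f * (μ * ((L : ℚ) + R) - 2 * E) = μ * L - f * (2 * E) := by
          rw [mul_sub, hθ1]
        nlinarith
    -- right child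
    have hY2 : StripPiece μ E ρ₀ R Y2 := by
      refine ⟨by omega, ⟨_, ?_, hC2.mono_e hEg⟩, ?_⟩
      · have h1 : |ρ - (β + 1 / 2) / (μ * R) - ρ₀| ≤ |ρ - ρ₀| + |(β + 1 / 2) / (μ * R)| := by
          have : ρ - (β + 1 / 2) / (μ * R) - ρ₀ = (ρ - ρ₀) + -((β + 1 / 2) / (μ * R)) := by ring
          rw [this]
          calc _ ≤ |ρ - ρ₀| + |-((β + 1 / 2) / (μ * R))| := abs_add_le _ _
            _ = _ := by rw [abs_neg]
        have h2 : |(β + 1 / 2) / (μ * R)| ≤ (1 / 2) / (μ * R) := by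
          rw [abs_div, abs_of_pos hμR]
          exact div_le_div_of_nonneg_right hβabs hμR.le
        have h3 : E / (μ * ((L : ℚ) + R)) = (1 - f) * E / (μ * R) := by
          rw [hg]; field_simp
        rw [h3] at hρ
        have h4 : (1 - f) * E / (μ * R) + (1 / 2) / (μ * R) ≤ E / (μ * R) := by
          rw [← add_div]
          exact div_le_div_of_nonneg_right hEg hμR.le
        linarith
      · obtain ⟨D', h1, h2⟩ : ∃ D' : ℕ, (D' : ℚ) < (1 - f) * D ∧ (1 - f) * D - 1 ≤ (D' : ℚ) := by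
          have hp : 0 < (1 - f) * (D : ℚ) := mul_pos hg0 (by exact_mod_cast hD0)
          refine ⟨⌈(1 - f) * (D : ℚ)⌉₊ - 1, ?_, ?_⟩
          · have h3 : 0 < ⌈(1 - f) * (D : ℚ)⌉₊ := Nat.ceil_pos.2 hp
            have h4 := Nat.ceil_lt_add_one hp.le
            rw [Nat.cast_sub (by omega)]
            push_cast
            linarith
          · have h3 : 0 < ⌈(1 - f) * (D : ℚ)⌉₊ := Nat.ceil_pos.2 hp
            have h4 := Nat.le_ceil ((1 - f) * (D : ℚ))
            rw [Nat.cast_sub (by omega)]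
            push_cast
            linarith
        refine ⟨D', hD2 D' h1, ?_⟩
        have h5 : (1 - f) * (μ * ((L : ℚ) + R) - 2 * E) ≤ (1 - f) * (D : ℚ) :=
          mul_le_mul_of_nonneg_left hDge hg0.le
        have h6 : (1 - f) * (μ * ((L : ℚ) + R) - 2 * E) = μ * R - (1 - f) * (2 * E) := by
          rw [mul_sub, hθ2]
        nlinarith
    have hT1 := ihl Y1 hBl hl0 hY1 (fun g hg' => hl g (by
      simp only [GTree.leaves, List.mem_append]; left; exact hg'))
    have hT2 := ihr Y2 hBr hr0 hY2 (fun g hg' => hl g (by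
      simp only [GTree.leaves, List.mem_append]; right; exact hg'))
    have := TT.add hT1 hT2
    rw [← colsD_add, hadd] at this
    exact this

/-! ### Upper drops; exact row cuts -/

/-- All drops of rows are at most `U`, the last nonzero row included. -/
def DropLe (Y : YoungDiagram) (U : ℕ) : Prop := ∀ i, Y.rowLen i ≤ Y.rowLen (i + 1) + U

/-- Child of a cut by a counting function with slope `f`: upper bound of the drops. -/
lemma DropLe.cutV {Y : YoungDiagram} {U U' : ℕ} (h : DropLe Y U) {N : ℕ → ℕ} (hN : IsCount N)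
    {f β : ℚ} (hf : 0 ≤ f)
    (h1 : ∀ m : ℕ, f * m + β ≤ (N m : ℚ)) (h2 : ∀ m : ℕ, (N m : ℚ) ≤ f * m + β + 1)
    (hU : f * U < (U' : ℚ)) : DropLe (Saxl.cutV Y N hN) U' := by
  intro i
  rw [rowLen_cutV, rowLen_cutV]
  have h3 := h i
  have h4 := h2 (Y.rowLen i)
  have h5 := h1 (Y.rowLen (i + 1))
  have h6 : (Y.rowLen i : ℚ) ≤ (Y.rowLen (i + 1) : ℚ) + U := by exact_mod_cast h3
  have h7 : f * (Y.rowLen i : ℚ) ≤ f * ((Y.rowLen (i + 1) : ℚ) + U) :=
    mul_le_mul_of_nonneg_left h6 hf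
  have h8 : (N (Y.rowLen i) : ℚ) < (N (Y.rowLen (i + 1)) : ℚ) + U' + 1 := by
    nlinarith
  have h9 : N (Y.rowLen i) < N (Y.rowLen (i + 1)) + U' + 1 := by exact_mod_cast h8
  omega

/-- The columns of `Y` are distinct iff its rows drop by at most one. -/
lemma DropLe.one_transpose {Y : YoungDiagram} (h : DropLe Y 1) : DropGe Y.transpose 1 := by
  intro j hj
  rw [YoungDiagram.rowLen_transpose] at hj ⊢
  rw [YoungDiagram.rowLen_transpose]
  have hj0 : 0 < Y.colLen (j + 1) := Nat.pos_of_ne_zero hj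
  by_contra hc
  have hle : Y.colLen j ≤ Y.colLen (j + 1) := by omega
  have hge : Y.colLen (j + 1) ≤ Y.colLen j := Y.colLen_anti _ _ (Nat.le_succ j)
  have heq : Y.colLen j = Y.colLen (j + 1) := le_antisymm hle hge
  obtain ⟨k', hk'⟩ : ∃ k', Y.colLen (j + 1) = k' + 1 := ⟨Y.colLen (j + 1) - 1, by omega⟩
  have h1 : (k', j + 1) ∈ Y := YoungDiagram.mem_iff_lt_colLen.2 (by omega)
  have h2 : j + 1 < Y.rowLen k' := YoungDiagram.mem_iff_lt_rowLen.1 h1
  have h3 : Y.rowLen (k' + 1) ≤ j := by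
    by_contra hcon
    have h4 : (k' + 1, j) ∈ Y := YoungDiagram.mem_iff_lt_rowLen.2 (by omega)
    have h5 := YoungDiagram.mem_iff_lt_colLen.1 h4
    omega
  have h6 := h k'
  omega

/-- **The exact row cut of a corridor with distinct columns** (all rows drop by at most one).
`f = T/|Y|`: the children are in corridors of slope `θ/f`, `θ/(1-f)`. -/
theorem CorE.exists_exact_cutH {ρ θ e : ℚ} {Y : YoungDiagram} {T : ℕ} (hθ : 0 < θ)
    (h : CorE ρ θ e Y) (hdrop : DropLe Y 1) (hT0 : 0 < T) (hT : T < Y.card) :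
    ∃ (Y1 Y2 : YoungDiagram) (β : ℚ), unionD Y1 Y2 = Y ∧ Y1.card = T ∧ Y2.card = Y.card - T ∧
      -1 ≤ β ∧ β ≤ 0 ∧
      CorE (((T : ℚ) / Y.card) * ρ + (β + 1 / 2)) (θ / ((T : ℚ) / Y.card))
        (e + θ - θ / (2 * ((T : ℚ) / Y.card))) Y1 ∧
      CorE ((1 - (T : ℚ) / Y.card) * ρ - (β + 1 / 2)) (θ / (1 - (T : ℚ) / Y.card))
        (e + θ - θ / (2 * (1 - (T : ℚ) / Y.card))) Y2 := by
  have hd1 := hdrop.one_transpose
  have hc' : Y.transpose.card = Y.card := card_transpose' Y
  have hθ' : 0 < 1 / θ := by positivity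
  have hT' : T < Y.transpose.card := by omega
  obtain ⟨Y1, Y2, β, hadd, hc1, hc2, hβ1, hβ2, hC1, hC2, -, -⟩ :=
    CorE.exists_exact_cutV hθ' (h.transpose hθ) one_pos hd1 hT0 hT'
  rw [hc'] at hC1 hC2 hc2
  have hYpos : (0 : ℚ) < Y.card := by
    have : 0 < Y.card := by omega
    exact_mod_cast this
  set f : ℚ := (T : ℚ) / Y.card with hf
  have hf0 : 0 < f := div_pos (by exact_mod_cast hT0) hYpos
  have hf1 : 0 < 1 - f := by
    have h1 : (T : ℚ) < Y.card := by exact_mod_cast hT
    have h2 : f < 1 := by rw [hf, div_lt_one hYpos]; exact h1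
    linarith
  refine ⟨Y1.transpose, Y2.transpose, β, ?_, ?_, ?_, hβ1, hβ2, ?_, ?_⟩
  · unfold unionD
    simp only [YoungDiagram.transpose_transpose]
    rw [hadd, YoungDiagram.transpose_transpose]
  · rw [card_transpose', hc1]
  · rw [card_transpose', hc2]
  · have h3 := hC1.transpose (mul_pos hf0 hθ')
    have e1 : f * (1 / θ) * (θ * ρ + (β + 1 / 2) / (f * (1 / θ))) = f * ρ + (β + 1 / 2) := by
      field_simp
    have e2 : 1 / (f * (1 / θ)) = θ / f := by field_simp
    have e3 : 1 + (f * (1 + (e - 1) / θ) + 1 / 2 - 1) / (f * (1 / θ)) =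
        e + θ - θ / (2 * f) := by
      field_simp
      ring
    rwa [e1, e2, e3] at h3
  · have h3 := hC2.transpose (mul_pos hf1 hθ')
    have e1 : (1 - f) * (1 / θ) * (θ * ρ - (β + 1 / 2) / ((1 - f) * (1 / θ))) =
        (1 - f) * ρ - (β + 1 / 2) := by
      field_simp
    have e2 : 1 / ((1 - f) * (1 / θ)) = θ / (1 - f) := by field_simp
    have e3 : 1 + ((1 - f) * (1 + (e - 1) / θ) + 1 / 2 - 1) / ((1 - f) * (1 / θ)) =
        e + θ - θ / (2 * (1 - f)) := by
      field_simp
      ring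
    rwa [e1, e2, e3] at h3

end Crest.Agent.Lib.Saxl
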