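import Crest.Agent.Lib.Saxl.Mech

/-!
# Saxl: exact cuts when a few rows are equal

`Mech.lean` cuts a diagram with *distinct* rows at any size.  Here rows may be equal (no three equal):
in the sweep of the digital line the size jumps by the weight of the event, 1 or 2.  When a weight 2
event jumps over the target `T`, *one* row `i₀` repairs the parity: raise it by one before the event
or lower it by one after the event.  All other rows stay exactly in the band of width one, the row `i₀`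
leaves the band by at most `v`, where `v ≥ 1/2` and `1 - v ≤ f D, (1-f) D` for the two drops `D`
adjacent to the row `i₀` (so `v = max (f, 1-f)` always works, and `v = 1/2` when the drops are at
least `1/(2 min (f, 1-f))`).

* `exists_addD_of_rows`: child rows `c` with `c` and `y - c` antitone are a splitting, no column
  assignment needed.
* `exists_raise`, `exists_lower`: the two moves.
* `flip_core`: one of the two moves is valid.
* `exists_exact_cut_flip`: the exact cut.
* `CutBand`, `CutBand.compl`, `CutBand.corE`: the corridors of the children.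
* `CorE.no_triple`: a corridor with `θ > 2 e` has no three equal nonzero rows.
* `CorE.exists_exact_cutV_flip`: exact cut of a corridor, children in the same corridors as in
  `CorE.exists_exact_cutV`, when the row `i₀` has room in its window.
-/

set_option autoImplicit false
set_option linter.unusedSectionVars false

namespace Crest.Agent.Lib.Saxl

open Finset

lemma colLen_zero_le_of_rowLen_eq_zero (Y : YoungDiagram) {M : ℕ} (h : Y.rowLen M = 0) :
    Y.colLen 0 ≤ M := by
  by_contra hc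
  have := (rowLen_pos_iff Y M).2 (not_le.1 hc)
  omega

/-- Child rows `c` with `c` and `y - c` antitone split the diagram. -/
theorem exists_addD_of_rows (Y : YoungDiagram) (c : ℕ → ℕ)
    (h1 : ∀ i, c (i + 1) ≤ c i)
    (h2 : ∀ i, c i + Y.rowLen (i + 1) ≤ c (i + 1) + Y.rowLen i)
    (h3 : ∀ i, c i ≤ Y.rowLen i) :
    ∃ Y1 Y2 : YoungDiagram, addD Y1 Y2 = Y ∧ (∀ i, Y1.rowLen i = c i) ∧
      (∀ i, Y1.rowLen i + Y2.rowLen i = Y.rowLen i) := by
  have hr : Y.rowLen (Y.colLen 0) = 0 := rowLen_colLen_zero Y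
  have hc0 : c (Y.colLen 0) = 0 := by
    have := h3 (Y.colLen 0)
    omega
  have ha1 : Antitone c := antitone_nat_of_succ_le h1
  have ha2 : Antitone fun i => Y.rowLen i - c i := antitone_nat_of_succ_le fun i => by
    have e1 := h2 i
    have e2 := h3 i
    have e3 := h3 (i + 1)
    omega
  refine ⟨ofRows c ha1 (Y.colLen 0) hc0,
    ofRows (fun i => Y.rowLen i - c i) ha2 (Y.colLen 0) (by simp only [hr, hc0]), ?_, ?_, ?_⟩
  · apply ext_rowLen
    intro i
    rw [rowLen_addD, rowLen_ofRows, rowLen_ofRows]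
    have := h3 i
    omega
  · intro i
    rw [rowLen_ofRows]
  · intro i
    rw [rowLen_ofRows, rowLen_ofRows]
    have := h3 i
    omega

namespace IsCount
variable {N : ℕ → ℕ}

lemma lip (h : IsCount N) {a b : ℕ} (hab : a ≤ b) : N b + a ≤ N a + b := by
  obtain ⟨k, rfl⟩ := Nat.exists_eq_add_of_le hab
  induction k with
  | zero => simp
  | succ k ih =>
    have h1 := ih (by omega)
    rcases h.2 (a + k) with e | e <;> rw [show a + (k + 1) = a + k + 1 by ring, e] <;> omega

end IsCount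

/-- The raising move at row `i₀`. -/
theorem exists_raise (Y : YoungDiagram) {N : ℕ → ℕ} (hN : IsCount N) (i₀ : ℕ)
    (RU : i₀ = 0 ∨ N (Y.rowLen i₀) + 1 ≤ N (Y.rowLen (i₀ - 1)))
    (RV : N (Y.rowLen i₀) + 1 + Y.rowLen (i₀ + 1) ≤ N (Y.rowLen (i₀ + 1)) + Y.rowLen i₀) :
    ∃ Y1 Y2 : YoungDiagram, addD Y1 Y2 = Y ∧
      (∀ i, Y1.rowLen i = N (Y.rowLen i) + if i = i₀ then 1 else 0) ∧
      (∀ i, Y1.rowLen i + Y2.rowLen i = Y.rowLen i) := by
  have hm : ∀ i, N (Y.rowLen (i + 1)) ≤ N (Y.rowLen i) := fun i =>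
    hN.mono (Y.rowLen_anti _ _ (Nat.le_succ i))
  have hl : ∀ i, N (Y.rowLen i) + Y.rowLen (i + 1) ≤ N (Y.rowLen (i + 1)) + Y.rowLen i := fun i =>
    hN.lip (Y.rowLen_anti _ _ (Nat.le_succ i))
  apply exists_addD_of_rows
  · intro i
    by_cases h1 : i + 1 = i₀
    · have h2 : i ≠ i₀ := by omega
      rw [if_pos h1, if_neg h2]
      rcases RU with h | h
      · omega
      · subst h1
        simpa using h
    · by_cases h2 : i = i₀
      · rw [if_neg h1, if_pos h2]
        have := hm i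
        omega
      · rw [if_neg h1, if_neg h2]
        exact hm i
  · intro i
    by_cases h2 : i = i₀
    · have h1 : ¬ i + 1 = i₀ := by omega
      rw [if_pos h2, if_neg h1, h2]
      exact RV
    · by_cases h1 : i + 1 = i₀
      · rw [if_neg h2, if_pos h1]
        have := hl i
        omega
      · rw [if_neg h2, if_neg h1]
        simpa using hl i
  · intro i
    by_cases h2 : i = i₀
    · rw [if_pos h2, h2]
      have := hN.le_self (Y.rowLen (i₀ + 1))
      omega
    · rw [if_neg h2]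
      simpa using hN.le_self (Y.rowLen i)

/-- The lowering move at row `i₀`. -/
theorem exists_lower (Y : YoungDiagram) {N : ℕ → ℕ} (hN : IsCount N) (i₀ : ℕ)
    (LU : N (Y.rowLen (i₀ + 1)) + 1 ≤ N (Y.rowLen i₀))
    (LV : i₀ = 0 ∨ N (Y.rowLen (i₀ - 1)) + Y.rowLen i₀ + 1 ≤ Y.rowLen (i₀ - 1) + N (Y.rowLen i₀)) :
    ∃ Y1 Y2 : YoungDiagram, addD Y1 Y2 = Y ∧
      (∀ i, Y1.rowLen i + (if i = i₀ then 1 else 0) = N (Y.rowLen i)) ∧
      (∀ i, Y1.rowLen i + Y2.rowLen i = Y.rowLen i) := by
  have hm : ∀ i, N (Y.rowLen (i + 1)) ≤ N (Y.rowLen i) := fun i =>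
    hN.mono (Y.rowLen_anti _ _ (Nat.le_succ i))
  have hl : ∀ i, N (Y.rowLen i) + Y.rowLen (i + 1) ≤ N (Y.rowLen (i + 1)) + Y.rowLen i := fun i =>
    hN.lip (Y.rowLen_anti _ _ (Nat.le_succ i))
  obtain ⟨Y1, Y2, h1, h2, h3⟩ := exists_addD_of_rows Y
    (fun i => N (Y.rowLen i) - if i = i₀ then 1 else 0) (by
      intro i
      by_cases h2 : i = i₀
      · have h1 : ¬ i + 1 = i₀ := by omega
        rw [if_pos h2, if_neg h1, h2]
        omega
      · by_cases h1 : i + 1 = i₀
        · rw [if_neg h2, if_pos h1]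
          have := hm i
          omega
        · rw [if_neg h2, if_neg h1]
          simpa using hm i) (by
      intro i
      by_cases h2 : i = i₀
      · have h1 : ¬ i + 1 = i₀ := by omega
        rw [if_pos h2, if_neg h1, h2]
        have := hl i₀
        omega
      · by_cases h1 : i + 1 = i₀
        · rw [if_neg h2, if_pos h1]
          rcases LV with h | h
          · omega
          · subst h1
            simp only [Nat.add_sub_cancel] at h
            omega
        · rw [if_neg h2, if_neg h1]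
          simpa using hl i) (by
      intro i
      have := hN.le_self (Y.rowLen i)
      omega)
  refine ⟨Y1, Y2, h1, fun i => ?_, h3⟩
  rw [h2]
  by_cases h : i = i₀
  · rw [if_pos h, h]
    omega
  · simp [h]

/-- **One of the two moves is valid.**  `N`, `N'` two counting functions in the same band, which agree at
the row `i₀` and its two neighbours.  Either the raising move on `N` is valid and the row does not
leave the band by more than `v`, or the lowering move on `N'` is. -/
theorem flip_core (Y : YoungDiagram) {N N' : ℕ → ℕ} (hN : IsCount N) (hN' : IsCount N')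
    {f β v : ℚ} (hb1 : ∀ m : ℕ, f * m + β ≤ (N m : ℚ)) (hb2 : ∀ m : ℕ, (N m : ℚ) ≤ f * m + β + 1)
    {i₀ : ℕ} (hv : 1 / 2 ≤ v)
    (e0 : N' (Y.rowLen i₀) = N (Y.rowLen i₀)) (e1 : N' (Y.rowLen (i₀ + 1)) = N (Y.rowLen (i₀ + 1)))
    (e2 : i₀ = 0 ∨ N' (Y.rowLen (i₀ - 1)) = N (Y.rowLen (i₀ - 1)))
    (hd : Y.rowLen (i₀ + 1) < Y.rowLen i₀)
    (hd1 : 1 - v ≤ f * ((Y.rowLen i₀ : ℚ) - Y.rowLen (i₀ + 1)))
    (hd2 : 1 - v ≤ (1 - f) * ((Y.rowLen i₀ : ℚ) - Y.rowLen (i₀ + 1)))
    (hup : i₀ = 0 ∨ (Y.rowLen i₀ < Y.rowLen (i₀ - 1) ∧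
      1 - v ≤ f * ((Y.rowLen (i₀ - 1) : ℚ) - Y.rowLen i₀) ∧
      1 - v ≤ (1 - f) * ((Y.rowLen (i₀ - 1) : ℚ) - Y.rowLen i₀) ∧
      1 < f * ((Y.rowLen (i₀ - 1) : ℚ) - Y.rowLen (i₀ + 1)) ∧
      1 < (1 - f) * ((Y.rowLen (i₀ - 1) : ℚ) - Y.rowLen (i₀ + 1)))) :
    (∃ Y1 Y2 : YoungDiagram, addD Y1 Y2 = Y ∧
      (∀ i, Y1.rowLen i = N (Y.rowLen i) + if i = i₀ then 1 else 0) ∧
      (∀ i, Y1.rowLen i + Y2.rowLen i = Y.rowLen i) ∧
      (N (Y.rowLen i₀) : ℚ) ≤ f * Y.rowLen i₀ + β + v) ∨
    (∃ Y1 Y2 : YoungDiagram, addD Y1 Y2 = Y ∧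
      (∀ i, Y1.rowLen i + (if i = i₀ then 1 else 0) = N' (Y.rowLen i)) ∧
      (∀ i, Y1.rowLen i + Y2.rowLen i = Y.rowLen i) ∧
      f * Y.rowLen i₀ + β + 1 - v ≤ (N (Y.rowLen i₀) : ℚ)) := by
  -- abbreviations
  set y0 := Y.rowLen i₀ with hy0
  set y1 := Y.rowLen (i₀ + 1) with hy1
  set ym := Y.rowLen (i₀ - 1) with hym
  have hmono01 : N y1 ≤ N y0 := hN.mono hd.le
  have hlip01 : N y0 + y1 ≤ N y1 + y0 := hN.lip hd.le
  have hb0l := hb1 y0
  have hb0u := hb2 y0
  have hb1l := hb1 y1
  have hb1u := hb2 y1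
  have hbml := hb1 ym
  have hbmu := hb2 ym
  -- the four conditions
  by_cases RV : N y0 + 1 + y1 ≤ N y1 + y0
  · by_cases LU : N y1 + 1 ≤ N y0
    · by_cases RU : i₀ = 0 ∨ N y0 + 1 ≤ N ym
      · by_cases LV : i₀ = 0 ∨ N ym + y0 + 1 ≤ ym + N y0
        · -- all valid: choose by the position
          by_cases hA : (N y0 : ℚ) ≤ f * y0 + β + v
          · left
            obtain ⟨Y1, Y2, h1, h2, h3⟩ := exists_raise Y hN i₀ RU RV
            exact ⟨Y1, Y2, h1, h2, h3, hA⟩
          · right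
            have hB : f * y0 + β + 1 - v ≤ (N y0 : ℚ) := by
              push Not at hA
              linarith
            have LU' : N' y1 + 1 ≤ N' y0 := by rw [e0, e1]; exact LU
            have LV' : i₀ = 0 ∨ N' ym + y0 + 1 ≤ ym + N' y0 := by
              rcases LV with h | h
              · left; exact h
              · rcases e2 with h' | h'
                · left; exact h'
                · right; rw [h', e0]; exact h
            obtain ⟨Y1, Y2, h1, h2, h3⟩ := exists_lower Y hN' i₀ LU' LV'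
            exact ⟨Y1, Y2, h1, h2, h3, hB⟩
        · -- the complement is flat above: the row is low, raise
          left
          push Not at LV
          obtain ⟨h0, hc⟩ := LV
          have hup' := hup.resolve_left h0
          obtain ⟨hdm, h1m, h2m, h3m, h4m⟩ := hup'
          have hlipm : N ym + y0 ≤ N y0 + ym := hN.lip hdm.le
          have eq : (N ym : ℚ) + y0 = ym + N y0 := by
            have : N ym + y0 = ym + N y0 := by omega
            exact_mod_cast this
          have hA : (N y0 : ℚ) ≤ f * y0 + β + v := by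
            nlinarith
          obtain ⟨Y1, Y2, h1, h2, h3⟩ := exists_raise Y hN i₀ RU RV
          exact ⟨Y1, Y2, h1, h2, h3, hA⟩
      · -- the child is flat above: the row is high, lower
        right
        push Not at RU
        obtain ⟨h0, hc⟩ := RU
        have hup' := hup.resolve_left h0
        obtain ⟨hdm, h1m, h2m, h3m, h4m⟩ := hup'
        have hmonom : N y0 ≤ N ym := hN.mono hdm.le
        have eq : N ym = N y0 := by omega
        have eqQ : (N ym : ℚ) = N y0 := by exact_mod_cast eq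
        have hB : f * y0 + β + 1 - v ≤ (N y0 : ℚ) := by
          nlinarith
        have LV : N ym + y0 + 1 ≤ ym + N y0 := by omega
        have LU' : N' y1 + 1 ≤ N' y0 := by rw [e0, e1]; exact LU
        have LV' : i₀ = 0 ∨ N' ym + y0 + 1 ≤ ym + N' y0 := by
          rcases e2 with h' | h'
          · left; exact h'
          · right; rw [h', e0]; exact LV
        obtain ⟨Y1, Y2, h1, h2, h3⟩ := exists_lower Y hN' i₀ LU' LV'
        exact ⟨Y1, Y2, h1, h2, h3, hB⟩
    · -- the child is flat below: the row is low, raise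
      left
      have eq : N y0 = N y1 := by omega
      have eqQ : (N y0 : ℚ) = N y1 := by exact_mod_cast eq
      have hA : (N y0 : ℚ) ≤ f * y0 + β + v := by
        nlinarith
      have RU : i₀ = 0 ∨ N y0 + 1 ≤ N ym := by
        rcases hup with h | ⟨hdm, h1m, h2m, h3m, h4m⟩
        · left; exact h
        · right
          have hmonom : N y0 ≤ N ym := hN.mono hdm.le
          by_contra hcon
          have e3 : N ym = N y1 := by omega
          have e3Q : (N ym : ℚ) = N y1 := by exact_mod_cast e3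
          nlinarith
      obtain ⟨Y1, Y2, h1, h2, h3⟩ := exists_raise Y hN i₀ RU RV
      exact ⟨Y1, Y2, h1, h2, h3, hA⟩
  · -- the complement is flat below: the row is high, lower
    right
    have eq : N y0 + y1 = N y1 + y0 := by omega
    have eqQ : (N y0 : ℚ) + y1 = N y1 + y0 := by exact_mod_cast eq
    have hB : f * y0 + β + 1 - v ≤ (N y0 : ℚ) := by
      nlinarith
    have LU : N y1 + 1 ≤ N y0 := by omega
    have LV : i₀ = 0 ∨ N ym + y0 + 1 ≤ ym + N y0 := by
      rcases hup with h | ⟨hdm, h1m, h2m, h3m, h4m⟩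
      · left; exact h
      · right
        have hlipm : N ym + y0 ≤ N y0 + ym := hN.lip hdm.le
        by_contra hcon
        have e3 : (N ym : ℚ) + y0 = ym + N y0 := by
          have : N ym + y0 = ym + N y0 := by omega
          exact_mod_cast this
        nlinarith
    have LU' : N' y1 + 1 ≤ N' y0 := by rw [e0, e1]; exact LU
    have LV' : i₀ = 0 ∨ N' ym + y0 + 1 ≤ ym + N' y0 := by
      rcases LV with h | h
      · left; exact h
      · rcases e2 with h' | h'
        · left; exact h'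
        · right; rw [h', e0]; exact h
    obtain ⟨Y1, Y2, h1, h2, h3⟩ := exists_lower Y hN' i₀ LU' LV'
    exact ⟨Y1, Y2, h1, h2, h3, hB⟩


/-! ### The sweep with weights at most two -/

/-- Discrete intermediate value: steps at most two. -/
lemma exists_eq_of_two_steps (g : ℕ → ℕ) (hg : ∀ τ, g (τ + 1) ≤ g τ + 2) (M t : ℕ)
    (h0 : g 0 ≤ t) (ht : t ≤ g M) :
    ∃ τ ≤ M, g τ = t ∨ (τ < M ∧ g τ + 1 = t ∧ g (τ + 1) = t + 1) := by
  induction M with
  | zero => exact ⟨0, le_rfl, Or.inl (by omega)⟩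
  | succ M ih =>
    by_cases h : t ≤ g M
    · obtain ⟨τ, h1, h2⟩ := ih h
      refine ⟨τ, by omega, ?_⟩
      rcases h2 with h2 | ⟨h2, h3⟩
      · left; exact h2
      · right; exact ⟨by omega, h3⟩
    · have h1 := hg M
      by_cases h2 : g (M + 1) = t
      · exact ⟨M + 1, le_rfl, Or.inl h2⟩
      · exact ⟨M, by omega, Or.inr ⟨by omega, by omega, by omega⟩⟩

lemma mechKey_inj {a q K x y : ℕ} (hx : x < K) (hy : y < K)
    (e : mechKey a q K x = mechKey a q K y) : x = y := by
  unfold mechKey at e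
  rw [Nat.mod_eq_of_lt hx, Nat.mod_eq_of_lt hy] at e
  have e2 := congrArg (fun t => t % K) e
  have e3 : ∀ c r : ℕ, r < K → (c * K + r) % K = r := fun c r hr => by
    rw [Nat.add_comm, Nat.add_mul_mod_self_right, Nat.mod_eq_of_lt hr]
  simpa [e3 _ _ hx, e3 _ _ hy] using e2

/-- The rows with key exactly `τ`. -/
def mechEvent (Y : YoungDiagram) (a q K τ : ℕ) : Finset ℕ :=
  (range (Y.colLen 0)).filter fun i => mechKey a q K (Y.rowLen i) = τ

lemma mechCount_succ (Y : YoungDiagram) (a q K τ : ℕ) :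
    mechCount Y a q K (τ + 1) = mechCount Y a q K τ + (mechEvent Y a q K τ).card := by
  classical
  unfold mechCount mechEvent
  rw [← Finset.card_union_of_disjoint]
  · congr 1
    ext i
    simp only [mem_filter, mem_range, mem_union]
    constructor
    · rintro ⟨h1, h2⟩
      by_cases h3 : mechKey a q K (Y.rowLen i) < τ
      · exact Or.inl ⟨h1, h3⟩
      · exact Or.inr ⟨h1, by omega⟩
    · rintro (⟨h1, h2⟩ | ⟨h1, h2⟩)
      · exact ⟨h1, by omega⟩
      · exact ⟨h1, by omega⟩
  · rw [Finset.disjoint_left]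
    intro i hi hj
    simp only [mem_filter, mem_range] at hi hj
    omega

/-- No three equal nonzero rows: at most two rows in an event. -/
lemma mechEvent_card_le (Y : YoungDiagram) {a q K : ℕ} (hK : Y.rowLen 0 < K)
    (h3 : ∀ i, Y.rowLen (i + 2) ≠ 0 → Y.rowLen (i + 2) < Y.rowLen i) (τ : ℕ) :
    (mechEvent Y a q K τ).card ≤ 2 := by
  classical
  by_contra hc
  have h2 : 2 < (mechEvent Y a q K τ).card := by omega
  rw [Finset.two_lt_card] at h2
  obtain ⟨x, hx, y, hy, z, hz, hxy, hxz, hyz⟩ := h2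
  simp only [mechEvent, mem_filter, mem_range] at hx hy hz
  have hlt : ∀ i, Y.rowLen i < K := fun i =>
    lt_of_le_of_lt (Y.rowLen_anti _ _ (Nat.zero_le i)) hK
  have exy : Y.rowLen x = Y.rowLen y := mechKey_inj (a := a) (q := q) (hlt x) (hlt y) (by omega)
  have exz : Y.rowLen x = Y.rowLen z := mechKey_inj (a := a) (q := q) (hlt x) (hlt z) (by omega)
  -- order: the smallest and the largest differ by at least two
  have key : ∀ u v, u + 2 ≤ v → v < Y.colLen 0 → Y.rowLen u = Y.rowLen v → False := by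
    intro u v huv hv e
    have h4 : 0 < Y.rowLen v := (rowLen_pos_iff Y v).2 hv
    have h5 : Y.rowLen v ≤ Y.rowLen (u + 2) := Y.rowLen_anti _ _ huv
    have h6 : Y.rowLen (u + 2) ≠ 0 := by omega
    have h7 := h3 u h6
    omega
  rcases lt_trichotomy x y with h | h | h
  · rcases lt_trichotomy y z with h' | h' | h'
    · exact key x z (by omega) hz.1 exz
    · exact hyz h'
    · rcases lt_trichotomy x z with h'' | h'' | h''
      · exact key x y (by omega) hy.1 exy
      · exact hxz h''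
      · exact key z y (by omega) hy.1 (by omega)
  · exact hxy h
  · rcases lt_trichotomy x z with h' | h' | h'
    · exact key y z (by omega) hz.1 (by omega)
    · exact hxz h'
    · rcases lt_trichotomy y z with h'' | h'' | h''
      · exact key y x (by omega) hx.1 exy.symm
      · exact hyz h''
      · exact key z x (by omega) hx.1 exz.symm

/-- A row different from all the other rows is not in an event of weight two. -/
lemma key_ne_of_single (Y : YoungDiagram) {a q K τ i : ℕ} (hK : Y.rowLen 0 < K)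
    (hc : (mechEvent Y a q K τ).card = 2) (hi : i < Y.colLen 0)
    (hs : ∀ j, j < Y.colLen 0 → Y.rowLen j = Y.rowLen i → j = i) :
    mechKey a q K (Y.rowLen i) ≠ τ := by
  classical
  intro e
  have hlt : ∀ j, Y.rowLen j < K := fun j =>
    lt_of_le_of_lt (Y.rowLen_anti _ _ (Nat.zero_le j)) hK
  have h1 : mechEvent Y a q K τ ⊆ {i} := by
    intro j hj
    simp only [mechEvent, mem_filter, mem_range] at hj
    simp only [mem_singleton]
    exact hs j hj.1 (mechKey_inj (a := a) (q := q) (hlt j) (hlt i) (by omega))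
  have h2 := Finset.card_le_card h1
  simp only [card_singleton] at h2
  omega

lemma mechN_succ_eq {a q K τ m : ℕ} (h : mechKey a q K m ≠ τ) :
    mechN a q K (τ + 1) m = mechN a q K τ m := by
  unfold mechN
  have : mechKey a q K m < τ + 1 ↔ mechKey a q K m < τ := by omega
  simp only [this]

/-- Two rows separated by strict inequalities are different from all others. -/
lemma single_of_strict (Y : YoungDiagram) {i : ℕ} (h1 : Y.rowLen (i + 1) < Y.rowLen i)
    (h2 : i = 0 ∨ Y.rowLen i < Y.rowLen (i - 1)) :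
    ∀ j, j < Y.colLen 0 → Y.rowLen j = Y.rowLen i → j = i := by
  intro j _ e
  rcases lt_trichotomy j i with h | h | h
  · rcases h2 with h2 | h2
    · omega
    · have := Y.rowLen_anti j (i - 1) (by omega)
      omega
  · exact h
  · have := Y.rowLen_anti (i + 1) j (by omega)
    omega

/-- The sum of the floors and the total number of raisings bracket the target. -/
lemma mech_sum_bracket (Y : YoungDiagram) {T K : ℕ} (hK0 : 0 < K) (hT : T < Y.card) :
    ∑ i ∈ range (Y.colLen 0), T * Y.rowLen i / Y.card ≤ T ∧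
    T ≤ ∑ i ∈ range (Y.colLen 0), T * Y.rowLen i / Y.card +
      mechCount Y T Y.card K ((Y.card - 1) * K) := by
  classical
  set q := Y.card with hq
  have hq0 : 0 < q := by omega
  have hsum : q = ∑ i ∈ range (Y.colLen 0), Y.rowLen i := card_eq_sum_rowLen Y le_rfl
  set A := ∑ i ∈ range (Y.colLen 0), T * Y.rowLen i / q with hA
  constructor
  · have h1 : q * A ≤ T * q := by
      calc q * A = ∑ i ∈ range (Y.colLen 0), q * (T * Y.rowLen i / q) := by
            rw [hA, Finset.mul_sum]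
        _ ≤ ∑ i ∈ range (Y.colLen 0), T * Y.rowLen i :=
            Finset.sum_le_sum fun i _ => Nat.mul_div_le _ _
        _ = T * q := by rw [← Finset.mul_sum, ← hsum]
    have h2 : q * A ≤ q * T := by rwa [Nat.mul_comm T q] at h1
    exact Nat.le_of_mul_le_mul_left h2 hq0
  · have h1 : T * q ≤ q * (A + mechCount Y T q K ((q - 1) * K)) := by
      have hterm : ∀ i ∈ range (Y.colLen 0), T * Y.rowLen i ≤
          q * (T * Y.rowLen i / q) +
            q * (if mechKey T q K (Y.rowLen i) < (q - 1) * K then 1 else 0) := by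
        intro i _
        have h3 := Nat.div_add_mod (T * Y.rowLen i) q
        have h4 : (T * Y.rowLen i) % q < q := Nat.mod_lt _ hq0
        by_cases hc : (T * Y.rowLen i) % q = 0
        · simp only [hc, Nat.add_zero] at h3
          omega
        · have : mechKey T q K (Y.rowLen i) < (q - 1) * K := by
            unfold mechKey
            have h5 : Y.rowLen i % K < K := Nat.mod_lt _ hK0
            obtain ⟨x, hx⟩ : ∃ x, q - 1 = (q - 1 - (T * Y.rowLen i) % q) + x + 1 :=
              ⟨(T * Y.rowLen i) % q - 1, by omega⟩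
            calc (q - 1 - (T * Y.rowLen i) % q) * K + Y.rowLen i % K
                < (q - 1 - (T * Y.rowLen i) % q) * K + K := by omega
              _ = (q - 1 - (T * Y.rowLen i) % q + 1) * K := by ring
              _ ≤ (q - 1) * K := Nat.mul_le_mul_right _ (by omega)
          rw [if_pos this]
          omega
      calc T * q = ∑ i ∈ range (Y.colLen 0), T * Y.rowLen i := by
            rw [hsum, Finset.mul_sum]
        _ ≤ ∑ i ∈ range (Y.colLen 0), (q * (T * Y.rowLen i / q) +
            q * (if mechKey T q K (Y.rowLen i) < (q - 1) * K then 1 else 0)) :=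
            Finset.sum_le_sum hterm
        _ = q * (A + mechCount Y T q K ((q - 1) * K)) := by
            rw [Finset.sum_add_distrib, ← Finset.mul_sum, ← Finset.mul_sum, ← Nat.mul_add]
            unfold mechCount
            rw [Finset.card_filter]
    have h2 : q * T ≤ q * (A + mechCount Y T q K ((q - 1) * K)) := by
      rwa [Nat.mul_comm T q] at h1
    exact Nat.le_of_mul_le_mul_left h2 hq0

/-- The band of a cut: all rows except `i₀` in the band of width one, the row `i₀` leaves it by at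
most `v`. -/
def CutBand (Y Y1 : YoungDiagram) (f β : ℚ) (i₀ : ℕ) (v : ℚ) : Prop :=
  (∀ i, i ≠ i₀ → f * Y.rowLen i + β ≤ (Y1.rowLen i : ℚ) ∧
    (Y1.rowLen i : ℚ) ≤ f * Y.rowLen i + β + 1) ∧
  f * Y.rowLen i₀ + β - v ≤ (Y1.rowLen i₀ : ℚ) ∧ (Y1.rowLen i₀ : ℚ) ≤ f * Y.rowLen i₀ + β + 1 + v

/-- **The exact cut with a repair row.** -/
theorem exists_exact_cut_flip (Y : YoungDiagram) {T : ℕ} (hT0 : 0 < T) (hT : T < Y.card)
    {f v : ℚ} (hf : f = (T : ℚ) / Y.card) (hv : 1 / 2 ≤ v) {i₀ : ℕ}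
    (hno3 : ∀ i, Y.rowLen (i + 2) ≠ 0 → Y.rowLen (i + 2) < Y.rowLen i)
    (hi₀ : Y.rowLen i₀ ≠ 0)
    (hd : Y.rowLen (i₀ + 1) < Y.rowLen i₀)
    (hd' : Y.rowLen (i₀ + 1) = 0 ∨ Y.rowLen (i₀ + 2) < Y.rowLen (i₀ + 1))
    (hd1 : 1 - v ≤ f * ((Y.rowLen i₀ : ℚ) - Y.rowLen (i₀ + 1)))
    (hd2 : 1 - v ≤ (1 - f) * ((Y.rowLen i₀ : ℚ) - Y.rowLen (i₀ + 1)))
    (hup : i₀ = 0 ∨ (Y.rowLen i₀ < Y.rowLen (i₀ - 1) ∧
      (i₀ = 1 ∨ Y.rowLen (i₀ - 1) < Y.rowLen (i₀ - 2)) ∧
      1 - v ≤ f * ((Y.rowLen (i₀ - 1) : ℚ) - Y.rowLen i₀) ∧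
      1 - v ≤ (1 - f) * ((Y.rowLen (i₀ - 1) : ℚ) - Y.rowLen i₀) ∧
      1 < f * ((Y.rowLen (i₀ - 1) : ℚ) - Y.rowLen (i₀ + 1)) ∧
      1 < (1 - f) * ((Y.rowLen (i₀ - 1) : ℚ) - Y.rowLen (i₀ + 1)))) :
    ∃ (Y1 Y2 : YoungDiagram) (β : ℚ), addD Y1 Y2 = Y ∧ Y1.card = T ∧ Y2.card = Y.card - T ∧
      (∀ i, Y1.rowLen i + Y2.rowLen i = Y.rowLen i) ∧
      -1 ≤ β ∧ β ≤ 0 ∧ CutBand Y Y1 f β i₀ v := by
  classical
  set q := Y.card with hq
  have hq0 : 0 < q := by omega
  have hqQ : (0 : ℚ) < q := by exact_mod_cast hq0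
  set K := Y.rowLen 0 + 2 with hK
  have hK0 : 0 < K := by omega
  have hKy : Y.rowLen 0 < K := by omega
  have hlt : ∀ j, Y.rowLen j + 1 < K := fun j => by
    have := Y.rowLen_anti 0 j (Nat.zero_le j)
    omega
  obtain ⟨hA1, hA2⟩ := mech_sum_bracket Y (T := T) hK0 hT
  set A := ∑ i ∈ range (Y.colLen 0), T * Y.rowLen i / q with hA
  have hA2' : T ≤ A + mechCount Y T q K ((q - 1) * K) := hA2
  have hr₀ : i₀ < Y.colLen 0 := (rowLen_pos_iff Y i₀).1 (Nat.pos_of_ne_zero hi₀)
  have hstep : ∀ τ, mechCount Y T q K (τ + 1) ≤ mechCount Y T q K τ + 2 := fun τ => by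
    rw [mechCount_succ]
    have := mechEvent_card_le Y (a := T) (q := q) hKy hno3 τ
    omega
  obtain ⟨τ, hτ, hcase⟩ := exists_eq_of_two_steps (mechCount Y T q K) hstep ((q - 1) * K) (T - A)
    (by rw [mechCount_zero]; omega) (by omega)
  have hband : ∀ τ' ≤ (q - 1) * K, ∀ m : ℕ,
      f * m + (((τ' / K : ℕ) : ℚ) + 1 - q) / q ≤ (mechN T q K τ' m : ℚ) ∧
      (mechN T q K τ' m : ℚ) ≤ f * m + (((τ' / K : ℕ) : ℚ) + 1 - q) / q + 1 := by
    intro τ' h m
    rw [hf]
    exact mechN_bounds_rat hT hK0 h m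
  have hβ : ∀ τ' ≤ (q - 1) * K, -1 ≤ (((τ' / K : ℕ) : ℚ) + 1 - q) / q ∧
      (((τ' / K : ℕ) : ℚ) + 1 - q) / q ≤ 0 := by
    intro τ' h
    have hl : τ' / K ≤ q - 1 := by
      have : τ' / K ≤ ((q - 1) * K) / K := Nat.div_le_div_right h
      rwa [Nat.mul_div_cancel _ hK0] at this
    constructor
    · rw [le_div_iff₀ hqQ]
      have : (0 : ℚ) ≤ ((τ' / K : ℕ) : ℚ) := Nat.cast_nonneg _
      linarith
    · rw [div_le_iff₀ hqQ]
      have : ((τ' / K : ℕ) : ℚ) ≤ ((q - 1 : ℕ) : ℚ) := by exact_mod_cast hl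
      rw [Nat.cast_sub (by omega)] at this
      push_cast at this
      linarith
  have hsumN : ∀ τ' ≤ (q - 1) * K,
      ∑ i ∈ range (Y.colLen 0), mechN T q K τ' (Y.rowLen i) = A + mechCount Y T q K τ' := by
    intro τ' h
    have hN := isCount_mechN (a := T) (q := q) (K := K) (τ := τ') hT0 hT hK0 h
    rw [← card_cutV Y _ hN, card_cutV_mechN]
  have hcardY2 : ∀ Y1 Y2 : YoungDiagram, addD Y1 Y2 = Y → Y1.card = T → Y2.card = q - T := by
    intro Y1 Y2 h h1
    have h2 := congrArg YoungDiagram.card h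
    rw [card_addD, h1] at h2
    omega
  rcases hcase with hexact | ⟨hτlt, hc1, hc2⟩
  · -- no repair needed
    have hN := isCount_mechN (a := T) (q := q) (K := K) (τ := τ) hT0 hT hK0 hτ
    refine ⟨Saxl.cutV Y _ hN, Saxl.cutV Y _ hN.compl, _, addD_cutV Y _ hN, ?_, ?_, ?_,
      (hβ τ hτ).1, (hβ τ hτ).2, ?_, ?_⟩
    · rw [card_cutV_mechN, hexact]
      omega
    · apply hcardY2 _ _ (addD_cutV Y _ hN)
      rw [card_cutV_mechN, hexact]
      omega
    · intro i
      rw [rowLen_cutV, rowLen_cutV]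
      have := hN.le_self (Y.rowLen i)
      omega
    · intro i _
      rw [rowLen_cutV]
      exact hband τ hτ _
    · rw [rowLen_cutV]
      have := hband τ hτ (Y.rowLen i₀)
      constructor <;> linarith [this.1, this.2]
  · -- the event jumps over the target
    have hτ1 : τ + 1 ≤ (q - 1) * K := hτlt
    have hN := isCount_mechN (a := T) (q := q) (K := K) (τ := τ) hT0 hT hK0 hτ
    have hN' := isCount_mechN (a := T) (q := q) (K := K) (τ := τ + 1) hT0 hT hK0 hτ1
    have hc : (mechEvent Y T q K τ).card = 2 := by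
      have := mechCount_succ Y T q K τ
      omega
    -- the same band: the level does not change
    have hlevel : (τ + 1) / K = τ / K := by
      have hne : (mechEvent Y T q K τ).Nonempty := by
        rw [← Finset.card_pos]
        omega
      obtain ⟨j, hj⟩ := hne
      simp only [mechEvent, mem_filter, mem_range] at hj
      have hjk := hj.2
      have hj1 := hlt j
      unfold mechKey at hjk
      rw [Nat.mod_eq_of_lt (show Y.rowLen j < K by omega)] at hjk
      set c := q - 1 - T * Y.rowLen j % q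
      have e0 : (c + 1) * K = c * K + K := by ring
      have e1 : τ / K = c := by
        apply Nat.div_eq_of_lt_le <;> omega
      have e2 : (τ + 1) / K = c := by
        apply Nat.div_eq_of_lt_le <;> omega
      rw [e1, e2]
    set β : ℚ := (((τ / K : ℕ) : ℚ) + 1 - q) / q with hβdef
    have hb1 : ∀ m : ℕ, f * m + β ≤ (mechN T q K τ m : ℚ) := fun m => (hband τ hτ m).1
    have hb2 : ∀ m : ℕ, (mechN T q K τ m : ℚ) ≤ f * m + β + 1 := fun m => (hband τ hτ m).2
    have hb1' : ∀ m : ℕ, f * m + β ≤ (mechN T q K (τ + 1) m : ℚ) := fun m => by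
      have := (hband (τ + 1) hτ1 m).1
      rwa [hlevel] at this
    have hb2' : ∀ m : ℕ, (mechN T q K (τ + 1) m : ℚ) ≤ f * m + β + 1 := fun m => by
      have := (hband (τ + 1) hτ1 m).2
      rwa [hlevel] at this
    -- the row and its neighbours are not in the event
    have e0 : mechN T q K (τ + 1) (Y.rowLen i₀) = mechN T q K τ (Y.rowLen i₀) := by
      apply mechN_succ_eq
      apply key_ne_of_single Y hKy hc hr₀
      apply single_of_strict Y hd
      rcases hup with h | h
      · left; exact h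
      · right; exact h.1
    have e1 : mechN T q K (τ + 1) (Y.rowLen (i₀ + 1)) = mechN T q K τ (Y.rowLen (i₀ + 1)) := by
      rcases hd' with h0 | h2
      · rw [h0, hN.1, hN'.1]
      · by_cases h0 : Y.rowLen (i₀ + 1) = 0
        · rw [h0, hN.1, hN'.1]
        · apply mechN_succ_eq
          apply key_ne_of_single Y hKy hc ((rowLen_pos_iff Y _).1 (Nat.pos_of_ne_zero h0))
          apply single_of_strict Y h2
          right
          simpa using hd
    have e2 : i₀ = 0 ∨ mechN T q K (τ + 1) (Y.rowLen (i₀ - 1)) = mechN T q K τ (Y.rowLen (i₀ - 1)) := by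
      rcases hup with h | ⟨h1, h2, -⟩
      · left; exact h
      · by_cases h0 : i₀ = 0
        · left; exact h0
        right
        apply mechN_succ_eq
        have hpos : 0 < Y.rowLen (i₀ - 1) := by omega
        apply key_ne_of_single Y hKy hc ((rowLen_pos_iff Y _).1 hpos)
        apply single_of_strict Y
        · have : i₀ - 1 + 1 = i₀ := by omega
          rw [this]
          exact h1
        · rcases h2 with h2 | h2
          · left; omega
          · right
            have : i₀ - 1 - 1 = i₀ - 2 := by omega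
            rw [this]
            exact h2
    have hup' : i₀ = 0 ∨ (Y.rowLen i₀ < Y.rowLen (i₀ - 1) ∧
        1 - v ≤ f * ((Y.rowLen (i₀ - 1) : ℚ) - Y.rowLen i₀) ∧
        1 - v ≤ (1 - f) * ((Y.rowLen (i₀ - 1) : ℚ) - Y.rowLen i₀) ∧
        1 < f * ((Y.rowLen (i₀ - 1) : ℚ) - Y.rowLen (i₀ + 1)) ∧
        1 < (1 - f) * ((Y.rowLen (i₀ - 1) : ℚ) - Y.rowLen (i₀ + 1))) := by
      rcases hup with h | ⟨h1, -, h3⟩
      · left; exact h
      · right; exact ⟨h1, h3⟩
    rcases flip_core Y hN hN' hb1 hb2 hv e0 e1 e2 hd hd1 hd2 hup' with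
      ⟨Y1, Y2, hadd, hrow, hsum, hA'⟩ | ⟨Y1, Y2, hadd, hrow, hsum, hB⟩
    · -- raise
      have hY1r : Y1.rowLen (Y.colLen 0) = 0 := by
        rw [hrow, rowLen_colLen_zero, hN.1, if_neg (by omega)]
      have hcard : Y1.card = T := by
        rw [card_eq_sum_rowLen Y1 (colLen_zero_le_of_rowLen_eq_zero Y1 hY1r)]
        simp only [hrow]
        rw [Finset.sum_add_distrib, hsumN τ hτ, Finset.sum_ite_eq' (range (Y.colLen 0)) i₀,
          if_pos (mem_range.2 hr₀)]
        omega
      refine ⟨Y1, Y2, β, hadd, hcard, hcardY2 _ _ hadd hcard, hsum,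
        (hβ τ hτ).1, (hβ τ hτ).2, ?_, ?_, ?_⟩
      · intro i hi
        rw [hrow, if_neg hi]
        exact ⟨hb1 _, hb2 _⟩
      · rw [hrow, if_pos rfl]
        have := hb1 (Y.rowLen i₀)
        push_cast
        linarith
      · rw [hrow, if_pos rfl]
        push_cast
        linarith
    · -- lower
      have hY1r : Y1.rowLen (Y.colLen 0) = 0 := by
        have := hrow (Y.colLen 0)
        rw [rowLen_colLen_zero, hN'.1] at this
        omega
      have hcard : Y1.card = T := by
        rw [card_eq_sum_rowLen Y1 (colLen_zero_le_of_rowLen_eq_zero Y1 hY1r)]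
        have h1 := hsumN (τ + 1) hτ1
        simp only [← hrow] at h1
        rw [Finset.sum_add_distrib, Finset.sum_ite_eq' (range (Y.colLen 0)) i₀,
          if_pos (mem_range.2 hr₀)] at h1
        omega
      have hi₀' : (Y1.rowLen i₀ : ℚ) + 1 = (mechN T q K τ (Y.rowLen i₀) : ℚ) := by
        have := hrow i₀
        rw [if_pos rfl, e0] at this
        exact_mod_cast this
      refine ⟨Y1, Y2, β, hadd, hcard, hcardY2 _ _ hadd hcard, hsum,
        (hβ τ hτ).1, (hβ τ hτ).2, ?_, ?_, ?_⟩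
      · intro i hi
        have := hrow i
        rw [if_neg hi, Nat.add_zero] at this
        rw [this]
        exact ⟨hb1' _, hb2' _⟩
      · linarith
      · have := hb2 (Y.rowLen i₀)
        linarith

/-- The band of the other child. -/
lemma CutBand.compl {Y Y1 Y2 : YoungDiagram} {f β v : ℚ} {i₀ : ℕ}
    (h : CutBand Y Y1 f β i₀ v) (hs : ∀ i, Y1.rowLen i + Y2.rowLen i = Y.rowLen i) :
    CutBand Y Y2 (1 - f) (-β - 1) i₀ v := by
  have hs' : ∀ i, (Y2.rowLen i : ℚ) = Y.rowLen i - Y1.rowLen i := fun i => by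
    have := hs i
    have h2 : (Y1.rowLen i : ℚ) + Y2.rowLen i = Y.rowLen i := by exact_mod_cast this
    linarith
  obtain ⟨h1, h2, h3⟩ := h
  refine ⟨fun i hi => ?_, ?_, ?_⟩
  · obtain ⟨h4, h5⟩ := h1 i hi
    rw [hs']
    constructor <;> linarith
  · rw [hs']
    linarith
  · rw [hs']
    linarith

/-- The corridor of a child: same as for a cut by a counting function when the row `i₀` has room. -/
theorem CutBand.corE {ρ θ e f β v : ℚ} {Y Y1 : YoungDiagram} {i₀ : ℕ} (h : CutBand Y Y1 f β i₀ v)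
    (hle : ∀ i, Y1.rowLen i ≤ Y.rowLen i) (hθ : 0 < θ) (hf : 0 < f) (hC : CorE ρ θ e Y)
    (hv1 : v ≤ f * (θ * (ρ - (i₀ : ℚ)) + e - Y.rowLen i₀))
    (hv2 : v ≤ f * ((Y.rowLen i₀ : ℚ) - (θ * (ρ - ((i₀ : ℚ) + 1)) - e))) :
    CorE (ρ + (β + 1 / 2) / (f * θ)) (f * θ) (f * e + 1 / 2) Y1 := by
  intro i
  have hft : 0 < f * θ := mul_pos hf hθ
  have hs : f * θ * (ρ + (β + 1 / 2) / (f * θ) - ((i : ℚ) + 1)) =
      f * (θ * (ρ - ((i : ℚ) + 1))) + (β + 1 / 2) := by
    field_simp
    ring
  have hs2 : f * θ * (ρ + (β + 1 / 2) / (f * θ) - (i : ℚ)) =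
      f * (θ * (ρ - (i : ℚ))) + (β + 1 / 2) := by
    field_simp
    ring
  obtain ⟨h1, h2, h3⟩ := h
  have hC1 := (hC i).1
  constructor
  · rw [hs]
    have h4 : f * (θ * (ρ - ((i : ℚ) + 1)) - e) ≤ f * (Y.rowLen i : ℚ) :=
      mul_le_mul_of_nonneg_left hC1 hf.le
    by_cases hi : i = i₀
    · subst hi
      nlinarith
    · have := (h1 i hi).1
      nlinarith
  · by_cases h0 : Y1.rowLen i = 0
    · left; exact h0
    right
    have h00 : Y.rowLen i ≠ 0 := by
      have := hle i
      omega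
    have hC2 := (hC i).2.resolve_left h00
    rw [hs2]
    have h4 : f * (Y.rowLen i : ℚ) ≤ f * (θ * (ρ - (i : ℚ)) + e) :=
      mul_le_mul_of_nonneg_left hC2 hf.le
    by_cases hi : i = i₀
    · subst hi
      nlinarith
    · have := (h1 i hi).2
      nlinarith

/-- A corridor with `θ > 2 e` has no three equal nonzero rows. -/
lemma CorE.no_triple {ρ θ e : ℚ} {Y : YoungDiagram} (h : CorE ρ θ e Y) (hθ : 2 * e < θ) :
    ∀ i, Y.rowLen (i + 2) ≠ 0 → Y.rowLen (i + 2) < Y.rowLen i := by
  intro i h0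
  have h1 := (h i).1
  have h2 := (h (i + 2)).2.resolve_left h0
  have h3 : (Y.rowLen (i + 2) : ℚ) < Y.rowLen i := by
    push_cast at h2
    nlinarith
  exact_mod_cast h3

/-- **The exact cut of a corridor with a repair row**: if the row `i₀` has room in its window, the
children are in the same corridors as for distinct rows. -/
theorem CorE.exists_exact_cutV_flip {ρ θ e f v : ℚ} {Y : YoungDiagram} {T : ℕ} {i₀ : ℕ} (hθ : 0 < θ)
    (h : CorE ρ θ e Y) (hT0 : 0 < T) (hT : T < Y.card)
    (hf : f = (T : ℚ) / Y.card) (hv : 1 / 2 ≤ v)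
    (hno3 : ∀ i, Y.rowLen (i + 2) ≠ 0 → Y.rowLen (i + 2) < Y.rowLen i)
    (hi₀ : Y.rowLen i₀ ≠ 0)
    (hd : Y.rowLen (i₀ + 1) < Y.rowLen i₀)
    (hd' : Y.rowLen (i₀ + 1) = 0 ∨ Y.rowLen (i₀ + 2) < Y.rowLen (i₀ + 1))
    (hd1 : 1 - v ≤ f * ((Y.rowLen i₀ : ℚ) - Y.rowLen (i₀ + 1)))
    (hd2 : 1 - v ≤ (1 - f) * ((Y.rowLen i₀ : ℚ) - Y.rowLen (i₀ + 1)))
    (hup : i₀ = 0 ∨ (Y.rowLen i₀ < Y.rowLen (i₀ - 1) ∧
      (i₀ = 1 ∨ Y.rowLen (i₀ - 1) < Y.rowLen (i₀ - 2)) ∧
      1 - v ≤ f * ((Y.rowLen (i₀ - 1) : ℚ) - Y.rowLen i₀) ∧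
      1 - v ≤ (1 - f) * ((Y.rowLen (i₀ - 1) : ℚ) - Y.rowLen i₀) ∧
      1 < f * ((Y.rowLen (i₀ - 1) : ℚ) - Y.rowLen (i₀ + 1)) ∧
      1 < (1 - f) * ((Y.rowLen (i₀ - 1) : ℚ) - Y.rowLen (i₀ + 1))))
    (hr1 : v ≤ f * (θ * (ρ - (i₀ : ℚ)) + e - Y.rowLen i₀))
    (hr2 : v ≤ f * ((Y.rowLen i₀ : ℚ) - (θ * (ρ - ((i₀ : ℚ) + 1)) - e)))
    (hr3 : v ≤ (1 - f) * (θ * (ρ - (i₀ : ℚ)) + e - Y.rowLen i₀))
    (hr4 : v ≤ (1 - f) * ((Y.rowLen i₀ : ℚ) - (θ * (ρ - ((i₀ : ℚ) + 1)) - e))) :
    ∃ (Y1 Y2 : YoungDiagram) (β : ℚ), addD Y1 Y2 = Y ∧ Y1.card = T ∧ Y2.card = Y.card - T ∧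
      (∀ i, Y1.rowLen i + Y2.rowLen i = Y.rowLen i) ∧
      -1 ≤ β ∧ β ≤ 0 ∧ CutBand Y Y1 f β i₀ v ∧
      CorE (ρ + (β + 1 / 2) / (f * θ)) (f * θ) (f * e + 1 / 2) Y1 ∧
      CorE (ρ - (β + 1 / 2) / ((1 - f) * θ)) ((1 - f) * θ) ((1 - f) * e + 1 / 2) Y2 := by
  obtain ⟨Y1, Y2, β, hadd, hc1, hc2, hs, hβ1, hβ2, hB⟩ :=
    exists_exact_cut_flip Y hT0 hT hf hv hno3 hi₀ hd hd' hd1 hd2 hup
  have hYpos : (0 : ℚ) < Y.card := by
    have : 0 < Y.card := by omega
    exact_mod_cast this
  have hf0 : 0 < f := by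
    rw [hf]
    have : (0 : ℚ) < T := by exact_mod_cast hT0
    exact div_pos this hYpos
  have hf1 : 0 < 1 - f := by
    have : (T : ℚ) < Y.card := by exact_mod_cast hT
    have h2 : f < 1 := by rw [hf, div_lt_one hYpos]; exact this
    linarith
  refine ⟨Y1, Y2, β, hadd, hc1, hc2, hs, hβ1, hβ2, hB, ?_, ?_⟩
  · exact hB.corE (fun i => by have := hs i; omega) hθ hf0 h hr1 hr2
  · have h2 := (hB.compl hs).corE (fun i => by have := hs i; omega) hθ hf1 h hr3 hr4
    have e1 : ρ + (-β - 1 + 1 / 2) / ((1 - f) * θ) = ρ - (β + 1 / 2) / ((1 - f) * θ) := by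
      have : (-β - 1 + 1 / 2) = -(β + 1 / 2) := by ring
      rw [this, neg_div]
      ring
    rwa [e1] at h2

/-! ### Trees: any class closed under the cuts -/

/-- Every internal node of the tree can cut a member of the class `C`. -/
def GTree.Closed (C : GTree → YoungDiagram → Prop) : GTree → Prop
  | GTree.leaf _ => True
  | GTree.node l r =>
    (∀ Y, C (GTree.node l r) Y → ∃ Y1 Y2, addD Y1 Y2 = Y ∧ C l Y1 ∧ C r Y2) ∧
      GTree.Closed C l ∧ GTree.Closed C r

/-- **Generic tree theorem.**  If a class (which may depend on the node) is closed under the cuts of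
the tree and every member at a leaf hosts the group of the leaf then every member at the root hosts
all the columns.  So the class of pieces can be changed without touching the glue. -/
theorem TT_of_gtree_closed (C : GTree → YoungDiagram → Prop) (t : GTree) (hc : GTree.Closed C t)
    (hl : ∀ g ∈ GTree.leaves t, ∀ Y, C (GTree.leaf g) Y → TT Y (colsD g)) :
    ∀ Y, C t Y → TT Y (colsD (GTree.cols t)) := by
  induction t with
  | leaf g =>
    intro Y hY
    exact hl g (by simp [GTree.leaves]) Y hY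
  | node l r ihl ihr =>
    intro Y hY
    obtain ⟨hcut, hcl, hcr⟩ := hc
    obtain ⟨Y1, Y2, hadd, h1, h2⟩ := hcut Y hY
    have t1 := ihl hcl (fun g hg => hl g (by simp [GTree.leaves, hg])) Y1 h1
    have t2 := ihr hcr (fun g hg => hl g (by simp [GTree.leaves, hg])) Y2 h2
    have h3 := TT.add t1 t2
    rw [hadd, ← colsD_add] at h3
    exact h3

end Crest.Agent.Lib.Saxl
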