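import Crest.Agent.Lib.Saxl.Trim

/-!
# Saxl: the ones step (row 195, L4: replaces "WLOG flat")

A strip whose columns all have height one has no condition at all, but it has a minimal mass: the child must be
canonical and a sub-word of the parent.  `oneChild n` is an explicit such child, one letter of the half word is deleted
(two letters in one corner case), and `oneM n = n - oneChild n` is at most the side `x = sideH n`,
except for `hard1` (`x` even, `c = 1`) where it is `2 x - 3`.

* `TT.ones_step`: if the half word of `n'` is a sub-word of the half word of `n`,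
  `T(X_n', colsD m) → T(X_n, colsD (m + (n - n') ones))`.
* `uOf_oneChild`: the sub-word of `oneChild n`.
* `oneM_le`, `oneM_le_hard1`: the bounds.
* `Reduces.of_ones`, `Reduces.of_ones_flip`: if `c` (resp. `c'`) has at least `oneM n` columns of height one, the
  statement for `c` reduces to a smaller `n'`.

So for `n ≥ 30`, we may assume: `c` and `c'` have fewer than `oneM n ≤ x` columns of height one (`≤ 2x - 3` at `hard1`).
-/

set_option autoImplicit false
set_option linter.unusedSectionVars false

namespace Crest.Agent.Lib.Saxl

/-- **The ones step**: a strip with row leaves only. -/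
theorem TT.ones_step {n n' : ℕ} (hn : n ≠ 2) (hn' : n' ≠ 2) (hsub : (uOf n').Sublist (uOf n))
    {mA : Multiset ℕ} (hA : TT (XF n') (colsD mA)) :
    TT (XF n) (colsD (mA + Multiset.replicate (n - n') 1)) := by
  obtain ⟨t, h1, h2⟩ := exists_tags hsub
  have harea := area_selfGrid t
  have e1 : area (selfW (letters t)) = n := by
    rw [h1]
    exact area_wordF n hn
  have e2 : area (selfW (tagT t)) = n' := by
    rw [h2]
    exact area_wordF n' hn'
  set a := area (offW t) with ha
  set b := area (selfW (tagF t)) with hb
  have e3 : n - n' = a + (a + b) := by omega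
  have h3 : TT (shape (selfW (tagT t))) (colsD mA) := by
    rw [h2]
    exact hA
  have h4 : TT (shape (offW t)) (colsD (Multiset.replicate a 1)) := TT.ones _ (card_shape _)
  have h5 : TT (shape (selfW (tagF t))) (colsD (Multiset.replicate b 1)) := TT.ones _ (card_shape _)
  have h6 := TT.selfGrid t h3 h4 h4 h5
  rw [h1] at h6
  rw [← colsD_add, ← colsD_add, ← colsD_add] at h6
  rw [e3, Multiset.replicate_add, Multiset.replicate_add]
  have e4 : mA + (Multiset.replicate a 1 + (Multiset.replicate a 1 + Multiset.replicate b 1))
      = mA + Multiset.replicate a 1 + (Multiset.replicate a 1 + Multiset.replicate b 1) := by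
    rw [add_assoc]
  rw [e4]
  exact h6

/-- The side from the two bounds. -/
lemma sideH_eq {m k : ℕ} (hm : 1 ≤ m) (h1 : triN (m - 1) < k) (h2 : k ≤ triN m) : sideH k = m := by
  have hk : 1 ≤ k := by omega
  obtain ⟨h3, h4⟩ := sideH_spec k
  obtain ⟨h5, h6⟩ := h4 hk
  generalize sideH k = y at *
  have h7 : m ≤ y := by
    by_contra hc
    have := triN_mono (show y ≤ m - 1 by omega)
    omega
  have h8 : y ≤ m := by
    by_contra hc
    have := triN_mono (show m ≤ y - 1 by omega)
    omega
  omega

/-- The half word from the side and the defect. -/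
lemma uOf_eq {n y c : ℕ} (h1 : sideH n = y) (h2 : triN y - n = c) :
    uOf n = if c = 0 then
      (if y % 2 = 0 then stairW (y / 2) else stairW (y / 2) ++ [true])
    else if c % 2 = y % 2 then
      (if c % 2 = 1 then famU ((y - c) / 2) ((c - 1) / 2) []
       else famU ((y - c) / 2) ((c - 2) / 2) [true])
    else if y % 2 = 1 then famU ((y - c - 1) / 2) ((c - 2) / 2) [true, true]
    else if c = 1 then hard1U ((y - 4) / 2)
    else famU ((y - 2 - (c - 3)) / 2) ((c - 3) / 2) [false] := by
  unfold uOf
  simp only
  rw [h1, h2]

/-- Side and defect of a number given by side and defect. -/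
lemma side_of {y c : ℕ} (hy : 1 ≤ y) (hc : c < y) :
    sideH (triN y - c) = y ∧ triN y - (triN y - c) = c := by
  have e : triN y = triN (y - 1) + y := by
    obtain ⟨z, rfl⟩ : ∃ z, y = z + 1 := ⟨y - 1, by omega⟩
    simp [triN_succ]
    omega
  constructor
  · apply sideH_eq hy <;> omega
  · omega

/-- The child of the ones step. -/
def oneChild (n : ℕ) : ℕ :=
  let x := sideH n
  let c := triN x - n
  if c = 0 then triN (x - 1)
  else if x % 2 = 0 then
    (if c = 1 then triN (x - 1) - (x - 2)
     else if c % 2 = 0 then triN (x - 1) - (c - 1)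
     else triN (x - 1) - (c - 2))
  else
    (if c % 2 = 0 then triN (x - 1) - c
     else triN (x - 1) - (c - 1))

/-- The mass of the ones step. -/
def oneM (n : ℕ) : ℕ := n - oneChild n

lemma stairW_succ' (k : ℕ) : stairW (k + 1) = stairW k ++ [true, false] := rfl

/-- The sub-word of the ones step. -/
theorem uOf_oneChild {n : ℕ} (hn : 30 ≤ n) : (uOf (oneChild n)).Sublist (uOf n) := by
  obtain ⟨h1, h2⟩ := sideH_spec n
  obtain ⟨h3, h4⟩ := h2 (by omega)
  have hx8 : 8 ≤ sideH n := by
    by_contra hc
    have := triN_mono (show sideH n ≤ 7 by omega)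
    have e : triN 7 = 28 := by decide
    omega
  have hlt : triN (sideH n) - n < sideH n := by
    obtain ⟨z, hz⟩ : ∃ z, sideH n = z + 1 := ⟨sideH n - 1, by omega⟩
    rw [hz, triN_succ]
    rw [hz] at h4
    simp only [Nat.add_sub_cancel] at h4
    omega
  unfold oneChild
  simp only
  rw [uOf_eq (n := n) rfl rfl]
  generalize sideH n = x at *
  generalize triN x - n = c at *
  by_cases hc0 : c = 0
  · rw [if_pos hc0, if_pos hc0]
    have hs := sideH_tri (x - 1)
    have hd : triN (x - 1) - triN (x - 1) = 0 := by omega
    rw [uOf_eq hs hd, if_pos rfl]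
    by_cases hxe : x % 2 = 0
    · rw [if_pos hxe, if_neg (by omega)]
      obtain ⟨i, hi⟩ : ∃ i, x = 2 * i + 2 := ⟨(x - 2) / 2, by omega⟩
      have e1 : (x - 1) / 2 = i := by omega
      have e2 : x / 2 = i + 1 := by omega
      rw [e1, e2, stairW_succ']
      exact List.Sublist.append_left (by simp) _
    · rw [if_neg hxe, if_pos (by omega)]
      have e1 : (x - 1) / 2 = x / 2 := by omega
      rw [e1]
      exact List.sublist_append_left _ _
  · rw [if_neg hc0, if_neg hc0]
    by_cases hxe : x % 2 = 0
    · rw [if_pos hxe]
      by_cases hc1 : c = 1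
      · -- hard1
        subst hc1
        rw [if_pos rfl]
        obtain ⟨hs, hd⟩ := side_of (y := x - 1) (c := x - 2) (by omega) (by omega)
        rw [uOf_eq hs hd, if_neg (by omega), if_neg (by omega), if_pos (by omega)]
        rw [if_neg (by omega), if_neg (by omega), if_pos rfl]
        have e1 : (x - 1 - (x - 2) - 1) / 2 = 0 := by omega
        have e2 : (x - 2 - 2) / 2 = (x - 4) / 2 := by omega
        rw [e1, e2]
        unfold famU hard1U
        simp only [stairW, List.nil_append]
        exact List.Sublist.cons_cons _ (List.sublist_cons_self _ _)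
      · rw [if_neg hc1]
        by_cases hce : c % 2 = 0
        · rw [if_pos hce]
          obtain ⟨hs, hd⟩ := side_of (y := x - 1) (c := c - 1) (by omega) (by omega)
          rw [uOf_eq hs hd, if_neg (by omega), if_pos (by omega), if_pos (by omega)]
          rw [if_pos (by omega), if_neg (by omega)]
          have e1 : (x - 1 - (c - 1)) / 2 = (x - c) / 2 := by omega
          have e2 : (c - 1 - 1) / 2 = (c - 2) / 2 := by omega
          rw [e1, e2]
          unfold famU
          simp only [List.append_nil]
          exact List.sublist_append_left _ _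
        · rw [if_neg hce]
          obtain ⟨hs, hd⟩ := side_of (y := x - 1) (c := c - 2) (by omega) (by omega)
          rw [uOf_eq hs hd, if_neg (by omega), if_pos (by omega), if_pos (by omega)]
          rw [if_neg (by omega), if_neg (by omega), if_neg hc1]
          have e1 : (x - 1 - (c - 2)) / 2 = (x - 2 - (c - 3)) / 2 := by omega
          have e2 : (c - 2 - 1) / 2 = (c - 3) / 2 := by omega
          rw [e1, e2]
          unfold famU
          simp only [List.append_nil]
          exact List.sublist_append_left _ _
    · rw [if_neg hxe]
      by_cases hce : c % 2 = 0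
      · rw [if_pos hce]
        by_cases hcx : c + 1 = x
        · -- the child is a staircase of side x - 2
          have e0 : triN (x - 1) - c = triN (x - 2) := by
            obtain ⟨z, hz⟩ : ∃ z, x = z + 2 := ⟨x - 2, by omega⟩
            subst hz
            have e : z + 2 - 1 = z + 1 := by omega
            have e' : z + 2 - 2 = z := by omega
            rw [e, e', triN_succ]
            omega
          rw [e0]
          have hs := sideH_tri (x - 2)
          have hd : triN (x - 2) - triN (x - 2) = 0 := by omega
          rw [uOf_eq hs hd, if_pos rfl, if_neg (by omega)]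
          rw [if_neg (by omega), if_pos (by omega)]
          have e1 : (x - c - 1) / 2 = 0 := by omega
          have e2 : (x - 2) / 2 = (c - 2) / 2 := by omega
          rw [e1, e2]
          unfold famU
          simp only [stairW, List.nil_append]
          refine List.Sublist.trans ?_ (List.sublist_cons_self _ _)
          exact List.Sublist.append_left (by simp) _
        · obtain ⟨hs, hd⟩ := side_of (y := x - 1) (c := c) (by omega) (by omega)
          rw [uOf_eq hs hd, if_neg hc0, if_pos (by omega), if_neg (by omega)]
          rw [if_neg (by omega), if_pos (by omega)]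
          have e1 : (x - 1 - c) / 2 = (x - c - 1) / 2 := by omega
          rw [e1]
          unfold famU
          exact List.Sublist.append_left (by simp) _
      · rw [if_neg hce]
        obtain ⟨hs, hd⟩ := side_of (y := x - 1) (c := c - 1) (by omega) (by omega)
        rw [uOf_eq hs hd]
        by_cases hc1 : c = 1
        · subst hc1
          rw [if_pos (by omega), if_pos (by omega), if_pos (by omega), if_pos (by omega)]
          have e1 : (x - 1) / 2 = (x - 1) / 2 := rfl
          unfold famU
          simp only [List.append_assoc]
          exact List.sublist_append_left _ _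
        · rw [if_neg (by omega), if_pos (by omega), if_neg (by omega), if_pos (by omega), if_pos (by omega)]
          obtain ⟨k, hk⟩ : ∃ k, c = 2 * k + 3 := ⟨(c - 3) / 2, by omega⟩
          have e1 : (x - 1 - (c - 1)) / 2 = (x - c) / 2 := by omega
          have e2 : (c - 1 - 2) / 2 = k := by omega
          have e3 : (c - 1) / 2 = k + 1 := by omega
          rw [e1, e2, e3]
          unfold famU
          rw [stairW_succ']
          simp only [List.append_assoc, List.append_nil]
          exact List.Sublist.append_left (List.Sublist.append_left (List.Sublist.append_left (by simp) _) _) _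

/-- Arithmetic of the ones step. -/
theorem oneChild_spec {n : ℕ} (hn : 30 ≤ n) :
    10 ≤ oneChild n ∧ oneChild n < n ∧ oneM n ≤ 2 * sideH n - 3 ∧
      (¬ (sideH n % 2 = 0 ∧ triN (sideH n) - n = 1) → oneM n ≤ sideH n) := by
  obtain ⟨h1, h2⟩ := sideH_spec n
  obtain ⟨h3, h4⟩ := h2 (by omega)
  have hx8 : 8 ≤ sideH n := by
    by_contra hc
    have := triN_mono (show sideH n ≤ 7 by omega)
    have e : triN 7 = 28 := by decide
    omega
  unfold oneM oneChild
  simp only
  generalize sideH n = x at *
  obtain ⟨z, rfl⟩ : ∃ z, x = z + 2 := ⟨x - 2, by omega⟩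
  have e1 : z + 2 - 1 = z + 1 := by omega
  rw [e1] at h4 ⊢
  have e2 : triN (z + 2) = triN (z + 1) + (z + 1) + 1 := triN_succ _
  have e3 : triN (z + 1) = triN z + z + 1 := triN_succ _
  have e4 : 21 ≤ triN z := by
    have := triN_mono (show 6 ≤ z by omega)
    have e : triN 6 = 21 := by decide
    omega
  rw [e2] at h1 ⊢
  have h5 : n + (triN (z + 1) + (z + 1) + 1 - n) = triN (z + 1) + (z + 1) + 1 := by omega
  generalize triN (z + 1) + (z + 1) + 1 - n = c at *
  have e5 : z + 2 - 2 = z := by omega
  split_ifs <;> omega

/-- **Reduction by height-one columns.** -/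
theorem Reduces.of_ones {n : ℕ} (hn : 30 ≤ n) {c : YoungDiagram} (hc : c.card = n)
    (h : oneM n ≤ (colsOf c).count 1) : Reduces n c := by
  obtain ⟨h1, h2, -, -⟩ := oneChild_spec hn
  have hle := Multiset.le_count_iff_replicate_le.1 h
  set mA := colsOf c - Multiset.replicate (oneM n) 1 with hmA
  have hm : colsOf c = mA + Multiset.replicate (oneM n) 1 := (tsub_add_cancel_of_le hle).symm
  have hsum : mA.sum + oneM n = n := by
    have h3 := sum_colsOf c
    rw [hm, Multiset.sum_add, Multiset.sum_replicate, hc] at h3
    simpa using h3
  refine ⟨oneChild n, colsD mA, h2, ⟨by omega, by omega, by omega, by omega⟩, ?_, ?_⟩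
  · rw [card_colsD]
    unfold oneM at hsum
    omega
  · intro hA
    have h3 := TT.ones_step (n := n) (n' := oneChild n) (by omega) (by omega) (uOf_oneChild hn) hA
    have h4 : n - oneChild n = oneM n := rfl
    rw [h4, ← hm, colsD_colsOf] at h3
    exact h3

/-- The same with the rows of length one. -/
theorem Reduces.of_ones_flip {n : ℕ} (hn : 30 ≤ n) {c : YoungDiagram} (hc : c.card = n)
    (h : oneM n ≤ (colsOf c.transpose).count 1) : Reduces n c := by
  have hc' : c.transpose.card = n := by
    rw [card_transpose', hc]
  obtain ⟨n', cA, h1, h2, h3, h4⟩ := Reduces.of_ones hn hc' h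
  refine ⟨n', cA, h1, h2, h3, fun hA => ?_⟩
  have h5 := TT.flip (XF_transpose n) (h4 hA)
  simpa using h5

end Crest.Agent.Lib.Saxl
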