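import Crest.Agent.Lib.Saxl.Peel

/-!
# Saxl: generic packing glue (L4)

From a list of column groups to the binary tree of `TT_of_gtree`.

* `GTree.ofList`: the tree that halves the list by count, with `cols`, `leaves`, `mass`.
* `GTree.bal_ofList`: `Bal μ E` when the group masses lie in a window `[m₀, m₁]` with
  `m₁ ≤ (2E-1)/2 · m₀` (any number of leaves).
* `GTree.bal_ofList_pow`: `Bal μ E` for `2^j` leaves and `m₁ ≤ (2E-1) · m₀`.
* `exists_groups`: the greedy grouping of a list of columns into consecutive runs with mass in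
  a window, the leftover of mass below the window stays out.
* `exists_half_split`, `exists_mass_tree`: the tree that halves a list of columns by mass: no
  condition on the number of leaves, leaves are contiguous runs with mass in `[(L-w)/2, L]`.
* `exists_prefix_window`: a prefix with mass in `[T, T + w]`.
* `peelData_of_lists`: `PeelData` from three lists of columns, a `StripOK` and `Host` for runs.
-/

set_option autoImplicit false

namespace Crest.Agent.Lib.Saxl

namespace GTree

/-- The tree that halves the list of groups by count. -/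
def ofList (l : List (Multiset ℕ)) : GTree :=
  match h : l with
  | [] => leaf 0
  | [g] => leaf g
  | a :: b :: r =>
    node (ofList (l.take (l.length / 2))) (ofList (l.drop (l.length / 2)))
termination_by l.length
decreasing_by
  all_goals simp_all [List.length_take, List.length_drop]
  all_goals omega

lemma ofList_nil : ofList [] = leaf 0 := by
  rw [ofList]

lemma ofList_singleton (g : Multiset ℕ) : ofList [g] = leaf g := by
  rw [ofList]

lemma ofList_of_two_le {l : List (Multiset ℕ)} (h : 2 ≤ l.length) :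
    ofList l = node (ofList (l.take (l.length / 2))) (ofList (l.drop (l.length / 2))) := by
  match l, h with
  | a :: b :: r, _ => rw [ofList]

/-- All the columns of the tree: the sum of the groups. -/
lemma cols_ofList (l : List (Multiset ℕ)) : cols (ofList l) = l.sum := by
  induction' hn : l.length using Nat.strong_induction_on with n ih generalizing l
  match l, hn with
  | [], _ => simp [ofList_nil, cols]
  | [g], _ => simp [ofList_singleton, cols]
  | a :: b :: r, hn =>
    have h2 : 2 ≤ (a :: b :: r).length := by simp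
    rw [ofList_of_two_le h2]
    simp only [cols]
    set l := a :: b :: r with hl
    have h1 : (l.take (l.length / 2)).length < n := by
      simp [List.length_take]; omega
    have h3 : (l.drop (l.length / 2)).length < n := by
      simp [List.length_drop]; omega
    rw [ih _ h1 _ rfl, ih _ h3 _ rfl, ← List.sum_append, List.take_append_drop]

/-- The leaves of the tree: the groups. -/
lemma leaves_ofList {l : List (Multiset ℕ)} (hl0 : l ≠ []) : leaves (ofList l) = l := by
  induction' hn : l.length using Nat.strong_induction_on with n ih generalizing l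
  match l, hn with
  | [], _ => exact absurd rfl hl0
  | [g], _ => simp [ofList_singleton, leaves]
  | a :: b :: r, hn =>
    have h2 : 2 ≤ (a :: b :: r).length := by simp
    rw [ofList_of_two_le h2]
    simp only [leaves]
    set l := a :: b :: r with hl
    have h1 : (l.take (l.length / 2)).length < n := by
      simp [List.length_take]; omega
    have h3 : (l.drop (l.length / 2)).length < n := by
      simp [List.length_drop]; omega
    have h4 : l.take (l.length / 2) ≠ [] := by
      intro h
      have := congrArg List.length h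
      simp [List.length_take] at this
      omega
    have h5 : l.drop (l.length / 2) ≠ [] := by
      intro h
      have := congrArg List.length h
      simp [List.length_drop] at this
      omega
    rw [ih _ h1 h4 rfl, ih _ h3 h5 rfl, List.take_append_drop]

/-- The mass of the tree. -/
lemma mass_ofList (l : List (Multiset ℕ)) : mass (ofList l) = (l.map Multiset.sum).sum := by
  rw [← sum_cols, cols_ofList]
  induction l with
  | nil => simp
  | cons a l ih => simp [ih]

/-- Window bounds for the sum of the masses of a list of groups. -/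
lemma card_mul_le_sum {l : List (Multiset ℕ)} {m₀ : ℕ} (h : ∀ g ∈ l, m₀ ≤ g.sum) :
    l.length * m₀ ≤ (l.map Multiset.sum).sum := by
  induction l with
  | nil => simp
  | cons a l ih =>
    have h1 := h a (by simp)
    have h2 := ih (fun g hg => h g (by simp [hg]))
    simp only [List.length_cons, List.map_cons, List.sum_cons]
    nlinarith

lemma sum_le_card_mul {l : List (Multiset ℕ)} {m₁ : ℕ} (h : ∀ g ∈ l, g.sum ≤ m₁) :
    (l.map Multiset.sum).sum ≤ l.length * m₁ := by
  induction l with
  | nil => simp
  | cons a l ih =>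
    have h1 := h a (by simp)
    have h2 := ih (fun g hg => h g (by simp [hg]))
    simp only [List.length_cons, List.map_cons, List.sum_cons]
    nlinarith

/-- One node: `x ≤ a·m₁`, `a·m₁ ≤ r·m₁`, `y ≥ b m₀`, `a ≤ r·b` and `r·(1-f)·m₁ ≤ f·m₀` give the
fraction bound. -/
lemma fraction_aux {x y a b r m₀ m₁ f : ℚ} (hf : f ≤ 1) (hb : 0 < b) (hm₁ : 0 ≤ m₁)
    (hx : x ≤ a * m₁) (hy : b * m₀ ≤ y) (hab : a ≤ r * b)
    (hw : r * ((1 - f) * m₁) ≤ f * m₀) (hf0 : 0 ≤ f) : x ≤ f * (x + y) := by
  have h1 : (1 - f) * x ≤ (1 - f) * (a * m₁) :=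
    mul_le_mul_of_nonneg_left hx (by linarith)
  have h2 : (1 - f) * (a * m₁) ≤ (1 - f) * (r * b * m₁) :=
    mul_le_mul_of_nonneg_left (mul_le_mul_of_nonneg_right hab hm₁) (by linarith)
  have h3 : b * (r * ((1 - f) * m₁)) ≤ b * (f * m₀) := mul_le_mul_of_nonneg_left hw hb.le
  have h4 : f * (b * m₀) ≤ f * y := mul_le_mul_of_nonneg_left hy hf0
  nlinarith

/-- **Any number of leaves.** The halving tree is balanced when the masses of the groups lie
in `[m₀, m₁]`, with `m₁ ≤ (2E-1)/2 · m₀`: `E = 2` allows the ratio `3/2`, `E = 5/2` allows `2`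
(a node with three leaves is the worst case), and `μ · 2m₀ > 2E`. -/
theorem bal_ofList {μ E : ℚ} {m₀ m₁ : ℕ} (hE : 1 / 2 ≤ E) (hm₀ : 0 < m₀)
    (hw : 2 * (m₁ : ℚ) ≤ (2 * E - 1) * m₀) (hμ : 0 < μ) (hs : 2 * E < μ * (2 * m₀))
    (l : List (Multiset ℕ)) (h0 : ∀ g ∈ l, m₀ ≤ g.sum) (h1 : ∀ g ∈ l, g.sum ≤ m₁) :
    Bal μ E (ofList l) := by
  have hEpos : 0 < E := by linarith
  set f : ℚ := 1 - 1 / (2 * E) with hf
  have hf1 : f ≤ 1 := by
    have : 0 < 1 / (2 * E) := by positivity
    linarith
  have hf0 : 0 ≤ f := by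
    have : 1 / (2 * E) ≤ 1 := by
      rw [div_le_one (by linarith)]
      linarith
    linarith
  have hw' : (2 : ℚ) * ((1 - f) * m₁) ≤ f * m₀ := by
    have h1f : 1 - f = 1 / (2 * E) := by rw [hf]; ring
    rw [h1f, hf]
    have hne : (2 * E) ≠ 0 := by positivity
    have : f * (m₀ : ℚ) = (2 * E - 1) * m₀ / (2 * E) := by
      rw [hf]; field_simp
    rw [← hf, this]
    have h3 : (2 : ℚ) * (1 / (2 * E) * m₁) = (2 * m₁) / (2 * E) := by
      field_simp
    rw [h3]
    exact div_le_div_of_nonneg_right hw (by positivity)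
  induction' hn : l.length using Nat.strong_induction_on with n ih generalizing l
  match l, hn with
  | [], _ => simp [ofList_nil, Bal]
  | [g], _ => simp [ofList_singleton, Bal]
  | a :: b :: r, hn =>
    have h2 : 2 ≤ (a :: b :: r).length := by simp
    rw [ofList_of_two_le h2]
    set l := a :: b :: r with hl
    have hlen : (l.take (l.length / 2)).length = l.length / 2 := by
      simp [List.length_take]; omega
    have hlen2 : (l.drop (l.length / 2)).length = l.length - l.length / 2 := by
      simp [List.length_drop]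
    have hL0 : ∀ g ∈ l.take (l.length / 2), m₀ ≤ g.sum := fun g hg => h0 g (List.mem_of_mem_take hg)
    have hL1 : ∀ g ∈ l.take (l.length / 2), g.sum ≤ m₁ := fun g hg => h1 g (List.mem_of_mem_take hg)
    have hR0 : ∀ g ∈ l.drop (l.length / 2), m₀ ≤ g.sum := fun g hg => h0 g (List.mem_of_mem_drop hg)
    have hR1 : ∀ g ∈ l.drop (l.length / 2), g.sum ≤ m₁ := fun g hg => h1 g (List.mem_of_mem_drop hg)
    have hA := card_mul_le_sum hL0
    have hB := sum_le_card_mul hL1
    have hC := card_mul_le_sum hR0
    have hD := sum_le_card_mul hR1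
    rw [hlen] at hA hB
    rw [hlen2] at hC hD
    set a' := l.length / 2 with ha'
    set b' := l.length - l.length / 2 with hb'
    have ha1 : 1 ≤ a' := by omega
    have hb1 : 1 ≤ b' := by omega
    have hab : a' ≤ b' := by omega
    have hba : b' ≤ 2 * a' := by omega
    refine ⟨?_, ?_, ?_, ?_, ?_, ?_, ?_⟩
    · rw [mass_ofList]; nlinarith
    · rw [mass_ofList]; nlinarith
    · rw [mass_ofList, mass_ofList]
      have hx : (((l.take a').map Multiset.sum).sum : ℚ) ≤ (a' : ℚ) * m₁ := by exact_mod_cast hB
      have hy : (b' : ℚ) * m₀ ≤ (((l.drop a').map Multiset.sum).sum : ℚ) := by exact_mod_cast hC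
      exact fraction_aux (r := 1) (a := a') (b := b') (m₀ := m₀) (m₁ := m₁) hf1
        (by exact_mod_cast hb1) (by positivity) hx hy (by rw [one_mul]; exact_mod_cast hab)
        (by
          have : (0 : ℚ) ≤ (1 - f) * m₁ := mul_nonneg (by linarith) (by positivity)
          linarith) hf0
    · rw [mass_ofList, mass_ofList]
      have hx : (((l.drop a').map Multiset.sum).sum : ℚ) ≤ (b' : ℚ) * m₁ := by exact_mod_cast hD
      have hy : (a' : ℚ) * m₀ ≤ (((l.take a').map Multiset.sum).sum : ℚ) := by exact_mod_cast hA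
      have := fraction_aux (r := 2) (a := b') (b := a') (m₀ := m₀) (m₁ := m₁) hf1
        (by exact_mod_cast ha1) (by positivity) hx hy (by exact_mod_cast hba) hw' hf0
      linarith [this, add_comm (((l.take a').map Multiset.sum).sum : ℚ)
        (((l.drop a').map Multiset.sum).sum : ℚ)]
    · rw [mass_ofList, mass_ofList]
      have hy : (a' : ℚ) * m₀ ≤ (((l.take a').map Multiset.sum).sum : ℚ) := by exact_mod_cast hA
      have hy2 : (b' : ℚ) * m₀ ≤ (((l.drop a').map Multiset.sum).sum : ℚ) := by exact_mod_cast hC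
      have ha1' : (1 : ℚ) ≤ a' := by exact_mod_cast ha1
      have hb1' : (1 : ℚ) ≤ b' := by exact_mod_cast hb1
      have hm : (0 : ℚ) < m₀ := by exact_mod_cast hm₀
      have h5 : (2 : ℚ) * m₀ ≤ (((l.take a').map Multiset.sum).sum : ℚ)
          + (((l.drop a').map Multiset.sum).sum : ℚ) := by
        nlinarith
      calc 2 * E < μ * (2 * m₀) := hs
        _ ≤ _ := mul_le_mul_of_nonneg_left h5 hμ.le
    · exact ih _ (by rw [hlen]; omega) _ hL0 hL1 rfl
    · exact ih _ (by rw [hlen2]; omega) _ hR0 hR1 rfl

/-- **`2^j` leaves**: the window is twice as wide, `m₁ ≤ (2E-1) · m₀`, e.g. `E = 5/4` allows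
the ratio `3/2`, `E = 3/2` allows `2`. -/
theorem bal_ofList_pow {μ E : ℚ} {m₀ m₁ : ℕ} (hE : 1 / 2 ≤ E) (hm₀ : 0 < m₀)
    (hw : (m₁ : ℚ) ≤ (2 * E - 1) * m₀) (hμ : 0 < μ) (hs : 2 * E < μ * (2 * m₀)) (j : ℕ)
    (l : List (Multiset ℕ)) (hlen : l.length = 2 ^ j)
    (h0 : ∀ g ∈ l, m₀ ≤ g.sum) (h1 : ∀ g ∈ l, g.sum ≤ m₁) :
    Bal μ E (ofList l) := by
  have hEpos : 0 < E := by linarith
  set f : ℚ := 1 - 1 / (2 * E) with hf
  have hf1 : f ≤ 1 := by
    have : 0 < 1 / (2 * E) := by positivity
    linarith
  have hf0 : 0 ≤ f := by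
    have : 1 / (2 * E) ≤ 1 := by
      rw [div_le_one (by linarith)]
      linarith
    linarith
  have hw' : (1 : ℚ) * ((1 - f) * m₁) ≤ f * m₀ := by
    have h1f : 1 - f = 1 / (2 * E) := by rw [hf]; ring
    rw [h1f]
    have hne : (2 * E) ≠ 0 := by positivity
    have : f * (m₀ : ℚ) = (2 * E - 1) * m₀ / (2 * E) := by
      rw [hf]; field_simp
    rw [this]
    have h3 : (1 : ℚ) * (1 / (2 * E) * m₁) = m₁ / (2 * E) := by
      field_simp
    rw [h3]
    exact div_le_div_of_nonneg_right hw (by positivity)
  induction j generalizing l with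
  | zero =>
    match l, hlen with
    | [g], _ => simp [ofList_singleton, Bal]
  | succ j ih =>
    have h2 : 2 ≤ l.length := by
      rw [hlen, pow_succ]
      have : 1 ≤ 2 ^ j := Nat.one_le_two_pow
      omega
    rw [ofList_of_two_le h2]
    have hhalf : l.length / 2 = 2 ^ j := by rw [hlen, pow_succ]; omega
    rw [hhalf]
    have hlenA : (l.take (2 ^ j)).length = 2 ^ j := by
      simp [List.length_take]; omega
    have hlenB : (l.drop (2 ^ j)).length = 2 ^ j := by
      simp [List.length_drop]; rw [hlen, pow_succ]; omega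
    have hL0 : ∀ g ∈ l.take (2 ^ j), m₀ ≤ g.sum := fun g hg => h0 g (List.mem_of_mem_take hg)
    have hL1 : ∀ g ∈ l.take (2 ^ j), g.sum ≤ m₁ := fun g hg => h1 g (List.mem_of_mem_take hg)
    have hR0 : ∀ g ∈ l.drop (2 ^ j), m₀ ≤ g.sum := fun g hg => h0 g (List.mem_of_mem_drop hg)
    have hR1 : ∀ g ∈ l.drop (2 ^ j), g.sum ≤ m₁ := fun g hg => h1 g (List.mem_of_mem_drop hg)
    have hA := card_mul_le_sum hL0
    have hB := sum_le_card_mul hL1
    have hC := card_mul_le_sum hR0
    have hD := sum_le_card_mul hR1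
    rw [hlenA] at hA hB
    rw [hlenB] at hC hD
    have ha1 : 1 ≤ 2 ^ j := Nat.one_le_two_pow
    set a' := 2 ^ j with ha'
    refine ⟨?_, ?_, ?_, ?_, ?_, ?_, ?_⟩
    · rw [mass_ofList]; nlinarith
    · rw [mass_ofList]; nlinarith
    · rw [mass_ofList, mass_ofList]
      have hx : (((l.take a').map Multiset.sum).sum : ℚ) ≤ (a' : ℚ) * m₁ := by exact_mod_cast hB
      have hy : (a' : ℚ) * m₀ ≤ (((l.drop a').map Multiset.sum).sum : ℚ) := by exact_mod_cast hC
      exact fraction_aux (r := 1) (a := a') (b := a') (m₀ := m₀) (m₁ := m₁) hf1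
        (by exact_mod_cast ha1) (by positivity) hx hy (by rw [one_mul]) hw' hf0
    · rw [mass_ofList, mass_ofList]
      have hx : (((l.drop a').map Multiset.sum).sum : ℚ) ≤ (a' : ℚ) * m₁ := by exact_mod_cast hD
      have hy : (a' : ℚ) * m₀ ≤ (((l.take a').map Multiset.sum).sum : ℚ) := by exact_mod_cast hA
      have := fraction_aux (r := 1) (a := a') (b := a') (m₀ := m₀) (m₁ := m₁) hf1
        (by exact_mod_cast ha1) (by positivity) hx hy (by rw [one_mul]) hw' hf0
      linarith [this, add_comm (((l.take a').map Multiset.sum).sum : ℚ)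
        (((l.drop a').map Multiset.sum).sum : ℚ)]
    · rw [mass_ofList, mass_ofList]
      have hy : (a' : ℚ) * m₀ ≤ (((l.take a').map Multiset.sum).sum : ℚ) := by exact_mod_cast hA
      have hy2 : (a' : ℚ) * m₀ ≤ (((l.drop a').map Multiset.sum).sum : ℚ) := by exact_mod_cast hC
      have ha1' : (1 : ℚ) ≤ a' := by exact_mod_cast ha1
      have hm : (0 : ℚ) < m₀ := by exact_mod_cast hm₀
      have h5 : (2 : ℚ) * m₀ ≤ (((l.take a').map Multiset.sum).sum : ℚ)
          + (((l.drop a').map Multiset.sum).sum : ℚ) := by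
        nlinarith
      calc 2 * E < μ * (2 * m₀) := hs
        _ ≤ _ := mul_le_mul_of_nonneg_left h5 hμ.le
    · exact ih _ hlenA hL0 hL1
    · exact ih _ hlenB hR0 hR1

end GTree

/-- **Greedy grouping**: any list of columns of heights `≤ w` is a concatenation of consecutive
runs of mass in `[T, T + w)`, and a leftover of mass `< T`. -/
theorem exists_groups (T w : ℕ) (hT : 0 < T) (l : List ℕ) (hl : ∀ x ∈ l, x ≤ w) :
    ∃ (gs : List (List ℕ)) (rest : List ℕ), gs.flatten ++ rest = l ∧
      (∀ g ∈ gs, T ≤ g.sum ∧ g.sum < T + w + 1 ∧ g ≠ []) ∧ rest.sum < T := by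
  -- induction on the list from the right end of a run: add elements one by one
  induction l using List.reverseRecOn with
  | nil => exact ⟨[], [], rfl, by simp, by simpa using hT⟩
  | append_singleton l a ih =>
    obtain ⟨gs, rest, h1, h2, h3⟩ := ih (fun x hx => hl x (by simp [hx]))
    have ha : a ≤ w := hl a (by simp)
    by_cases h : T ≤ rest.sum + a
    · refine ⟨gs ++ [rest ++ [a]], [], ?_, ?_, by simpa using hT⟩
      · simp [← h1]
      · intro g hg
        simp only [List.mem_append, List.mem_singleton] at hg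
        rcases hg with hg | rfl
        · exact h2 g hg
        · simp only [List.sum_append, List.sum_cons, List.sum_nil, add_zero]
          refine ⟨h, by omega, by simp⟩
    · refine ⟨gs, rest ++ [a], ?_, h2, ?_⟩
      · rw [← List.append_assoc, h1]
      · simp only [List.sum_append, List.sum_cons, List.sum_nil, add_zero]
        omega


/-! ### Group lists as multisets -/

/-- The multisets of a list of runs. -/
def listsToGroups (gs : List (List ℕ)) : List (Multiset ℕ) := gs.map (fun g : List ℕ => ((g : Multiset ℕ)))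

lemma sum_listsToGroups (gs : List (List ℕ)) : (listsToGroups gs).sum = (gs.flatten : Multiset ℕ) := by
  induction gs with
  | nil => simp [listsToGroups]
  | cons a l ih =>
    simp only [listsToGroups, List.map_cons, List.sum_cons, List.flatten_cons] at *
    rw [ih]
    simp

lemma map_sum_listsToGroups (gs : List (List ℕ)) :
    ((listsToGroups gs).map Multiset.sum) = gs.map List.sum := by
  simp only [listsToGroups, List.map_map]
  apply List.map_congr_left
  intro g _
  simp

/-! ### The tree that halves by mass -/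

lemma sum_take_add_sum_drop (l : List ℕ) (k : ℕ) : (l.take k).sum + (l.drop k).sum = l.sum := by
  rw [← List.sum_append, List.take_append_drop]

lemma sum_take_succ_le {l : List ℕ} {w : ℕ} (hl : ∀ x ∈ l, x ≤ w) (k : ℕ) :
    (l.take (k + 1)).sum ≤ (l.take k).sum + w := by
  by_cases h : k < l.length
  · rw [List.take_succ_eq_append_getElem h, List.sum_append]
    have := hl l[k] (List.getElem_mem h)
    simpa using this
  · have h1 : l.take (k + 1) = l := List.take_of_length_le (by omega)
    have h2 : l.take k = l := List.take_of_length_le (by omega)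
    rw [h1, h2]
    omega

/-- A cut of a list in two parts, each at most half of the mass plus half of the largest column. -/
lemma exists_half_split (l : List ℕ) (w : ℕ) (hl : ∀ x ∈ l, x ≤ w) :
    ∃ k, 2 * (l.take k).sum ≤ l.sum + w ∧ 2 * (l.drop k).sum ≤ l.sum + w := by
  classical
  -- the largest k ≤ length with 2 * take k ≤ M + w
  have hex : ∃ k, l.length + 1 ≤ k ∨ l.sum + w < 2 * (l.take k).sum := ⟨l.length + 1, Or.inl le_rfl⟩
  let k := Nat.find hex
  have hk := Nat.find_spec hex
  have hkmin := fun m (hm : m < k) => Nat.find_min hex hm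
  have hk0 : k ≠ 0 := by
    intro h0
    have hk' : (l.length + 1 ≤ 0) ∨ l.sum + w < 2 * (l.take 0).sum := by
      have := hk
      rwa [show Nat.find hex = 0 from h0] at this
    simp at hk'
  obtain ⟨k', hk'⟩ : ∃ k', k = k' + 1 := Nat.exists_eq_succ_of_ne_zero hk0
  have hprev := hkmin k' (by omega)
  push Not at hprev
  refine ⟨k', hprev.2, ?_⟩
  have hsum := sum_take_add_sum_drop l k'
  have hspec : l.length + 1 ≤ k' + 1 ∨ l.sum + w < 2 * (l.take (k' + 1)).sum := by
    have := hk
    rwa [show Nat.find hex = k' + 1 from hk'] at this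
  rcases hspec with h | h
  · have hd : l.drop k' = [] := List.drop_eq_nil_of_le (by omega)
    rw [hd]
    simp
  · have := sum_take_succ_le hl k'
    omega

/-- **The mass-halving tree.** Columns `l`, all `≤ w`; leaves have mass `≤ L`. A node has mass
`M > L`, its children have mass at most `(M + w)/2`, at least `(M - w)/2`. If `w ≤ (1 - 1/E) L`
this is the fraction `1 - 1/(2E)`; e.g. `E = 5/4`, `L = 5 w`. Every leaf is a contiguous run of
the list, and when the tree is not a single leaf its mass is at least `(L - w)/2`. -/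
theorem exists_mass_tree {μ E : ℚ} {w L : ℕ} (hE : 0 < E) (hμ : 0 < μ)
    (hw : (w : ℚ) ≤ (1 - 1 / E) * L) (hs : 2 * E ≤ μ * L) (l : List ℕ) (hl : ∀ x ∈ l, x ≤ w) :
    ∃ t : GTree, GTree.cols t = (l : Multiset ℕ) ∧ GTree.mass t = l.sum ∧ GTree.Bal μ E t ∧
      ∀ g ∈ GTree.leaves t, ∃ r : List ℕ, (r : Multiset ℕ) = g ∧ r <:+: l ∧ r.sum ≤ L ∧
        (L < l.sum → L - w ≤ 2 * r.sum) ∧ (l.sum ≤ L → r.sum = l.sum) := by
  induction' hn : l.length using Nat.strong_induction_on with n ih generalizing l
  by_cases hM : l.sum ≤ L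
  · refine ⟨GTree.leaf l, rfl, by simp [GTree.mass], trivial, ?_⟩
    intro g hg
    simp only [GTree.leaves, List.mem_singleton] at hg
    subst hg
    exact ⟨l, rfl, List.infix_rfl, hM, fun h => absurd h (by omega), fun _ => rfl⟩
  · push Not at hM
    obtain ⟨k, hk1, hk2⟩ := exists_half_split l w hl
    have hsum := sum_take_add_sum_drop l k
    -- `w < L` from the hypothesis, unless `w = 0`
    have hLpos : (0 : ℚ) ≤ L := by positivity
    have hEinv : (1 - 1 / E) * (L : ℚ) ≤ L := by
      have : 0 < 1 / E := by positivity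
      nlinarith
    have hwL : w ≤ L := by
      have : (w : ℚ) ≤ L := hw.trans hEinv
      exact_mod_cast this
    have hA : 0 < (l.take k).sum := by omega
    have hB : 0 < (l.drop k).sum := by omega
    have hlenA : (l.take k).length < n := by
      have : (l.drop k).length ≠ 0 := by
        intro h
        have : l.drop k = [] := List.length_eq_zero_iff.mp h
        simp [this] at hB
      simp only [List.length_drop] at this
      simp only [List.length_take]
      omega
    have hlenB : (l.drop k).length < n := by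
      have : (l.take k).length ≠ 0 := by
        intro h
        have : l.take k = [] := List.length_eq_zero_iff.mp h
        simp [this] at hA
      simp only [List.length_take] at this
      simp only [List.length_drop]
      omega
    obtain ⟨tA, hcA, hmA, hbA, hlA⟩ :=
      ih _ hlenA (l.take k) (fun x hx => hl x (List.mem_of_mem_take hx)) rfl
    obtain ⟨tB, hcB, hmB, hbB, hlB⟩ :=
      ih _ hlenB (l.drop k) (fun x hx => hl x (List.mem_of_mem_drop hx)) rfl
    have hfrac : ∀ x y : ℕ, x + y = l.sum → 2 * x ≤ l.sum + w →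
        (x : ℚ) ≤ (1 - 1 / (2 * E)) * (x + y) := by
      intro x y hxy hx
      have h1 : ((x : ℚ) + y) = (l.sum : ℚ) := by exact_mod_cast hxy
      rw [h1]
      have h2 : 2 * (x : ℚ) ≤ l.sum + w := by exact_mod_cast hx
      have h3 : (L : ℚ) ≤ l.sum := by exact_mod_cast hM.le
      have h4 : (1 - 1 / E) * (L : ℚ) ≤ (1 - 1 / E) * (l.sum : ℚ) ∨ (1 - 1 / E) < 0 := by
        by_cases h : 1 - 1 / E < 0
        · exact Or.inr h
        · exact Or.inl (mul_le_mul_of_nonneg_left h3 (by linarith))
      have h5 : (w : ℚ) ≤ (1 - 1 / E) * (l.sum : ℚ) := by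
        rcases h4 with h4 | h4
        · linarith
        · exfalso
          have : (1 - 1 / E) * (L : ℚ) ≤ 0 := mul_nonpos_of_nonpos_of_nonneg h4.le hLpos
          have hw0 : (w : ℚ) = 0 := le_antisymm (by linarith) (by positivity)
          have hw00 : (1 - 1 / E) * (L : ℚ) = 0 := le_antisymm this (by linarith)
          rcases mul_eq_zero.mp hw00 with h6 | h6
          · linarith
          · have hL0 : L = 0 := by exact_mod_cast h6
            -- then `2 E ≤ 0`
            rw [h6] at hs
            simp at hs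
            linarith
      have h6 : (1 - 1 / (2 * E)) * (l.sum : ℚ) = (l.sum + (1 - 1 / E) * l.sum) / 2 := by
        field_simp
        ring
      rw [h6]
      linarith
    refine ⟨GTree.node tA tB, ?_, ?_, ?_, ?_⟩
    · simp only [GTree.cols]
      rw [hcA, hcB, Multiset.coe_add, List.take_append_drop]
    · simp only [GTree.mass]
      rw [hmA, hmB, hsum]
    · simp only [GTree.Bal]
      rw [hmA, hmB]
      refine ⟨hA, hB, hfrac _ _ hsum hk1, ?_, ?_, hbA, hbB⟩
      · have := hfrac (l.drop k).sum (l.take k).sum (by omega) hk2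
        rw [add_comm] at this
        exact this
      · have h1 : (((l.take k).sum : ℚ) + ((l.drop k).sum : ℚ)) = l.sum := by exact_mod_cast hsum
        rw [h1]
        have h3 : (L : ℚ) < l.sum := by exact_mod_cast hM
        calc 2 * E ≤ μ * L := hs
          _ < μ * l.sum := mul_lt_mul_of_pos_left h3 hμ
    · intro g hg
      simp only [GTree.leaves, List.mem_append] at hg
      rcases hg with hg | hg
      · obtain ⟨r, h1, h2, h3, h4, h5⟩ := hlA g hg
        refine ⟨r, h1, h2.trans (List.take_prefix k l).isInfix, h3, fun _ => ?_,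
          fun h => absurd h (by omega)⟩
        by_cases hc : L < (l.take k).sum
        · exact h4 hc
        · have hr := h5 (by omega)
          omega
      · obtain ⟨r, h1, h2, h3, h4, h5⟩ := hlB g hg
        refine ⟨r, h1, h2.trans (List.drop_suffix k l).isInfix, h3, fun _ => ?_,
          fun h => absurd h (by omega)⟩
        by_cases hc : L < (l.drop k).sum
        · exact h4 hc
        · have hr := h5 (by omega)
          omega


/-- A prefix of a list reaching the target `T`, overshooting by at most one column. -/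
lemma exists_prefix_window (l : List ℕ) (w T : ℕ) (hl : ∀ x ∈ l, x ≤ w) (hT : T ≤ l.sum) :
    ∃ k, T ≤ (l.take k).sum ∧ (l.take k).sum ≤ T + w := by
  classical
  have hex : ∃ k, T ≤ (l.take k).sum := ⟨l.length, by simpa using hT⟩
  refine ⟨Nat.find hex, Nat.find_spec hex, ?_⟩
  by_cases h0 : Nat.find hex = 0
  · have := Nat.find_spec hex
    rw [h0] at this ⊢
    simp at this ⊢
  · obtain ⟨k', hk'⟩ : ∃ k', Nat.find hex = k' + 1 := Nat.exists_eq_succ_of_ne_zero h0
    have hmin := Nat.find_min hex (m := k') (by omega)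
    rw [hk']
    have := sum_take_succ_le hl k'
    omega

/-- **Peel from three lists.** `lA` goes to the child, `lQ`, `lZ` go to the strip in mass-halving
trees. The caller gives the strip identity `StripOK` and the hosting of the runs of `lZ`, `lQ`
in the window. Everything else of `PeelData` is automatic. -/
theorem peelData_of_lists {n n' : ℕ} {m : Multiset ℕ} {μZ μQ E ρZ ρQ : ℚ} {wZ LZ wQ LQ : ℕ}
    (lA lQ lZ : List ℕ) (hm : m = (lA : Multiset ℕ) + lQ + lZ)
    (hlt : n' < n) (hgood : GoodN n') (hA : lA.sum = n')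
    (hμZ : 0 < μZ) (hμQ : 0 < μQ) (hE : 0 < E)
    (hz : 0 < lZ.sum) (hq : 0 < lQ.sum)
    (hwZ : (wZ : ℚ) ≤ (1 - 1 / E) * LZ) (hsZ : 2 * E ≤ μZ * LZ)
    (hwQ : (wQ : ℚ) ≤ (1 - 1 / E) * LQ) (hsQ : 2 * E ≤ μQ * LQ)
    (hlZ : ∀ x ∈ lZ, x ≤ wZ) (hlQ : ∀ x ∈ lQ, x ≤ wQ)
    (hS : StripOK n n' μZ μQ E ρZ ρQ lZ.sum lQ.sum)
    (hostZ : ∀ r : List ℕ, r <:+: lZ → r.sum ≤ LZ → (LZ < lZ.sum → LZ - wZ ≤ 2 * r.sum) →
      (lZ.sum ≤ LZ → r.sum = lZ.sum) → Host μZ E ρZ (r : Multiset ℕ))
    (hostQ : ∀ r : List ℕ, r <:+: lQ → r.sum ≤ LQ → (LQ < lQ.sum → LQ - wQ ≤ 2 * r.sum) →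
      (lQ.sum ≤ LQ → r.sum = lQ.sum) → Host μQ E ρQ (r : Multiset ℕ)) :
    Nonempty (PeelData n m) := by
  obtain ⟨tZ, hcZ, hmZ, hbZ, hleZ⟩ := exists_mass_tree hE hμZ hwZ hsZ lZ hlZ
  obtain ⟨tQ, hcQ, hmQ, hbQ, hleQ⟩ := exists_mass_tree hE hμQ hwQ hsQ lQ hlQ
  refine ⟨⟨n', μZ, μQ, E, ρZ, ρQ, (lA : Multiset ℕ), tZ, tQ, hlt, hgood, by simpa using hA,
    by rw [hcZ, hcQ]; exact hm, hμZ, hμQ, hE, by rw [hmZ]; exact hz, by rw [hmQ]; exact hq,
    hbZ, hbQ, by rw [hmZ, hmQ]; exact hS, ?_, ?_⟩⟩
  · intro g hg
    obtain ⟨r, rfl, h2, h3, h4, h5⟩ := hleZ g hg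
    exact hostZ r h2 h3 h4 h5
  · intro g hg
    obtain ⟨r, rfl, h2, h3, h4, h5⟩ := hleQ g hg
    exact hostQ r h2 h3 h4 h5

end Crest.Agent.Lib.Saxl
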