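import Crest.Agent.Lib.Saxl.Word
import Crest.Agent.Lib.Saxl.Corridor

/-!
# Saxl: the strip identity `X = (A + Q) ∪ Z` for a tagged word, and corridor bounds by counting

A strip-tagged word is a `List (Bool × Bool)`: the letter (`true = E`, `false = N`) and `keep?`.

* `Awd t`: the kept letters;
* `Qwd t`: the kept `N` and the deleted `E`;
* `Zwd t`: the deleted `N` and all `E`.

`strip_eq : unionD (addD (shape (Awd t)) (shape (Qwd t))) (shape (Zwd t)) = shape (letters t)`.

`corE_shape_of_counts`: `CorE ρ θ e (shape w)` as soon as for every `N` of `w`, with `p` the part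
before it and `q` the part after it, `θ (ρ - #N(q) - 1) - e ≤ #E(p) ≤ θ (ρ - #N(q)) + e` (or
`#E(p) = 0` for the upper bound).  `corE_Q`, `corE_Z` say the same for `Qwd t`, `Zwd t` in terms of
prefixes and suffixes of `t`.
-/

set_option autoImplicit false
set_option linter.unusedSectionVars false

namespace Crest.Agent.Lib.Saxl

/-- Strip-tagged word: all `E` and the kept `N`, tagged. -/
def stripG (t : List (Bool × Bool)) : List (Bool × Bool) := t.filter fun x => x.1 || x.2

/-- The word of `A`. -/
def Awd (t : List (Bool × Bool)) : List Bool := keepE true (stripG t)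
/-- The word of `Q`: kept `N`, deleted `E`. -/
def Qwd (t : List (Bool × Bool)) : List Bool := keepE false (stripG t)
/-- The word of `Z`: deleted `N`, all `E`. -/
def Zwd (t : List (Bool × Bool)) : List Bool := keepN false t

lemma letters_stripG (t : List (Bool × Bool)) : letters (stripG t) = keepN true t := by
  simp [letters, stripG, keepN]

/-- **Strip identity.** -/
theorem strip_eq (t : List (Bool × Bool)) :
    unionD (addD (shape (Awd t)) (shape (Qwd t))) (shape (Zwd t)) = shape (letters t) := by
  unfold Awd Qwd Zwd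
  rw [addD_keepE, letters_stripG, unionD_keepN]

/-- **Strip rule** at the `T` level. -/
theorem TT.strip (t : List (Bool × Bool)) {cA cQ cZ : YoungDiagram}
    (hA : TT (shape (Awd t)) cA) (hQ : TT (shape (Qwd t)) cQ) (hZ : TT (shape (Zwd t)) cZ) :
    TT (shape (letters t)) (addD (addD cA cQ) cZ) := by
  rw [← strip_eq]
  exact (hA.add hQ).union hZ

lemma card_strip (t : List (Bool × Bool)) :
    area (letters t) = area (Awd t) + area (Qwd t) + area (Zwd t) := by
  rw [← card_shape, ← card_shape, ← card_shape, ← card_shape, ← strip_eq, card_unionD, card_addD]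

/-! ### The cons equations of the three words -/

@[simp] lemma Awd_nil : Awd [] = [] := rfl
@[simp] lemma Qwd_nil : Qwd [] = [] := rfl
@[simp] lemma Zwd_nil : Zwd [] = [] := rfl

lemma Awd_cons_keep (l : Bool) (t : List (Bool × Bool)) : Awd ((l, true) :: t) = l :: Awd t := by
  cases l <;> simp [Awd, stripG, keepE]

lemma Awd_cons_del (l : Bool) (t : List (Bool × Bool)) : Awd ((l, false) :: t) = Awd t := by
  cases l <;> simp [Awd, stripG, keepE]

lemma Qwd_cons_N_keep (t : List (Bool × Bool)) : Qwd ((false, true) :: t) = false :: Qwd t := by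
  simp [Qwd, stripG, keepE]

lemma Qwd_cons_N_del (t : List (Bool × Bool)) : Qwd ((false, false) :: t) = Qwd t := by
  simp [Qwd, stripG]

lemma Qwd_cons_E_keep (t : List (Bool × Bool)) : Qwd ((true, true) :: t) = Qwd t := by
  simp [Qwd, stripG, keepE]

lemma Qwd_cons_E_del (t : List (Bool × Bool)) : Qwd ((true, false) :: t) = true :: Qwd t := by
  simp [Qwd, stripG, keepE]

lemma Zwd_cons_E (g : Bool) (t : List (Bool × Bool)) : Zwd ((true, g) :: t) = true :: Zwd t := by
  simp [Zwd, keepN]

lemma Zwd_cons_N_keep (t : List (Bool × Bool)) : Zwd ((false, true) :: t) = Zwd t := by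
  simp [Zwd, keepN]

lemma Zwd_cons_N_del (t : List (Bool × Bool)) : Zwd ((false, false) :: t) = false :: Zwd t := by
  simp [Zwd, keepN]

/-- Functorial form: appending. -/
lemma Awd_append (a b : List (Bool × Bool)) : Awd (a ++ b) = Awd a ++ Awd b := by
  simp [Awd, stripG, keepE, List.filter_append, List.map_append]

lemma Qwd_append (a b : List (Bool × Bool)) : Qwd (a ++ b) = Qwd a ++ Qwd b := by
  simp [Qwd, stripG, keepE, List.filter_append, List.map_append]

lemma Zwd_append (a b : List (Bool × Bool)) : Zwd (a ++ b) = Zwd a ++ Zwd b := by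
  simp [Zwd, keepN, List.filter_append, List.map_append]

/-! ### Rows of a word by position -/

lemma nE_cons_true (t : List Bool) : nE (true :: t) = nE t + 1 := by simp [nE]
lemma nE_cons_false (t : List Bool) : nE (false :: t) = nE t := by simp [nE]
lemma nN_cons_true (t : List Bool) : nN (true :: t) = nN t := by simp [nN]
lemma nN_cons_false (t : List Bool) : nN (false :: t) = nN t + 1 := by simp [nN]
lemma nE_append (a b : List Bool) : nE (a ++ b) = nE a + nE b := by simp [nE]
lemma nN_append (a b : List Bool) : nN (a ++ b) = nN a + nN b := by simp [nN]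

/-- The `i`-th row (from the top) comes from the `N` with exactly `i` letters `N` after it. -/
lemma exists_split_rowsAux (w : List Bool) (k i : ℕ) (hi : i < nN w) :
    ∃ p q, w = p ++ false :: q ∧ nN q = i ∧ (rowsAux w k).getD i 0 = k + nE p := by
  induction w generalizing k i with
  | nil => simp [nN] at hi
  | cons b t ih =>
    cases b with
    | true =>
      rw [nN_cons_true] at hi
      obtain ⟨p, q, h1, h2, h3⟩ := ih (k + 1) i hi
      refine ⟨true :: p, q, by simp [h1], h2, ?_⟩
      show (rowsAux t (k + 1)).getD i 0 = _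
      rw [h3, nE_cons_true]
      omega
    | false =>
      rw [nN_cons_false] at hi
      show ∃ p q, _ ∧ _ ∧ (rowsAux t k ++ [k]).getD i 0 = _
      by_cases h : i < nN t
      · obtain ⟨p, q, h1, h2, h3⟩ := ih k i h
        refine ⟨false :: p, q, by simp [h1], h2, ?_⟩
        have hl : i < (rowsAux t k).length := by rwa [rowsAux_length]
        rw [List.getD_append _ _ _ _ hl, h3, nE_cons_false]
      · have hie : i = nN t := by omega
        refine ⟨[], t, rfl, hie.symm, ?_⟩
        have hl : (rowsAux t k).length = i := by rw [rowsAux_length, hie]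
        rw [List.getD_append_right _ _ _ _ (le_of_eq hl), hl]
        simp [nE]

lemma getD_rowsW_of_ge (w : List Bool) (i : ℕ) (hi : nN w ≤ i) : (rowsW w).getD i 0 = 0 := by
  rw [List.getD_eq_default]
  rw [rowsW, rowsAux_length]
  exact hi

/-- Corridor from counting. -/
theorem corE_shape_of_counts {ρ θ e : ℚ} {w : List Bool} (hθ : 0 ≤ θ)
    (h : ∀ p q, w = p ++ false :: q →
      θ * (ρ - ((nN q : ℚ) + 1)) - e ≤ (nE p : ℚ) ∧
        (nE p = 0 ∨ (nE p : ℚ) ≤ θ * (ρ - (nN q : ℚ)) + e))
    (htail : θ * (ρ - ((nN w : ℚ) + 1)) - e ≤ 0) :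
    CorE ρ θ e (shape w) := by
  intro i
  rw [rowLen_shape]
  by_cases hi : i < nN w
  · obtain ⟨p, q, h1, h2, h3⟩ := exists_split_rowsAux w 0 i hi
    have h3' : (rowsW w).getD i 0 = nE p := by simpa [rowsW] using h3
    rw [h3']
    have := h p q h1
    rw [h2] at this
    exact this
  · rw [getD_rowsW_of_ge w i (by omega)]
    refine ⟨?_, Or.inl rfl⟩
    have h2 : ((nN w : ℕ) : ℚ) ≤ (i : ℚ) := by exact_mod_cast (not_lt.1 hi)
    have h3 : θ * (ρ - ((i : ℚ) + 1)) ≤ θ * (ρ - ((nN w : ℚ) + 1)) :=
      mul_le_mul_of_nonneg_left (by linarith) hθ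
    push_cast
    linarith

/-! ### Counting inside a tagged word -/

/-- Deleted `E` letters. -/
def delE (t : List (Bool × Bool)) : ℕ := t.count (true, false)
/-- Deleted `N` letters. -/
def delN (t : List (Bool × Bool)) : ℕ := t.count (false, false)
/-- Kept `N` letters. -/
def keptN (t : List (Bool × Bool)) : ℕ := t.count (false, true)
/-- All `E` letters. -/
def allE (t : List (Bool × Bool)) : ℕ := nE (letters t)

lemma nE_Qwd (t : List (Bool × Bool)) : nE (Qwd t) = delE t := by
  induction t with
  | nil => rfl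
  | cons x t ih =>
    obtain ⟨l, g⟩ := x
    cases l <;> cases g
    · rw [Qwd_cons_N_del]; simpa [delE, List.count_cons] using ih
    · rw [Qwd_cons_N_keep, nE_cons_false]; simpa [delE, List.count_cons] using ih
    · rw [Qwd_cons_E_del, nE_cons_true]; simpa [delE, List.count_cons] using ih
    · rw [Qwd_cons_E_keep]; simpa [delE, List.count_cons] using ih

lemma nN_Qwd (t : List (Bool × Bool)) : nN (Qwd t) = keptN t := by
  induction t with
  | nil => rfl
  | cons x t ih =>
    obtain ⟨l, g⟩ := x
    cases l <;> cases g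
    · rw [Qwd_cons_N_del]; simpa [keptN, List.count_cons] using ih
    · rw [Qwd_cons_N_keep, nN_cons_false]; simpa [keptN, List.count_cons] using ih
    · rw [Qwd_cons_E_del, nN_cons_true]; simpa [keptN, List.count_cons] using ih
    · rw [Qwd_cons_E_keep]; simpa [keptN, List.count_cons] using ih

lemma nE_Zwd (t : List (Bool × Bool)) : nE (Zwd t) = allE t := by
  induction t with
  | nil => rfl
  | cons x t ih =>
    obtain ⟨l, g⟩ := x
    cases l <;> cases g
    · rw [Zwd_cons_N_del, nE_cons_false]; simpa [allE, letters, nE] using ih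
    · rw [Zwd_cons_N_keep]; simpa [allE, letters, nE] using ih
    · rw [Zwd_cons_E, nE_cons_true]; simpa [allE, letters, nE] using ih
    · rw [Zwd_cons_E, nE_cons_true]; simpa [allE, letters, nE] using ih

lemma nN_Zwd (t : List (Bool × Bool)) : nN (Zwd t) = delN t := by
  induction t with
  | nil => rfl
  | cons x t ih =>
    obtain ⟨l, g⟩ := x
    cases l <;> cases g
    · rw [Zwd_cons_N_del, nN_cons_false]; simpa [delN, List.count_cons] using ih
    · rw [Zwd_cons_N_keep]; simpa [delN, List.count_cons] using ih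
    · rw [Zwd_cons_E, nN_cons_true]; simpa [delN, List.count_cons] using ih
    · rw [Zwd_cons_E, nN_cons_true]; simpa [delN, List.count_cons] using ih

/-- A splitting of `Qwd t` at an `N` comes from a splitting of `t`. -/
lemma Qwd_split (t : List (Bool × Bool)) (p q : List Bool) (h : Qwd t = p ++ false :: q) :
    ∃ t1 t2, t = t1 ++ (false, true) :: t2 ∧ p = Qwd t1 ∧ q = Qwd t2 := by
  induction t generalizing p with
  | nil => simp at h
  | cons x t ih =>
    obtain ⟨l, g⟩ := x
    cases l <;> cases g
    · rw [Qwd_cons_N_del] at h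
      obtain ⟨t1, t2, h1, h2, h3⟩ := ih p h
      exact ⟨(false, false) :: t1, t2, by simp [h1], by rw [Qwd_cons_N_del]; exact h2, h3⟩
    · rw [Qwd_cons_N_keep] at h
      cases p with
      | nil =>
        simp only [List.nil_append, List.cons.injEq, true_and] at h
        exact ⟨[], t, rfl, rfl, h.symm⟩
      | cons a p =>
        simp only [List.cons_append, List.cons.injEq] at h
        obtain ⟨rfl, h⟩ := h
        obtain ⟨t1, t2, h1, h2, h3⟩ := ih p h
        exact ⟨(false, true) :: t1, t2, by simp [h1], by rw [Qwd_cons_N_keep, h2], h3⟩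
    · rw [Qwd_cons_E_del] at h
      cases p with
      | nil => simp at h
      | cons a p =>
        simp only [List.cons_append, List.cons.injEq] at h
        obtain ⟨rfl, h⟩ := h
        obtain ⟨t1, t2, h1, h2, h3⟩ := ih p h
        exact ⟨(true, false) :: t1, t2, by simp [h1], by rw [Qwd_cons_E_del, h2], h3⟩
    · rw [Qwd_cons_E_keep] at h
      obtain ⟨t1, t2, h1, h2, h3⟩ := ih p h
      exact ⟨(true, true) :: t1, t2, by simp [h1], by rw [Qwd_cons_E_keep]; exact h2, h3⟩

/-- A splitting of `Zwd t` at an `N` comes from a splitting of `t`. -/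
lemma Zwd_split (t : List (Bool × Bool)) (p q : List Bool) (h : Zwd t = p ++ false :: q) :
    ∃ t1 t2, t = t1 ++ (false, false) :: t2 ∧ p = Zwd t1 ∧ q = Zwd t2 := by
  induction t generalizing p with
  | nil => simp at h
  | cons x t ih =>
    obtain ⟨l, g⟩ := x
    cases l <;> cases g
    · rw [Zwd_cons_N_del] at h
      cases p with
      | nil =>
        simp only [List.nil_append, List.cons.injEq, true_and] at h
        exact ⟨[], t, rfl, rfl, h.symm⟩
      | cons a p =>
        simp only [List.cons_append, List.cons.injEq] at h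
        obtain ⟨rfl, h⟩ := h
        obtain ⟨t1, t2, h1, h2, h3⟩ := ih p h
        exact ⟨(false, false) :: t1, t2, by simp [h1], by rw [Zwd_cons_N_del, h2], h3⟩
    · rw [Zwd_cons_N_keep] at h
      obtain ⟨t1, t2, h1, h2, h3⟩ := ih p h
      exact ⟨(false, true) :: t1, t2, by simp [h1], by rw [Zwd_cons_N_keep]; exact h2, h3⟩
    · rw [Zwd_cons_E] at h
      cases p with
      | nil => simp at h
      | cons a p =>
        simp only [List.cons_append, List.cons.injEq] at h
        obtain ⟨rfl, h⟩ := h
        obtain ⟨t1, t2, h1, h2, h3⟩ := ih p h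
        exact ⟨(true, false) :: t1, t2, by simp [h1], by rw [Zwd_cons_E, h2], h3⟩
    · rw [Zwd_cons_E] at h
      cases p with
      | nil => simp at h
      | cons a p =>
        simp only [List.cons_append, List.cons.injEq] at h
        obtain ⟨rfl, h⟩ := h
        obtain ⟨t1, t2, h1, h2, h3⟩ := ih p h
        exact ⟨(true, true) :: t1, t2, by simp [h1], by rw [Zwd_cons_E, h2], h3⟩

/-- Corridor for `Q`: for each kept `N` with prefix `t1` and suffix `t2`, compare the number of
deleted `E` in `t1` with the number of kept `N` in `t2`. -/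
theorem corE_Q {ρ θ e : ℚ} {t : List (Bool × Bool)} (hθ : 0 ≤ θ)
    (h : ∀ t1 t2, t = t1 ++ (false, true) :: t2 →
      θ * (ρ - ((keptN t2 : ℚ) + 1)) - e ≤ (delE t1 : ℚ) ∧
        (delE t1 = 0 ∨ (delE t1 : ℚ) ≤ θ * (ρ - (keptN t2 : ℚ)) + e))
    (htail : θ * (ρ - ((keptN t : ℚ) + 1)) - e ≤ 0) :
    CorE ρ θ e (shape (Qwd t)) := by
  apply corE_shape_of_counts hθ
  · intro p q hs
    obtain ⟨t1, t2, h1, rfl, rfl⟩ := Qwd_split t p q hs
    rw [nE_Qwd, nN_Qwd]
    exact h t1 t2 h1
  · rw [nN_Qwd]; exact htail

/-- Corridor for `Z`: for each deleted `N` with prefix `t1` and suffix `t2`, compare the number of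
`E` in `t1` with the number of deleted `N` in `t2`. -/
theorem corE_Z {ρ θ e : ℚ} {t : List (Bool × Bool)} (hθ : 0 ≤ θ)
    (h : ∀ t1 t2, t = t1 ++ (false, false) :: t2 →
      θ * (ρ - ((delN t2 : ℚ) + 1)) - e ≤ (allE t1 : ℚ) ∧
        (allE t1 = 0 ∨ (allE t1 : ℚ) ≤ θ * (ρ - (delN t2 : ℚ)) + e))
    (htail : θ * (ρ - ((delN t : ℚ) + 1)) - e ≤ 0) :
    CorE ρ θ e (shape (Zwd t)) := by
  apply corE_shape_of_counts hθ
  · intro p q hs
    obtain ⟨t1, t2, h1, rfl, rfl⟩ := Zwd_split t p q hs
    rw [nE_Zwd, nN_Zwd]
    exact h t1 t2 h1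
  · rw [nN_Zwd]; exact htail

/-! ### Areas by appending -/

lemma area_append_false (w : List Bool) : area (w ++ [false]) = nE w + area w := by
  simp [area, rowsW_append_false]

lemma area_append_true (w : List Bool) : area (w ++ [true]) = area w := by
  simp [area, rowsW_append_true]

end Crest.Agent.Lib.Saxl
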