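import Crest.Agent.Lib.Saxl.Family
import Crest.Agent.Lib.Saxl.Strip
import Crest.Agent.Lib.Saxl.Mech

/-!
# Saxl: the peel induction (glue, L6 of the peel architecture)

`UU n` says `TT (XF n) c` for all `c` of size `n`.  The induction: for `n` above the table, every `c`
(after a flip, the flip is free because `XF n` is self-conjugate) splits into columns
`colsD (mA + cols tQ + cols tZ)`, where

* `mA` goes to `XF n'`, `n' = mA.sum`, arbitrary columns, induction hypothesis,
* `tZ`, `tQ` are binary trees of column groups hosted by the strip `Z`, `Q` of the word of `XF n`.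

The three inputs are kept as named predicates here:

* `StripOK` (L1) the strip identity with pieces in the corridor class,
* `Host` (L3) a piece of the class hosts a group,
* `PackData` (L4) the choice of the columns.
-/

set_option autoImplicit false
set_option linter.unusedSectionVars false

namespace Crest.Agent.Lib.Saxl

/-- Sizes for which the statement is true. -/
def GoodN (n : ℕ) : Prop := 1 ≤ n ∧ n ≠ 2 ∧ n ≠ 4 ∧ n ≠ 9

/-- A reduction of `TT (XF n) c` to a smaller `XF n'`. -/
def Reduces (n : ℕ) (c : YoungDiagram) : Prop :=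
  ∃ (n' : ℕ) (cA : YoungDiagram), n' < n ∧ GoodN n' ∧ cA.card = n' ∧ (TT (XF n') cA → TT (XF n) c)

/-- **The induction.** -/
theorem UU_of_steps (N₀ : ℕ) (base : ∀ n, n ≤ N₀ → GoodN n → UU n)
    (step : ∀ n, N₀ < n → ∀ c : YoungDiagram, c.card = n → TT (XF n) c ∨ Reduces n c) :
    ∀ n, GoodN n → UU n := by
  intro n
  induction n using Nat.strong_induction_on with
  | _ n ih =>
    intro hn
    rcases Nat.lt_or_ge N₀ n with h | h
    · intro c hc
      rcases step n h c hc with h1 | ⟨n', cA, hlt, hg, hcA, himp⟩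
      · exact h1
      · exact himp (ih n' hlt hg cA hcA)
    · exact base n h hn

/-- `T` does not see the conjugation of the first shape. -/
theorem TT.of_transpose {Y e : YoungDiagram} (h : TT Y.transpose e) : TT Y e := by
  have h' : Q Y Y e := by simpa using Q.conj12 h
  exact h'

theorem TT.transpose_iff {Y e : YoungDiagram} : TT Y.transpose e ↔ TT Y e :=
  ⟨TT.of_transpose, fun h => TT.of_transpose (by simpa using h)⟩

/-- The output of L1 for a parent `n`, child `n'`, mass `z` of the row part: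
the two parts of the strip in the class of pieces, and the strip identity at the `T` level. -/
def StripOK (n n' : ℕ) (μZ μQ E ρZ ρQ : ℚ) (z q : ℕ) : Prop :=
  n' + q + z = n ∧ ∃ Z Q : YoungDiagram,
    StripPiece μZ E ρZ z Z ∧ StripPiece μQ E ρQ q Q.transpose ∧
    ∀ cA cQ cZ : YoungDiagram, TT (XF n') cA → TT Q cQ → TT Z cZ →
      TT (XF n) (addD (addD cA cQ) cZ)

/-- The class-level hosting statement (L3): all pieces with the parameters host the group `g`. -/
def Host (μ E ρ₀ : ℚ) (g : Multiset ℕ) : Prop :=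
  ∀ Y : YoungDiagram, StripPiece μ E ρ₀ g.sum Y → TT Y (colsD g)

/-- The data of a peel (L4 produces this from `c`, with `Host` coming from L3). -/
structure PeelData (n : ℕ) (m : Multiset ℕ) where
  n' : ℕ
  μZ : ℚ
  μQ : ℚ
  E : ℚ
  ρZ : ℚ
  ρQ : ℚ
  mA : Multiset ℕ
  tZ : GTree
  tQ : GTree
  hlt : n' < n
  hgood : GoodN n'
  hA : mA.sum = n'
  hm : m = mA + GTree.cols tQ + GTree.cols tZ
  hμZ : 0 < μZ
  hμQ : 0 < μQ
  hE : 0 < E
  hz : 0 < GTree.mass tZ
  hq : 0 < GTree.mass tQ
  hbZ : GTree.Bal μZ E tZ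
  hbQ : GTree.Bal μQ E tQ
  hS : StripOK n n' μZ μQ E ρZ ρQ (GTree.mass tZ) (GTree.mass tQ)
  hhZ : ∀ g ∈ GTree.leaves tZ, Host μZ E ρZ g
  hhQ : ∀ g ∈ GTree.leaves tQ, Host μQ E ρQ g

/-- **Glue**: a peel reduces the statement for the columns `m` to the smaller `XF n'`. -/
theorem PeelData.reduces {n : ℕ} {m : Multiset ℕ} (D : PeelData n m) :
    TT (XF D.n') (colsD D.mA) → TT (XF n) (colsD m) := by
  intro hA
  obtain ⟨_, Z, Q, hZ, hQ, hT⟩ := D.hS
  have h1 : TT Z (colsD (GTree.cols D.tZ)) :=
    TT_of_gtree D.hμZ D.hE D.tZ Z D.hbZ D.hz hZ (fun g hg Y hY => D.hhZ g hg Y hY)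
  have h2 : TT Q.transpose (colsD (GTree.cols D.tQ)) :=
    TT_of_gtree D.hμQ D.hE D.tQ Q.transpose D.hbQ D.hq hQ (fun g hg Y hY => D.hhQ g hg Y hY)
  have h3 := hT _ _ _ hA (TT.of_transpose h2) h1
  rw [← colsD_add, ← colsD_add, ← D.hm] at h3
  exact h3

/-- A peel of the columns of `c` or of `c'` is a reduction. -/
theorem Reduces.of_peel {n : ℕ} {c : YoungDiagram} (D : PeelData n (colsOf c)) : Reduces n c := by
  refine ⟨D.n', colsD D.mA, D.hlt, D.hgood, ?_, ?_⟩
  · rw [card_colsD, D.hA]
  · intro h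
    have := D.reduces h
    rwa [colsD_colsOf] at this

theorem Reduces.of_peel_flip {n : ℕ} {c : YoungDiagram} (D : PeelData n (colsOf c.transpose)) :
    Reduces n c := by
  refine ⟨D.n', colsD D.mA, D.hlt, D.hgood, ?_, ?_⟩
  · rw [card_colsD, D.hA]
  · intro h
    have := D.reduces h
    rw [colsD_colsOf] at this
    have h2 := TT.flip (XF_transpose n) this
    simpa using h2

/-- The main theorem from the three inputs and the table. -/
theorem UU_of_inputs (N₀ : ℕ) (base : ∀ n, n ≤ N₀ → GoodN n → UU n)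
    (few : ∀ n, N₀ < n → ∀ c : YoungDiagram, c.card = n →
      TT (XF n) c ∨ Nonempty (PeelData n (colsOf c)) ∨ Nonempty (PeelData n (colsOf c.transpose))) :
    ∀ n, GoodN n → UU n :=
  UU_of_steps N₀ base (fun n hn c hc => by
    rcases few n hn c hc with h | ⟨⟨D⟩⟩ | ⟨⟨D⟩⟩
    · exact Or.inl h
    · exact Or.inr (Reduces.of_peel D)
    · exact Or.inr (Reduces.of_peel_flip D))

end Crest.Agent.Lib.Saxl
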