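import Crest.Agent.Lib.Saxl.Rows

/-!
# Saxl foundation: explicit values of polytabloids
-/

set_option autoImplicit false
set_option linter.unusedSectionVars false

namespace Crest.Agent.Lib.Saxl

open Equiv Finset

/-- Sign of `b - a`. -/
def sgnZ (a b : ℕ) : ℤ := if a < b then 1 else if a = b then 0 else -1

lemma sgnZ_anti (a b : ℕ) : sgnZ a b = - sgnZ b a := by
  unfold sgnZ
  rcases lt_trichotomy a b with h | h | h
  · have h1 : ¬ b < a := by omega
    have h2 : ¬ b = a := by omega
    simp [h, h1, h2]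
  · subst h; simp
  · have h1 : ¬ a < b := by omega
    have h2 : ¬ a = b := by omega
    simp [h, h1, h2]

lemma sgnZ_sq {a b : ℕ} (h : a ≠ b) : sgnZ a b * sgnZ a b = 1 := by
  unfold sgnZ
  rcases lt_or_gt_of_ne h with h1 | h1
  · simp [h1]
  · have h2 : ¬ a < b := by omega
    simp [h2, h]

lemma sgnZ_self (a : ℕ) : sgnZ a a = 0 := by simp [sgnZ]

variable {n : ℕ} {D : Finset (ℕ × ℕ)}

/-- The factor of a pair of letters. -/
def pfz (r c w : Fin n → ℕ) (p q : Fin n) : ℤ :=
  if c p = c q then sgnZ (w p) (w q) * sgnZ (r p) (r q) else 1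

lemma rw_cl_inj (t : D ≃ Fin n) {p q : Fin n} (h1 : cl t p = cl t q) (h2 : rw t p = rw t q) :
    p = q := by
  apply t.symm.injective
  apply Subtype.ext
  exact Prod.ext h2 h1

lemma prod_pfz_comp (t : D ≃ Fin n) {τ : Perm (Fin n)} (hτ : τ ∈ colGroup t) :
    ∏ q, ∏ p ∈ Iio q, pfz (rw t) (cl t) (fun i => rw t (τ i)) p q = ((Perm.sign τ : ℤˣ) : ℤ) := by
  set r := rw t with hr
  set c := cl t with hc
  let f : Fin n → Fin n → ℤ := fun i j => if c i = c j then sgnZ (r i) (r j) else sgnZ (c i) (c j)
  have hf : ∀ i j, f i j = - f j i := by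
    intro i j
    simp only [f]
    by_cases h : c i = c j
    · rw [if_pos h, if_pos h.symm, sgnZ_anti]
    · rw [if_neg h, if_neg (fun e => h e.symm), sgnZ_anti]
  have hmain := Equiv.Perm.prod_Iio_comp_eq_sign_mul_prod τ hf
  have hτ' : ∀ i, c (τ i) = c i := mem_colGroup.1 hτ
  have hsq : ∀ q : Fin n, ∀ p ∈ Iio q, f p q * f p q = 1 := by
    intro q p hp
    have hne : p ≠ q := (Finset.mem_Iio.1 hp).ne
    simp only [f]
    by_cases h : c p = c q
    · rw [if_pos h]
      apply sgnZ_sq
      intro e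
      exact hne (rw_cl_inj t h e)
    · rw [if_neg h]
      exact sgnZ_sq h
  have hX : (∏ q, ∏ p ∈ Iio q, f p q) * (∏ q, ∏ p ∈ Iio q, f p q) = 1 := by
    rw [← Finset.prod_mul_distrib]
    refine Finset.prod_eq_one fun q _ => ?_
    rw [← Finset.prod_mul_distrib]
    exact Finset.prod_eq_one (hsq q)
  have hpair : ∀ q : Fin n, ∀ p ∈ Iio q, pfz r c (fun i => r (τ i)) p q = f (τ p) (τ q) * f p q := by
    intro q p hp
    have hne : p ≠ q := (Finset.mem_Iio.1 hp).ne
    simp only [pfz, f, hτ']
    by_cases h : c p = c q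
    · rw [if_pos h, if_pos h, if_pos h]
    · rw [if_neg h, if_neg h, if_neg h]
      exact (sgnZ_sq h).symm
  calc ∏ q, ∏ p ∈ Iio q, pfz r c (fun i => r (τ i)) p q
      = ∏ q, ∏ p ∈ Iio q, (f (τ p) (τ q) * f p q) :=
        Finset.prod_congr rfl fun q _ => Finset.prod_congr rfl (hpair q)
    _ = (∏ q, ∏ p ∈ Iio q, f (τ p) (τ q)) * (∏ q, ∏ p ∈ Iio q, f p q) := by
        rw [← Finset.prod_mul_distrib]
        refine Finset.prod_congr rfl fun q _ => ?_
        rw [← Finset.prod_mul_distrib]
    _ = ((Perm.sign τ : ℤˣ) : ℤ) * ((∏ q, ∏ p ∈ Iio q, f p q) * (∏ q, ∏ p ∈ Iio q, f p q)) := by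
        rw [hmain, mul_assoc]
        simp
    _ = _ := by rw [hX, mul_one]

/-- The explicit value of a polytabloid. -/
def Ez (t : D ≃ Fin n) (w : Fin n → ℕ) : ℤ :=
  (∏ l, if (w l, cl t l) ∈ D then (1 : ℤ) else 0) *
    ∏ q, ∏ p ∈ Iio q, pfz (rw t) (cl t) w p q

theorem poly_apply_eq (t : D ≃ Fin n) (w : Fin n → ℕ) : poly t w = ((Ez t w : ℤ) : ℂ) := by
  classical
  by_cases h : ∃ σ ∈ colGroup t, w = act σ (rw t)
  · obtain ⟨σ, hσ, rfl⟩ := h
    rw [poly_apply_act t hσ]
    have hτ : σ⁻¹ ∈ colGroup t := inv_mem_colGroup hσ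
    have e1 : act σ (rw t) = fun i => rw t (σ⁻¹ i) := rfl
    have hcell : ∀ l, ((act σ (rw t)) l, cl t l) ∈ D := by
      intro l
      have h1 : cl t (σ⁻¹ l) = cl t l := mem_colGroup.1 hτ l
      have h2 : ((act σ (rw t)) l, cl t l) = (t.symm (σ⁻¹ l)).1 := by
        apply Prod.ext
        · rfl
        · exact h1.symm
      rw [h2]
      exact (t.symm (σ⁻¹ l)).2
    unfold Ez
    rw [Finset.prod_eq_one (fun l _ => if_pos (hcell l)), one_mul, e1, prod_pfz_comp t hτ]
    simp [sg]
  · have h0 : poly t w = 0 := by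
      by_contra hne
      exact h (exists_of_poly_apply_ne t hne)
    rw [h0]
    symm
    have : Ez t w = 0 := by
      by_contra hne
      unfold Ez at hne
      have h1 := left_ne_zero_of_mul hne
      have h2 := right_ne_zero_of_mul hne
      have hcell : ∀ l, (w l, cl t l) ∈ D := by
        intro l
        by_contra hl
        apply h1
        refine Finset.prod_eq_zero (Finset.mem_univ l) ?_
        rw [if_neg hl]
      have hinj : Function.Injective (fun l => (⟨(w l, cl t l), hcell l⟩ : D)) := by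
        have key : ∀ p q : Fin n, p < q → (w p, cl t p) ≠ (w q, cl t q) := by
          intro p q hpq e
          apply h2
          refine Finset.prod_eq_zero (Finset.mem_univ q) ?_
          refine Finset.prod_eq_zero (Finset.mem_Iio.2 hpq) ?_
          have e1 : w p = w q := (Prod.mk.inj e).1
          have e2 : cl t p = cl t q := (Prod.mk.inj e).2
          simp [pfz, e1, e2, sgnZ_self]
        intro p q e
        have e' : (w p, cl t p) = (w q, cl t q) := congrArg Subtype.val e
        rcases lt_trichotomy p q with hlt | heq | hgt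
        · exact absurd e' (key p q hlt)
        · exact heq
        · exact absurd e'.symm (key q p hgt)
      have hcard : Fintype.card (Fin n) = Fintype.card D := (Fintype.card_congr t).symm
      have hbij := (Fintype.bijective_iff_injective_and_card _).2 ⟨hinj, hcard⟩
      let F : Fin n ≃ D := Equiv.ofBijective _ hbij
      -- the permutation
      let τ : Perm (Fin n) := F.trans t
      have hrw : ∀ l, rw t (τ l) = w l := by
        intro l
        show (t.symm (t (F l))).1.1 = w l
        rw [Equiv.symm_apply_apply]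
        rfl
      have hcl : ∀ l, cl t (τ l) = cl t l := by
        intro l
        show (t.symm (t (F l))).1.2 = cl t l
        rw [Equiv.symm_apply_apply]
        rfl
      apply h
      refine ⟨τ⁻¹, inv_mem_colGroup (mem_colGroup.2 hcl), ?_⟩
      funext l
      show w l = rw t (τ⁻¹⁻¹ l)
      rw [inv_inv, hrw]
    rw [this]
    simp

end Crest.Agent.Lib.Saxl
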