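import Crest.Agent.Lib.Saxl.API

/-!
# Saxl foundation: explicit shapes as lists of rows, and derivation trees checked by evaluation
-/

set_option autoImplicit false
set_option linter.unusedSectionVars false

namespace Crest.Agent.Lib.Saxl

/-- Is the list non-increasing? (Boolean, for kernel evaluation.) -/
def srt : List ℕ → Bool
  | [] => true
  | x :: l => match l with
    | [] => true
    | y :: _ => Nat.ble y x && srt l

lemma srt_cons_cons (x y : ℕ) (l : List ℕ) :
    srt (x :: y :: l) = (Nat.ble y x && srt (y :: l)) := rfl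

lemma sortedGE_of_srt {l : List ℕ} (h : srt l = true) : l.Pairwise (· ≥ ·) := by
  induction l with
  | nil => exact List.Pairwise.nil
  | cons x l ih =>
    cases l with
    | nil => exact List.pairwise_singleton _ _
    | cons y l =>
      rw [srt_cons_cons, Bool.and_eq_true] at h
      have hxy : y ≤ x := Nat.le_of_ble_eq_true h.1
      have h2 := ih h.2
      refine List.pairwise_cons.2 ⟨?_, h2⟩
      intro z hz
      rcases List.mem_cons.1 hz with rfl | hz
      · exact hxy
      · exact le_trans ((List.pairwise_cons.1 h2).1 z hz) hxy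

lemma srt_of_getD {l : List ℕ} (h : ∀ i, l.getD (i + 1) 0 ≤ l.getD i 0) : srt l = true := by
  induction l with
  | nil => rfl
  | cons x l ih =>
    cases l with
    | nil => rfl
    | cons y l =>
      rw [srt_cons_cons, Bool.and_eq_true]
      refine ⟨Nat.ble_eq_true_of_le (by simpa using h 0), ih ?_⟩
      intro i
      simpa using h (i + 1)

/-- The Young diagram with given rows. -/
noncomputable def yd (l : List ℕ) : YoungDiagram :=
  if h : srt l = true then YoungDiagram.ofRowLens l (sortedGE_of_srt h).sortedGE else ⊥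

lemma mem_yd {l : List ℕ} (h : srt l = true) {c : ℕ × ℕ} : c ∈ yd l ↔ c.2 < l.getD c.1 0 := by
  unfold yd
  rw [dif_pos h, YoungDiagram.mem_ofRowLens]
  constructor
  · rintro ⟨h1, h2⟩
    rwa [List.getD_eq_getElem _ _ h1]
  · intro h1
    have h2 : c.1 < l.length := by
      by_contra hc
      rw [List.getD_eq_default _ _ (by omega)] at h1
      omega
    refine ⟨h2, ?_⟩
    rwa [List.getD_eq_getElem _ _ h2] at h1

lemma rowLen_yd {l : List ℕ} (h : srt l = true) (i : ℕ) : (yd l).rowLen i = l.getD i 0 := by
  apply eq_of_forall_lt_iff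
  intro j
  rw [← YoungDiagram.mem_iff_lt_rowLen, mem_yd h]

lemma getD_succ_le {l : List ℕ} (h : srt l = true) (i : ℕ) : l.getD (i + 1) 0 ≤ l.getD i 0 := by
  rw [← rowLen_yd h, ← rowLen_yd h]
  exact (yd l).rowLen_anti _ _ (Nat.le_succ _)

lemma card_yd {l : List ℕ} (h : srt l = true) : (yd l).card = l.sum := by
  unfold yd
  rw [dif_pos h]
  exact card_cellsOfRowLens l

/-- Counting. -/
lemma lt_getD_iff {l : List ℕ} (h : srt l = true) (j i : ℕ) :
    j < l.getD i 0 ↔ i < l.countP (fun x => Nat.blt j x) := by
  induction l generalizing i with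
  | nil => simp
  | cons x l ih =>
    have hl : srt l = true := by
      cases l with
      | nil => rfl
      | cons y l =>
        rw [srt_cons_cons, Bool.and_eq_true] at h
        exact h.2
    by_cases hj : j < x
    · have : Nat.blt j x = true := by simpa [Nat.blt] using hj
      rw [List.countP_cons_of_pos this]
      cases i with
      | zero => simpa using hj
      | succ i => simpa using ih hl i
    · have hj' : Nat.blt j x ≠ true := by
        intro e
        apply hj
        simpa [Nat.blt] using e
      rw [List.countP_cons_of_neg hj']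
      have h0 : l.countP (fun x => Nat.blt j x) = 0 := by
        rw [List.countP_eq_zero]
        intro y hy e
        have hp := List.pairwise_cons.1 (sortedGE_of_srt h)
        have hy' : y ≤ x := hp.1 y hy
        have : j < y := by simpa [Nat.blt] using e
        omega
      rw [h0]
      simp only [not_lt_zero', iff_false, not_lt]
      have h1 : ∀ k, l.getD k 0 ≤ x := by
        intro k
        by_cases hi : k < l.length
        · rw [List.getD_eq_getElem _ _ hi]
          exact (List.pairwise_cons.1 (sortedGE_of_srt h)).1 _ (List.getElem_mem hi)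
        · rw [List.getD_eq_default _ _ (by omega)]; omega
      cases i with
      | zero => simpa using not_lt.1 hj
      | succ i =>
        have h2 : (x :: l).getD (i + 1) 0 = l.getD i 0 := by simp
        rw [h2]
        have := h1 i
        omega

lemma colLen_yd {l : List ℕ} (h : srt l = true) (j : ℕ) :
    (yd l).colLen j = l.countP (fun x => Nat.blt j x) := by
  apply eq_of_forall_lt_iff
  intro i
  rw [← YoungDiagram.mem_iff_lt_colLen, mem_yd h]
  exact lt_getD_iff h j i

/-- Rows add. -/
def addR : List ℕ → List ℕ → List ℕ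
  | [], l => l
  | x :: xs, l => match l with
    | [] => x :: xs
    | y :: ys => (x + y) :: addR xs ys

lemma getD_addR (a b : List ℕ) (i : ℕ) :
    (addR a b).getD i 0 = a.getD i 0 + b.getD i 0 := by
  induction a generalizing b i with
  | nil => simp [addR]
  | cons x xs ih =>
    cases b with
    | nil => simp [addR]
    | cons y ys =>
      cases i with
      | zero => simp [addR]
      | succ i => simpa [addR] using ih ys i

lemma srt_addR {a b : List ℕ} (ha : srt a = true) (hb : srt b = true) : srt (addR a b) = true := by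
  apply srt_of_getD
  intro i
  rw [getD_addR, getD_addR]
  have h1 := getD_succ_le ha i
  have h2 := getD_succ_le hb i
  omega

lemma yd_addR {a b : List ℕ} (ha : srt a = true) (hb : srt b = true) :
    yd (addR a b) = addD (yd a) (yd b) := by
  apply ext_rowLen
  intro i
  rw [rowLen_yd (srt_addR ha hb), rowLen_addD, rowLen_yd ha, rowLen_yd hb, getD_addR]

/-- The conjugate list. -/
def conjL (l : List ℕ) : List ℕ :=
  (List.range (l.headD 0)).map fun j => l.countP (fun x => Nat.blt j x)

lemma getD_conjL {l : List ℕ} (h : srt l = true) (j : ℕ) :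
    (conjL l).getD j 0 = l.countP (fun x => Nat.blt j x) := by
  unfold conjL
  by_cases hj : j < l.headD 0
  · rw [List.getD_eq_getElem _ _ (by simpa using hj)]
    simp
  · rw [List.getD_eq_default _ _ (by simpa using hj)]
    symm
    rw [List.countP_eq_zero]
    intro y hy e
    have hy' : j < y := by simpa [Nat.blt] using e
    apply hj
    cases l with
    | nil => simp at hy
    | cons x l =>
      have hyx : y ≤ x := by
        rcases List.mem_cons.1 hy with rfl | hy
        · exact le_rfl
        · exact (List.pairwise_cons.1 (sortedGE_of_srt h)).1 y hy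
      simp only [List.headD_cons]
      omega

lemma srt_conjL {l : List ℕ} (h : srt l = true) : srt (conjL l) = true := by
  apply srt_of_getD
  intro i
  rw [getD_conjL h, getD_conjL h, ← colLen_yd h, ← colLen_yd h]
  exact (yd l).colLen_anti _ _ (Nat.le_succ _)

lemma yd_conjL {l : List ℕ} (h : srt l = true) : yd (conjL l) = (yd l).transpose := by
  apply ext_rowLen
  intro i
  rw [rowLen_yd (srt_conjL h), YoungDiagram.rowLen_transpose, colLen_yd h, getD_conjL h]

/-- Merging rows. -/
def uniR (a b : List ℕ) : List ℕ := conjL (addR (conjL a) (conjL b))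

lemma srt_uniR {a b : List ℕ} (ha : srt a = true) (hb : srt b = true) : srt (uniR a b) = true :=
  srt_conjL (srt_addR (srt_conjL ha) (srt_conjL hb))

lemma yd_uniR {a b : List ℕ} (ha : srt a = true) (hb : srt b = true) :
    yd (uniR a b) = unionD (yd a) (yd b) := by
  unfold uniR unionD
  rw [yd_conjL (srt_addR (srt_conjL ha) (srt_conjL hb)), yd_addR (srt_conjL ha) (srt_conjL hb),
    yd_conjL ha, yd_conjL hb]

lemma yd_single (n : ℕ) : yd [n] = rowD n := by
  have hs : srt [n] = true := rfl
  apply ext_colLen
  intro j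
  rw [colLen_yd hs]
  apply eq_of_forall_lt_iff
  intro i
  rw [← YoungDiagram.mem_iff_lt_colLen, mem_rowD]
  by_cases hj : j < n
  · have : Nat.blt j n = true := by simpa [Nat.blt] using hj
    rw [List.countP_cons_of_pos this]
    simp [hj]
  · have : Nat.blt j n ≠ true := by
      intro e
      apply hj
      simpa [Nat.blt] using e
    rw [List.countP_cons_of_neg this]
    simp [hj]

/-- A triple of explicit shapes is *good* if it is sorted and satisfies `Q`. -/
def Gd (x : List ℕ × List ℕ × List ℕ) : Prop :=
  srt x.1 = true ∧ srt x.2.1 = true ∧ srt x.2.2 = true ∧ Q (yd x.1) (yd x.2.1) (yd x.2.2)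

/-- Derivation trees. -/
inductive Der
  | row (a : List ℕ)
  | col (a : List ℕ)
  | base (i : ℕ)
  | add (d e : Der)
  | u12 (d e : Der)
  | u13 (d e : Der)
  | u23 (d e : Der)
  | s12 (d : Der)
  | s23 (d : Der)
  | c12 (d : Der)
  | c13 (d : Der)
  | c23 (d : Der)

/-- Check a derivation, returning the triple it proves. -/
def Der.eval (B : List (List ℕ × List ℕ × List ℕ)) :
    Der → Option (List ℕ × List ℕ × List ℕ)
  | .row a => if srt a = true then some (a, a, [a.sum]) else none
  | .col a => if srt a = true then some (a, conjL a, conjL [a.sum]) else none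
  | .base i => B[i]?
  | .add d e => match d.eval B, e.eval B with
    | some x, some y => some (addR x.1 y.1, addR x.2.1 y.2.1, addR x.2.2 y.2.2)
    | _, _ => none
  | .u12 d e => match d.eval B, e.eval B with
    | some x, some y => some (uniR x.1 y.1, uniR x.2.1 y.2.1, addR x.2.2 y.2.2)
    | _, _ => none
  | .u13 d e => match d.eval B, e.eval B with
    | some x, some y => some (uniR x.1 y.1, addR x.2.1 y.2.1, uniR x.2.2 y.2.2)
    | _, _ => none
  | .u23 d e => match d.eval B, e.eval B with
    | some x, some y => some (addR x.1 y.1, uniR x.2.1 y.2.1, uniR x.2.2 y.2.2)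
    | _, _ => none
  | .s12 d => (d.eval B).map fun x => (x.2.1, x.1, x.2.2)
  | .s23 d => (d.eval B).map fun x => (x.1, x.2.2, x.2.1)
  | .c12 d => (d.eval B).map fun x => (conjL x.1, conjL x.2.1, x.2.2)
  | .c13 d => (d.eval B).map fun x => (conjL x.1, x.2.1, conjL x.2.2)
  | .c23 d => (d.eval B).map fun x => (x.1, conjL x.2.1, conjL x.2.2)

theorem Der.eval_sound {B : List (List ℕ × List ℕ × List ℕ)} (hB : ∀ x ∈ B, Gd x) (d : Der)
    {x : List ℕ × List ℕ × List ℕ} (h : d.eval B = some x) : Gd x := by
  induction d generalizing x with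
  | row a =>
    simp only [Der.eval] at h
    split_ifs at h with hs
    obtain rfl := Option.some.inj h
    refine ⟨hs, hs, rfl, ?_⟩
    simp only
    rw [yd_single, ← card_yd hs]
    exact Q.row _
  | col a =>
    simp only [Der.eval] at h
    split_ifs at h with hs
    obtain rfl := Option.some.inj h
    refine ⟨hs, srt_conjL hs, srt_conjL rfl, ?_⟩
    simp only
    rw [yd_conjL hs, yd_conjL (rfl : srt [a.sum] = true), yd_single, ← card_yd hs]
    exact Q.col _
  | base i =>
    simp only [Der.eval] at h
    exact hB x (List.mem_of_getElem? h)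
  | add d e ihd ihe =>
    simp only [Der.eval] at h
    split at h
    · rename_i y z hy hz
      obtain rfl := Option.some.inj h
      obtain ⟨h1, h2, h3, h4⟩ := ihd hy
      obtain ⟨h5, h6, h7, h8⟩ := ihe hz
      refine ⟨srt_addR h1 h5, srt_addR h2 h6, srt_addR h3 h7, ?_⟩
      simp only
      rw [yd_addR h1 h5, yd_addR h2 h6, yd_addR h3 h7]
      exact h4.add h8
    · cases h
  | u12 d e ihd ihe =>
    simp only [Der.eval] at h
    split at h
    · rename_i y z hy hz
      obtain rfl := Option.some.inj h
      obtain ⟨h1, h2, h3, h4⟩ := ihd hy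
      obtain ⟨h5, h6, h7, h8⟩ := ihe hz
      refine ⟨srt_uniR h1 h5, srt_uniR h2 h6, srt_addR h3 h7, ?_⟩
      simp only
      rw [yd_uniR h1 h5, yd_uniR h2 h6, yd_addR h3 h7]
      exact h4.union12 h8
    · cases h
  | u13 d e ihd ihe =>
    simp only [Der.eval] at h
    split at h
    · rename_i y z hy hz
      obtain rfl := Option.some.inj h
      obtain ⟨h1, h2, h3, h4⟩ := ihd hy
      obtain ⟨h5, h6, h7, h8⟩ := ihe hz
      refine ⟨srt_uniR h1 h5, srt_addR h2 h6, srt_uniR h3 h7, ?_⟩
      simp only
      rw [yd_uniR h1 h5, yd_addR h2 h6, yd_uniR h3 h7]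
      exact h4.union13 h8
    · cases h
  | u23 d e ihd ihe =>
    simp only [Der.eval] at h
    split at h
    · rename_i y z hy hz
      obtain rfl := Option.some.inj h
      obtain ⟨h1, h2, h3, h4⟩ := ihd hy
      obtain ⟨h5, h6, h7, h8⟩ := ihe hz
      refine ⟨srt_addR h1 h5, srt_uniR h2 h6, srt_uniR h3 h7, ?_⟩
      simp only
      rw [yd_addR h1 h5, yd_uniR h2 h6, yd_uniR h3 h7]
      exact h4.union23 h8
    · cases h
  | s12 d ih =>
    simp only [Der.eval, Option.map_eq_some_iff] at h
    obtain ⟨y, hy, rfl⟩ := h
    obtain ⟨h1, h2, h3, h4⟩ := ih hy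
    exact ⟨h2, h1, h3, h4.symm12⟩
  | s23 d ih =>
    simp only [Der.eval, Option.map_eq_some_iff] at h
    obtain ⟨y, hy, rfl⟩ := h
    obtain ⟨h1, h2, h3, h4⟩ := ih hy
    exact ⟨h1, h3, h2, h4.symm23⟩
  | c12 d ih =>
    simp only [Der.eval, Option.map_eq_some_iff] at h
    obtain ⟨y, hy, rfl⟩ := h
    obtain ⟨h1, h2, h3, h4⟩ := ih hy
    refine ⟨srt_conjL h1, srt_conjL h2, h3, ?_⟩
    simp only
    rw [yd_conjL h1, yd_conjL h2]
    exact h4.conj12
  | c13 d ih =>
    simp only [Der.eval, Option.map_eq_some_iff] at h
    obtain ⟨y, hy, rfl⟩ := h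
    obtain ⟨h1, h2, h3, h4⟩ := ih hy
    refine ⟨srt_conjL h1, h2, srt_conjL h3, ?_⟩
    simp only
    rw [yd_conjL h1, yd_conjL h3]
    exact h4.conj13
  | c23 d ih =>
    simp only [Der.eval, Option.map_eq_some_iff] at h
    obtain ⟨y, hy, rfl⟩ := h
    obtain ⟨h1, h2, h3, h4⟩ := ih hy
    refine ⟨h1, srt_conjL h2, srt_conjL h3, ?_⟩
    simp only
    rw [yd_conjL h2, yd_conjL h3]
    exact h4.conj23

end Crest.Agent.Lib.Saxl
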