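import Crest.Agent.Lib.Saxl.Strip

/-!
# Saxl: explicit strips in value coordinates

`cwP P x` is the word `N^{P 0} E N^{P 1 - P 0} E ... E N^{P x - P (x-1)}`: `P v` counts the rows of
length at most `v`.

`tw ρ K C x`: the tagged word of a strip. `ρ v` counts the deleted rows of length at most `v`, `K v`
the kept rows of length at most `v`, `C v` the deleted columns among the first `v`.

* `letters (tw ρ K C x) = cwP (ρ + K) x`
* `Zwd (tw ρ K C x) = cwP ρ x`
* `Awd (tw ρ K C x) = cwP P' y`  when `K v = P' (v - C v)` for each `v < x` with column `v + 1` kept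
* `(shape (Qwd (tw ρ K C x))).colLen (C v) = K x - K v` for each `v < x` with column `v + 1` deleted.
-/

set_option autoImplicit false
set_option linter.unusedSectionVars false

namespace Crest.Agent.Lib.Saxl

/-- The word with row counting function `P`. -/
def cwP (P : ℕ → ℕ) : ℕ → List Bool
  | 0 => List.replicate (P 0) false
  | v + 1 => cwP P v ++ true :: List.replicate (P (v + 1) - P v) false

lemma nE_replicate_false (d : ℕ) : nE (List.replicate d false) = 0 := by
  simp [nE, List.count_replicate]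

lemma nN_replicate_false (d : ℕ) : nN (List.replicate d false) = d := by
  simp [nN]

lemma nE_cwP (P : ℕ → ℕ) (v : ℕ) : nE (cwP P v) = v := by
  induction v with
  | zero => exact nE_replicate_false _
  | succ v ih =>
    rw [cwP, nE_append, ih, nE_cons_true, nE_replicate_false]

lemma nN_cwP {P : ℕ → ℕ} (hP : Monotone P) (v : ℕ) : nN (cwP P v) = P v := by
  induction v with
  | zero => exact nN_replicate_false _
  | succ v ih =>
    rw [cwP, nN_append, ih, nN_cons_true, nN_replicate_false]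
    have := hP (show v ≤ v + 1 by omega)
    omega

lemma rowsW_append_replicate (w : List Bool) (d : ℕ) :
    rowsW (w ++ List.replicate d false) = List.replicate d (nE w) ++ rowsW w := by
  induction d with
  | zero => simp
  | succ d ih =>
    rw [List.replicate_succ', ← List.append_assoc, rowsW_append_false, ih,
      nE_append, nE_replicate_false, Nat.add_zero, List.replicate_succ]
    simp

lemma nE_single_true' : nE [true] = 1 := rfl
lemma nN_single_true' : nN [true] = 0 := rfl
lemma nN_nil : nN [] = 0 := rfl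

lemma rowsW_append_E_replicate (w : List Bool) (d : ℕ) :
    rowsW (w ++ true :: List.replicate d false) = List.replicate d (nE w + 1) ++ rowsW w := by
  have e : w ++ true :: List.replicate d false = (w ++ [true]) ++ List.replicate d false := by simp
  rw [e, rowsW_append_replicate, rowsW_append_true, nE_append, nE_single_true']

lemma countP_blt_replicate (j d u : ℕ) :
    (List.replicate d u).countP (fun x => Nat.blt j x) = if j < u then d else 0 := by
  rw [List.countP_replicate]
  by_cases h : j < u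
  · simp [h, Nat.blt_eq]
  · have : ¬ (Nat.blt j u = true) := by simpa [Nat.blt_eq] using h
    simp [h, this]

/-- Column lengths of `cwP`. -/
theorem colLen_cwP {P : ℕ → ℕ} (hP : Monotone P) (x j : ℕ) (hj : j < x) :
    (shape (cwP P x)).colLen j = P x - P j := by
  induction x with
  | zero => omega
  | succ x ih =>
    rw [colLen_shape, cwP, rowsW_append_E_replicate, List.countP_append, countP_blt_replicate,
      nE_cwP, ← colLen_shape]
    have h1 := hP (show x ≤ x + 1 by omega)
    by_cases hjx : j < x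
    · rw [ih hjx, if_pos (by omega)]
      have h2 := hP hjx.le
      omega
    · have hje : j = x := by omega
      subst hje
      rw [if_pos (by omega)]
      have h3 : (shape (cwP P j)).colLen j = 0 := by
        rw [colLen_shape]
        apply List.countP_eq_zero.2
        intro a ha
        have := le_nE_of_mem_rowsW ha
        rw [nE_cwP] at this
        simp [Nat.blt_eq]
        omega
      rw [h3]
      omega

theorem colLen_cwP_of_le (P : ℕ → ℕ) (x j : ℕ) (hj : x ≤ j) :
    (shape (cwP P x)).colLen j = 0 := by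
  rw [colLen_shape]
  apply List.countP_eq_zero.2
  intro a ha
  have := le_nE_of_mem_rowsW ha
  rw [nE_cwP] at this
  simp [Nat.blt_eq]
  omega

/-! ### The tagged word -/

/-- The tagged word of the strip. -/
def tw (ρ K C : ℕ → ℕ) : ℕ → List (Bool × Bool)
  | 0 => List.replicate (ρ 0) (false, false) ++ List.replicate (K 0) (false, true)
  | v + 1 => tw ρ K C v ++ (true, decide (C (v + 1) = C v)) ::
      (List.replicate (ρ (v + 1) - ρ v) (false, false) ++
        List.replicate (K (v + 1) - K v) (false, true))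

section
variable {ρ K C : ℕ → ℕ}

lemma letters_replicate (d : ℕ) (x : Bool × Bool) :
    letters (List.replicate d x) = List.replicate d x.1 := by
  simp [letters]

lemma letters_tw (hρ : Monotone ρ) (hK : Monotone K) (v : ℕ) :
    letters (tw ρ K C v) = cwP (fun u => ρ u + K u) v := by
  induction v with
  | zero =>
    simp only [tw, cwP, letters, List.map_append, List.map_replicate]
    simp
  | succ v ih =>
    have h1 := hρ (show v ≤ v + 1 by omega)
    have h2 := hK (show v ≤ v + 1 by omega)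
    have hl : ∀ a b : List (Bool × Bool), letters (a ++ b) = letters a ++ letters b := by
      intro a b; simp [letters]
    simp only [tw, cwP]
    rw [hl, ih]
    congr 1
    simp only [letters, List.map_cons, List.map_append, List.map_replicate]
    rw [List.cons_inj_right, ← List.replicate_add]
    congr 1
    omega

lemma Zwd_replicate_del (d : ℕ) :
    Zwd (List.replicate d (false, false)) = List.replicate d false := by
  induction d with
  | zero => rfl
  | succ d ih => rw [List.replicate_succ, Zwd_cons_N_del, ih, List.replicate_succ]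

lemma Zwd_replicate_keep (d : ℕ) : Zwd (List.replicate d (false, true)) = [] := by
  induction d with
  | zero => rfl
  | succ d ih => rw [List.replicate_succ, Zwd_cons_N_keep, ih]

lemma Awd_replicate_del (d : ℕ) : Awd (List.replicate d (false, false)) = [] := by
  induction d with
  | zero => rfl
  | succ d ih => rw [List.replicate_succ, Awd_cons_del, ih]

lemma Awd_replicate_keep (d : ℕ) :
    Awd (List.replicate d (false, true)) = List.replicate d false := by
  induction d with
  | zero => rfl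
  | succ d ih => rw [List.replicate_succ, Awd_cons_keep, ih, List.replicate_succ]

lemma Qwd_replicate_del (d : ℕ) : Qwd (List.replicate d (false, false)) = [] := by
  induction d with
  | zero => rfl
  | succ d ih => rw [List.replicate_succ, Qwd_cons_N_del, ih]

lemma Qwd_replicate_keep (d : ℕ) :
    Qwd (List.replicate d (false, true)) = List.replicate d false := by
  induction d with
  | zero => rfl
  | succ d ih => rw [List.replicate_succ, Qwd_cons_N_keep, ih, List.replicate_succ]

/-- The word of `Z`. -/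
lemma Zwd_tw (v : ℕ) : Zwd (tw ρ K C v) = cwP ρ v := by
  induction v with
  | zero =>
    simp only [tw, cwP, Zwd_append, Zwd_replicate_del, Zwd_replicate_keep, List.append_nil]
  | succ v ih =>
    simp only [tw, cwP, Zwd_append, ih, Zwd_cons_E, Zwd_replicate_del, Zwd_replicate_keep,
      List.append_nil]

/-- One step of `Awd`. -/
lemma Awd_tw_succ (v : ℕ) :
    Awd (tw ρ K C (v + 1)) = Awd (tw ρ K C v) ++
      ((if C (v + 1) = C v then [true] else []) ++ List.replicate (K (v + 1) - K v) false) := by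
  simp only [tw, Awd_append]
  congr 1
  by_cases h : C (v + 1) = C v
  · simp only [h, if_true, decide_true]
    rw [Awd_cons_keep, Awd_append, Awd_replicate_del, Awd_replicate_keep]
    rfl
  · simp only [h, if_false, decide_false]
    rw [Awd_cons_del, Awd_append, Awd_replicate_del, Awd_replicate_keep]

/-- One step of `Qwd`. -/
lemma Qwd_tw_succ (v : ℕ) :
    Qwd (tw ρ K C (v + 1)) = Qwd (tw ρ K C v) ++
      ((if C (v + 1) = C v then [] else [true]) ++ List.replicate (K (v + 1) - K v) false) := by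
  simp only [tw, Qwd_append]
  congr 1
  by_cases h : C (v + 1) = C v
  · simp only [h, if_true, decide_true]
    rw [Qwd_cons_E_keep, Qwd_append, Qwd_replicate_del, Qwd_replicate_keep]
  · simp only [h, if_false, decide_false]
    rw [Qwd_cons_E_del, Qwd_append, Qwd_replicate_del, Qwd_replicate_keep]
    rfl

lemma Qwd_tw_zero : Qwd (tw ρ K C 0) = List.replicate (K 0) false := by
  simp only [tw, Qwd_append, Qwd_replicate_del, Qwd_replicate_keep, List.nil_append]

lemma Awd_tw_zero : Awd (tw ρ K C 0) = List.replicate (K 0) false := by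
  simp only [tw, Awd_append, Awd_replicate_del, Awd_replicate_keep, List.nil_append]

end

/-! ### The word of `A` -/

/-- A word `cwP` with the last run truncated: the first `l` columns and `k` rows. -/
def preW (P : ℕ → ℕ) : ℕ → ℕ → List Bool
  | 0, k => List.replicate k false
  | l + 1, k => cwP P l ++ true :: List.replicate (k - P l) false

lemma preW_top (P : ℕ → ℕ) (l : ℕ) : preW P l (P l) = cwP P l := by
  cases l with
  | zero => rfl
  | succ l => rfl

lemma preW_add (P : ℕ → ℕ) (l k d : ℕ) (h : l ≠ 0 → P (l - 1) ≤ k) :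
    preW P l k ++ List.replicate d false = preW P l (k + d) := by
  cases l with
  | zero => simp only [preW, List.replicate_append_replicate]
  | succ l =>
    have h1 := h (by omega)
    simp only [Nat.add_sub_cancel] at h1
    simp only [preW, List.append_assoc, List.cons_append, List.replicate_append_replicate]
    congr 3
    omega

/-- Conditions for the word of `A`. -/
structure ACond (K C P' : ℕ → ℕ) (x : ℕ) : Prop where
  C0 : C 0 = 0
  Cstep : ∀ v, C (v + 1) = C v ∨ C (v + 1) = C v + 1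
  Cle : ∀ v, C v ≤ v
  Kmono : Monotone K
  Pmono : Monotone P'
  keep : ∀ v, v < x → C (v + 1) = C v → K v = P' (v - C v)
  final : K x = P' (x - C x)

theorem Awd_tw_gen {ρ K C P' : ℕ → ℕ} {x : ℕ} (h : ACond K C P' x) (v : ℕ) (hv : v ≤ x) :
    Awd (tw ρ K C v) = preW P' (v - C v) (K v) ∧ (v - C v ≠ 0 → P' (v - C v - 1) ≤ K v) := by
  induction v with
  | zero =>
    refine ⟨?_, ?_⟩
    · rw [Awd_tw_zero, h.C0]; rfl
    · rw [h.C0]; simp
  | succ v ih =>
    obtain ⟨ih1, ih2⟩ := ih (by omega)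
    have hK := h.Kmono (show v ≤ v + 1 by omega)
    rw [Awd_tw_succ, ih1]
    have hC := h.Cle v
    by_cases hc : C (v + 1) = C v
    · have hk := h.keep v (by omega) hc
      have e1 : v + 1 - C (v + 1) = (v - C v) + 1 := by omega
      rw [if_pos hc, e1]
      constructor
      · rw [hk, preW_top]
        simp only [preW, List.singleton_append]
      · intro _
        simp only [Nat.add_sub_cancel]
        rw [← hk]
        exact hK
    · have hs : C (v + 1) = C v + 1 := (h.Cstep v).resolve_left hc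
      have e1 : v + 1 - C (v + 1) = v - C v := by omega
      rw [if_neg hc, e1]
      constructor
      · simp only [List.nil_append]
        rw [preW_add _ _ _ _ ih2]
        congr 1
        omega
      · intro h0
        exact (ih2 h0).trans hK

/-- **The word of `A`.** -/
theorem Awd_tw {ρ K C P' : ℕ → ℕ} {x : ℕ} (h : ACond K C P' x) :
    Awd (tw ρ K C x) = cwP P' (x - C x) := by
  rw [(Awd_tw_gen h x le_rfl).1, h.final, preW_top]

/-! ### The columns of `Q` -/

lemma nE_Qwd_tw {ρ K C : ℕ → ℕ} (h0 : C 0 = 0) (hs : ∀ v, C (v + 1) = C v ∨ C (v + 1) = C v + 1)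
    (v : ℕ) : nE (Qwd (tw ρ K C v)) = C v := by
  induction v with
  | zero => rw [Qwd_tw_zero, nE_replicate_false, h0]
  | succ v ih =>
    rw [Qwd_tw_succ, nE_append, ih, nE_append, nE_replicate_false]
    rcases hs v with e | e
    · rw [if_pos e, e]; simp [nE]
    · have : C (v + 1) ≠ C v := by omega
      rw [if_neg this, e]; simp [nE]

lemma nN_Qwd_tw {ρ K C : ℕ → ℕ} (hK : Monotone K) (v : ℕ) : nN (Qwd (tw ρ K C v)) = K v := by
  induction v with
  | zero => rw [Qwd_tw_zero, nN_replicate_false]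
  | succ v ih =>
    rw [Qwd_tw_succ, nN_append, ih, nN_append, nN_replicate_false]
    have := hK (show v ≤ v + 1 by omega)
    by_cases e : C (v + 1) = C v
    · rw [if_pos e]; simp only [nN_nil]; omega
    · rw [if_neg e]; simp only [nN_single_true']; omega

lemma colLen_append_replicate (w : List Bool) (d j : ℕ) (hj : j < nE w) :
    (shape (w ++ List.replicate d false)).colLen j = (shape w).colLen j + d := by
  rw [colLen_shape, rowsW_append_replicate, List.countP_append, countP_blt_replicate, if_pos hj,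
    ← colLen_shape]
  omega

lemma colLen_append_E_replicate_old (w : List Bool) (d j : ℕ) (hj : j < nE w) :
    (shape (w ++ true :: List.replicate d false)).colLen j = (shape w).colLen j + d := by
  rw [colLen_shape, rowsW_append_E_replicate, List.countP_append, countP_blt_replicate,
    if_pos (by omega), ← colLen_shape]
  omega

lemma colLen_append_E_replicate_new (w : List Bool) (d : ℕ) :
    (shape (w ++ true :: List.replicate d false)).colLen (nE w) = d := by
  rw [colLen_shape, rowsW_append_E_replicate, List.countP_append, countP_blt_replicate,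
    if_pos (by omega)]
  have : (rowsW w).countP (fun x => Nat.blt (nE w) x) = 0 := by
    apply List.countP_eq_zero.2
    intro a ha
    have := le_nE_of_mem_rowsW ha
    simp [Nat.blt_eq]
    omega
  omega

/-- Each deleted column `v + 1` gives the column `C v` of `Q`, of height the number of kept rows of
length at least `v + 1`. -/
theorem colLen_Qwd {ρ K C : ℕ → ℕ} (h0 : C 0 = 0)
    (hs : ∀ v, C (v + 1) = C v ∨ C (v + 1) = C v + 1) (hK : Monotone K)
    {v x : ℕ} (hv : v < x) (hd : C (v + 1) = C v + 1) :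
    (shape (Qwd (tw ρ K C x))).colLen (C v) = K x - K v := by
  induction x with
  | zero => omega
  | succ x ih =>
    have h1 := hK (show x ≤ x + 1 by omega)
    rw [Qwd_tw_succ]
    by_cases hvx : v = x
    · subst hvx
      have e : C (v + 1) ≠ C v := by omega
      rw [if_neg e]
      have e2 := nE_Qwd_tw (ρ := ρ) (K := K) h0 hs v
      have e3 := colLen_append_E_replicate_new (Qwd (tw ρ K C v)) (K (v + 1) - K v)
      rw [e2] at e3
      simpa using e3
    · have hvx' : v < x := by omega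
      have ih' := ih hvx'
      have h2 := hK hvx'.le
      have hlt : C v < nE (Qwd (tw ρ K C x)) := by
        rw [nE_Qwd_tw h0 hs]
        have hmono : Monotone C := monotone_nat_of_le_succ fun m => by
          rcases hs m with e | e <;> omega
        have := hmono (show v + 1 ≤ x by omega)
        omega
      by_cases e : C (x + 1) = C x
      · rw [if_pos e, List.nil_append, colLen_append_replicate _ _ _ hlt, ih']
        omega
      · rw [if_neg e]
        have e4 := colLen_append_E_replicate_old (Qwd (tw ρ K C x)) (K (x + 1) - K x) (C v) hlt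
        simp only [List.cons_append, List.nil_append] at e4 ⊢
        rw [e4, ih']
        omega


/-! ### Strips from events

Parent row function `Pev ep fp`, deleted rows `d + [ep] + [ec]`, deleted columns `d + [fp] + [fc]`. -/

/-- Indicator of `a ≤ v`. -/
def ind (a v : ℕ) : ℕ := if a ≤ v then 1 else 0

lemma ind_le_one (a v : ℕ) : ind a v ≤ 1 := by unfold ind; split_ifs <;> omega

lemma ind_mono (a : ℕ) : Monotone (ind a) := by
  intro u v h
  unfold ind
  split_ifs <;> omega

/-- Row counting function with one row event `e` and one column event `f`: rows `v + 1` on `[e, f)`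
if `e ≤ f`, `v - 1` on `[f, e)` if `f ≤ e`. -/
def Pev (e f v : ℕ) : ℕ := v + ind e v - ind f v

lemma Pev_add {e f v : ℕ} (hf : 1 ≤ f) : Pev e f v + ind f v = v + ind e v := by
  unfold Pev ind
  split_ifs <;> omega

lemma Pev_mono {e f : ℕ} (hf : 1 ≤ f) : Monotone (Pev e f) := by
  apply monotone_nat_of_le_succ
  intro n
  have h1 := Pev_add (e := e) (v := n) hf
  have h2 := Pev_add (e := e) (v := n + 1) hf
  have h3 := ind_mono e (show n ≤ n + 1 by omega)
  by_cases h4 : f = n + 1
  · subst h4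
    unfold ind at *
    simp at h1 h2 h3 ⊢
    split_ifs at * <;> omega
  · unfold ind at *
    split_ifs at * <;> omega

/-- Deleted rows. -/
def rhoE (d : ℕ → ℕ) (ep ec v : ℕ) : ℕ := d v + ind ep v + ind ec v
/-- Deleted columns. -/
def colE (d : ℕ → ℕ) (fp fc v : ℕ) : ℕ := d v + ind fp v + ind fc v
/-- Kept rows. -/
def keptE (d : ℕ → ℕ) (fp ec v : ℕ) : ℕ := v - (d v + ind fp v + ind ec v)

/-- The conditions on the events. -/
structure EvCond (d : ℕ → ℕ) (fp ec fc : ℕ) : Prop where
  d0 : d 0 = 0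
  dstep : ∀ v, d (v + 1) = d v ∨ d (v + 1) = d v + 1
  fp1 : 1 ≤ fp
  ec1 : 1 ≤ ec
  fc1 : 1 ≤ fc
  KS : ∀ v, d (v + 1) - d v + (if fp = v + 1 then 1 else 0) + (if ec = v + 1 then 1 else 0) ≤ 1
  CS : ∀ v, d (v + 1) - d v + (if fp = v + 1 then 1 else 0) + (if fc = v + 1 then 1 else 0) ≤ 1

namespace EvCond
variable {d : ℕ → ℕ} {fp ec fc : ℕ}

lemma ind_succ (a v : ℕ) : ind a (v + 1) = ind a v + (if a = v + 1 then 1 else 0) := by
  unfold ind
  split_ifs <;> omega

lemma ind_zero {a : ℕ} (h : 1 ≤ a) : ind a 0 = 0 := by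
  unfold ind
  rw [if_neg (by omega)]

lemma dmono (h : EvCond d fp ec fc) : Monotone d :=
  monotone_nat_of_le_succ fun m => by rcases h.dstep m with e | e <;> omega

lemma K_le (h : EvCond d fp ec fc) (v : ℕ) : d v + ind fp v + ind ec v ≤ v := by
  induction v with
  | zero =>
    rw [h.d0, ind_zero h.fp1, ind_zero h.ec1]
  | succ v ih =>
    have h1 := h.KS v
    have h2 := h.dstep v
    rw [ind_succ fp, ind_succ ec]
    split_ifs at h1 ⊢ <;> omega

lemma C_le (h : EvCond d fp ec fc) (v : ℕ) : d v + ind fp v + ind fc v ≤ v := by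
  induction v with
  | zero =>
    rw [h.d0, ind_zero h.fp1, ind_zero h.fc1]
  | succ v ih =>
    have h1 := h.CS v
    have h2 := h.dstep v
    rw [ind_succ fp, ind_succ fc]
    split_ifs at h1 ⊢ <;> omega

lemma K_mono (h : EvCond d fp ec fc) : Monotone (keptE d fp ec) := by
  apply monotone_nat_of_le_succ
  intro v
  unfold keptE
  have h1 := h.KS v
  have h2 := h.dstep v
  have h3 := h.K_le v
  have h4 := h.K_le (v + 1)
  rw [ind_succ fp, ind_succ ec] at h4 ⊢
  split_ifs at h1 h4 ⊢ <;> omega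

lemma C_zero (h : EvCond d fp ec fc) : colE d fp fc 0 = 0 := by
  unfold colE
  rw [h.d0, ind_zero h.fp1, ind_zero h.fc1]

lemma C_step (h : EvCond d fp ec fc) (v : ℕ) :
    colE d fp fc (v + 1) = colE d fp fc v ∨ colE d fp fc (v + 1) = colE d fp fc v + 1 := by
  unfold colE
  have h1 := h.CS v
  have h2 := h.dstep v
  rw [ind_succ fp, ind_succ fc]
  split_ifs at h1 ⊢ <;> omega

lemma rho_mono (h : EvCond d fp ec fc) (ep : ℕ) : Monotone (rhoE d ep ec) := by
  intro u v huv
  unfold rhoE
  have h1 := h.dmono huv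
  have h2 := ind_mono ep huv
  have h3 := ind_mono ec huv
  omega

/-- Rows: the sum of deleted and kept is the parent's row function. -/
lemma rho_add_K (h : EvCond d fp ec fc) (ep v : ℕ) :
    rhoE d ep ec v + keptE d fp ec v = Pev ep fp v := by
  have h1 := h.K_le v
  have h2 := Pev_add (e := ep) (v := v) h.fp1
  unfold rhoE keptE
  omega

end EvCond

/-- The tagged word of the strip from the events. -/
noncomputable def twE (d : ℕ → ℕ) (ep fp ec fc x : ℕ) : List (Bool × Bool) :=
  tw (rhoE d ep ec) (keptE d fp ec) (colE d fp fc) x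

/-- Conditions on the child's row function. -/
structure ChildCond (d : ℕ → ℕ) (fp ec fc : ℕ) (P' : ℕ → ℕ) (x : ℕ) : Prop where
  mono : Monotone P'
  keep : ∀ v, v < x → colE d fp fc (v + 1) = colE d fp fc v →
    keptE d fp ec v = P' (v - colE d fp fc v)
  final : keptE d fp ec x = P' (x - colE d fp fc x)

lemma ChildCond.toA {d : ℕ → ℕ} {fp ec fc : ℕ} {P' : ℕ → ℕ} {x : ℕ}
    (h : EvCond d fp ec fc) (hc : ChildCond d fp ec fc P' x) :
    ACond (keptE d fp ec) (colE d fp fc) P' x where
  C0 := h.C_zero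
  Cstep := h.C_step
  Cle := h.C_le
  Kmono := h.K_mono
  Pmono := hc.mono
  keep := hc.keep
  final := hc.final

theorem letters_twE {d : ℕ → ℕ} {fp ec fc : ℕ} (h : EvCond d fp ec fc) (ep x : ℕ) :
    letters (twE d ep fp ec fc x) = cwP (Pev ep fp) x := by
  unfold twE
  rw [letters_tw (h.rho_mono ep) h.K_mono]
  congr 1
  funext u
  exact h.rho_add_K ep u

theorem Awd_twE {d : ℕ → ℕ} {fp ec fc : ℕ} {P' : ℕ → ℕ} {x : ℕ} (h : EvCond d fp ec fc)
    (hc : ChildCond d fp ec fc P' x) (ep : ℕ) :
    Awd (twE d ep fp ec fc x) = cwP P' (x - colE d fp fc x) :=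
  Awd_tw (hc.toA h)

theorem Zwd_twE (d : ℕ → ℕ) (ep fp ec fc x : ℕ) :
    Zwd (twE d ep fp ec fc x) = cwP (rhoE d ep ec) x :=
  Zwd_tw x

/-- **The strip rule from events.** -/
theorem TT_twE {d : ℕ → ℕ} {fp ec fc : ℕ} {P' : ℕ → ℕ} {x : ℕ} (h : EvCond d fp ec fc)
    (hc : ChildCond d fp ec fc P' x) (ep : ℕ) {cA cQ cZ : YoungDiagram}
    (hA : TT (shape (cwP P' (x - colE d fp fc x))) cA)
    (hQ : TT (shape (Qwd (twE d ep fp ec fc x))) cQ)
    (hZ : TT (shape (cwP (rhoE d ep ec) x)) cZ) :
    TT (shape (cwP (Pev ep fp) x)) (addD (addD cA cQ) cZ) := by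
  rw [← letters_twE h ep x]
  refine TT.strip _ ?_ hQ ?_
  · rw [Awd_twE h hc]; exact hA
  · rw [Zwd_twE]; exact hZ

/-- Columns of `Q`. -/
theorem colLen_Q_twE {d : ℕ → ℕ} {fp ec fc : ℕ} (h : EvCond d fp ec fc) (ep : ℕ) {v x : ℕ}
    (hv : v < x) (hd : colE d fp fc (v + 1) = colE d fp fc v + 1) :
    (shape (Qwd (twE d ep fp ec fc x))).colLen (colE d fp fc v) =
      keptE d fp ec x - keptE d fp ec v :=
  colLen_Qwd h.C_zero h.C_step h.K_mono hv hd


/-! ### Corridors from counts -/

/-- A corridor from the column lengths. -/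
theorem corE_of_colLen {Y : YoungDiagram} {ρ θ e : ℚ} (hθ : 0 < θ)
    (h : ∀ j : ℕ, ρ - 1 - ((j : ℚ) + e) / θ ≤ (Y.colLen j : ℚ) ∧
      (Y.colLen j = 0 ∨ (Y.colLen j : ℚ) ≤ ρ + 1 + (e - 1 - (j : ℚ)) / θ)) :
    CorE ρ θ e Y := by
  have h1 : CorE (θ * ρ) (1 / θ) (1 + (e - 1) / θ) Y.transpose := by
    intro j
    rw [YoungDiagram.rowLen_transpose]
    obtain ⟨h2, h3⟩ := h j
    constructor
    · have e1 : 1 / θ * (θ * ρ - ((j : ℚ) + 1)) - (1 + (e - 1) / θ) =
          ρ - 1 - ((j : ℚ) + e) / θ := by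
        field_simp
        ring
      rw [e1]; exact h2
    · rcases h3 with h3 | h3
      · exact Or.inl h3
      · right
        have e1 : 1 / θ * (θ * ρ - (j : ℚ)) + (1 + (e - 1) / θ) =
            ρ + 1 + (e - 1 - (j : ℚ)) / θ := by
          field_simp
          ring
        rw [e1]; exact h3
  have h2 := CorE.transpose (θ := 1 / θ) (by positivity) h1
  rw [YoungDiagram.transpose_transpose] at h2
  have e1 : 1 / θ * (θ * ρ) = ρ := by field_simp
  have e2 : 1 / (1 / θ) = θ := by field_simp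
  have e3 : 1 + (1 + (e - 1) / θ - 1) / (1 / θ) = e := by field_simp; ring
  rw [e1, e2, e3] at h2
  exact h2

/-- The corridor of `Z`. -/
theorem corE_cwP {R : ℕ → ℕ} (hR : Monotone R) {x s : ℕ} (hs : 0 < s) (hx : 0 < x)
    (hRx : R x = s) (hlo : ∀ j, j < x → j * s ≤ (R j + 1) * x)
    (hhi : ∀ j, j < x → R j * x ≤ (j + 1) * s + x) :
    CorE (s : ℚ) ((x : ℚ) / s) 1 (shape (cwP R x)) := by
  have hs' : (0 : ℚ) < s := by exact_mod_cast hs
  have hx' : (0 : ℚ) < x := by exact_mod_cast hx
  apply corE_of_colLen (by positivity)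
  intro j
  have e1 : ((j : ℚ) + 1) / ((x : ℚ) / s) = ((j : ℚ) + 1) * s / x := by field_simp
  have e2 : ((1 : ℚ) - 1 - (j : ℚ)) / ((x : ℚ) / s) = - ((j : ℚ) * s / x) := by field_simp; ring
  rw [e1, e2]
  by_cases hj : j < x
  · rw [colLen_cwP hR x j hj, hRx]
    have h1 : R j ≤ s := hRx ▸ hR hj.le
    have h2 := hlo j hj
    have h3 := hhi j hj
    have h4 : ((s - R j : ℕ) : ℚ) = (s : ℚ) - R j := by
      rw [Nat.cast_sub h1]
    rw [h4]
    have h5 : ((j : ℚ)) * s ≤ ((R j : ℚ) + 1) * x := by exact_mod_cast h2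
    have h6 : (R j : ℚ) * x ≤ ((j : ℚ) + 1) * s + x := by exact_mod_cast h3
    constructor
    · have : (R j : ℚ) ≤ ((j : ℚ) + 1) * s / x + 1 := by
        rw [div_add_one (ne_of_gt hx'), le_div_iff₀ hx']
        linarith
      linarith
    · right
      have : (j : ℚ) * s / x ≤ (R j : ℚ) + 1 := by
        rw [div_le_iff₀ hx']
        linarith
      linarith
  · rw [colLen_cwP_of_le R x j (not_lt.1 hj)]
    constructor
    · have h7 : (x : ℚ) ≤ j := by exact_mod_cast not_lt.1 hj
      have : (s : ℚ) ≤ ((j : ℚ) + 1) * s / x := by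
        rw [le_div_iff₀ hx']
        nlinarith
      simp only [Nat.cast_zero]
      linarith
    · left; rfl

/-- The corridor of `Q'` from the columns of `Q`. -/
theorem corE_transpose_of_colLen {Q : YoungDiagram} {ρ θ e : ℚ}
    (h : ∀ j : ℕ, θ * (ρ - ((j : ℚ) + 1)) - e ≤ (Q.colLen j : ℚ) ∧
      (Q.colLen j = 0 ∨ (Q.colLen j : ℚ) ≤ θ * (ρ - (j : ℚ)) + e)) :
    CorE ρ θ e Q.transpose := by
  intro j
  rw [YoungDiagram.rowLen_transpose]
  exact h j

/-- Hitting a value of a function with unit steps. -/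
lemma exists_hit {φ : ℕ → ℕ} (h0 : φ 0 = 0) (hs : ∀ v, φ (v + 1) ≤ φ v + 1) {i u : ℕ}
    (hi : 1 ≤ i) (hu : i ≤ φ u) :
    ∃ S, 1 ≤ S ∧ S ≤ u ∧ φ S = i ∧ φ (S - 1) + 1 = i := by
  induction u with
  | zero => omega
  | succ u ih =>
    by_cases h : i ≤ φ u
    · obtain ⟨S, h1, h2, h3, h4⟩ := ih h
      exact ⟨S, h1, by omega, h3, h4⟩
    · have h1 := hs u
      exact ⟨u + 1, by omega, le_rfl, by omega, by simp only [Nat.add_sub_cancel]; omega⟩

lemma ind_zero_of_pos {a : ℕ} (h : 1 ≤ a) : ind a 0 = 0 := EvCond.ind_zero h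

/-! ### The grid, even `s` -/

/-- The grid counting function. -/
def gF (x s v : ℕ) : ℕ := v * s / x

/-- The centre of the grid. -/
def cF (x : ℕ) : ℕ := (x + 1) / 2

/-- A grid point with no row, to be moved one step to the left. -/
def cfF (x s fp v : ℕ) : ℕ :=
  if fp ≠ cF x ∧ fp ≠ x ∧ gF x s fp ≠ gF x s (fp - 1) ∧ v + 1 = fp then 1 else 0

/-- The count of the deleted pairs. -/
def dF (x s fp v : ℕ) : ℕ := gF x s v + cfF x s fp v - (ind (cF x) v + ind x v)

lemma ind_bracket {a b c t : ℕ}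
    (h : (a ≤ c ∧ c ≤ b ∧ b ≤ t) ∨ (b ≤ c ∧ c ≤ a ∧ a ≤ t)) (hct : c ≤ t) (v : ℕ) :
    ind c v + ind t v ≤ ind a v + ind b v ∧ ind a v + ind b v ≤ ind c v + ind t v + 1 := by
  unfold ind
  rcases h with ⟨h1, h2, h3⟩ | ⟨h1, h2, h3⟩ <;> split_ifs <;> omega

/-- A column past the last one. -/
lemma colLen_shape_of_le (w : List Bool) (j : ℕ) (hj : nE w ≤ j) : (shape w).colLen j = 0 := by
  rw [colLen_shape]
  apply List.countP_eq_zero.2
  intro a ha
  have := le_nE_of_mem_rowsW ha
  simp [Nat.blt_eq]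
  omega

lemma ind_anti {a b : ℕ} (h : a ≤ b) (v : ℕ) : ind b v ≤ ind a v := by
  unfold ind
  split_ifs <;> omega

section grid
variable {x s u fp : ℕ}

lemma gF_spec (hx : 0 < x) (v : ℕ) :
    gF x s v * x ≤ v * s ∧ v * s < (gF x s v + 1) * x := by
  unfold gF
  constructor
  · exact Nat.div_mul_le_self _ _
  · have h := Nat.lt_mul_div_succ (v * s) hx
    rwa [Nat.mul_comm x] at h

lemma gF_eq_of (hx : 0 < x) {v k : ℕ} (h1 : k * x ≤ v * s) (h2 : v * s < (k + 1) * x) :
    gF x s v = k := by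
  unfold gF
  apply le_antisymm
  · have := (Nat.div_lt_iff_lt_mul hx).2 h2
    omega
  · exact (Nat.le_div_iff_mul_le hx).2 h1

lemma gF_mono : Monotone (gF x s) := by
  intro a b h
  unfold gF
  exact Nat.div_le_div_right (Nat.mul_le_mul_right _ h)

lemma gF_zero (_hx : 0 < x) : gF x s 0 = 0 := by
  simp [gF]

lemma gF_step (hx : 0 < x) (hs : s ≤ x) (v : ℕ) :
    gF x s (v + 1) = gF x s v ∨ gF x s (v + 1) = gF x s v + 1 := by
  have h0 := gF_mono (x := x) (s := s) (show v ≤ v + 1 by omega)
  have h1 := gF_spec (s := s) hx v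
  have h2 := gF_spec (s := s) hx (v + 1)
  have h3 : gF x s (v + 1) < gF x s v + 2 := by
    by_contra hc
    have h4 : (gF x s v + 2) * x ≤ gF x s (v + 1) * x := Nat.mul_le_mul_right _ (not_lt.1 hc)
    nlinarith [h1.2, h2.1]
  omega

lemma gF_consec (hx : 0 < x) (h2s : 2 * s ≤ x) {v : ℕ} (h : gF x s (v + 1) = gF x s v + 1) :
    gF x s (v + 2) = gF x s (v + 1) := by
  have h1 := gF_spec (s := s) hx v
  have h2 := gF_spec (s := s) hx (v + 1)
  apply gF_eq_of hx
  · have h3 : (v + 1) * s ≤ (v + 2) * s := Nat.mul_le_mul_right _ (by omega)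
    exact h2.1.trans h3
  · rw [h]
    nlinarith [h1.2]

lemma gF_c0 (hx : 0 < x) (hs : s = 2 * u) (hu : 1 ≤ u) (h2s : 2 * s ≤ x) :
    gF x s (cF x) = u ∧ gF x s (cF x - 1) = u - 1 := by
  have hc1 : x ≤ 2 * cF x := by unfold cF; omega
  have hc2 : 2 * cF x ≤ x + 1 := by unfold cF; omega
  obtain ⟨c, hc⟩ : ∃ c, cF x = c + 1 := ⟨cF x - 1, by omega⟩
  obtain ⟨w, rfl⟩ : ∃ w, u = w + 1 := ⟨u - 1, by omega⟩
  rw [hc] at hc1 hc2 ⊢
  subst hs
  simp only [Nat.add_sub_cancel]
  constructor
  · apply gF_eq_of hx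
    · nlinarith
    · nlinarith
  · apply gF_eq_of hx
    · nlinarith
    · nlinarith

lemma gF_top (hx : 0 < x) (hs0 : 0 < s) (hs : s ≤ x) :
    gF x s x = s ∧ gF x s (x - 1) = s - 1 := by
  obtain ⟨c, rfl⟩ : ∃ c, x = c + 1 := ⟨x - 1, by omega⟩
  obtain ⟨w, rfl⟩ : ∃ w, s = w + 1 := ⟨s - 1, by omega⟩
  simp only [Nat.add_sub_cancel]
  constructor
  · apply gF_eq_of hx
    · nlinarith
    · nlinarith
  · apply gF_eq_of hx
    · nlinarith
    · nlinarith

/-- The standing assumptions on the grid, `s` even. -/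
structure GridH (x s u fp : ℕ) : Prop where
  hx : 0 < x
  hs : s = 2 * u
  hu : 1 ≤ u
  h2s : 2 * s ≤ x
  fp1 : 1 ≤ fp
  fpx : fp ≤ x

variable (G : GridH x s u fp)
include G

lemma GridH.hc1 : 1 ≤ cF x := by
  have := G.h2s; have := G.hs; have := G.hu
  unfold cF; omega

lemma GridH.hcx : cF x < x := by
  have := G.h2s; have := G.hs; have := G.hu
  unfold cF; omega

lemma GridH.sx : s ≤ x := by
  have := G.h2s; omega

lemma GridH.s0 : 0 < s := by
  have := G.hs; have := G.hu; omega

lemma GridH.ind_le (v : ℕ) : ind (cF x) v + ind x v ≤ gF x s v + cfF x s fp v := by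
  have h1 := G.hcx
  have h2 := gF_c0 G.hx G.hs G.hu G.h2s
  have h3 := gF_top G.hx G.s0 G.sx
  have h4 := G.hs
  have h5 := G.hu
  unfold ind
  by_cases h6 : x ≤ v
  · have h7 : gF x s x ≤ gF x s v := gF_mono h6
    rw [if_pos (by omega), if_pos h6]
    omega
  · by_cases h8 : cF x ≤ v
    · have h7 : gF x s (cF x) ≤ gF x s v := gF_mono h8
      rw [if_pos h8, if_neg h6]
      omega
    · rw [if_neg h8, if_neg h6]
      omega

lemma GridH.dF_add (v : ℕ) :
    dF x s fp v + (ind (cF x) v + ind x v) = gF x s v + cfF x s fp v := by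
  have := G.ind_le v
  unfold dF
  omega

lemma GridH.cf_zero_of_ne {v : ℕ} (h : v + 1 ≠ fp) : cfF x s fp v = 0 := by
  unfold cfF
  rw [if_neg]
  tauto

lemma GridH.cf_le (v : ℕ) : cfF x s fp v ≤ 1 := by
  unfold cfF
  split_ifs <;> omega

lemma GridH.cf_eq_one {v : ℕ} (h : cfF x s fp v = 1) :
    fp ≠ cF x ∧ fp ≠ x ∧ gF x s fp ≠ gF x s (fp - 1) ∧ v + 1 = fp := by
  unfold cfF at h
  split_ifs at h with h1
  exact h1

lemma GridH.dF_zero : dF x s fp 0 = 0 := by
  have h1 := G.dF_add 0
  have h2 := G.hc1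
  have h3 := G.hx
  rw [gF_zero G.hx, ind_zero_of_pos h2, ind_zero_of_pos h3] at h1
  have h4 : cfF x s fp 0 = 0 := by
    by_contra hc
    have h5 : cfF x s fp 0 = 1 := by have := G.cf_le 0; omega
    obtain ⟨_, _, h6, h7⟩ := G.cf_eq_one h5
    apply h6
    have h8 : fp = 1 := by omega
    subst h8
    have h9 := gF_spec (s := s) G.hx 1
    have h10 := G.h2s
    have h11 := G.s0
    have h12 : gF x s 1 = 0 := by
      apply gF_eq_of G.hx
      · simp
      · nlinarith
    rw [h12]
    simp [gF_zero G.hx]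
  omega

/-- The steps of `dF`. -/
lemma GridH.dF_step (v : ℕ) :
    (dF x s fp (v + 1) = dF x s fp v ∨ dF x s fp (v + 1) = dF x s fp v + 1) ∧
      (fp = v + 1 → dF x s fp (v + 1) = dF x s fp v) ∧
      (cF x = v + 1 → dF x s fp (v + 1) = dF x s fp v) ∧
      (x = v + 1 → dF x s fp (v + 1) = dF x s fp v) := by
  have a1 := G.dF_add v
  have a2 := G.dF_add (v + 1)
  have hg := gF_step (s := s) G.hx G.sx v
  have hc := gF_c0 G.hx G.hs G.hu G.h2s
  have ht := gF_top G.hx G.s0 G.sx
  have hcx := G.hcx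
  have hfpx := G.fpx
  rw [EvCond.ind_succ (cF x) v, EvCond.ind_succ x v] at a2
  -- the value of cf at v and v+1
  have cf_v : cfF x s fp v = 1 → gF x s (v + 1) = gF x s v + 1 ∧ fp = v + 1 ∧ fp ≠ cF x ∧ fp ≠ x := by
    intro h
    obtain ⟨h1, h2, h3, h4⟩ := G.cf_eq_one h
    subst h4
    simp only [Nat.add_sub_cancel] at h3
    exact ⟨by omega, rfl, h1, h2⟩
  have cf_v1 : cfF x s fp (v + 1) = 1 → gF x s (v + 1) = gF x s v ∧ fp = v + 2 := by
    intro h
    obtain ⟨h1, h2, h3, h4⟩ := G.cf_eq_one h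
    subst h4
    simp only [show v + 1 + 1 - 1 = v + 1 by omega] at h3
    refine ⟨?_, rfl⟩
    rcases hg with e | e
    · exact e
    · exact absurd (gF_consec G.hx G.h2s e) h3
  have cfl1 := G.cf_le v
  have cfl2 := G.cf_le (v + 1)
  have cf_eq : cfF x s fp v = 0 ∨ cfF x s fp v = 1 := by omega
  have cf_eq2 : cfF x s fp (v + 1) = 0 ∨ cfF x s fp (v + 1) = 1 := by omega
  have hgv : fp = v + 1 → fp ≠ cF x → fp ≠ x → cfF x s fp v = 0 → gF x s (v + 1) = gF x s v := by
    intro h1 h2 h3 h4
    by_contra hne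
    have : cfF x s fp v = 1 := by
      unfold cfF
      rw [if_pos]
      subst h1
      refine ⟨h2, h3, ?_, rfl⟩
      simp only [Nat.add_sub_cancel]
      exact hne
    omega
  by_cases e1 : cF x = v + 1
  · have e2 : gF x s (v + 1) = gF x s v + 1 := by
      rw [← e1]
      have : v = cF x - 1 := by omega
      rw [this]
      have := G.hu
      omega
    have e3 : x ≠ v + 1 := by omega
    have e4 : cfF x s fp v = 0 := by
      rcases cf_eq with h | h
      · exact h
      · obtain ⟨_, h5, h6, _⟩ := cf_v h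
        omega
    have e5 : cfF x s fp (v + 1) = 0 := by
      rcases cf_eq2 with h | h
      · exact h
      · have := (cf_v1 h).1
        omega
    rw [if_pos e1, if_neg e3] at a2
    refine ⟨Or.inl ?_, fun _ => ?_, fun _ => ?_, fun h => absurd h e3⟩ <;> omega
  by_cases e2 : x = v + 1
  · have e3 : gF x s (v + 1) = gF x s v + 1 := by
      rw [← e2]
      have : v = x - 1 := by omega
      rw [this, ht.1, ht.2]
      have := G.s0
      omega
    have e4 : cfF x s fp v = 0 := by
      rcases cf_eq with h | h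
      · exact h
      · obtain ⟨_, h5, _, h6⟩ := cf_v h
        omega
    have e5 : cfF x s fp (v + 1) = 0 := by
      rcases cf_eq2 with h | h
      · exact h
      · have := (cf_v1 h).2
        omega
    rw [if_neg e1, if_pos e2] at a2
    refine ⟨Or.inl ?_, fun _ => ?_, fun h => absurd h e1, fun _ => ?_⟩ <;> omega
  · rw [if_neg e1, if_neg e2] at a2
    refine ⟨?_, ?_, fun h => absurd h e1, fun h => absurd h e2⟩
    · rcases cf_eq with h | h <;> rcases cf_eq2 with h' | h'
      · omega
      · have := cf_v1 h'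
        omega
      · have := cf_v h
        omega
      · have h3 := cf_v h
        have h4 := cf_v1 h'
        omega
    · intro h5
      have h6 : fp ≠ cF x := by omega
      have h7 : fp ≠ x := by omega
      rcases cf_eq with h | h
      · have h8 := hgv h5 h6 h7 h
        rcases cf_eq2 with h' | h'
        · omega
        · have := (cf_v1 h').2
          omega
      · have h8 := cf_v h
        rcases cf_eq2 with h' | h'
        · omega
        · have := (cf_v1 h').2
          omega

lemma GridH.dF_mono : Monotone (dF x s fp) :=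
  monotone_nat_of_le_succ fun m => by
    rcases (G.dF_step m).1 with e | e <;> omega

/-- Non-deleted pair values. -/
def nonD (x s fp v : ℕ) : ℕ := v - (dF x s fp v + ind fp v)

lemma GridH.nonD_le (v : ℕ) : dF x s fp v + ind fp v ≤ v := by
  induction v with
  | zero =>
    rw [G.dF_zero, ind_zero_of_pos G.fp1]
  | succ v ih =>
    obtain ⟨h1, h2, _, _⟩ := G.dF_step v
    rw [EvCond.ind_succ fp v]
    split_ifs with h3
    · have := h2 h3
      have h4 : ind fp v = 0 := by
        unfold ind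
        rw [if_neg (by omega)]
      omega
    · omega

lemma GridH.nonD_add (v : ℕ) : nonD x s fp v + dF x s fp v + ind fp v = v := by
  have := G.nonD_le v
  unfold nonD
  omega

lemma GridH.nonD_zero : nonD x s fp 0 = 0 := by
  have := G.nonD_add 0
  omega

lemma GridH.nonD_step (v : ℕ) :
    nonD x s fp (v + 1) = nonD x s fp v ∨
      (nonD x s fp (v + 1) = nonD x s fp v + 1 ∧ dF x s fp (v + 1) = dF x s fp v ∧ fp ≠ v + 1) := by
  have a1 := G.nonD_add v
  have a2 := G.nonD_add (v + 1)
  obtain ⟨h1, h2, _, _⟩ := G.dF_step v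
  rw [EvCond.ind_succ fp v] at a2
  by_cases h3 : fp = v + 1
  · left
    have := h2 h3
    rw [if_pos h3] at a2
    omega
  · rw [if_neg h3] at a2
    rcases h1 with e | e
    · right
      exact ⟨by omega, e, h3⟩
    · left
      omega

lemma GridH.nonD_mono : Monotone (nonD x s fp) :=
  monotone_nat_of_le_succ fun m => by
    rcases G.nonD_step m with e | ⟨e, _, _⟩ <;> omega

/-- A value where one can put a single row or column deletion. -/
def FreeV (x s fp S : ℕ) : Prop := 1 ≤ S ∧ dF x s fp S = dF x s fp (S - 1) ∧ fp ≠ S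

lemma GridH.hit_free {S : ℕ} (h1 : 1 ≤ S) (h2 : nonD x s fp S = nonD x s fp (S - 1) + 1) :
    FreeV x s fp S := by
  obtain ⟨T, rfl⟩ : ∃ T, S = T + 1 := ⟨S - 1, by omega⟩
  simp only [Nat.add_sub_cancel] at h2 ⊢
  rcases G.nonD_step T with e | ⟨_, e2, e3⟩
  · omega
  · exact ⟨h1, e2, e3⟩

lemma GridH.c0_free (h : fp ≠ cF x) : FreeV x s fp (cF x) := by
  have h1 := G.hc1
  obtain ⟨T, hT⟩ : ∃ T, cF x = T + 1 := ⟨cF x - 1, by omega⟩
  refine ⟨h1, ?_, h⟩
  rw [hT]
  simp only [Nat.add_sub_cancel]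
  exact (G.dF_step T).2.2.1 hT

lemma GridH.x_free (h : fp ≠ x) : FreeV x s fp x := by
  have h1 := G.hx
  refine ⟨h1, ?_, h⟩
  have h2 := (G.dF_step (x - 1)).2.2.2 (by omega)
  have e : x - 1 + 1 = x := by omega
  rwa [e] at h2

/-- The events satisfy the conditions. -/
lemma GridH.evCond {ec fc : ℕ} (h1 : FreeV x s fp ec) (h2 : FreeV x s fp fc) :
    EvCond (dF x s fp) fp ec fc where
  d0 := G.dF_zero
  dstep v := (G.dF_step v).1
  fp1 := G.fp1
  ec1 := h1.1
  fc1 := h2.1
  KS v := by
    obtain ⟨a, _, _, _⟩ := G.dF_step v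
    obtain ⟨a1, a2, a3⟩ := h1
    obtain ⟨b, _, _⟩ := (G.dF_step v).2
    split_ifs with c1 c2 c2
    · have : ec = fp := by omega
      exact absurd this.symm a3
    · have := b c1
      omega
    · subst c2
      simp only [Nat.add_sub_cancel] at a2
      omega
    · rcases a with e | e <;> omega
  CS v := by
    obtain ⟨a, _, _, _⟩ := G.dF_step v
    obtain ⟨a1, a2, a3⟩ := h2
    obtain ⟨b, _, _⟩ := (G.dF_step v).2
    split_ifs with c1 c2 c2
    · have : fc = fp := by omega
      exact absurd this.symm a3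
    · have := b c1
      omega
    · subst c2
      simp only [Nat.add_sub_cancel] at a2
      omega
    · rcases a with e | e <;> omega

/-! ### The child -/

lemma GridH.kept_eq {ec : ℕ} (v : ℕ) :
    keptE (dF x s fp) fp ec v = nonD x s fp v - ind ec v := by
  have := G.nonD_add v
  unfold keptE
  omega

lemma GridH.l_eq {fc : ℕ} (v : ℕ) :
    v - colE (dF x s fp) fp fc v = nonD x s fp v - ind fc v := by
  have := G.nonD_add v
  unfold colE
  omega

/-- A kept column makes a new non-deleted value. -/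
lemma GridH.kept_col {fc v : ℕ}
    (h : colE (dF x s fp) fp fc (v + 1) = colE (dF x s fp) fp fc v) :
    nonD x s fp (v + 1) = nonD x s fp v + 1 ∧ fc ≠ v + 1 := by
  have a1 := G.nonD_add v
  have a2 := G.nonD_add (v + 1)
  obtain ⟨a3, _, _, _⟩ := G.dF_step v
  unfold colE at h
  rw [EvCond.ind_succ fp v, EvCond.ind_succ fc v] at h
  rw [EvCond.ind_succ fp v] at a2
  split_ifs at h a2 with c1 c2 c2
  · omega
  · omega
  · omega
  · exact ⟨by omega, c2⟩

/-- The child of type `-`. -/
theorem GridH.child_minus {a' m' y SL SR : ℕ} (hy : y = 2 * a' + m' + 1)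
    (hL1 : 1 ≤ SL) (hR1 : 1 ≤ SR) (hLR : SL ≤ SR) (hRx : SR ≤ x)
    (hL : nonD x s fp SL = a' + 1) (hL' : nonD x s fp (SL - 1) = a')
    (hR : nonD x s fp SR = a' + m' + 2)
    (hXn : nonD x s fp x = y + 1) :
    ChildCond (dF x s fp) fp SR SL (Pev a' (a' + m' + 1)) x where
  mono := Pev_mono (by omega)
  keep := by
    intro v hv hk
    rw [G.l_eq, G.kept_eq]
    obtain ⟨k1, k2⟩ := G.kept_col hk
    have hmono := G.nonD_mono
    have A1 : SL ≤ v → a' + 1 ≤ nonD x s fp v := fun h => hL ▸ hmono h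
    have A2 : v < SL → nonD x s fp v + 1 ≤ a' := fun h => by
      have h1 : v + 1 ≤ SL - 1 := by omega
      have h2 := hmono h1
      omega
    have A3 : SR ≤ v → a' + m' + 2 ≤ nonD x s fp v := fun h => hR ▸ hmono h
    have A4 : v < SR → nonD x s fp v + 1 ≤ a' + m' + 2 := fun h => by
      have h1 : v + 1 ≤ SR := by omega
      have h2 := hmono h1
      omega
    unfold Pev ind
    by_cases c1 : SL ≤ v <;> by_cases c2 : SR ≤ v
    · have h1 := A3 c2
      simp only [if_pos c1, if_pos c2]
      split_ifs <;> omega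
    · have h1 := A1 c1
      have h2 := A4 (by omega)
      simp only [if_pos c1, if_neg c2]
      split_ifs <;> omega
    · omega
    · have h1 := A2 (by omega)
      simp only [if_neg c1, if_neg c2]
      split_ifs <;> omega
  final := by
    rw [G.l_eq, G.kept_eq, hXn]
    unfold Pev ind
    rw [if_pos hRx, if_pos (hLR.trans hRx)]
    simp only [Nat.add_sub_cancel]
    split_ifs <;> omega

/-- The child of type `+`. -/
theorem GridH.child_plus {a' m' y SL SR : ℕ} (hy : y = 2 * a' + m' + 1)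
    (hL1 : 1 ≤ SL) (hR1 : 1 ≤ SR) (hLR : SL ≤ SR) (hRx : SR ≤ x)
    (hL : nonD x s fp SL = a' + 1)
    (hR : nonD x s fp SR = a' + m' + 2) (hR' : nonD x s fp (SR - 1) = a' + m' + 1)
    (hXn : nonD x s fp x = y + 1) :
    ChildCond (dF x s fp) fp SL SR (Pev (a' + m' + 1) (a' + 1)) x where
  mono := Pev_mono (by omega)
  keep := by
    intro v hv hk
    rw [G.l_eq, G.kept_eq]
    obtain ⟨k1, k2⟩ := G.kept_col hk
    have hmono := G.nonD_mono
    have A1 : SL ≤ v → a' + 1 ≤ nonD x s fp v := fun h => hL ▸ hmono h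
    have A2 : v < SL → nonD x s fp v + 1 ≤ a' + 1 := fun h => by
      have h1 : v + 1 ≤ SL := by omega
      have h2 := hmono h1
      omega
    have A3 : SR ≤ v → a' + m' + 2 ≤ nonD x s fp v := fun h => hR ▸ hmono h
    have A4 : v < SR → nonD x s fp v + 1 ≤ a' + m' + 1 := fun h => by
      have h1 : v + 1 ≤ SR - 1 := by omega
      have h2 := hmono h1
      omega
    unfold Pev ind
    by_cases c1 : SL ≤ v <;> by_cases c2 : SR ≤ v
    · have h1 := A3 c2
      simp only [if_pos c1, if_pos c2]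
      split_ifs <;> omega
    · have h1 := A1 c1
      have h2 := A4 (by omega)
      simp only [if_pos c1, if_neg c2]
      split_ifs <;> omega
    · omega
    · have h1 := A2 (by omega)
      simp only [if_neg c1, if_neg c2]
      split_ifs <;> omega
  final := by
    rw [G.l_eq, G.kept_eq, hXn]
    unfold Pev ind
    rw [if_pos hRx, if_pos (hLR.trans hRx)]
    simp only [Nat.add_sub_cancel]
    split_ifs <;> omega

/-- The child is a staircase. -/
theorem GridH.child_stair {S : ℕ} (hS : S ≤ x) :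
    ChildCond (dF x s fp) fp S S (fun l => l) x where
  mono := fun _ _ h => h
  keep := by
    intro v _ _
    rw [G.l_eq, G.kept_eq]
  final := by
    rw [G.l_eq, G.kept_eq]

/-! ### Counting along the grid -/

/-- The orders needed: each list has one event left of the centre and one right of it. -/
def OrdE (x a b : ℕ) : Prop :=
  (a ≤ cF x ∧ cF x ≤ b ∧ b ≤ x) ∨ (b ≤ cF x ∧ cF x ≤ a ∧ a ≤ x)

lemma GridH.rho_bounds {ep ec : ℕ} (h : OrdE x ep ec) (v : ℕ) :
    gF x s v + cfF x s fp v ≤ rhoE (dF x s fp) ep ec v ∧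
      rhoE (dF x s fp) ep ec v ≤ gF x s v + cfF x s fp v + 1 := by
  have h1 := G.dF_add v
  have h2 := ind_bracket h G.hcx.le v
  unfold rhoE
  omega

lemma GridH.col_bounds {fc : ℕ} (h : OrdE x fp fc) (v : ℕ) :
    gF x s v ≤ colE (dF x s fp) fp fc v ∧ colE (dF x s fp) fp fc v ≤ gF x s v + 1 := by
  have h1 := G.dF_add v
  have h2 := ind_bracket h G.hcx.le v
  have h3 : cfF x s fp v = 1 → ind fp v + ind fc v = ind (cF x) v + ind x v := by
    intro hc
    obtain ⟨a1, a2, _, a4⟩ := G.cf_eq_one hc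
    have hfp : ind fp v = 0 := by
      unfold ind
      rw [if_neg (by omega)]
    rw [hfp]
    have hxv : ind x v = 0 := by
      unfold ind
      rw [if_neg (by have := G.fpx; omega)]
    rw [hxv]
    unfold ind
    rcases h with ⟨b1, b2, b3⟩ | ⟨b1, b2, b3⟩
    · -- `fp` left of the centre
      have : fp < cF x := by omega
      rw [if_neg (by omega), if_neg (by omega)]
    · have : cF x < fp := by omega
      rw [if_pos (by omega), if_pos (by omega)]
  have h4 := G.cf_le v
  unfold colE
  have h5 : cfF x s fp v = 0 ∨ cfF x s fp v = 1 := by omega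
  rcases h5 with e | e
  · omega
  · have := h3 e
    omega

lemma GridH.rho_x {ep ec : ℕ} (h : OrdE x ep ec) : rhoE (dF x s fp) ep ec x = s := by
  have h1 := G.dF_add x
  have ht := (gF_top G.hx G.s0 G.sx).1
  have hc := G.hcx
  have hs := G.hs
  have hu := G.hu
  have h0 : cfF x s fp x = 0 := G.cf_zero_of_ne (by have := G.fpx; omega)
  unfold rhoE
  have e1 : ind (cF x) x = 1 := by unfold ind; rw [if_pos hc.le]
  have e2 : ind x x = 1 := by unfold ind; rw [if_pos le_rfl]
  have e3 : ind ep x = 1 := by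
    unfold ind; rw [if_pos]
    rcases h with ⟨a, b, c⟩ | ⟨a, b, c⟩ <;> omega
  have e4 : ind ec x = 1 := by
    unfold ind; rw [if_pos]
    rcases h with ⟨a, b, c⟩ | ⟨a, b, c⟩ <;> omega
  omega

lemma GridH.col_x {fc : ℕ} (h : OrdE x fp fc) : colE (dF x s fp) fp fc x = s := by
  have h1 := G.dF_add x
  have ht := (gF_top G.hx G.s0 G.sx).1
  have hc := G.hcx
  have hs := G.hs
  have hu := G.hu
  have h0 : cfF x s fp x = 0 := G.cf_zero_of_ne (by have := G.fpx; omega)
  unfold colE
  have e1 : ind (cF x) x = 1 := by unfold ind; rw [if_pos hc.le]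
  have e2 : ind x x = 1 := by unfold ind; rw [if_pos le_rfl]
  have e3 : ind fp x = 1 := by
    unfold ind; rw [if_pos]
    rcases h with ⟨a, b, c⟩ | ⟨a, b, c⟩ <;> omega
  have e4 : ind fc x = 1 := by
    unfold ind; rw [if_pos]
    rcases h with ⟨a, b, c⟩ | ⟨a, b, c⟩ <;> omega
  omega

/-- The corridor of `Z`. -/
theorem GridH.corE_Z {ep ec fc : ℕ} (hf : EvCond (dF x s fp) fp ec fc) (h : OrdE x ep ec) :
    CorE (s : ℚ) ((x : ℚ) / s) 1 (shape (cwP (rhoE (dF x s fp) ep ec) x)) := by
  apply corE_cwP (hf.rho_mono ep) G.s0 G.hx (G.rho_x h)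
  · intro j _
    have h1 := (G.rho_bounds h j).1
    have h2 := (gF_spec (s := s) G.hx j).2
    have h3 : (gF x s j + 1) * x ≤ (rhoE (dF x s fp) ep ec j + 1) * x :=
      Nat.mul_le_mul_right _ (by omega)
    omega
  · intro j _
    have h1 := (G.rho_bounds h j).2
    have h2 := (gF_spec (s := s) G.hx (j + 1)).1
    have h3 : gF x s j + cfF x s fp j ≤ gF x s (j + 1) := by
      have h4 : cfF x s fp j = 0 ∨ cfF x s fp j = 1 := by have := G.cf_le j; omega
      rcases h4 with e | e
      · rw [e]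
        exact gF_mono (by omega)
      · obtain ⟨_, _, a3, a4⟩ := G.cf_eq_one e
        subst a4
        simp only [Nat.add_sub_cancel] at a3
        rcases gF_step (s := s) G.hx G.sx j with e2 | e2
        · exact absurd e2 a3
        · omega
    have h5 : rhoE (dF x s fp) ep ec j * x ≤ (gF x s (j + 1) + 1) * x :=
      Nat.mul_le_mul_right _ (by omega)
    nlinarith

/-- The corridor of `Q'` from the bounds on the kept rows. -/
theorem GridH.corE_Q {ep ec fc y : ℕ} {c1 c2 : ℕ} (hf : EvCond (dF x s fp) fp ec fc)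
    (hy : x = y + s) (hy0 : 0 < y) (hc : OrdE x fp fc) (hc12 : c1 + c2 = 3)
    (hKx : keptE (dF x s fp) fp ec x = y)
    (hB1 : ∀ v, v < x → colE (dF x s fp) fp fc (v + 1) = colE (dF x s fp) fp fc v + 1 →
      keptE (dF x s fp) fp ec v * s ≤ (colE (dF x s fp) fp fc v + 1) * y + c1 * s)
    (hB2 : ∀ v, v < x → colE (dF x s fp) fp fc (v + 1) = colE (dF x s fp) fp fc v + 1 →
      colE (dF x s fp) fp fc v * y ≤ (keptE (dF x s fp) fp ec v + c2) * s) :
    CorE ((s : ℚ) + ((c2 : ℚ) - c1) * s / (2 * y)) ((y : ℚ) / s) (3 / 2)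
      (shape (Qwd (twE (dF x s fp) ep fp ec fc x))).transpose := by
  have hs' : (0 : ℚ) < s := by exact_mod_cast G.s0
  have hy' : (0 : ℚ) < y := by exact_mod_cast hy0
  have e0 : ∀ j : ℚ, (y : ℚ) / s * ((s : ℚ) + ((c2 : ℚ) - c1) * s / (2 * y) - j) =
      (y : ℚ) - j * y / s + ((c2 : ℚ) - c1) / 2 := by
    intro j
    field_simp
    ring
  have hc12' : (c1 : ℚ) + c2 = 3 := by exact_mod_cast hc12
  apply corE_transpose_of_colLen
  intro j
  rw [e0, e0]
  by_cases hj : j < s
  · -- a genuine column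
    have hC0 := hf.C_zero
    have hCs := hf.C_step
    have hCx := G.col_x hc
    obtain ⟨S, h1, h2, h3, h4⟩ := exists_hit (φ := colE (dF x s fp) fp fc) (i := j + 1) (u := x)
      hC0 (fun v => by rcases hCs v with e | e <;> omega) (by omega) (by omega)
    obtain ⟨v, rfl⟩ : ∃ v, S = v + 1 := ⟨S - 1, by omega⟩
    simp only [Nat.add_sub_cancel] at h4
    have hv : v < x := by omega
    have hd : colE (dF x s fp) fp fc (v + 1) = colE (dF x s fp) fp fc v + 1 := by omega
    have hj' : colE (dF x s fp) fp fc v = j := by omega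
    have h5 := colLen_Q_twE hf ep hv hd
    rw [hj', hKx] at h5
    rw [h5]
    have h6 := hf.K_mono hv.le
    rw [hKx] at h6
    have h7 := hB1 v hv hd
    have h8 := hB2 v hv hd
    rw [hj'] at h7 h8
    set K := keptE (dF x s fp) fp ec v with hK
    have h9 : ((y - K : ℕ) : ℚ) = (y : ℚ) - K := by rw [Nat.cast_sub h6]
    rw [h9]
    have h10 : (K : ℚ) * s ≤ ((j : ℚ) + 1) * y + c1 * s := by exact_mod_cast h7
    have h11 : (j : ℚ) * y ≤ ((K : ℚ) + c2) * s := by exact_mod_cast h8
    constructor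
    · have : (K : ℚ) ≤ ((j : ℚ) + 1) * y / s + c1 := by
        rw [div_add' _ _ _ (ne_of_gt hs'), le_div_iff₀ hs']
        linarith
      linarith
    · right
      have : (j : ℚ) * y / s ≤ (K : ℚ) + c2 := by
        rw [div_le_iff₀ hs']
        linarith
      linarith
  · -- past the last column
    have h1 : (shape (Qwd (twE (dF x s fp) ep fp ec fc x))).colLen j = 0 := by
      apply colLen_shape_of_le
      unfold twE
      rw [nE_Qwd_tw hf.C_zero hf.C_step, G.col_x hc]
      omega
    rw [h1]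
    constructor
    · have h2 : (s : ℚ) ≤ j := by exact_mod_cast not_lt.1 hj
      have h3 : (y : ℚ) ≤ ((j : ℚ) + 1) * y / s := by
        rw [le_div_iff₀ hs']
        nlinarith
      have h4 : (0 : ℚ) ≤ c1 := by positivity
      simp only [Nat.cast_zero]
      linarith
    · left; rfl

/-! ### Values at the centre -/

lemma GridH.cf_c0 : cfF x s fp (cF x) = 0 := by
  by_contra hc
  have h1 : cfF x s fp (cF x) = 1 := by have := G.cf_le (cF x); omega
  obtain ⟨_, _, a3, a4⟩ := G.cf_eq_one h1
  subst a4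
  simp only [Nat.add_sub_cancel] at a3
  have h2 := gF_c0 G.hx G.hs G.hu G.h2s
  have h3 := G.hc1
  have h4 : gF x s (cF x - 1 + 1) = gF x s (cF x - 1) + 1 := by
    have e : cF x - 1 + 1 = cF x := by omega
    rw [e]
    have := G.hu
    omega
  have h5 := gF_consec G.hx G.h2s h4
  have e1 : cF x - 1 + 1 = cF x := by omega
  have e2 : cF x - 1 + 2 = cF x + 1 := by omega
  rw [e1, e2] at h5
  exact a3 h5

lemma GridH.dF_c0 : dF x s fp (cF x) + 1 = u := by
  have h1 := G.dF_add (cF x)
  have h2 := (gF_c0 G.hx G.hs G.hu G.h2s).1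
  have h3 := G.cf_c0
  have h4 := G.hcx
  have e1 : ind (cF x) (cF x) = 1 := by unfold ind; rw [if_pos le_rfl]
  have e2 : ind x (cF x) = 0 := by unfold ind; rw [if_neg (by omega)]
  omega

lemma GridH.dF_c0' : u - 1 ≤ dF x s fp (cF x - 1) := by
  have h1 := G.dF_add (cF x - 1)
  have h2 := (gF_c0 G.hx G.hs G.hu G.h2s).2
  have h3 := G.hc1
  have h4 := G.hcx
  have e1 : ind (cF x) (cF x - 1) = 0 := by unfold ind; rw [if_neg (by omega)]
  have e2 : ind x (cF x - 1) = 0 := by unfold ind; rw [if_neg (by omega)]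
  omega

lemma GridH.nonD_x {y : ℕ} (hy : x = y + s) : nonD x s fp x = y + 1 := by
  have h0 := G.nonD_add x
  have h1 := G.dF_add x
  have ht := (gF_top G.hx G.s0 G.sx).1
  have hc := G.hcx
  have h2 : cfF x s fp x = 0 := G.cf_zero_of_ne (by have := G.fpx; omega)
  have e1 : ind (cF x) x = 1 := by unfold ind; rw [if_pos hc.le]
  have e2 : ind x x = 1 := by unfold ind; rw [if_pos le_rfl]
  have e3 : ind fp x = 1 := by unfold ind; rw [if_pos G.fpx]
  have := G.hs
  have := G.hu
  omega

lemma GridH.cF_eq {y : ℕ} (hy : x = y + s) : cF x = u + (y + 1) / 2 := by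
  have := G.hs
  unfold cF
  omega

/-- The two hits of a child with parameters `a'`, `m'`. -/
lemma GridH.exists_hits {y a' m' : ℕ} (hy : x = y + s) (hy2 : y = 2 * a' + m' + 1) :
    ∃ SL SR, FreeV x s fp SL ∧ FreeV x s fp SR ∧ SL ≤ cF x ∧ cF x ≤ SR ∧ SR ≤ x ∧ SL ≤ SR ∧
      1 ≤ SL ∧ 1 ≤ SR ∧
      nonD x s fp SL = a' + 1 ∧ nonD x s fp (SL - 1) = a' ∧
      nonD x s fp SR = a' + m' + 2 ∧ nonD x s fp (SR - 1) = a' + m' + 1 := by
  have hN0 := G.nonD_zero
  have hNs : ∀ v, nonD x s fp (v + 1) ≤ nonD x s fp v + 1 := fun v => by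
    rcases G.nonD_step v with e | ⟨e, _, _⟩ <;> omega
  have hmono := G.nonD_mono
  have hc := G.cF_eq hy
  have hd := G.dF_c0
  have hd' := G.dF_c0'
  have hcp := G.hc1
  have a0 := G.nonD_add (cF x)
  have a1 := G.nonD_add (cF x - 1)
  have hfp0 : ind fp (cF x) ≤ 1 := ind_le_one _ _
  have hu := G.hu
  have hNc : a' + 1 ≤ nonD x s fp (cF x) := by
    have : (y + 1) / 2 ≥ a' + 1 := by omega
    omega
  have hNc' : nonD x s fp (cF x - 1) < a' + m' + 2 := by
    have : (y + 1) / 2 < a' + m' + 2 := by omega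
    omega
  have hNx := G.nonD_x hy
  obtain ⟨SL, l1, l2, l3, l4⟩ := exists_hit hN0 hNs (i := a' + 1) (u := cF x) (by omega) hNc
  obtain ⟨SR, r1, r2, r3, r4⟩ := exists_hit hN0 hNs (i := a' + m' + 2) (u := x) (by omega)
    (by omega)
  have hcR : cF x ≤ SR := by
    by_contra hcon
    have h1 : SR ≤ cF x - 1 := by omega
    have h2 := hmono h1
    omega
  have hLR : SL ≤ SR := by omega
  refine ⟨SL, SR, G.hit_free l1 (by omega), G.hit_free r1 (by omega), l2, hcR, r2, hLR, l1, r1,
    l3, by omega, r3, by omega⟩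

/-- Bounds from the grid for the kept rows. -/
lemma GridH.kept_bounds {ec fc y ca cb : ℕ} (hy : x = y + s) (hc : OrdE x fp fc)
    (hK1 : ∀ v, keptE (dF x s fp) fp ec v + colE (dF x s fp) fp fc v ≤ v + ca)
    (hK2 : ∀ v, v ≤ keptE (dF x s fp) fp ec v + colE (dF x s fp) fp fc v + cb)
    {v : ℕ} (hd : colE (dF x s fp) fp fc (v + 1) = colE (dF x s fp) fp fc v + 1) :
    keptE (dF x s fp) fp ec v * s ≤ (colE (dF x s fp) fp fc v + 1) * y + (1 + ca) * s ∧
    colE (dF x s fp) fp fc v * y ≤ (keptE (dF x s fp) fp ec v + (1 + cb)) * s := by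
  set j := colE (dF x s fp) fp fc v with hj
  set K := keptE (dF x s fp) fp ec v with hK
  have b1 := (G.col_bounds hc v).1
  have b2 := (G.col_bounds hc (v + 1)).2
  have s1 := (gF_spec (s := s) G.hx v).2
  have s2 := (gF_spec (s := s) G.hx (v + 1)).1
  rw [← hj] at b1
  have h1 : (gF x s v + 1) * x ≤ (j + 1) * x := Nat.mul_le_mul_right _ (by omega)
  have h2 : j * x ≤ gF x s (v + 1) * x := Nat.mul_le_mul_right _ (by omega)
  have h3 : (K + j) * s ≤ (v + ca) * s := Nat.mul_le_mul_right _ (hK1 v)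
  have h4 : v * s ≤ (K + j + cb) * s := Nat.mul_le_mul_right _ (hK2 v)
  subst hy
  constructor <;> nlinarith

/-- Everything about the strip, from the events. -/
theorem GridH.assemble {ep ec fc y ca cb : ℕ} {P' : ℕ → ℕ} (hy : x = y + s) (hy0 : 0 < y)
    (hec : FreeV x s fp ec) (hfc : FreeV x s fp fc)
    (hr : OrdE x ep ec) (hc : OrdE x fp fc)
    (hP : ChildCond (dF x s fp) fp ec fc P' x)
    (hca : (1 + ca) + (1 + cb) = 3)
    (hK1 : ∀ v, keptE (dF x s fp) fp ec v + colE (dF x s fp) fp fc v ≤ v + ca)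
    (hK2 : ∀ v, v ≤ keptE (dF x s fp) fp ec v + colE (dF x s fp) fp fc v + cb)
    (hKx : keptE (dF x s fp) fp ec x = y) :
    ∃ Z Q : YoungDiagram,
      CorE (s : ℚ) ((x : ℚ) / s) 1 Z ∧
      CorE ((s : ℚ) + (((1 + cb : ℕ) : ℚ) - ((1 + ca : ℕ) : ℚ)) * s / (2 * y)) ((y : ℚ) / s) (3 / 2)
        Q.transpose ∧
      (∀ cA cQ cZ : YoungDiagram, TT (shape (cwP P' y)) cA → TT Q cQ → TT Z cZ →
        TT (shape (cwP (Pev ep fp) x)) (addD (addD cA cQ) cZ)) ∧
      Z = shape (cwP (rhoE (dF x s fp) ep ec) x) ∧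
      area (cwP (Pev ep fp) x) = area (cwP P' y) + Q.card + Z.card := by
  have hf := G.evCond hec hfc
  have hCx := G.col_x hc
  have hl : x - colE (dF x s fp) fp fc x = y := by omega
  refine ⟨shape (cwP (rhoE (dF x s fp) ep ec) x),
    shape (Qwd (twE (dF x s fp) ep fp ec fc x)), G.corE_Z hf hr, ?_, ?_, rfl, ?_⟩
  · apply G.corE_Q hf hy hy0 hc hca hKx
    · intro v _ hd
      exact (G.kept_bounds hy hc hK1 hK2 hd).1
    · intro v _ hd
      exact (G.kept_bounds hy hc hK1 hK2 hd).2
  · intro cA cQ cZ h1 h2 h3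
    apply TT_twE hf hP ep _ h2 h3
    rw [hl]
    exact h1
  · have h1 := card_strip (twE (dF x s fp) ep fp ec fc x)
    rw [letters_twE hf, Awd_twE hf hP, Zwd_twE, hl] at h1
    rw [h1, card_shape, card_shape]

lemma GridH.ind_le_nonD {S : ℕ} (hS : FreeV x s fp S) (v : ℕ) : ind S v ≤ nonD x s fp v := by
  obtain ⟨h1, h2, h3⟩ := hS
  unfold ind
  split_ifs with h4
  · obtain ⟨T, rfl⟩ : ∃ T, S = T + 1 := ⟨S - 1, by omega⟩
    simp only [Nat.add_sub_cancel] at h2
    have h5 := G.nonD_mono h4
    have a1 := G.nonD_add T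
    have a2 := G.nonD_add (T + 1)
    rw [EvCond.ind_succ fp T, if_neg h3] at a2
    omega
  · omega

/-- **The strip, child of type `-`.** -/
theorem GridH.strip_minus {ep y a' m' : ℕ} (hy : x = y + s) (hy2 : y = 2 * a' + m' + 1)
    (hp : ep ≤ cF x ∧ cF x ≤ fp) :
    ∃ Z Q : YoungDiagram,
      CorE (s : ℚ) ((x : ℚ) / s) 1 Z ∧
      CorE ((s : ℚ) + (((1 : ℕ) : ℚ) - ((2 : ℕ) : ℚ)) * s / (2 * y)) ((y : ℚ) / s) (3 / 2)
        Q.transpose ∧
      (∀ cA cQ cZ : YoungDiagram, TT (shape (cwP (Pev a' (a' + m' + 1)) y)) cA → TT Q cQ → TT Z cZ →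
        TT (shape (cwP (Pev ep fp) x)) (addD (addD cA cQ) cZ)) ∧
      area (cwP (Pev ep fp) x) = area (cwP (Pev a' (a' + m' + 1)) y) + Q.card + Z.card := by
  obtain ⟨SL, SR, f1, f2, h1, h2, h3, h4, h5, h6, h7, h8, h9, h10⟩ := G.exists_hits hy hy2
  have hfpx := G.fpx
  have hr : OrdE x ep SR := Or.inl ⟨hp.1, h2, h3⟩
  have hc : OrdE x fp SL := Or.inr ⟨h1, hp.2, hfpx⟩
  have hP := G.child_minus hy2 h5 h6 h4 h3 h7 h8 h9 (G.nonD_x hy)
  have hNx := G.nonD_x hy
  have hK1 : ∀ v, keptE (dF x s fp) fp SR v + colE (dF x s fp) fp SL v ≤ v + 1 := by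
    intro v
    have a1 := G.nonD_add v
    have b1 := ind_le_one SL v
    rw [G.kept_eq]
    unfold colE
    omega
  have hK2 : ∀ v, v ≤ keptE (dF x s fp) fp SR v + colE (dF x s fp) fp SL v + 0 := by
    intro v
    have a1 := G.nonD_add v
    have b2 := ind_anti h4 v
    rw [G.kept_eq]
    unfold colE
    omega
  have hKx : keptE (dF x s fp) fp SR x = y := by
    rw [G.kept_eq, hNx]
    unfold ind
    rw [if_pos h3]
    omega
  obtain ⟨Z, Q, z1, z2, z3, _, z5⟩ := G.assemble (ca := 1) (cb := 0) hy (by omega) f2 f1 hr hc hP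
    (by omega) hK1 hK2 hKx
  exact ⟨Z, Q, z1, by simpa using z2, z3, z5⟩

/-- **The strip, child of type `+`.** -/
theorem GridH.strip_plus {ep y a' m' : ℕ} (hy : x = y + s) (hy2 : y = 2 * a' + m' + 1)
    (hp : fp ≤ cF x ∧ cF x ≤ ep ∧ ep ≤ x) :
    ∃ Z Q : YoungDiagram,
      CorE (s : ℚ) ((x : ℚ) / s) 1 Z ∧
      CorE ((s : ℚ) + (((2 : ℕ) : ℚ) - ((1 : ℕ) : ℚ)) * s / (2 * y)) ((y : ℚ) / s) (3 / 2)
        Q.transpose ∧
      (∀ cA cQ cZ : YoungDiagram,
        TT (shape (cwP (Pev (a' + m' + 1) (a' + 1)) y)) cA → TT Q cQ → TT Z cZ →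
        TT (shape (cwP (Pev ep fp) x)) (addD (addD cA cQ) cZ)) ∧
      area (cwP (Pev ep fp) x) = area (cwP (Pev (a' + m' + 1) (a' + 1)) y) + Q.card + Z.card := by
  obtain ⟨SL, SR, f1, f2, h1, h2, h3, h4, h5, h6, h7, h8, h9, h10⟩ := G.exists_hits hy hy2
  have hr : OrdE x ep SL := Or.inr ⟨h1, hp.2.1, hp.2.2⟩
  have hc : OrdE x fp SR := Or.inl ⟨hp.1, h2, h3⟩
  have hP := G.child_plus hy2 h5 h6 h4 h3 h7 h9 h10 (G.nonD_x hy)
  have hNx := G.nonD_x hy
  have hK1 : ∀ v, keptE (dF x s fp) fp SL v + colE (dF x s fp) fp SR v ≤ v + 0 := by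
    intro v
    have a1 := G.nonD_add v
    have b2 := ind_anti h4 v
    have b3 := G.ind_le_nonD f1 v
    rw [G.kept_eq]
    unfold colE
    omega
  have hK2 : ∀ v, v ≤ keptE (dF x s fp) fp SL v + colE (dF x s fp) fp SR v + 1 := by
    intro v
    have a1 := G.nonD_add v
    have b1 := ind_le_one SL v
    rw [G.kept_eq]
    unfold colE
    omega
  have hKx : keptE (dF x s fp) fp SL x = y := by
    rw [G.kept_eq, hNx]
    unfold ind
    rw [if_pos (h4.trans h3)]
    omega
  obtain ⟨Z, Q, z1, z2, z3, _, z5⟩ := G.assemble (ca := 0) (cb := 1) hy (by omega) f1 f2 hr hc hP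
    (by omega) hK1 hK2 hKx
  exact ⟨Z, Q, z1, by simpa using z2, z3, z5⟩

/-- A free value for a staircase child. -/
lemma GridH.exists_stair_value {ep : ℕ}
    (hp : (ep ≤ cF x ∧ cF x ≤ fp) ∨ (fp ≤ cF x ∧ cF x ≤ ep ∧ ep ≤ x)) :
    ∃ S, FreeV x s fp S ∧ OrdE x ep S ∧ OrdE x fp S ∧ S ≤ x := by
  have hfpx := G.fpx
  have hcx := G.hcx
  by_cases h1 : fp = cF x
  · by_cases h2 : ep ≤ cF x
    · -- take `x`
      refine ⟨x, G.x_free (by omega), Or.inl ⟨h2, hcx.le, le_rfl⟩, Or.inl ⟨by omega, hcx.le, le_rfl⟩,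
        le_rfl⟩
    · -- take the value before the centre
      have h3 : cF x ≤ ep ∧ ep ≤ x := by
        rcases hp with h | ⟨_, h, h'⟩
        · omega
        · exact ⟨h, h'⟩
      have h4 := gF_c0 G.hx G.hs G.hu G.h2s
      have h5 := G.hc1
      have h6 : 1 ≤ cF x - 1 := by
        by_contra hc
        have e : cF x = 1 := by omega
        have h7 := G.h2s
        have h8 := G.hs
        have h9 := G.hu
        unfold cF at e
        omega
      have hfree : FreeV x s fp (cF x - 1) := by
        obtain ⟨T, hT⟩ : ∃ T, cF x = T + 2 := ⟨cF x - 2, by omega⟩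
        have e8 : cF x - 1 = T + 1 := by omega
        rw [e8]
        refine ⟨by omega, ?_, by omega⟩
        show dF x s fp (T + 1) = dF x s fp (T + 1 - 1)
        rw [Nat.add_sub_cancel]
        have a1 := G.dF_add T
        have a2 := G.dF_add (T + 1)
        have e1 : ind (cF x) T = 0 := by unfold ind; rw [if_neg (by omega)]
        have e2 : ind (cF x) (T + 1) = 0 := by unfold ind; rw [if_neg (by omega)]
        have e3 : ind x T = 0 := by unfold ind; rw [if_neg (by omega)]
        have e4 : ind x (T + 1) = 0 := by unfold ind; rw [if_neg (by omega)]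
        have e5 : cfF x s fp T = 0 := G.cf_zero_of_ne (by omega)
        have e6 : cfF x s fp (T + 1) = 0 := by
          unfold cfF
          rw [if_neg]
          intro h10
          exact h10.1 h1
        have e7 : gF x s (T + 1) = gF x s T := by
          rcases gF_step (s := s) G.hx G.sx T with e | e
          · exact e
          · have h9 := gF_consec G.hx G.h2s e
            have h10 : gF x s (T + 2) = gF x s (T + 1) + 1 := by
              have := G.hu
              rw [hT] at h4
              simp only [show T + 2 - 1 = T + 1 by omega] at h4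
              omega
            omega
        omega
      refine ⟨cF x - 1, hfree, Or.inr ⟨by omega, h3.1, h3.2⟩, Or.inr ⟨by omega, by omega, by omega⟩,
        by omega⟩
  · refine ⟨cF x, G.c0_free h1, ?_, ?_, hcx.le⟩
    · rcases hp with h | ⟨_, h, h'⟩
      · exact Or.inl ⟨h.1, le_rfl, hcx.le⟩
      · exact Or.inr ⟨le_rfl, h, h'⟩
    · rcases hp with h | ⟨h, _, _⟩
      · exact Or.inr ⟨le_rfl, h.2, hfpx⟩
      · exact Or.inl ⟨h, le_rfl, hcx.le⟩

/-- **The strip, staircase child.** -/
theorem GridH.strip_stair {ep y : ℕ} (hy : x = y + s) (hy0 : 0 < y)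
    (hp : (ep ≤ cF x ∧ cF x ≤ fp) ∨ (fp ≤ cF x ∧ cF x ≤ ep ∧ ep ≤ x)) :
    ∃ Z Q : YoungDiagram,
      CorE (s : ℚ) ((x : ℚ) / s) 1 Z ∧
      CorE ((s : ℚ) + (((2 : ℕ) : ℚ) - ((1 : ℕ) : ℚ)) * s / (2 * y)) ((y : ℚ) / s) (3 / 2)
        Q.transpose ∧
      (∀ cA cQ cZ : YoungDiagram, TT (shape (cwP (fun l => l) y)) cA → TT Q cQ → TT Z cZ →
        TT (shape (cwP (Pev ep fp) x)) (addD (addD cA cQ) cZ)) ∧
      area (cwP (Pev ep fp) x) = area (cwP (fun l => l) y) + Q.card + Z.card := by
  obtain ⟨S, f1, hr, hc, hS⟩ := G.exists_stair_value hp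
  have hP := G.child_stair (S := S) hS
  have hNx := G.nonD_x hy
  have hK1 : ∀ v, keptE (dF x s fp) fp S v + colE (dF x s fp) fp S v ≤ v + 0 := by
    intro v
    have a1 := G.nonD_add v
    have b3 := G.ind_le_nonD f1 v
    rw [G.kept_eq]
    unfold colE
    omega
  have hK2 : ∀ v, v ≤ keptE (dF x s fp) fp S v + colE (dF x s fp) fp S v + 1 := by
    intro v
    have a1 := G.nonD_add v
    have b3 := G.ind_le_nonD f1 v
    rw [G.kept_eq]
    unfold colE
    omega
  have hKx : keptE (dF x s fp) fp S x = y := by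
    rw [G.kept_eq, hNx]
    unfold ind
    rw [if_pos hS]
    omega
  obtain ⟨Z, Q, z1, z2, z3, _, z5⟩ := G.assemble (ca := 0) (cb := 1) hy hy0 f1 f1 hr hc hP
    (by omega) hK1 hK2 hKx
  exact ⟨Z, Q, z1, by simpa using z2, z3, z5⟩

end grid

end Crest.Agent.Lib.Saxl
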