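import Crest.Agent.Lib.Saxl.Strip2

/-!
# Saxl: strips with frozen centre, from sorted lists of positions

`cnt f n v` counts the entries among `f 0, ..., f (n-1)` that are at most `v`.

`strip_of_lists`: from a sorted list `V` of deleted rows and a strictly sorted list `W` of deleted
columns with the corridor inequalities at each rank: `Z` of size `∑ V`, `Z` and `Q'` in the corridors
of error `1`, and the strip identity.
-/

set_option autoImplicit false
set_option linter.unusedSectionVars false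

namespace Crest.Agent.Lib.Saxl

open Finset

/-- The number of entries among the first `n` values of `f` that are at most `v`. -/
def cnt (f : ℕ → ℕ) (n v : ℕ) : ℕ := ∑ i ∈ range n, ind (f i) v

lemma cnt_mono (f : ℕ → ℕ) (n : ℕ) : Monotone (cnt f n) := fun _ _ h =>
  sum_le_sum fun _ _ => ind_mono _ h

lemma cnt_le (f : ℕ → ℕ) (n v : ℕ) : cnt f n v ≤ n := by
  unfold cnt
  calc ∑ i ∈ range n, ind (f i) v ≤ ∑ _i ∈ range n, 1 := sum_le_sum fun _ _ => ind_le_one _ _
    _ = n := by simp

/-- The count when the entries below `m` are at most `v` and the others are above. -/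
lemma cnt_eq_below {f : ℕ → ℕ} {n m v : ℕ} (hm : m ≤ n) (h1 : ∀ i, i < m → f i ≤ v)
    (h2 : ∀ i, m ≤ i → i < n → v < f i) : cnt f n v = m := by
  obtain ⟨k, rfl⟩ : ∃ k, n = m + k := ⟨n - m, by omega⟩
  unfold cnt
  rw [sum_range_add]
  have e1 : ∑ i ∈ range m, ind (f i) v = m := by
    calc ∑ i ∈ range m, ind (f i) v = ∑ _i ∈ range m, 1 := by
          apply sum_congr rfl
          intro i hi
          unfold ind
          rw [if_pos (h1 i (mem_range.1 hi))]
      _ = m := by simp
  have e2 : ∑ i ∈ range k, ind (f (m + i)) v = 0 := by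
    apply sum_eq_zero
    intro i hi
    have := h2 (m + i) (by omega) (by have := mem_range.1 hi; omega)
    unfold ind
    rw [if_neg (by omega)]
  omega

/-- The count when the entries below `m` are above `v` and the others are at most `v`. -/
lemma cnt_eq_above {f : ℕ → ℕ} {n m v : ℕ} (hm : m ≤ n) (h1 : ∀ i, i < m → v < f i)
    (h2 : ∀ i, m ≤ i → i < n → f i ≤ v) : cnt f n v = n - m := by
  obtain ⟨k, rfl⟩ : ∃ k, n = m + k := ⟨n - m, by omega⟩
  unfold cnt
  rw [sum_range_add]
  have e1 : ∑ i ∈ range m, ind (f i) v = 0 := by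
    apply sum_eq_zero
    intro i hi
    have := h1 i (mem_range.1 hi)
    unfold ind
    rw [if_neg (by omega)]
  have e2 : ∑ i ∈ range k, ind (f (m + i)) v = k := by
    calc ∑ i ∈ range k, ind (f (m + i)) v = ∑ _i ∈ range k, 1 := by
          apply sum_congr rfl
          intro i hi
          have := h2 (m + i) (by omega) (by have := mem_range.1 hi; omega)
          unfold ind
          rw [if_pos this]
      _ = k := by simp
  omega

/-- The splitting point of a sorted list. -/
lemma exists_cnt_split {f : ℕ → ℕ} {n : ℕ} (hf : ∀ i j, i ≤ j → j < n → f i ≤ f j) (v : ℕ) :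
    ∃ m, m ≤ n ∧ (∀ i, i < m → f i ≤ v) ∧ (∀ i, m ≤ i → i < n → v < f i) := by
  induction n with
  | zero => exact ⟨0, le_rfl, by simp, by simp⟩
  | succ n ih =>
    obtain ⟨m, h0, h1, h2⟩ := ih (fun i j hij hj => hf i j hij (by omega))
    by_cases hmn : m = n
    · subst hmn
      by_cases hv : f m ≤ v
      · refine ⟨m + 1, le_rfl, fun i hi => ?_, fun i h3 h4 => by omega⟩
        rcases Nat.lt_succ_iff_lt_or_eq.1 hi with h5 | h5
        · exact h1 i h5
        · rw [h5]; exact hv
      · refine ⟨m, by omega, h1, fun i h3 h4 => ?_⟩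
        have : i = m := by omega
        rw [this]; omega
    · refine ⟨m, by omega, h1, fun i h3 h4 => ?_⟩
      by_cases h5 : i < n
      · exact h2 i h3 h5
      · have e : i = n := by omega
        rw [e]
        exact lt_of_lt_of_le (h2 m le_rfl (by omega)) (hf m n (by omega) (by omega))

/-- The rank of an entry of a strictly sorted list. -/
lemma cnt_rank {f : ℕ → ℕ} {n i : ℕ} (hf : ∀ i j, i < j → j < n → f i < f j) (hi : i < n) :
    cnt f n (f i) = i + 1 := by
  apply cnt_eq_below (by omega)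
  · intro j hj
    rcases Nat.lt_succ_iff_lt_or_eq.1 hj with h | h
    · exact (hf j i h hi).le
    · rw [h]
  · intro j h1 h2
    exact hf i j (by omega) h2

lemma cnt_rank_pred {f : ℕ → ℕ} {n i : ℕ} (hf : ∀ i j, i < j → j < n → f i < f j) (hi : i < n)
    (h1 : 1 ≤ f i) : cnt f n (f i - 1) = i := by
  apply cnt_eq_below hi.le
  · intro j hj
    have := hf j i hj hi
    omega
  · intro j h2 h3
    rcases Nat.lt_or_eq_of_le h2 with h | h
    · have := hf i j h h3
      omega
    · rw [← h]; omega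

/-- The steps of the count of a strictly sorted list. -/
lemma cnt_step {f : ℕ → ℕ} {n : ℕ} (hf : ∀ i j, i < j → j < n → f i < f j) (v : ℕ) :
    cnt f n (v + 1) = cnt f n v ∨
      (cnt f n (v + 1) = cnt f n v + 1 ∧ ∃ i, i < n ∧ f i = v + 1 ∧ cnt f n v = i) := by
  have hf' : ∀ i j, i ≤ j → j < n → f i ≤ f j := fun i j hij hj => by
    rcases Nat.lt_or_eq_of_le hij with h | h
    · exact (hf i j h hj).le
    · rw [h]
  obtain ⟨m, h0, h1, h2⟩ := exists_cnt_split hf' v
  have e1 : cnt f n v = m := cnt_eq_below h0 h1 h2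
  by_cases hm : m < n ∧ f m = v + 1
  · right
    refine ⟨?_, m, hm.1, hm.2, e1⟩
    rw [e1]
    apply cnt_eq_below (by omega)
    · intro i hi
      rcases Nat.lt_succ_iff_lt_or_eq.1 hi with h | h
      · have := h1 i h; omega
      · rw [h]; omega
    · intro i h3 h4
      have := hf m i (by omega) h4
      omega
  · left
    rw [e1]
    apply cnt_eq_below h0
    · intro i hi
      have := h1 i hi; omega
    · intro i h3 h4
      have h5 := h2 i h3 h4
      by_cases h6 : i = m
      · subst h6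
        by_contra hc
        exact hm ⟨h4, by omega⟩
      · have h7 := hf m i (by omega) h4
        have h8 := h2 m le_rfl (by omega)
        omega

lemma cnt_zero {f : ℕ → ℕ} {n : ℕ} (h : ∀ i, i < n → 1 ≤ f i) : cnt f n 0 = 0 := by
  unfold cnt
  apply sum_eq_zero
  intro i hi
  unfold ind
  rw [if_neg (by have := h i (mem_range.1 hi); omega)]

lemma cnt_top {f : ℕ → ℕ} {n v : ℕ} (h : ∀ i, i < n → f i ≤ v) : cnt f n v = n :=
  cnt_eq_below le_rfl h (fun _ h1 h2 => by omega)

/-- `∑_{j<x} (1 - [a ≤ j]) = min a x`. -/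
lemma sum_one_sub_ind (a x : ℕ) : ∑ j ∈ range x, (1 - ind a j) = min a x := by
  induction x with
  | zero => simp
  | succ x ih =>
    rw [sum_range_succ, ih]
    unfold ind
    split_ifs <;> omega

/-- The sum of the complements of a count. -/
lemma sum_sub_cnt (f : ℕ → ℕ) (n x : ℕ) (h : ∀ i, i < n → f i ≤ x) :
    ∑ j ∈ range x, (n - cnt f n j) = ∑ i ∈ range n, f i := by
  have e1 : ∀ j, n - cnt f n j = ∑ i ∈ range n, (1 - ind (f i) j) := by
    intro j
    have h2 : ∑ i ∈ range n, (1 - ind (f i) j) + cnt f n j = n := by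
      unfold cnt
      rw [← sum_add_distrib]
      calc ∑ i ∈ range n, (1 - ind (f i) j + ind (f i) j) = ∑ _i ∈ range n, 1 := by
            apply sum_congr rfl
            intro i _
            have := ind_le_one (f i) j
            omega
        _ = n := by simp
    omega
  simp_rw [e1]
  rw [sum_comm]
  apply sum_congr rfl
  intro i hi
  rw [sum_one_sub_ind, min_eq_left (h i (mem_range.1 hi))]

/-- The area of the word with a row counting function. -/
lemma area_cwP {R : ℕ → ℕ} (hR : Monotone R) (x : ℕ) :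
    area (cwP R x) = ∑ j ∈ range x, (R x - R j) := by
  induction x with
  | zero =>
    have h := rowsW_append_replicate [] (R 0)
    simp only [List.nil_append] at h
    simp only [cwP, area, h, range_zero, sum_empty]
    simp [nE, rowsW, rowsAux]
  | succ x ih =>
    have h0 := hR (show x ≤ x + 1 by omega)
    have e1 : area (cwP R (x + 1)) = area (cwP R x) + (R (x + 1) - R x) * (x + 1) := by
      unfold area
      rw [cwP, rowsW_append_E_replicate, nE_cwP]
      simp only [List.sum_append, List.sum_replicate, smul_eq_mul]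
      ring
    rw [e1, ih, sum_range_succ]
    have e2 : ∑ j ∈ range x, (R (x + 1) - R j) =
        ∑ j ∈ range x, (R x - R j) + x * (R (x + 1) - R x) := by
      have e3 : x * (R (x + 1) - R x) = ∑ _j ∈ range x, (R (x + 1) - R x) := by simp
      rw [e3, ← sum_add_distrib]
      apply sum_congr rfl
      intro j hj
      have := hR (show j ≤ x by have := mem_range.1 hj; omega)
      omega
    rw [e2]
    ring

/-- `Z` and `Q` from two sorted lists. -/
theorem strip_of_lists_full {x y s : ℕ} {V W P P' : ℕ → ℕ}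
    (hxy : x = y + s) (hs : 0 < s) (hy : 0 < y)
    (hVm : ∀ i j, i ≤ j → j < s → V i ≤ V j)
    (hVx : ∀ i, i < s → V i ≤ x)
    (hWm : ∀ i j, i < j → j < s → W i < W j)
    (hW1 : ∀ i, i < s → 1 ≤ W i)
    (hWx : ∀ i, i < s → W i ≤ x)
    (hρP : ∀ v, cnt V s v ≤ P v)
    (hK : ∀ v, P v - cnt V s v ≤ P (v + 1) - cnt V s (v + 1))
    (hP'm : Monotone P')
    (hkeep : ∀ v, v < x → cnt W s (v + 1) = cnt W s v → P v - cnt V s v = P' (v - cnt W s v))
    (hPx : P x = x) (hP'y : P' y = y)
    (hR : ∀ i, i < s → i * x ≤ (V i + 1) * s ∧ V i * s ≤ (i + 1) * x + s)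
    (hC : ∀ i, i < s → ∃ κ, P (W i - 1) - cnt V s (W i - 1) + i = W i - 1 + κ ∧
      i * x ≤ (W i + κ) * s ∧ (W i + κ) * s ≤ (i + 1) * x + s) :
    ∃ Z Q : YoungDiagram, (Z = shape (cwP (cnt V s) x) ∧
        (∀ j, j < s → Q.colLen j = y - (P (W j - 1) - cnt V s (W j - 1))) ∧
        (∀ j, s ≤ j → Q.colLen j = 0)) ∧
      Z.card = ∑ i ∈ range s, V i ∧
      CorE (s : ℚ) ((x : ℚ) / s) 1 Z ∧ CorE (s : ℚ) ((y : ℚ) / s) 1 Q.transpose ∧
      (∀ cA cQ cZ : YoungDiagram, TT (shape (cwP P' y)) cA → TT Q cQ → TT Z cZ →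
        TT (shape (cwP P x)) (addD (addD cA cQ) cZ)) ∧
      area (cwP P x) = area (cwP P' y) + Q.card + Z.card := by
  set ρ : ℕ → ℕ := cnt V s with hρ
  set C : ℕ → ℕ := cnt W s with hC'
  set K : ℕ → ℕ := fun v => P v - ρ v with hK'
  have hx : 0 < x := by omega
  have hρm : Monotone ρ := cnt_mono V s
  have hKm : Monotone K := monotone_nat_of_le_succ hK
  have hC0 : C 0 = 0 := cnt_zero hW1
  have hCs : ∀ v, C (v + 1) = C v ∨ C (v + 1) = C v + 1 := by
    intro v
    rcases cnt_step hWm v with h | ⟨h, _⟩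
    · exact Or.inl h
    · exact Or.inr h
  have hCle : ∀ v, C v ≤ v := by
    intro v
    induction v with
    | zero => omega
    | succ v ih => rcases hCs v with h | h <;> omega
  have hCx : C x = s := cnt_top hWx
  have hρx : ρ x = s := cnt_top hVx
  have hKx : K x = y := by
    simp only [hK']
    omega
  have hlet : (fun u => ρ u + K u) = P := by
    funext u
    have := hρP u
    simp only [hK']
    omega
  have hA : ACond K C P' x :=
    { C0 := hC0
      Cstep := hCs
      Cle := hCle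
      Kmono := hKm
      Pmono := hP'm
      keep := hkeep
      final := by
        rw [hKx, hCx]
        have : x - s = y := by omega
        rw [this, hP'y] }
  have hl : x - C x = y := by omega
  set t := tw ρ K C x with ht
  have hlt : letters t = cwP P x := by
    rw [ht, letters_tw hρm hKm, hlet]
  have hAw : Awd t = cwP P' y := by
    rw [ht, Awd_tw hA, hl]
  have hZw : Zwd t = cwP ρ x := Zwd_tw x
  refine ⟨shape (cwP ρ x), shape (Qwd t), ⟨rfl, ?_, ?_⟩, ?_, ?_, ?_, ?_, ?_⟩
  · intro j hj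
    have hW := hW1 j hj
    have hW2 := hWx j hj
    obtain ⟨v, hv⟩ : ∃ v, W j = v + 1 := ⟨W j - 1, by omega⟩
    have h1 : C v = j := by
      have := cnt_rank_pred hWm hj hW
      rw [hv] at this
      simpa using this
    have h2 : C (v + 1) = C v + 1 := by
      have := cnt_rank hWm hj
      rw [hv] at this
      rw [h1]
      exact this
    have h3 := colLen_Qwd (ρ := ρ) hC0 hCs hKm (v := v) (x := x) (by omega) h2
    rw [h1, hKx] at h3
    rw [h3, hv]
    simp only [Nat.add_sub_cancel, hK']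
  · intro j hj
    apply colLen_shape_of_le
    rw [ht, nE_Qwd_tw hC0 hCs, hCx]
    exact hj
  · rw [card_shape, area_cwP hρm, hρx]
    exact sum_sub_cnt V s x hVx
  · apply corE_cwP hρm hs hx hρx
    · intro j hj
      obtain ⟨m, h0, h1, h2⟩ := exists_cnt_split hVm j
      have e1 : ρ j = m := cnt_eq_below h0 h1 h2
      rw [e1]
      by_cases hm : m < s
      · have h3 := h2 m le_rfl hm
        have h4 := (hR m hm).2
        have h5 : (j + 1) * s ≤ V m * s := Nat.mul_le_mul_right _ h3
        nlinarith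
      · have e2 : m = s := by omega
        subst e2
        have : j * m ≤ x * m := Nat.mul_le_mul_right _ hj.le
        nlinarith
    · intro j _
      obtain ⟨m, h0, h1, h2⟩ := exists_cnt_split hVm j
      have e1 : ρ j = m := cnt_eq_below h0 h1 h2
      rw [e1]
      by_cases hm : m = 0
      · subst hm
        simp
      · obtain ⟨i, rfl⟩ : ∃ i, m = i + 1 := ⟨m - 1, by omega⟩
        have h3 := h1 i (by omega)
        have h4 := (hR i (by omega)).1
        have h5 : (V i + 1) * s ≤ (j + 1) * s := Nat.mul_le_mul_right _ (by omega)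
        nlinarith
  · have hs' : (0 : ℚ) < s := by exact_mod_cast hs
    have hy' : (0 : ℚ) < y := by exact_mod_cast hy
    have e0 : ∀ j : ℚ, (y : ℚ) / s * ((s : ℚ) - j) = (y : ℚ) - j * y / s := by
      intro j
      field_simp
    apply corE_transpose_of_colLen
    intro j
    rw [e0, e0]
    by_cases hj : j < s
    · obtain ⟨κ, k1, k2, k3⟩ := hC j hj
      have hW := hW1 j hj
      have hW2 := hWx j hj
      obtain ⟨v, hv⟩ : ∃ v, W j = v + 1 := ⟨W j - 1, by omega⟩
      have h1 : C v = j := by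
        have := cnt_rank_pred hWm hj hW
        rw [hv] at this
        simpa using this
      have h2 : C (v + 1) = C v + 1 := by
        have := cnt_rank hWm hj
        rw [hv] at this
        rw [h1]
        exact this
      have h3 := colLen_Qwd (ρ := ρ) hC0 hCs hKm (v := v) (x := x) (by omega) h2
      rw [h1, hKx] at h3
      rw [h3]
      have h4 : K v ≤ y := by
        rw [← hKx]
        exact hKm (by omega)
      have h5 : ((y - K v : ℕ) : ℚ) = (y : ℚ) - K v := by rw [Nat.cast_sub h4]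
      rw [h5]
      rw [hv] at k1 k2 k3
      simp only [Nat.add_sub_cancel] at k1
      have k1' : K v + j = v + κ := k1
      have k4 : v + 1 + κ = K v + j + 1 := by omega
      rw [k4] at k2 k3
      subst hxy
      have k5 : j * y ≤ (K v + 1) * s := by nlinarith
      have k6 : K v * s ≤ (j + 1) * y + s := by nlinarith
      have k5' : (j : ℚ) * y ≤ ((K v : ℚ) + 1) * s := by exact_mod_cast k5
      have k6' : (K v : ℚ) * s ≤ ((j : ℚ) + 1) * y + s := by exact_mod_cast k6
      constructor
      · have : (K v : ℚ) ≤ ((j : ℚ) + 1) * y / s + 1 := by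
          rw [div_add_one (ne_of_gt hs'), le_div_iff₀ hs']
          linarith
        linarith
      · right
        have : (j : ℚ) * y / s ≤ (K v : ℚ) + 1 := by
          rw [div_le_iff₀ hs']
          linarith
        linarith
    · have h1 : (shape (Qwd t)).colLen j = 0 := by
        apply colLen_shape_of_le
        rw [ht, nE_Qwd_tw hC0 hCs, hCx]
        omega
      rw [h1]
      constructor
      · have h2 : (s : ℚ) ≤ j := by exact_mod_cast not_lt.1 hj
        have h3 : (y : ℚ) ≤ ((j : ℚ) + 1) * y / s := by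
          rw [le_div_iff₀ hs']
          nlinarith
        simp only [Nat.cast_zero]
        linarith
      · left; rfl
  · intro cA cQ cZ h1 h2 h3
    rw [← hlt]
    refine TT.strip _ ?_ h2 ?_
    · rw [hAw]; exact h1
    · rw [hZw]; exact h3
  · have h1 := card_strip t
    rw [hlt, hAw, hZw] at h1
    rw [h1, card_shape, card_shape]

/-- `strip_of_lists_full` without the explicit description of `Z` and `Q`. -/
theorem strip_of_lists {x y s : ℕ} {V W P P' : ℕ → ℕ}
    (hxy : x = y + s) (hs : 0 < s) (hy : 0 < y)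
    (hVm : ∀ i j, i ≤ j → j < s → V i ≤ V j)
    (hVx : ∀ i, i < s → V i ≤ x)
    (hWm : ∀ i j, i < j → j < s → W i < W j)
    (hW1 : ∀ i, i < s → 1 ≤ W i)
    (hWx : ∀ i, i < s → W i ≤ x)
    (hρP : ∀ v, cnt V s v ≤ P v)
    (hK : ∀ v, P v - cnt V s v ≤ P (v + 1) - cnt V s (v + 1))
    (hP'm : Monotone P')
    (hkeep : ∀ v, v < x → cnt W s (v + 1) = cnt W s v → P v - cnt V s v = P' (v - cnt W s v))
    (hPx : P x = x) (hP'y : P' y = y)
    (hR : ∀ i, i < s → i * x ≤ (V i + 1) * s ∧ V i * s ≤ (i + 1) * x + s)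
    (hC : ∀ i, i < s → ∃ κ, P (W i - 1) - cnt V s (W i - 1) + i = W i - 1 + κ ∧
      i * x ≤ (W i + κ) * s ∧ (W i + κ) * s ≤ (i + 1) * x + s) :
    ∃ Z Q : YoungDiagram, Z.card = ∑ i ∈ range s, V i ∧
      CorE (s : ℚ) ((x : ℚ) / s) 1 Z ∧ CorE (s : ℚ) ((y : ℚ) / s) 1 Q.transpose ∧
      (∀ cA cQ cZ : YoungDiagram, TT (shape (cwP P' y)) cA → TT Q cQ → TT Z cZ →
        TT (shape (cwP P x)) (addD (addD cA cQ) cZ)) ∧
      area (cwP P x) = area (cwP P' y) + Q.card + Z.card := by
  obtain ⟨Z, Q, -, h⟩ := strip_of_lists_full hxy hs hy hVm hVx hWm hW1 hWx hρP hK hP'm hkeep hPx hP'y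
    hR hC
  exact ⟨Z, Q, h⟩

/-! ### Merging lists -/

/-- Insert `e` at the rank `r`. -/
def ins (p : ℕ → ℕ) (r e i : ℕ) : ℕ := if i < r then p i else if i = r then e else p (i - 1)

lemma ins_lt {p : ℕ → ℕ} {r e i : ℕ} (h : i < r) : ins p r e i = p i := by
  unfold ins; rw [if_pos h]

lemma ins_eq {p : ℕ → ℕ} {r e : ℕ} : ins p r e r = e := by
  unfold ins; rw [if_neg (by omega), if_pos rfl]

lemma ins_gt {p : ℕ → ℕ} {r e i : ℕ} (h : r < i) : ins p r e i = p (i - 1) := by
  unfold ins; rw [if_neg (by omega), if_neg (by omega)]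

lemma sum_ins (g p : ℕ → ℕ) {r n : ℕ} (hr : r ≤ n) (e : ℕ) :
    ∑ i ∈ range (n + 1), g (ins p r e i) = ∑ k ∈ range n, g (p k) + g e := by
  induction n, hr using Nat.le_induction with
  | base =>
    rw [sum_range_succ, ins_eq]
    congr 1
    apply sum_congr rfl
    intro i hi
    rw [ins_lt (mem_range.1 hi)]
  | succ n hn ih =>
    rw [sum_range_succ, ih, sum_range_succ, ins_gt (by omega)]
    simp only [Nat.add_sub_cancel]
    ring

/-- Going up a list `A` and down a list `B`. -/
def joinL (A B : ℕ → ℕ) (u i : ℕ) : ℕ := if i < u then A i else B (2 * u - 1 - i)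

lemma joinL_lt {A B : ℕ → ℕ} {u i : ℕ} (h : i < u) : joinL A B u i = A i := by
  unfold joinL; rw [if_pos h]

lemma joinL_ge {A B : ℕ → ℕ} {u i : ℕ} (h : u ≤ i) : joinL A B u i = B (2 * u - 1 - i) := by
  unfold joinL; rw [if_neg (by omega)]

lemma sum_joinL (g A B : ℕ → ℕ) (u : ℕ) :
    ∑ i ∈ range (2 * u), g (joinL A B u i) =
      ∑ i ∈ range u, g (A i) + ∑ i ∈ range u, g (B i) := by
  rw [two_mul, sum_range_add]
  congr 1
  · apply sum_congr rfl
    intro i hi
    rw [joinL_lt (mem_range.1 hi)]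
  · rw [← sum_range_reflect (fun i => g (B i)) u]
    apply sum_congr rfl
    intro i hi
    have := mem_range.1 hi
    rw [joinL_ge (by omega)]
    congr 2
    omega

/-- Count of a merged list. -/
lemma cnt_join (A B : ℕ → ℕ) {n r r' : ℕ} (hr : r ≤ n) (hr' : r' ≤ n) (a b v : ℕ) :
    cnt (joinL (ins A r a) (ins B r' b) (n + 1)) (2 * (n + 1)) v =
      cnt A n v + cnt B n v + ind a v + ind b v := by
  unfold cnt
  rw [sum_joinL (fun c => ind c v) (ins A r a) (ins B r' b) (n + 1),
    sum_ins (fun c => ind c v) A hr a, sum_ins (fun c => ind c v) B hr' b]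
  ring

lemma sum_join_id (A B : ℕ → ℕ) {n r r' : ℕ} (hr : r ≤ n) (hr' : r' ≤ n) (a b : ℕ) :
    ∑ i ∈ range (2 * (n + 1)), joinL (ins A r a) (ins B r' b) (n + 1) i =
      ∑ k ∈ range n, A k + ∑ k ∈ range n, B k + a + b := by
  have h := sum_joinL (fun c => c) (ins A r a) (ins B r' b) (n + 1)
  rw [h, sum_ins (fun c => c) A hr a, sum_ins (fun c => c) B hr' b]
  ring

lemma ins_mono {p : ℕ → ℕ} {n r e : ℕ} (hp : ∀ i j, i ≤ j → j < n → p i ≤ p j)
    (h1 : ∀ k, k < n → k < r → p k ≤ e) (h2 : ∀ k, k < n → r ≤ k → e ≤ p k) (hr : r ≤ n) :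
    ∀ i j, i ≤ j → j < n + 1 → ins p r e i ≤ ins p r e j := by
  intro i j hij hj
  rcases lt_trichotomy i r with a | a | a <;> rcases lt_trichotomy j r with b | b | b
  · rw [ins_lt a, ins_lt b]; exact hp i j hij (by omega)
  · subst b; rw [ins_lt a, ins_eq]; exact h1 i (by omega) a
  · rw [ins_lt a, ins_gt b]; exact hp i (j - 1) (by omega) (by omega)
  · omega
  · subst a; subst b; exact le_rfl
  · subst a; rw [ins_eq, ins_gt b]; exact h2 (j - 1) (by omega) (by omega)
  · omega
  · omega
  · rw [ins_gt a, ins_gt b]; exact hp (i - 1) (j - 1) (by omega) (by omega)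

lemma ins_strict {p : ℕ → ℕ} {n r e : ℕ} (hp : ∀ i j, i < j → j < n → p i < p j)
    (h1 : ∀ k, k < n → k < r → p k < e) (h2 : ∀ k, k < n → r ≤ k → e < p k) (hr : r ≤ n) :
    ∀ i j, i < j → j < n + 1 → ins p r e i < ins p r e j := by
  intro i j hij hj
  rcases lt_trichotomy i r with a | a | a <;> rcases lt_trichotomy j r with b | b | b
  · rw [ins_lt a, ins_lt b]; exact hp i j hij (by omega)
  · subst b; rw [ins_lt a, ins_eq]; exact h1 i (by omega) a
  · rw [ins_lt a, ins_gt b]
    rcases Nat.lt_or_eq_of_le (show i ≤ j - 1 by omega) with h | h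
    · exact hp i (j - 1) h (by omega)
    · exfalso; omega
  · omega
  · omega
  · subst a; rw [ins_eq, ins_gt b]; exact h2 (j - 1) (by omega) (by omega)
  · omega
  · omega
  · rw [ins_gt a, ins_gt b]; exact hp (i - 1) (j - 1) (by omega) (by omega)

lemma ins_anti {p : ℕ → ℕ} {n r e : ℕ} (hp : ∀ i j, i ≤ j → j < n → p j ≤ p i)
    (h1 : ∀ k, k < n → k < r → e ≤ p k) (h2 : ∀ k, k < n → r ≤ k → p k ≤ e) (hr : r ≤ n) :
    ∀ i j, i ≤ j → j < n + 1 → ins p r e j ≤ ins p r e i := by
  intro i j hij hj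
  rcases lt_trichotomy i r with a | a | a <;> rcases lt_trichotomy j r with b | b | b
  · rw [ins_lt a, ins_lt b]; exact hp i j hij (by omega)
  · subst b; rw [ins_lt a, ins_eq]; exact h1 i (by omega) a
  · rw [ins_lt a, ins_gt b]; exact hp i (j - 1) (by omega) (by omega)
  · omega
  · subst a; subst b; exact le_rfl
  · subst a; rw [ins_eq, ins_gt b]; exact h2 (j - 1) (by omega) (by omega)
  · omega
  · omega
  · rw [ins_gt a, ins_gt b]; exact hp (i - 1) (j - 1) (by omega) (by omega)

lemma ins_santi {p : ℕ → ℕ} {n r e : ℕ} (hp : ∀ i j, i < j → j < n → p j < p i)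
    (h1 : ∀ k, k < n → k < r → e < p k) (h2 : ∀ k, k < n → r ≤ k → p k < e) (hr : r ≤ n) :
    ∀ i j, i < j → j < n + 1 → ins p r e j < ins p r e i := by
  intro i j hij hj
  rcases lt_trichotomy i r with a | a | a <;> rcases lt_trichotomy j r with b | b | b
  · rw [ins_lt a, ins_lt b]; exact hp i j hij (by omega)
  · subst b; rw [ins_lt a, ins_eq]; exact h1 i (by omega) a
  · rw [ins_lt a, ins_gt b]
    rcases Nat.lt_or_eq_of_le (show i ≤ j - 1 by omega) with h | h
    · exact hp i (j - 1) h (by omega)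
    · exfalso; omega
  · omega
  · omega
  · subst a; rw [ins_eq, ins_gt b]; exact h2 (j - 1) (by omega) (by omega)
  · omega
  · omega
  · rw [ins_gt a, ins_gt b]; exact hp (i - 1) (j - 1) (by omega) (by omega)

lemma joinL_mono {A B : ℕ → ℕ} {u T : ℕ} (hA : ∀ i j, i ≤ j → j < u → A i ≤ A j)
    (hB : ∀ i j, i ≤ j → j < u → B j ≤ B i) (h1 : ∀ i, i < u → A i ≤ T) (h2 : ∀ i, i < u → T ≤ B i) :
    ∀ i j, i ≤ j → j < 2 * u → joinL A B u i ≤ joinL A B u j := by
  intro i j hij hj
  by_cases a : i < u <;> by_cases b : j < u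
  · rw [joinL_lt a, joinL_lt b]; exact hA i j hij b
  · rw [joinL_lt a, joinL_ge (by omega)]
    exact (h1 i a).trans (h2 _ (by omega))
  · omega
  · rw [joinL_ge (by omega), joinL_ge (by omega)]
    exact hB _ _ (by omega) (by omega)

lemma joinL_strict {A B : ℕ → ℕ} {u T : ℕ} (hA : ∀ i j, i < j → j < u → A i < A j)
    (hB : ∀ i j, i < j → j < u → B j < B i) (h1 : ∀ i, i < u → A i < T) (h2 : ∀ i, i < u → T ≤ B i) :
    ∀ i j, i < j → j < 2 * u → joinL A B u i < joinL A B u j := by
  intro i j hij hj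
  by_cases a : i < u <;> by_cases b : j < u
  · rw [joinL_lt a, joinL_lt b]; exact hA i j hij b
  · rw [joinL_lt a, joinL_ge (by omega)]
    exact (h1 i a).trans_le (h2 _ (by omega))
  · omega
  · rw [joinL_ge (by omega), joinL_ge (by omega)]
    exact hB _ _ (by omega) (by omega)

/-- Property of all the entries of a list with an inserted value. -/
lemma ins_forall {p : ℕ → ℕ} {n r e : ℕ} {Q : ℕ → Prop} (hr : r ≤ n) (h1 : ∀ k, k < n → Q (p k))
    (h2 : Q e) : ∀ i, i < n + 1 → Q (ins p r e i) := by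
  intro i hi
  rcases lt_trichotomy i r with a | a | a
  · rw [ins_lt a]; exact h1 i (by omega)
  · subst a; rw [ins_eq]; exact h2
  · rw [ins_gt a]; exact h1 (i - 1) (by omega)

/-- Property of all the entries of a joined list. -/
lemma joinL_forall {A B : ℕ → ℕ} {u : ℕ} {Q : ℕ → Prop} (h1 : ∀ i, i < u → Q (A i))
    (h2 : ∀ i, i < u → Q (B i)) : ∀ i, i < 2 * u → Q (joinL A B u i) := by
  intro i hi
  by_cases a : i < u
  · rw [joinL_lt a]; exact h1 i a
  · rw [joinL_ge (by omega)]; exact h2 _ (by omega)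

/-! ### One half of a strip -/

/-- The conditions on the list of pairs of one half. -/
structure HalfOK (x s n0 r0 t0 e w H : ℕ) (p : ℕ → ℕ) : Prop where
  pm : ∀ i j, i < j → j < n0 → p i < p j
  p1 : ∀ k, k < n0 → 1 ≤ p k
  pH : ∀ k, k < n0 → p k ≤ H
  f1 : ∀ k, k < n0 → k < t0 → k * x ≤ p k * s ∧ p k * s ≤ (k + 1) * x + s
  f2 : ∀ k, k < n0 → t0 ≤ k → (k + 1) * x ≤ p k * s ∧ p k * s ≤ (k + 2) * x
  f3 : ∀ k, k < n0 → k < r0 → p k * s ≤ (k + 1) * x + s
  f4 : ∀ k, k < n0 → r0 ≤ k → (k + 1) * x ≤ (p k + 1) * s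
  oe1 : ∀ k, k < n0 → k < r0 → p k ≤ e
  oe2 : ∀ k, k < n0 → r0 ≤ k → e < p k
  ow1 : ∀ k, k < n0 → k < t0 → p k < w
  ow2 : ∀ k, k < n0 → t0 ≤ k → w < p k

/-- The mirror of a position. -/
def mir (x e p : ℕ) : ℕ := x - p + (if p ≤ e then 1 else 0)

lemma mir_add {x e p : ℕ} (hp : p ≤ x) : mir x e p + p = x + (if p ≤ e then 1 else 0) := by
  unfold mir
  omega

section half
variable {x s n0 r0 t0 e w H : ℕ} {p : ℕ → ℕ}

/-- The rows of the left half. -/
lemma HalfOK.row_left (hp : HalfOK x s n0 r0 t0 e w H p) (hr0 : r0 ≤ n0) (he1 : r0 * x ≤ e * s)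
    (he2 : e * s ≤ (r0 + 1) * x) {i : ℕ} (hi : i < n0 + 1) :
    i * x ≤ (ins p r0 e i + 1) * s ∧ ins p r0 e i * s ≤ (i + 1) * x + s := by
  rcases lt_trichotomy i r0 with a | a | a
  · rw [ins_lt a]
    have h3 := hp.f3 i (by omega) a
    refine ⟨?_, h3⟩
    by_cases b : i < t0
    · have := (hp.f1 i (by omega) b).1
      nlinarith
    · have := (hp.f2 i (by omega) (by omega)).1
      nlinarith
  · subst a
    rw [ins_eq]
    constructor <;> nlinarith
  · rw [ins_gt a]
    obtain ⟨k, rfl⟩ : ∃ k, i = k + 1 := ⟨i - 1, by omega⟩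
    simp only [Nat.add_sub_cancel]
    have h4 := hp.f4 k (by omega) (by omega)
    refine ⟨h4, ?_⟩
    by_cases b : k < t0
    · have := (hp.f1 k (by omega) b).2
      nlinarith
    · have := (hp.f2 k (by omega) (by omega)).2
      nlinarith

/-- The columns of the left half. -/
lemma HalfOK.col_left (hp : HalfOK x s n0 r0 t0 e w H p) (ht0 : t0 ≤ n0) (hw0 : 1 ≤ w)
    (hw1 : t0 * x ≤ w * s) (hw2 : w * s ≤ (t0 + 1) * x + s) {i : ℕ} (hi : i < n0 + 1) :
    ∃ κ, κ = ind w (ins p t0 w i - 1) ∧ i * x ≤ (ins p t0 w i + κ) * s ∧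
      (ins p t0 w i + κ) * s ≤ (i + 1) * x + s := by
  rcases lt_trichotomy i t0 with a | a | a
  · rw [ins_lt a]
    refine ⟨0, ?_, ?_, ?_⟩
    · have := hp.ow1 i (by omega) a
      unfold ind
      rw [if_neg (by omega)]
    · simpa using (hp.f1 i (by omega) a).1
    · simpa using (hp.f1 i (by omega) a).2
  · subst a
    rw [ins_eq]
    refine ⟨0, ?_, ?_, ?_⟩
    · unfold ind
      rw [if_neg (by omega)]
    · simpa using hw1
    · simpa using hw2
  · rw [ins_gt a]
    obtain ⟨k, rfl⟩ : ∃ k, i = k + 1 := ⟨i - 1, by omega⟩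
    simp only [Nat.add_sub_cancel]
    have h1 := hp.ow2 k (by omega) (by omega)
    have h2 := hp.f2 k (by omega) (by omega)
    refine ⟨1, ?_, ?_, ?_⟩
    · unfold ind
      rw [if_pos (by omega)]
    · nlinarith
    · nlinarith

/-- The rows of the right half. -/
lemma HalfOK.row_right (hp : HalfOK x s n0 r0 t0 e w H p) (ht0 : t0 ≤ n0) (hpx : ∀ k, k < n0 → p k ≤ x)
    (hwx : w ≤ x)
    (hw1 : t0 * x ≤ w * s) (hw2 : w * s ≤ (t0 + 1) * x + s) {i m : ℕ} (hm : m < n0 + 1)
    (him : i + m + 1 = s) :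
    i * x ≤ (ins (fun k => mir x e (p k)) t0 (mir x e w) m + 1) * s ∧
      ins (fun k => mir x e (p k)) t0 (mir x e w) m * s ≤ (i + 1) * x + s := by
  have key : ∀ c ε j : ℕ, mir x e c + c = x + ε → i + j + 1 = s →
      c * s ≤ (j + 1) * x + s → j * x + ε * s ≤ c * s + s →
      i * x ≤ (mir x e c + 1) * s ∧ mir x e c * s ≤ (i + 1) * x + s := by
    intro c ε j h2 h3 h4 h5
    have e1 : mir x e c * s + c * s = x * s + ε * s := by rw [← add_mul, h2, add_mul]
    have e2 : i * x + j * x + x = s * x := by rw [← h3]; ring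
    constructor <;> nlinarith
  have hε : ∀ c, (if c ≤ e then 1 else 0) * s ≤ s := fun c => by
    split_ifs <;> simp
  rcases lt_trichotomy m t0 with a | a | a
  · rw [ins_lt a]
    have h1 := hp.f1 m (by omega) a
    exact key (p m) _ m (mir_add (hpx m (by omega))) him h1.2 (by have := hε (p m); linarith [h1.1])
  · subst a
    rw [ins_eq]
    exact key w _ m (mir_add hwx) him hw2 (by have := hε w; linarith)
  · rw [ins_gt a]
    obtain ⟨k, rfl⟩ : ∃ k, m = k + 1 := ⟨m - 1, by omega⟩
    simp only [Nat.add_sub_cancel]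
    have h2 := hp.f2 k (by omega) (by omega)
    have hk := hpx k (by omega)
    have h3 := mir_add (e := e) hk
    have h4 := hε (p k)
    set ε := (if p k ≤ e then 1 else 0) with hεd
    have e1 : mir x e (p k) * s + p k * s = x * s + ε * s := by rw [← add_mul, h3, add_mul]
    have e2 : i * x + k * x + 2 * x = s * x := by rw [← him]; ring
    constructor <;> nlinarith


lemma ind_of_le {a v : ℕ} (h : a ≤ v) : ind a v = 1 := by
  unfold ind; rw [if_pos h]

lemma ind_of_lt {a v : ℕ} (h : v < a) : ind a v = 0 := by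
  unfold ind; rw [if_neg (by omega)]

/-- Mirror inequalities. -/
lemma mir_bd {i j c ε q κ : ℕ} (hq : q + c = x + ε) (hij : i + j + 1 = s)
    (h1 : c * s ≤ j * x + x + ε * s + κ * s) (h2 : j * x + ε * s + κ * s ≤ c * s + s) :
    i * x ≤ (q + κ) * s ∧ (q + κ) * s ≤ (i + 1) * x + s := by
  have e1 : q * s + c * s = x * s + ε * s := by rw [← add_mul, hq, add_mul]
  have e2 : i * x + j * x + x = s * x := by rw [← hij]; ring
  constructor <;> nlinarith

/-- The columns of the right half. -/
lemma HalfOK.col_right {h f f0 : ℕ} (hp : HalfOK x s n0 r0 t0 e w H p) (hr0 : r0 ≤ n0) (hsx : s ≤ x)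
    (hwx : w ≤ x) (hex : e ≤ x) (hwh : w ≤ h) (hHx : h + 1 + H ≤ x) (hf0 : f0 = x - e)
    (hf : f = f0 ∨ (f = f0 + 1 ∧ w ≤ e ∧ H < e)) (hfh : h + 1 ≤ f)
    (he1 : r0 * x ≤ e * s) (he2 : e * s ≤ (r0 + 1) * x) {i m : ℕ} (hm : m < n0 + 1)
    (him : i + m + 1 = s) :
    ∃ κ, κ + ind (mir x e w) (ins (fun k => mir x e (p k)) r0 f m - 1) +
        ind f0 (ins (fun k => mir x e (p k)) r0 f m - 1) =
        ind w (ins (fun k => mir x e (p k)) r0 f m - 1) +
        ind f (ins (fun k => mir x e (p k)) r0 f m - 1) ∧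
      i * x ≤ (ins (fun k => mir x e (p k)) r0 f m + κ) * s ∧
      (ins (fun k => mir x e (p k)) r0 f m + κ) * s ≤ (i + 1) * x + s := by
  have hpH := hp.pH
  have hpx : ∀ k, k < n0 → p k ≤ x := fun k hk => by have := hpH k hk; omega
  rcases lt_trichotomy m r0 with a | a | a
  · -- `p m ≤ e`
    rw [ins_lt a]
    have hk : m < n0 := by omega
    have h0 := hp.oe1 m hk a
    have h3 := hp.f3 m hk a
    have hq : mir x e (p m) + p m = x + 1 := by
      have := mir_add (e := e) (hpx m hk)
      rwa [if_pos h0] at this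
    have hq1 := hp.p1 m hk
    have hq2 := hpH m hk
    have hq3 : mir x e (p m) ≠ f := by
      rcases hf with g | ⟨g1, _, g3⟩ <;> omega
    have hq4 : f < mir x e (p m) := by
      rcases hf with g | ⟨g1, _, g3⟩ <;> omega
    have e1 : ind f (mir x e (p m) - 1) = 1 := ind_of_le (by omega)
    have e2 : ind f0 (mir x e (p m) - 1) = 1 := ind_of_le (by
      rcases hf with g | ⟨g1, _, g3⟩ <;> omega)
    have e3 : ind w (mir x e (p m) - 1) = 1 := ind_of_le (by omega)
    by_cases b : m < t0
    · have h1 := hp.f1 m hk b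
      have h4 := hp.ow1 m hk b
      have e4 : ind (mir x e w) (mir x e (p m) - 1) = 1 := ind_of_le (by
        unfold mir at hq ⊢
        split_ifs at * <;> omega)
      refine ⟨0, by omega, ?_⟩
      exact mir_bd (j := m) (ε := 1) hq him (by nlinarith) (by nlinarith [h1.1])
    · have h1 := hp.f2 m hk (by omega)
      have h4 := hp.ow2 m hk (by omega)
      have e4 : ind (mir x e w) (mir x e (p m) - 1) = 0 := ind_of_lt (by
        unfold mir at hq ⊢
        split_ifs at * <;> omega)
      refine ⟨1, by omega, ?_⟩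
      exact mir_bd (j := m) (ε := 1) hq him (by nlinarith) (by nlinarith [h1.1])
  · subst a
    rw [ins_eq]
    have e3 : ind w (f - 1) = 1 := ind_of_le (by omega)
    have e1 : ind f (f - 1) = 0 := ind_of_lt (by omega)
    rcases hf with g | ⟨g1, g2, g3⟩
    · have e2 : ind f0 (f - 1) = 0 := ind_of_lt (by omega)
      have hq : f + e = x := by omega
      by_cases b : w ≤ e
      · have e4 : ind (mir x e w) (f - 1) = 0 := ind_of_lt (by
          unfold mir
          rw [if_pos b]
          omega)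
        refine ⟨1, by omega, ?_⟩
        exact mir_bd (j := m) (c := e) (ε := 0) (by omega) him (by nlinarith) (by nlinarith)
      · have e4 : ind (mir x e w) (f - 1) = 1 := ind_of_le (by
          unfold mir
          rw [if_neg b]
          omega)
        refine ⟨0, by omega, ?_⟩
        exact mir_bd (j := m) (c := e) (ε := 0) (by omega) him (by nlinarith) (by nlinarith)
    · have e2 : ind f0 (f - 1) = 1 := ind_of_le (by omega)
      have e4 : ind (mir x e w) (f - 1) = 0 := ind_of_lt (by
        unfold mir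
        rw [if_pos g2]
        omega)
      refine ⟨0, by omega, ?_⟩
      exact mir_bd (j := m) (c := e) (ε := 1) (by omega) him (by nlinarith) (by nlinarith)
  · rw [ins_gt a]
    obtain ⟨k, rfl⟩ : ∃ k, m = k + 1 := ⟨m - 1, by omega⟩
    simp only [Nat.add_sub_cancel]
    have hk : k < n0 := by omega
    have h0 := hp.oe2 k hk (by omega)
    have h3 := hp.f4 k hk (by omega)
    have hq1 := hp.p1 k hk
    have hq2 := hpH k hk
    have hq : mir x e (p k) + p k = x + 0 := by
      have := mir_add (e := e) (hpx k hk)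
      rwa [if_neg (by omega)] at this
    have hf' : f = f0 := by
      rcases hf with g | ⟨_, _, g3⟩
      · exact g
      · omega
    have e1 : ind f (mir x e (p k) - 1) = 0 := ind_of_lt (by omega)
    have e2 : ind f0 (mir x e (p k) - 1) = 0 := ind_of_lt (by omega)
    have e3 : ind w (mir x e (p k) - 1) = 1 := ind_of_le (by omega)
    by_cases b : k < t0
    · have h1 := hp.f1 k hk b
      have h4 := hp.ow1 k hk b
      have e4 : ind (mir x e w) (mir x e (p k) - 1) = 1 := ind_of_le (by
        unfold mir at hq ⊢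
        split_ifs at * <;> omega)
      refine ⟨0, by omega, ?_⟩
      exact mir_bd (j := k + 1) (ε := 0) hq (by omega) (by nlinarith) (by nlinarith)
    · have h1 := hp.f2 k hk (by omega)
      have h4 := hp.ow2 k hk (by omega)
      have e4 : ind (mir x e w) (mir x e (p k) - 1) = 0 := ind_of_lt (by
        unfold mir at hq ⊢
        split_ifs at * <;> omega)
      refine ⟨1, by omega, ?_⟩
      exact mir_bd (j := k + 1) (ε := 0) hq (by omega) (by nlinarith) (by nlinarith)


/-- The order of the mirrored list. -/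
lemma HalfOK.mir_anti (hp : HalfOK x s n0 r0 t0 e w H p) (hHx : H ≤ x) :
    ∀ i j, i < j → j < n0 → mir x e (p j) < mir x e (p i) := by
  intro i j hij hj
  have h1 := hp.pm i j hij hj
  have h2 := hp.pH j hj
  unfold mir
  split_ifs <;> omega

lemma HalfOK.mir_vs_S (hp : HalfOK x s n0 r0 t0 e w H p) (hHx : H ≤ x) (hwx : w ≤ x)
    {k : ℕ} (hk : k < n0) :
    (k < t0 → mir x e w < mir x e (p k)) ∧ (t0 ≤ k → mir x e (p k) < mir x e w) := by
  have h2 := hp.pH k hk
  constructor
  · intro a
    have h1 := hp.ow1 k hk a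
    unfold mir
    split_ifs <;> omega
  · intro a
    have h1 := hp.ow2 k hk a
    unfold mir
    split_ifs <;> omega

lemma HalfOK.mir_vs_f {f : ℕ} (hp : HalfOK x s n0 r0 t0 e w H p) (hHx : H ≤ x) (hex : e ≤ x)
    (hf : f = x - e ∨ (f = x - e + 1 ∧ w ≤ e ∧ H < e)) {k : ℕ} (hk : k < n0) :
    (k < r0 → f < mir x e (p k)) ∧ (r0 ≤ k → mir x e (p k) < f) := by
  have h2 := hp.pH k hk
  constructor
  · intro a
    have h1 := hp.oe1 k hk a
    unfold mir
    rw [if_pos h1]
    rcases hf with g | ⟨g, _, g3⟩ <;> omega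
  · intro a
    have h1 := hp.oe2 k hk a
    unfold mir
    rw [if_neg (by omega)]
    rcases hf with g | ⟨g, _, g3⟩ <;> omega

end half

/-- The steps of the sum of the two counts, from the merged list of columns. -/
lemma cnt_step_of_join {A B : ℕ → ℕ} {n r r' a b : ℕ}
    (hW : ∀ i j, i < j → j < 2 * (n + 1) → joinL (ins A r a) (ins B r' b) (n + 1) i <
      joinL (ins A r a) (ins B r' b) (n + 1) j) (hr : r ≤ n) (hr' : r' ≤ n) (v : ℕ) :
    cnt A n (v + 1) + cnt B n (v + 1) + ind a (v + 1) + ind b (v + 1) ≤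
        cnt A n v + cnt B n v + ind a v + ind b v + 1 ∧
      (cnt A n (v + 1) + cnt B n (v + 1) + ind a (v + 1) + ind b (v + 1) =
        cnt A n v + cnt B n v + ind a v + ind b v + 1 →
        v + 1 = a ∨ v + 1 = b ∨ (∃ k, k < n ∧ v + 1 = A k) ∨ (∃ k, k < n ∧ v + 1 = B k)) := by
  have h := cnt_step hW v
  rw [cnt_join A B hr hr', cnt_join A B hr hr'] at h
  rcases h with h | ⟨h, i, hi, h2, _⟩
  · constructor
    · omega
    · intro h3; omega
  · constructor
    · omega
    · intro _
      have : ∀ i, i < 2 * (n + 1) → (joinL (ins A r a) (ins B r' b) (n + 1) i = v + 1 →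
          v + 1 = a ∨ v + 1 = b ∨ (∃ k, k < n ∧ v + 1 = A k) ∨ (∃ k, k < n ∧ v + 1 = B k)) := by
        apply joinL_forall (Q := fun c => c = v + 1 →
          v + 1 = a ∨ v + 1 = b ∨ (∃ k, k < n ∧ v + 1 = A k) ∨ (∃ k, k < n ∧ v + 1 = B k))
        · exact ins_forall (Q := fun c => c = v + 1 →
            v + 1 = a ∨ v + 1 = b ∨ (∃ k, k < n ∧ v + 1 = A k) ∨ (∃ k, k < n ∧ v + 1 = B k)) hr
            (fun k hk hc => Or.inr (Or.inr (Or.inl ⟨k, hk, hc.symm⟩)))
            (fun hc => Or.inl hc.symm)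
        · exact ins_forall (Q := fun c => c = v + 1 →
            v + 1 = a ∨ v + 1 = b ∨ (∃ k, k < n ∧ v + 1 = A k) ∨ (∃ k, k < n ∧ v + 1 = B k)) hr'
            (fun k hk hc => Or.inr (Or.inr (Or.inr ⟨k, hk, hc.symm⟩)))
            (fun hc => Or.inr (Or.inl hc.symm))
      exact this i hi h2

end Crest.Agent.Lib.Saxl
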