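import Crest.Agent.Lib.Saxl.Strip3

/-!
# Saxl: the strip from two half lists

`strip_glue`: the parent with row function `P`, `P v + [f0 ≤ v] + [B ≤ v] = v + [e ≤ v] + [A ≤ v]`, the
child with `P' l + [y - a' ≤ l] + [B' ≤ l] = l + [a' ≤ l] + [A' ≤ l]`, two half lists `pL`, `pR`.
-/

set_option autoImplicit false
set_option linter.unusedSectionVars false

namespace Crest.Agent.Lib.Saxl

open Finset

/-- The frozen centre: nothing, or `EN`, or `NNEE`. -/
def GadOK (x h h' A B A' B' H f : ℕ) : Prop :=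
  (A = 0 ∧ B = 0 ∧ A' = 0 ∧ B' = 0) ∨
  (A = h + 1 ∧ B = h ∧ A' = h' + 1 ∧ B' = h' ∧ H < h ∧ h + 2 + H ≤ x ∧ h + 2 ≤ f ∧ 2 * h + 1 ≤ x) ∨
  (A = h ∧ B = h + 1 ∧ A' = h' ∧ B' = h' + 1 ∧ h + 2 + H ≤ x ∧ h + 2 ≤ f ∧ 2 * h + 2 ≤ x)

/-- Anchor: the value of an indicator of the child at a kept column. -/
lemma ind_anchor {C : ℕ → ℕ} (hCs : ∀ v, C (v + 1) ≤ C v + 1) (hCle : ∀ v, C v ≤ v) {T c v : ℕ}
    (hT : T - C T = c) (hk : C (v + 1) = C v) : ind c (v - C v) = ind T v := by
  have hl : Monotone fun v => v - C v := monotone_nat_of_le_succ fun m => by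
    have h1 := hCs m
    have h2 := hCle m
    have h3 := hCle (m + 1)
    omega
  by_cases h : T ≤ v
  · rw [ind_of_le h, ind_of_le]
    have := hl h
    simp only at this
    omega
  · rw [ind_of_lt (a := T) (v := v) (by omega), ind_of_lt]
    have h1 := hl (show v + 1 ≤ T by omega)
    simp only at h1
    have h2 := hCle v
    have h3 := hCle (v + 1)
    omega

lemma step_aux {S f0 B t : ℕ} (h1 : S ≠ f0) (h2 : S ≠ B) (h3 : f0 ≠ B) :
    (if S = t then 1 else 0) + (if f0 = t then 1 else 0) + (if B = t then 1 else 0) ≤ 1 := by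
  split_ifs <;> omega

section glue
variable {x y s n0 r0 t0 e w h h' f f0 a' A B A' B' H : ℕ} {pL pR P P' : ℕ → ℕ}

/-- The sorted list of the deleted rows. -/
def glueV (x e w r0 t0 n0 : ℕ) (pL pR : ℕ → ℕ) : ℕ → ℕ :=
  joinL (ins pL r0 e) (ins (fun k => mir x e (pR k)) t0 (mir x e w)) (n0 + 1)

/-- The sorted list of the deleted columns. -/
def glueW (x e w f r0 t0 n0 : ℕ) (pL pR : ℕ → ℕ) : ℕ → ℕ :=
  joinL (ins pL t0 w) (ins (fun k => mir x e (pR k)) r0 f) (n0 + 1)

theorem strip_glue_full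
    (hs : s = 2 * (n0 + 1)) (hxy : x = y + s) (hy : 0 < y) (hsx : s ≤ x)
    (hL : HalfOK x s n0 r0 t0 e w H pL) (hR : HalfOK x s n0 r0 t0 e w H pR)
    (hr0 : r0 ≤ n0) (ht0 : t0 ≤ n0)
    (he1 : r0 * x ≤ e * s) (he2 : e * s ≤ (r0 + 1) * x)
    (hw1 : t0 * x ≤ w * s) (hw2 : w * s ≤ (t0 + 1) * x + s) (hwa : w = a' + t0 + 1)
    (hwh : w ≤ h) (heh : e ≤ h) (hHh : H ≤ h) (hHx : h + 1 + H ≤ x) (hxh : 2 * h ≤ x)
    (hf0 : f0 = x - e) (hf : f = f0 ∨ (f = f0 + 1 ∧ w ≤ e ∧ H < e)) (hfh : h + 1 ≤ f) (hfx : f ≤ x)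
    (hh' : h = h' + (n0 + 1))
    (hgad : GadOK x h h' A B A' B' H f)
    (hPf : ∀ v, P v + ind f0 v + ind B v = v + ind e v + ind A v)
    (hP'f : ∀ l, P' l + ind (y - a') l + ind B' l = l + ind a' l + ind A' l)
    (hP'm : Monotone P') (hPx : P x = x) (hP'y : P' y = y) :
    ∃ Z Q : YoungDiagram,
      (∀ V W, V = glueV x e w r0 t0 n0 pL pR → W = glueW x e w f r0 t0 n0 pL pR →
        (∀ i j, i ≤ j → j < s → V i ≤ V j) ∧ (∀ i, i < s → V i ≤ x) ∧
        Z = shape (cwP (cnt V s) x) ∧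
        (∀ j, j < s → Q.colLen j = y - (P (W j - 1) - cnt V s (W j - 1))) ∧
        (∀ j, s ≤ j → Q.colLen j = 0)) ∧
      Z.card = ∑ k ∈ range n0, pL k + ∑ k ∈ range n0, mir x e (pR k) + e + mir x e w ∧
      CorE (s : ℚ) ((x : ℚ) / s) 1 Z ∧ CorE (s : ℚ) ((y : ℚ) / s) 1 Q.transpose ∧
      (∀ cA cQ cZ : YoungDiagram, TT (shape (cwP P' y)) cA → TT Q cQ → TT Z cZ →
        TT (shape (cwP P x)) (addD (addD cA cQ) cZ)) ∧
      area (cwP P x) = area (cwP P' y) + Q.card + Z.card := by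
  subst hs
  obtain ⟨q, hq⟩ : ∃ q : ℕ → ℕ, q = fun k => mir x e (pR k) := ⟨_, rfl⟩
  obtain ⟨S, hS⟩ : ∃ S : ℕ, S = mir x e w := ⟨_, rfl⟩
  obtain ⟨V, hV⟩ : ∃ V : ℕ → ℕ, V = joinL (ins pL r0 e) (ins q t0 S) (n0 + 1) := ⟨_, rfl⟩
  obtain ⟨W, hW⟩ : ∃ W : ℕ → ℕ, W = joinL (ins pL t0 w) (ins q r0 f) (n0 + 1) := ⟨_, rfl⟩
  have hs0 : 0 < 2 * (n0 + 1) := by omega
  have hw0 : 1 ≤ w := by omega
  have hh1 : 1 ≤ h := by omega
  have hwx : w ≤ x := by omega
  have hex : e ≤ x := by omega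
  have hHxx : H ≤ x := by omega
  -- facts on the lists
  have hqge : ∀ k, k < n0 → x - H ≤ q k := by
    intro k hk
    have := hR.pH k hk
    rw [hq]
    simp only
    unfold mir
    omega
  have hqle : ∀ k, k < n0 → q k ≤ x := by
    intro k hk
    have h1 := hR.p1 k hk
    rw [hq]
    simp only
    unfold mir
    split_ifs <;> omega
  have hSge : x - w ≤ S := by
    rw [hS]
    unfold mir
    omega
  have hSle : S ≤ x := by
    rw [hS]
    unfold mir
    split_ifs <;> omega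
  have hSeq : S = x - w + (if w ≤ e then 1 else 0) := hS
  have hqS : ∀ k, k < n0 → (k < t0 → S < q k) ∧ (t0 ≤ k → q k < S) := fun k hk => by
    rw [hq, hS]
    exact hR.mir_vs_S hHxx hwx hk
  have hf1 : f = x - e ∨ (f = x - e + 1 ∧ w ≤ e ∧ H < e) := by
    rcases hf with g | g
    · left; omega
    · right; rw [← hf0]; exact g
  have hqf : ∀ k, k < n0 → (k < r0 → f < q k) ∧ (r0 ≤ k → q k < f) := fun k hk => by
    rw [hq]
    exact hR.mir_vs_f hHxx hex hf1 hk
  have hqa : ∀ i j, i < j → j < n0 → q j < q i := by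
    rw [hq]
    exact hR.mir_anti hHxx
  -- sorted lists
  have hVm : ∀ i j, i ≤ j → j < 2 * (n0 + 1) → V i ≤ V j := by
    rw [hV]
    apply joinL_mono (T := h)
    · apply ins_mono _ hL.oe1 (fun k hk a => (hL.oe2 k hk a).le) hr0
      intro i j hij hj
      rcases Nat.lt_or_eq_of_le hij with g | g
      · exact (hL.pm i j g hj).le
      · rw [g]
    · apply ins_anti _ (fun k hk a => ((hqS k hk).1 a).le) (fun k hk a => ((hqS k hk).2 a).le) ht0
      intro i j hij hj
      rcases Nat.lt_or_eq_of_le hij with g | g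
      · exact (hqa i j g hj).le
      · rw [g]
    · exact ins_forall (Q := fun c => c ≤ h) hr0 (fun k hk => (hL.pH k hk).trans hHh) heh
    · refine ins_forall (Q := fun c => h ≤ c) ht0 (fun k hk => ?_) (by omega)
      have := hqge k hk
      omega
  have hVx : ∀ i, i < 2 * (n0 + 1) → V i ≤ x := by
    rw [hV]
    apply joinL_forall (Q := fun c => c ≤ x)
    · exact ins_forall (Q := fun c => c ≤ x) hr0 (fun k hk => (hL.pH k hk).trans hHxx) hex
    · exact ins_forall (Q := fun c => c ≤ x) ht0 hqle hSle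
  have hWm : ∀ i j, i < j → j < 2 * (n0 + 1) → W i < W j := by
    rw [hW]
    apply joinL_strict (T := h + 1)
    · exact ins_strict hL.pm hL.ow1 hL.ow2 ht0
    · exact ins_santi hqa (fun k hk a => (hqf k hk).1 a) (fun k hk a => (hqf k hk).2 a) hr0
    · refine ins_forall (Q := fun c => c < h + 1) ht0 (fun k hk => ?_) (by omega)
      have := hL.pH k hk
      omega
    · refine ins_forall (Q := fun c => h + 1 ≤ c) hr0 (fun k hk => ?_) hfh
      have := hqge k hk
      omega
  have hW1 : ∀ i, i < 2 * (n0 + 1) → 1 ≤ W i := by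
    rw [hW]
    apply joinL_forall (Q := fun c => 1 ≤ c)
    · exact ins_forall (Q := fun c => 1 ≤ c) ht0 hL.p1 hw0
    · refine ins_forall (Q := fun c => 1 ≤ c) hr0 (fun k hk => ?_) (by omega)
      have := hqge k hk
      omega
  have hWx : ∀ i, i < 2 * (n0 + 1) → W i ≤ x := by
    rw [hW]
    apply joinL_forall (Q := fun c => c ≤ x)
    · exact ins_forall (Q := fun c => c ≤ x) ht0 (fun k hk => (hL.pH k hk).trans hHxx) hwx
    · exact ins_forall (Q := fun c => c ≤ x) hr0 hqle hfx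
  -- counts
  have hcV : ∀ v, cnt V (2 * (n0 + 1)) v = cnt pL n0 v + cnt q n0 v + ind e v + ind S v :=
    fun v => by rw [hV]; exact cnt_join pL q hr0 ht0 e S v
  have hcW : ∀ v, cnt W (2 * (n0 + 1)) v = cnt pL n0 v + cnt q n0 v + ind w v + ind f v :=
    fun v => by rw [hW]; exact cnt_join pL q ht0 hr0 w f v
  have hstepW := cnt_step_of_join (A := pL) (B := q) (r := t0) (r' := r0) (a := w) (b := f)
    (by rw [← hW]; exact hWm) ht0 hr0
  have hCs : ∀ v, cnt W (2 * (n0 + 1)) (v + 1) ≤ cnt W (2 * (n0 + 1)) v + 1 := by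
    intro v
    rw [hcW, hcW]
    exact (hstepW v).1
  have hC0 : cnt W (2 * (n0 + 1)) 0 = 0 := cnt_zero hW1
  have hCle : ∀ v, cnt W (2 * (n0 + 1)) v ≤ v := by
    intro v
    induction v with
    | zero => omega
    | succ v ih =>
      have := hCs v
      omega
  have hdm : ∀ v, cnt pL n0 v + cnt q n0 v ≤ cnt pL n0 (v + 1) + cnt q n0 (v + 1) := fun v =>
    add_le_add (cnt_mono _ _ (by omega)) (cnt_mono _ _ (by omega))
  have hd0 : cnt pL n0 0 + cnt q n0 0 = 0 := by
    have h1 := hcW 0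
    rw [hC0] at h1
    omega
  -- the gadget
  have hG : (∀ k, k < n0 → pL k ≠ B ∧ q k ≠ B) ∧ S ≠ B ∧ f0 ≠ B ∧ ind B 0 ≤ ind A 0 ∧
      (∀ i, i < 2 * (n0 + 1) → ind A (W i - 1) = ind B (W i - 1)) ∧
      A - cnt W (2 * (n0 + 1)) A = A' ∧ B - cnt W (2 * (n0 + 1)) B = B' := by
    have hS1 : x - h ≤ S := by omega
    have hpl : ∀ k, k < n0 → pL k ≤ h := fun k hk => (hL.pH k hk).trans hHh
    rcases hgad with ⟨a1, a2, a3, a4⟩ | ⟨a1, a2, a3, a4, a5, a6, a7, a8⟩ | ⟨a1, a2, a3, a4, a6, a7, a8⟩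
    · subst a1 a2 a3 a4
      refine ⟨fun k hk => ⟨?_, ?_⟩, by omega, by omega, le_rfl, fun _ _ => rfl, ?_, ?_⟩
      · have := hL.p1 k hk; omega
      · have := hqge k hk; omega
      · rw [hC0]
      · rw [hC0]
    · have a2' := a2.symm
      have a4' := a4.symm
      subst a1 a2' a3 a4'
      have hcu : ∀ v, h ≤ v → v ≤ h + 1 → cnt W (2 * (n0 + 1)) v = n0 + 1 := by
        intro v h1 h2
        rw [hcW]
        have e1 : cnt pL n0 v = n0 := cnt_top fun k hk => (hpl k hk).trans h1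
        have e2 : cnt q n0 v = n0 - n0 := cnt_eq_above le_rfl (fun k hk => by
          have := hqge k hk
          omega) (fun k h3 h4 => by omega)
        rw [e1, e2, ind_of_le (by omega : w ≤ v), ind_of_lt (by omega : v < f)]
        omega
      refine ⟨fun k hk => ⟨?_, ?_⟩, by omega, by omega, ?_, ?_, ?_, ?_⟩
      · have := hL.pH k hk; omega
      · have := hqge k hk; omega
      · rw [ind_of_lt (by omega : 0 < h)]
        exact Nat.zero_le _
      · rw [hW]
        apply joinL_forall (Q := fun c => ind (h + 1) (c - 1) = ind h (c - 1))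
        · refine ins_forall (Q := fun c => ind (h + 1) (c - 1) = ind h (c - 1)) ht0
            (fun k hk => ?_) ?_
          · have h1 := hL.pH k hk
            have h2 := hL.p1 k hk
            rw [ind_of_lt (by omega), ind_of_lt (by omega)]
          · rw [ind_of_lt (by omega), ind_of_lt (by omega)]
        · refine ins_forall (Q := fun c => ind (h + 1) (c - 1) = ind h (c - 1)) hr0
            (fun k hk => ?_) ?_
          · have h1 := hqge k hk
            rw [ind_of_le (by omega), ind_of_le (by omega)]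
          · rw [ind_of_le (by omega), ind_of_le (by omega)]
      · rw [hcu _ (by omega) le_rfl]; omega
      · rw [hcu _ le_rfl (by omega)]; omega
    · have a1' := a1.symm
      have a3' := a3.symm
      subst a1' a2 a3' a4
      have hcu : ∀ v, h ≤ v → v ≤ h + 1 → cnt W (2 * (n0 + 1)) v = n0 + 1 := by
        intro v h1 h2
        rw [hcW]
        have e1 : cnt pL n0 v = n0 := cnt_top fun k hk => (hpl k hk).trans h1
        have e2 : cnt q n0 v = n0 - n0 := cnt_eq_above le_rfl (fun k hk => by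
          have := hqge k hk
          omega) (fun k h3 h4 => by omega)
        rw [e1, e2, ind_of_le (by omega : w ≤ v), ind_of_lt (by omega : v < f)]
        omega
      refine ⟨fun k hk => ⟨?_, ?_⟩, by omega, by omega, ?_, ?_, ?_, ?_⟩
      · have := hL.pH k hk; omega
      · have := hqge k hk; omega
      · rw [ind_of_lt (by omega : 0 < h + 1)]
        exact Nat.zero_le _
      · rw [hW]
        apply joinL_forall (Q := fun c => ind h (c - 1) = ind (h + 1) (c - 1))
        · refine ins_forall (Q := fun c => ind h (c - 1) = ind (h + 1) (c - 1)) ht0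
            (fun k hk => ?_) ?_
          · have h1 := hL.pH k hk
            have h2 := hL.p1 k hk
            rw [ind_of_lt (by omega), ind_of_lt (by omega)]
          · rw [ind_of_lt (by omega), ind_of_lt (by omega)]
        · refine ins_forall (Q := fun c => ind h (c - 1) = ind (h + 1) (c - 1)) hr0
            (fun k hk => ?_) ?_
          · have h1 := hqge k hk
            rw [ind_of_le (by omega), ind_of_le (by omega)]
          · rw [ind_of_le (by omega), ind_of_le (by omega)]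
      · rw [hcu _ le_rfl (by omega)]; omega
      · rw [hcu _ (by omega) le_rfl]; omega
  obtain ⟨g1, g2, g3, g4, g5, g6, g7⟩ := hG
  -- the kept rows
  obtain ⟨Ψ, hΨ⟩ : ∃ Ψ : ℕ → ℕ, ∀ v, Ψ v = cnt pL n0 v + cnt q n0 v + ind S v + ind f0 v + ind B v :=
    ⟨_, fun _ => rfl⟩
  have hSf0 : S ≠ f0 := by
    rw [hSeq, hf0]
    split_ifs <;> omega
  have hpS : ∀ k, k < n0 → pL k ≠ S ∧ q k ≠ S := by
    intro k hk
    have h1 := hL.pH k hk
    constructor
    · omega
    · by_cases a : k < t0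
      · have := (hqS k hk).1 a; omega
      · have := (hqS k hk).2 (by omega); omega
  have hpf0 : ∀ k, k < n0 → pL k ≠ f0 ∧ q k ≠ f0 := by
    intro k hk
    have h1 := hL.pH k hk
    constructor
    · omega
    · rcases hf with g | ⟨_, _, g3⟩
      · by_cases a : k < r0
        · have := (hqf k hk).1 a; omega
        · have := (hqf k hk).2 (by omega); omega
      · have := hqge k hk
        omega
  have hΨs : ∀ v, Ψ (v + 1) ≤ Ψ v + 1 := by
    intro v
    obtain ⟨s1, s2⟩ := hstepW v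
    have s3 := hdm v
    rw [hΨ, hΨ]
    rw [EvCond.ind_succ S, EvCond.ind_succ f0, EvCond.ind_succ B]
    rw [EvCond.ind_succ w, EvCond.ind_succ f] at s1 s2
    by_cases a : cnt pL n0 (v + 1) + cnt q n0 (v + 1) = cnt pL n0 v + cnt q n0 v
    · rw [a]
      have := step_aux (t := v + 1) hSf0 g2 g3
      omega
    · have s4 : cnt pL n0 (v + 1) + cnt q n0 (v + 1) = cnt pL n0 v + cnt q n0 v + 1 := by
        split_ifs at s1 <;> omega
      have s5 : w ≠ v + 1 := by
        intro hc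
        rw [if_pos hc] at s1
        split_ifs at s1 <;> omega
      have s6 : f ≠ v + 1 := by
        intro hc
        rw [if_pos hc] at s1
        split_ifs at s1 <;> omega
      rw [if_neg s5, if_neg s6] at s2
      have s7 := s2 (by omega)
      have s8 : S ≠ v + 1 ∧ f0 ≠ v + 1 ∧ B ≠ v + 1 := by
        rcases s7 with s7 | s7 | ⟨k, hk, s7⟩ | ⟨k, hk, s7⟩
        · omega
        · omega
        · have a1 := (hpS k hk).1
          have a2 := (hpf0 k hk).1
          have a3 := (g1 k hk).1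
          omega
        · have a1 := (hpS k hk).2
          have a2 := (hpf0 k hk).2
          have a3 := (g1 k hk).2
          omega
      rw [if_neg s8.1, if_neg s8.2.1, if_neg s8.2.2]
      omega
  have hΨ0 : Ψ 0 ≤ ind A 0 := by
    rw [hΨ]
    rw [ind_of_lt (by omega : 0 < S), ind_of_lt (by omega : 0 < f0), hd0]
    omega
  have hΨle : ∀ v, Ψ v ≤ v + ind A v := by
    intro v
    induction v with
    | zero => omega
    | succ v ih =>
      have h1 := hΨs v
      have h2 := ind_mono A (show v ≤ v + 1 by omega)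
      omega
  have hρP : ∀ v, cnt V (2 * (n0 + 1)) v ≤ P v := by
    intro v
    rw [hcV]
    have h1 := hΨle v
    have h2 := hPf v
    rw [hΨ] at h1
    omega
  have hKeq : ∀ v, P v - cnt V (2 * (n0 + 1)) v + Ψ v = v + ind A v := by
    intro v
    have h1 := hρP v
    have h2 := hPf v
    rw [hcV] at h1 ⊢
    rw [hΨ]
    omega
  have hK : ∀ v, P v - cnt V (2 * (n0 + 1)) v ≤ P (v + 1) - cnt V (2 * (n0 + 1)) (v + 1) := by
    intro v
    have h1 := hKeq v
    have h2 := hKeq (v + 1)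
    have h3 := hΨs v
    have h4 := ind_mono A (show v ≤ v + 1 by omega)
    omega
  -- the child
  have hlw : w - cnt W (2 * (n0 + 1)) w = a' := by
    rw [hcW]
    have e1 : cnt pL n0 w = t0 := cnt_eq_below ht0 (fun k hk => (hL.ow1 k (by omega) hk).le)
      (fun k h3 h4 => hL.ow2 k h4 h3)
    have e2 : cnt q n0 w = n0 - n0 := cnt_eq_above le_rfl (fun k hk => by
      have := hqge k hk
      omega) (fun k h3 h4 => by omega)
    rw [e1, e2, ind_of_le (le_refl w), ind_of_lt (by omega : w < f)]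
    omega
  have hlS : S - cnt W (2 * (n0 + 1)) S = y - a' := by
    rw [hcW]
    have e1 : cnt pL n0 S = n0 := cnt_top fun k hk => by
      have := hL.pH k hk
      omega
    have e2 : cnt q n0 S = n0 - t0 := cnt_eq_above ht0
      (fun k hk => (hqS k (by omega)).1 hk) (fun k h3 h4 => ((hqS k h4).2 h3).le)
    rw [e1, e2, ind_of_le (by omega : w ≤ S)]
    by_cases a : w ≤ e
    · have e3 : S = x - w + 1 := by rw [hSeq, if_pos a]
      have e4 : f ≤ S := by
        rcases hf with g | ⟨g, _, _⟩ <;> omega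
      rw [ind_of_le e4]
      omega
    · have e3 : S = x - w := by rw [hSeq, if_neg a]; rfl
      have e4 : f = f0 := by
        rcases hf with g | ⟨_, g, _⟩
        · exact g
        · omega
      rw [ind_of_lt (by omega : S < f)]
      omega
  have hkeep : ∀ v, v < x → cnt W (2 * (n0 + 1)) (v + 1) = cnt W (2 * (n0 + 1)) v →
      P v - cnt V (2 * (n0 + 1)) v = P' (v - cnt W (2 * (n0 + 1)) v) := by
    intro v _ hk
    have e1 := ind_anchor hCs hCle hlw hk
    have e2 := ind_anchor hCs hCle hlS hk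
    have e3 := ind_anchor hCs hCle g6 hk
    have e4 := ind_anchor hCs hCle g7 hk
    have e5 : ind f0 v = ind f v := by
      rcases hf with g | ⟨g, _, _⟩
      · rw [g]
      · by_cases a : v = f0
        · exfalso
          have c1 := hcW v
          have c2 := hcW (v + 1)
          have c3 := hdm v
          have c4 := ind_mono w (show v ≤ v + 1 by omega)
          have c5 : ind f (v + 1) = 1 := ind_of_le (by omega)
          have c6 : ind f v = 0 := ind_of_lt (by omega)
          omega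
        · unfold ind
          split_ifs <;> omega
    have p1 := hP'f (v - cnt W (2 * (n0 + 1)) v)
    rw [e1, e2, e3, e4] at p1
    have p2 := hPf v
    have p3 := hcV v
    have p4 := hcW v
    have p5 := hCle v
    have p6 := hρP v
    generalize P' (v - cnt W (2 * (n0 + 1)) v) = R at p1 ⊢
    omega
  have hRb : ∀ i, i < 2 * (n0 + 1) →
      i * x ≤ (V i + 1) * (2 * (n0 + 1)) ∧ V i * (2 * (n0 + 1)) ≤ (i + 1) * x + 2 * (n0 + 1) := by
    intro i hi
    rw [hV]
    by_cases a : i < n0 + 1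
    · rw [joinL_lt a]
      exact hL.row_left hr0 he1 he2 a
    · rw [joinL_ge (by omega), hq, hS]
      exact hR.row_right ht0 (fun k hk => (hR.pH k hk).trans hHxx) hwx hw1 hw2 (by omega) (by omega)
  have hCb : ∀ i, i < 2 * (n0 + 1) → ∃ κ, P (W i - 1) - cnt V (2 * (n0 + 1)) (W i - 1) + i =
      W i - 1 + κ ∧ i * x ≤ (W i + κ) * (2 * (n0 + 1)) ∧
      (W i + κ) * (2 * (n0 + 1)) ≤ (i + 1) * x + 2 * (n0 + 1) := by
    intro i hi
    have c1 : cnt W (2 * (n0 + 1)) (W i - 1) = i := cnt_rank_pred hWm hi (hW1 i hi)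
    have c2 := hKeq (W i - 1)
    have c3 := hΨ (W i - 1)
    have c4 := hcW (W i - 1)
    have c5 := g5 i hi
    have c6 := hW1 i hi
    by_cases a : i < n0 + 1
    · have e0 : W i = ins pL t0 w i := by rw [hW, joinL_lt a]
      obtain ⟨κ, k1, k2, k3⟩ := hL.col_left ht0 hw0 hw1 hw2 a
      rw [← e0] at k1 k2 k3
      refine ⟨κ, ?_, k2, k3⟩
      have c7 : W i ≤ h := by
        rw [e0]
        exact ins_forall (Q := fun c => c ≤ h) ht0 (fun k hk => (hL.pH k hk).trans hHh) hwh i a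
      have c8 : ind S (W i - 1) = 0 := ind_of_lt (by omega)
      have c9 : ind f0 (W i - 1) = 0 := ind_of_lt (by omega)
      have c10 : ind f (W i - 1) = 0 := ind_of_lt (by omega)
      omega
    · have e0 : W i = ins q r0 f (2 * (n0 + 1) - 1 - i) := by rw [hW, joinL_ge (by omega)]
      have hfull := hR.col_right (h := h) (f := f) (f0 := f0) hr0 hsx hwx hex hwh hHx hf0 hf hfh he1 he2
        (i := i) (m := 2 * (n0 + 1) - 1 - i) (by omega) (by omega)
      rw [← hq, ← hS, ← e0] at hfull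
      obtain ⟨κ, k1, k2, k3⟩ := hfull
      refine ⟨κ, ?_, k2, k3⟩
      omega
  obtain ⟨Z, Q, ⟨z6, z7, z8⟩, z1, z2, z3, z4, z5⟩ := strip_of_lists_full (V := V) (W := W) hxy hs0 hy
    hVm hVx hWm hW1 hWx hρP hK hP'm hkeep hPx hP'y hRb hCb
  refine ⟨Z, Q, ?_, ?_, z2, z3, z4, z5⟩
  · intro V1 W1 e1 e2
    have e3 : V1 = V := by
      rw [e1, hV, hq, hS]
      rfl
    have e4 : W1 = W := by
      rw [e2, hW, hq]
      rfl
    rw [e3, e4]
    exact ⟨hVm, hVx, z6, z7, z8⟩
  · rw [z1, hV, sum_join_id pL q hr0 ht0, hq, hS]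

/-- `strip_glue_full` without the explicit description of `Z` and `Q`. -/
theorem strip_glue
    (hs : s = 2 * (n0 + 1)) (hxy : x = y + s) (hy : 0 < y) (hsx : s ≤ x)
    (hL : HalfOK x s n0 r0 t0 e w H pL) (hR : HalfOK x s n0 r0 t0 e w H pR)
    (hr0 : r0 ≤ n0) (ht0 : t0 ≤ n0)
    (he1 : r0 * x ≤ e * s) (he2 : e * s ≤ (r0 + 1) * x)
    (hw1 : t0 * x ≤ w * s) (hw2 : w * s ≤ (t0 + 1) * x + s) (hwa : w = a' + t0 + 1)
    (hwh : w ≤ h) (heh : e ≤ h) (hHh : H ≤ h) (hHx : h + 1 + H ≤ x) (hxh : 2 * h ≤ x)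
    (hf0 : f0 = x - e) (hf : f = f0 ∨ (f = f0 + 1 ∧ w ≤ e ∧ H < e)) (hfh : h + 1 ≤ f) (hfx : f ≤ x)
    (hh' : h = h' + (n0 + 1))
    (hgad : GadOK x h h' A B A' B' H f)
    (hPf : ∀ v, P v + ind f0 v + ind B v = v + ind e v + ind A v)
    (hP'f : ∀ l, P' l + ind (y - a') l + ind B' l = l + ind a' l + ind A' l)
    (hP'm : Monotone P') (hPx : P x = x) (hP'y : P' y = y) :
    ∃ Z Q : YoungDiagram,
      Z.card = ∑ k ∈ range n0, pL k + ∑ k ∈ range n0, mir x e (pR k) + e + mir x e w ∧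
      CorE (s : ℚ) ((x : ℚ) / s) 1 Z ∧ CorE (s : ℚ) ((y : ℚ) / s) 1 Q.transpose ∧
      (∀ cA cQ cZ : YoungDiagram, TT (shape (cwP P' y)) cA → TT Q cQ → TT Z cZ →
        TT (shape (cwP P x)) (addD (addD cA cQ) cZ)) ∧
      area (cwP P x) = area (cwP P' y) + Q.card + Z.card := by
  obtain ⟨Z, Q, -, h1⟩ := strip_glue_full hs hxy hy hsx hL hR hr0 ht0 he1 he2 hw1 hw2 hwa hwh heh hHh
    hHx hxh hf0 hf hfh hfx hh' hgad hPf hP'f hP'm hPx hP'y
  exact ⟨Z, Q, h1⟩

end glue

end Crest.Agent.Lib.Saxl
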