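import Crest.Agent.Lib.Saxl.Strip4

/-!
# Saxl: the half lists from the grid

`gc x s j = ⌈j x / s⌉`.  `InZone`: the position of the `k`-th pair of a half.
`HalfOK_of_zones`: a list with each entry in its zone satisfies `HalfOK`.
`exists_tuned`: a list in a box with a prescribed sum.
-/

set_option autoImplicit false
set_option linter.unusedSectionVars false

namespace Crest.Agent.Lib.Saxl

open Finset

/-- The zone of the `k`-th pair. -/
def InZone (x s r0 t0 k p : ℕ) : Prop :=
  (k < r0 ∧ k < t0 ∧ k * x ≤ p * s ∧ p * s < (k + 1) * x ∧ 1 ≤ p) ∨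
  (((r0 ≤ k ∧ k < t0) ∨ (t0 ≤ k ∧ k < r0)) ∧ (k + 1) * x ≤ p * s ∧ p * s < (k + 1) * x + s) ∨
  (r0 ≤ k ∧ t0 ≤ k ∧ (k + 1) * x ≤ p * s ∧ p * s < (k + 2) * x)

section zones
variable {x s n0 r0 t0 e w H : ℕ} {p : ℕ → ℕ}

lemma strict_of_succ {p : ℕ → ℕ} {n : ℕ} (h : ∀ k, k + 1 < n → p k < p (k + 1)) :
    ∀ i j, i < j → j < n → p i < p j := by
  intro i j hij hj
  induction j with
  | zero => omega
  | succ j ih =>
    rcases Nat.lt_succ_iff_lt_or_eq.1 hij with a | a
    · exact (ih a (by omega)).trans (h j hj)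
    · rw [a]; exact h j hj

theorem HalfOK_of_zones (hs : 0 < s) (hsx : s ≤ x)
    (he1 : r0 * x ≤ e * s) (he3 : r0 < n0 → e * s < (r0 + 1) * x)
    (hw1 : t0 * x + s ≤ w * s) (hw3 : t0 < n0 → w * s < (t0 + 1) * x)
    (hz : ∀ k, k < n0 → InZone x s r0 t0 k (p k)) (hH : ∀ k, k < n0 → p k ≤ H) :
    HalfOK x s n0 r0 t0 e w H p := by
  have hm : ∀ {a b : ℕ}, a ≤ b → a * x ≤ b * x := fun h => Nat.mul_le_mul_right _ h
  have hlt : ∀ {a b : ℕ}, a * s < b * s → a < b := fun h => Nat.lt_of_mul_lt_mul_right h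
  have hle : ∀ {a b : ℕ}, a * s < (b + 1) * s → a ≤ b := fun h => by
    have := hlt h
    omega
  refine ⟨strict_of_succ ?_, ?_, hH, ?_, ?_, ?_, ?_, ?_, ?_, ?_, ?_⟩
  · intro k hk
    apply hlt
    rcases hz k (by omega) with ⟨a1, a2, a3, a4, a5⟩ | ⟨a1, a3, a4⟩ | ⟨a1, a2, a3, a4⟩
    · rcases hz (k + 1) hk with ⟨b1, b2, b3, b4, b5⟩ | ⟨b1, b3, b4⟩ | ⟨b1, b2, b3, b4⟩
      · nlinarith
      · nlinarith
      · nlinarith
    · rcases hz (k + 1) hk with ⟨b1, b2, b3, b4, b5⟩ | ⟨b1, b3, b4⟩ | ⟨b1, b2, b3, b4⟩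
      · omega
      · nlinarith
      · nlinarith
    · rcases hz (k + 1) hk with ⟨b1, b2, b3, b4, b5⟩ | ⟨b1, b3, b4⟩ | ⟨b1, b2, b3, b4⟩
      · omega
      · nlinarith
      · nlinarith
  · intro k hk
    rcases hz k hk with ⟨a1, a2, a3, a4, a5⟩ | ⟨a1, a3, a4⟩ | ⟨a1, a2, a3, a4⟩
    · exact a5
    · by_contra hc
      have : p k = 0 := by omega
      rw [this] at a3
      nlinarith
    · by_contra hc
      have : p k = 0 := by omega
      rw [this] at a3
      nlinarith
  · intro k hk h1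
    rcases hz k hk with ⟨a1, a2, a3, a4, a5⟩ | ⟨a1, a3, a4⟩ | ⟨a1, a2, a3, a4⟩
    · constructor <;> nlinarith
    · constructor <;> nlinarith
    · omega
  · intro k hk h1
    rcases hz k hk with ⟨a1, a2, a3, a4, a5⟩ | ⟨a1, a3, a4⟩ | ⟨a1, a2, a3, a4⟩
    · omega
    · rcases a1 with a1 | a1
      · omega
      · constructor <;> nlinarith
    · constructor <;> nlinarith
  · intro k hk h1
    rcases hz k hk with ⟨a1, a2, a3, a4, a5⟩ | ⟨a1, a3, a4⟩ | ⟨a1, a2, a3, a4⟩
    · nlinarith
    · nlinarith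
    · omega
  · intro k hk h1
    rcases hz k hk with ⟨a1, a2, a3, a4, a5⟩ | ⟨a1, a3, a4⟩ | ⟨a1, a2, a3, a4⟩
    · omega
    · nlinarith
    · nlinarith
  · intro k hk h1
    apply hle
    have h2 := hm (show k + 1 ≤ r0 by omega)
    rcases hz k hk with ⟨a1, a2, a3, a4, a5⟩ | ⟨a1, a3, a4⟩ | ⟨a1, a2, a3, a4⟩
    · nlinarith
    · nlinarith
    · omega
  · intro k hk h1
    apply hlt
    have h2 := hm (show r0 + 1 ≤ k + 1 by omega)
    have h3 := he3 (by omega)
    rcases hz k hk with ⟨a1, a2, a3, a4, a5⟩ | ⟨a1, a3, a4⟩ | ⟨a1, a2, a3, a4⟩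
    · omega
    · nlinarith
    · nlinarith
  · intro k hk h1
    apply hlt
    have h2 := hm (show k + 1 ≤ t0 by omega)
    rcases hz k hk with ⟨a1, a2, a3, a4, a5⟩ | ⟨a1, a3, a4⟩ | ⟨a1, a2, a3, a4⟩
    · nlinarith
    · rcases a1 with a1 | a1
      · nlinarith
      · omega
    · omega
  · intro k hk h1
    apply hlt
    have h2 := hm (show t0 + 1 ≤ k + 1 by omega)
    have h3 := hw3 (by omega)
    rcases hz k hk with ⟨a1, a2, a3, a4, a5⟩ | ⟨a1, a3, a4⟩ | ⟨a1, a2, a3, a4⟩
    · omega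
    · nlinarith
    · nlinarith

end zones

/-- A list in a box with a prescribed sum. -/
theorem exists_tuned (lo hi : ℕ → ℕ) (n : ℕ) (h : ∀ k, k < n → lo k ≤ hi k) (T : ℕ)
    (h1 : ∑ k ∈ range n, lo k ≤ T) (h2 : T ≤ ∑ k ∈ range n, hi k) :
    ∃ p : ℕ → ℕ, (∀ k, k < n → lo k ≤ p k ∧ p k ≤ hi k) ∧ ∑ k ∈ range n, p k = T := by
  induction n generalizing T with
  | zero =>
    refine ⟨fun _ => 0, fun k hk => by omega, ?_⟩
    simp at h1 h2 ⊢
    omega
  | succ n ih =>
    rw [sum_range_succ] at h1 h2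
    have hn := h n (by omega)
    -- the last entry takes as much as needed
    have hb : lo n ≤ hi n := hn
    by_cases a : T ≤ ∑ k ∈ range n, hi k + lo n
    · obtain ⟨p, p1, p2⟩ := ih (fun k hk => h k (by omega)) (T - lo n) (by omega) (by omega)
      refine ⟨fun k => if k < n then p k else lo n, fun k hk => ?_, ?_⟩
      · by_cases c : k < n
        · simp only [if_pos c]
          exact p1 k c
        · have : k = n := by omega
          subst this
          simp only [lt_irrefl, if_false]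
          exact ⟨le_rfl, hb⟩
      · rw [sum_range_succ]
        simp only [lt_irrefl, if_false]
        have e : ∑ k ∈ range n, (if k < n then p k else lo n) = ∑ k ∈ range n, p k := by
          apply sum_congr rfl
          intro k hk
          rw [if_pos (mem_range.1 hk)]
        rw [e, p2]
        omega
    · obtain ⟨p, p1, p2⟩ := ih (fun k hk => h k (by omega)) (∑ k ∈ range n, hi k)
        (sum_le_sum fun k hk => h k (by have := mem_range.1 hk; omega)) le_rfl
      refine ⟨fun k => if k < n then p k else T - ∑ k ∈ range n, hi k, fun k hk => ?_, ?_⟩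
      · by_cases c : k < n
        · simp only [if_pos c]
          exact p1 k c
        · have : k = n := by omega
          subst this
          simp only [lt_irrefl, if_false]
          omega
      · rw [sum_range_succ]
        simp only [lt_irrefl, if_false]
        have e : ∑ k ∈ range n, (if k < n then p k else T - ∑ k ∈ range n, hi k) =
            ∑ k ∈ range n, p k := by
          apply sum_congr rfl
          intro k hk
          rw [if_pos (mem_range.1 hk)]
        rw [e, p2]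
        omega

/-- The sum of the mirror images. -/
lemma sum_mir {x e r0 n0 : ℕ} {p : ℕ → ℕ} (hr0 : r0 ≤ n0) (hx : ∀ k, k < n0 → p k ≤ x)
    (h1 : ∀ k, k < n0 → k < r0 → p k ≤ e) (h2 : ∀ k, k < n0 → r0 ≤ k → e < p k) :
    ∑ k ∈ range n0, mir x e (p k) + ∑ k ∈ range n0, p k = n0 * x + r0 := by
  rw [← sum_add_distrib]
  have e1 : ∀ k ∈ range n0, mir x e (p k) + p k = x + ind (k + 1) r0 := by
    intro k hk
    have hk' := mem_range.1 hk
    rw [mir_add (hx k hk')]
    congr 1
    by_cases c : k < r0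
    · rw [if_pos (h1 k hk' c), ind_of_le (by omega)]
    · rw [if_neg (by have := h2 k hk' (by omega); omega), ind_of_lt (by omega)]
  rw [sum_congr rfl e1, sum_add_distrib]
  simp only [sum_const, card_range, smul_eq_mul]
  congr 1
  have : ∑ k ∈ range n0, ind (k + 1) r0 = cnt (fun k => k + 1) n0 r0 := rfl
  rw [this]
  exact cnt_eq_below hr0 (fun i hi => by omega) (fun i h3 _ => by omega)

end Crest.Agent.Lib.Saxl
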