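import Crest.Agent.Lib.Saxl.Strip5

/-!
# Saxl: the strip of a chain parent with the exact size of `Z`

`PC e f A B`: the row function `v + [e ≤ v] + [A ≤ v] - [f ≤ v] - [B ≤ v]`.

`chain_core`: parent `PC a (x - a) A B`, child `PC a' (y - a') A' B'`, `x = y + s`, `s = 2 (n0 + 1)`; every
size `z` in a window `zBase - boxW ≤ z ≤ zBase + boxW` is the size of `Z`; both corridors at error `1`.
-/

set_option autoImplicit false
set_option linter.unusedSectionVars false

namespace Crest.Agent.Lib.Saxl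

open Finset

/-- `⌈j x / s⌉`. -/
def gc (x s j : ℕ) : ℕ := (j * x + s - 1) / s

lemma gc_spec {s : ℕ} (hs : 0 < s) (x j : ℕ) :
    j * x ≤ gc x s j * s ∧ gc x s j * s < j * x + s := by
  unfold gc
  have h1 := Nat.div_mul_le_self (j * x + s - 1) s
  have h2 := Nat.lt_mul_div_succ (j * x + s - 1) hs
  rw [Nat.mul_comm s] at h2
  have e : ((j * x + s - 1) / s + 1) * s = (j * x + s - 1) / s * s + s := by ring
  rw [e] at h2
  constructor <;> omega

lemma gc_step {x s : ℕ} (hs : 0 < s) (h2s : 2 * s ≤ x) (j : ℕ) : gc x s j + 2 ≤ gc x s (j + 1) := by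
  have h1 := gc_spec hs x j
  have h2 := gc_spec hs x (j + 1)
  by_contra hc
  have h3 : gc x s (j + 1) + 1 ≤ gc x s j + 2 := by omega
  have h4 : (gc x s (j + 1) + 1) * s ≤ (gc x s j + 2) * s := Nat.mul_le_mul_right _ h3
  nlinarith

lemma gc_mono {x s : ℕ} (hs : 0 < s) (h2s : 2 * s ≤ x) {i j : ℕ} (h : i ≤ j) :
    gc x s i ≤ gc x s j := by
  induction j, h using Nat.le_induction with
  | base => exact le_rfl
  | succ j _ ih =>
    have := gc_step hs h2s j
    omega

/-- The least position of the `k`-th pair. -/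
def loB (x s r0 t0 k : ℕ) : ℕ := if k < r0 ∧ k < t0 then max 1 (gc x s k) else gc x s (k + 1)

/-- The largest position of the `k`-th pair. -/
def hiB (x s r0 t0 H k : ℕ) : ℕ :=
  if k < r0 ∧ k < t0 then gc x s (k + 1) - 1
  else if r0 ≤ k ∧ t0 ≤ k then min H (gc x s (k + 2) - 1) else gc x s (k + 1)

section box
variable {x s n0 r0 t0 H : ℕ}

lemma loB_le_hiB (hs : 0 < s) (h2s : 2 * s ≤ x) (hH : gc x s n0 ≤ H) {k : ℕ} (hk : k < n0) :
    loB x s r0 t0 k ≤ hiB x s r0 t0 H k := by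
  unfold loB hiB
  have h1 := gc_step hs h2s k
  have h2 : gc x s (k + 1) + 2 ≤ gc x s (k + 2) := gc_step hs h2s (k + 1)
  have h3 : gc x s (k + 1) ≤ H := (gc_mono hs h2s (show k + 1 ≤ n0 by omega)).trans hH
  split_ifs with a b
  · have : 1 ≤ gc x s (k + 1) - 1 := by omega
    have : gc x s k ≤ gc x s (k + 1) - 1 := by omega
    exact max_le ‹_› ‹_›
  · exact le_min h3 (by omega)
  · exact le_rfl

lemma box_zone (hs : 0 < s) (h2s : 2 * s ≤ x) (hH : gc x s n0 ≤ H) {k p : ℕ} (hk : k < n0)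
    (h1 : loB x s r0 t0 k ≤ p) (h2 : p ≤ hiB x s r0 t0 H k) :
    InZone x s r0 t0 k p ∧ p ≤ H := by
  have h3 : gc x s (k + 1) ≤ H := (gc_mono hs h2s (show k + 1 ≤ n0 by omega)).trans hH
  have g0 := gc_spec hs x k
  have g1 := gc_spec hs x (k + 1)
  have g2 := gc_spec hs x (k + 2)
  unfold loB at h1
  unfold hiB at h2
  by_cases a : k < r0 ∧ k < t0
  · rw [if_pos a] at h1 h2
    have h4 := le_of_max_le_left h1
    have h5 := le_of_max_le_right h1
    refine ⟨Or.inl ⟨a.1, a.2, ?_, ?_, h4⟩, by omega⟩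
    · exact g0.1.trans (Nat.mul_le_mul_right _ h5)
    · have h6 : (p + 1) * s ≤ gc x s (k + 1) * s := Nat.mul_le_mul_right _ (by
        have := gc_step hs h2s k
        omega)
      nlinarith
  · rw [if_neg a] at h1 h2
    by_cases b : r0 ≤ k ∧ t0 ≤ k
    · rw [if_pos b] at h2
      have h4 := le_of_le_min_left h2
      have h5 := le_of_le_min_right h2
      refine ⟨Or.inr (Or.inr ⟨b.1, b.2, ?_, ?_⟩), h4⟩
      · exact g1.1.trans (Nat.mul_le_mul_right _ h1)
      · have h6 : (p + 1) * s ≤ gc x s (k + 2) * s := Nat.mul_le_mul_right _ (by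
          have : gc x s (k + 1) + 2 ≤ gc x s (k + 2) := gc_step hs h2s (k + 1)
          omega)
        nlinarith
    · rw [if_neg b] at h2
      have hp : p = gc x s (k + 1) := le_antisymm h2 h1
      subst hp
      refine ⟨Or.inr (Or.inl ⟨?_, g1.1, g1.2⟩), h3⟩
      omega

end box

/-- The row function. -/
def PC (e f A B v : ℕ) : ℕ := v + ind e v + ind A v - ind f v - ind B v

lemma PC_bound {f A B : ℕ} (hf : 1 ≤ f) (hne : f ≠ B) (h0 : ind B 0 ≤ ind A 0) (v : ℕ) :
    ind f v + ind B v ≤ v + ind A v := by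
  induction v with
  | zero =>
    rw [ind_of_lt (by omega : 0 < f)]
    omega
  | succ v ih =>
    rw [EvCond.ind_succ f, EvCond.ind_succ B, EvCond.ind_succ A]
    split_ifs <;> omega

lemma PC_add {e f A B : ℕ} (hf : 1 ≤ f) (hne : f ≠ B) (h0 : ind B 0 ≤ ind A 0) (v : ℕ) :
    PC e f A B v + ind f v + ind B v = v + ind e v + ind A v := by
  have := PC_bound hf hne h0 v
  unfold PC
  omega

lemma PC_mono {e f A B : ℕ} (hf : 1 ≤ f) (hne : f ≠ B) (h0 : ind B 0 ≤ ind A 0) :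
    Monotone (PC e f A B) := by
  apply monotone_nat_of_le_succ
  intro v
  have h1 := PC_add (e := e) hf hne h0 v
  have h2 := PC_add (e := e) hf hne h0 (v + 1)
  rw [EvCond.ind_succ f, EvCond.ind_succ B, EvCond.ind_succ A, EvCond.ind_succ e] at h2
  have h3 : (if f = v + 1 then 1 else 0) + (if B = v + 1 then 1 else 0) ≤ 1 := by
    split_ifs <;> omega
  omega

/-- Base size of `Z`. -/
def zBase (x n0 r0 a w : ℕ) : ℕ := n0 * x + r0 + a + mir x a w

/-- Half width of the window of `Z`. -/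
def boxW (x s n0 r0 t0 H : ℕ) : ℕ := ∑ k ∈ range n0, (hiB x s r0 t0 H k - loB x s r0 t0 k)

/-- **The strip of a chain parent, any size of `Z` in the window.** -/
theorem chain_core {x y s n0 a a' h h' A B A' B' H f z : ℕ}
    (hs : s = 2 * (n0 + 1)) (hxy : x = y + s) (hy : 0 < y) (h2s : 2 * s ≤ x)
    (hah : a ≤ h) (ha'h : a' ≤ h') (hh' : h = h' + (n0 + 1)) (hxh : 2 * h ≤ x)
    (h2a : 2 * a ≤ x) (h2a' : 2 * a' ≤ y) (hHh : H ≤ h) (hHx : h + 1 + H ≤ x)
    (hf : f = x - a ∨ (f = x - a + 1 ∧ a = h ∧ H < h)) (hfh : h + 1 ≤ f) (hfx : f ≤ x)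
    (hgad : GadOK x h h' A B A' B' H f) (hgc : gc x s n0 ≤ H)
    (hPf1 : 1 ≤ x - a) (hPf2 : x - a ≠ B) (hP0 : ind B 0 ≤ ind A 0)
    (hPf1' : 1 ≤ y - a') (hPf2' : y - a' ≠ B') (hP0' : ind B' 0 ≤ ind A' 0)
    (hAx : A ≤ x) (hBx : B ≤ x) (hAy : A' ≤ y) (hBy : B' ≤ y)
    (hz1 : zBase x n0 (min n0 (a * s / x)) a (a' + min n0 (a' * s / y) + 1) ≤
      z + boxW x s n0 (min n0 (a * s / x)) (min n0 (a' * s / y)) H)
    (hz2 : z ≤ zBase x n0 (min n0 (a * s / x)) a (a' + min n0 (a' * s / y) + 1) +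
      boxW x s n0 (min n0 (a * s / x)) (min n0 (a' * s / y)) H) :
    ∃ Z Q : YoungDiagram, Z.card = z ∧
      CorE (s : ℚ) ((x : ℚ) / s) 1 Z ∧ CorE (s : ℚ) ((y : ℚ) / s) 1 Q.transpose ∧
      (∀ cA cQ cZ : YoungDiagram, TT (shape (cwP (PC a' (y - a') A' B') y)) cA → TT Q cQ → TT Z cZ →
        TT (shape (cwP (PC a (x - a) A B) x)) (addD (addD cA cQ) cZ)) ∧
      area (cwP (PC a (x - a) A B) x) = area (cwP (PC a' (y - a') A' B') y) + Q.card + Z.card := by
  have hs0 : 0 < s := by omega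
  have hx0 : 0 < x := by omega
  obtain ⟨r0, hr⟩ : ∃ r0, r0 = min n0 (a * s / x) := ⟨_, rfl⟩
  obtain ⟨t0, ht⟩ : ∃ t0, t0 = min n0 (a' * s / y) := ⟨_, rfl⟩
  rw [← hr, ← ht] at hz1 hz2
  obtain ⟨w, hw⟩ : ∃ w, w = a' + t0 + 1 := ⟨_, rfl⟩
  rw [← hw] at hz1 hz2
  have hr0 : r0 ≤ n0 := by rw [hr]; exact min_le_left _ _
  have ht0 : t0 ≤ n0 := by rw [ht]; exact min_le_left _ _
  have hu : s = 2 * (n0 + 1) := hs
  -- the single row
  have he1 : r0 * x ≤ a * s := by
    have h1 : r0 ≤ a * s / x := by rw [hr]; exact min_le_right _ _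
    exact (Nat.mul_le_mul_right _ h1).trans (Nat.div_mul_le_self _ _)
  have he3 : r0 < n0 → a * s < (r0 + 1) * x := by
    intro h1
    have h2 : r0 = a * s / x := by
      rw [hr] at h1 ⊢
      exact min_eq_right (by
        by_contra hc
        rw [min_eq_left (by omega)] at h1
        omega)
    rw [h2, Nat.mul_comm _ x]
    exact Nat.lt_mul_div_succ _ hx0
  have he2 : a * s ≤ (r0 + 1) * x := by
    by_cases h1 : r0 < n0
    · exact (he3 h1).le
    · have h2 : r0 = n0 := by omega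
      rw [h2, hu]
      nlinarith
  -- the single column
  have hw4 : a' * s ≤ (t0 + 1) * y := by
    by_cases h1 : t0 < n0
    · have h2 : t0 = a' * s / y := by
        rw [ht] at h1 ⊢
        exact min_eq_right (by
          by_contra hc
          rw [min_eq_left (by omega)] at h1
          omega)
      rw [h2, Nat.mul_comm _ y]
      exact (Nat.lt_mul_div_succ _ hy).le
    · have h2 : t0 = n0 := by omega
      rw [h2, hu]
      nlinarith
  have hw5 : t0 < n0 → a' * s < (t0 + 1) * y := by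
    intro h1
    have h2 : t0 = a' * s / y := by
      rw [ht] at h1 ⊢
      exact min_eq_right (by
        by_contra hc
        rw [min_eq_left (by omega)] at h1
        omega)
    rw [h2, Nat.mul_comm _ y]
    exact Nat.lt_mul_div_succ _ hy
  have hw6 : t0 * y ≤ a' * s := by
    have h1 : t0 ≤ a' * s / y := by rw [ht]; exact min_le_right _ _
    exact (Nat.mul_le_mul_right _ h1).trans (Nat.div_mul_le_self _ _)
  have hwe : w * s = a' * s + t0 * s + s := by rw [hw]; ring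
  have hxe : ∀ j : ℕ, j * x = j * y + j * s := by
    intro j
    rw [hxy]
    ring
  have hw1' : t0 * x + s ≤ w * s := by
    rw [hxe, hwe]
    omega
  have hw1 : t0 * x ≤ w * s := by omega
  have hw7 : w * s ≤ (t0 + 1) * x := by
    rw [hxe, hwe]
    have : (t0 + 1) * s = t0 * s + s := by ring
    omega
  have hw3 : t0 < n0 → w * s < (t0 + 1) * x := by
    intro h1
    have h2 := hw5 h1
    rw [hxe, hwe]
    have : (t0 + 1) * s = t0 * s + s := by ring
    omega
  have hw2 : w * s ≤ (t0 + 1) * x + s := by omega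
  have hwh : w ≤ h := by omega
  -- the boxes
  have hbox : ∀ k, k < n0 → loB x s r0 t0 k ≤ hiB x s r0 t0 H k :=
    fun k hk => loB_le_hiB hs0 h2s hgc hk
  have hhalf : ∀ p : ℕ → ℕ, (∀ k, k < n0 → loB x s r0 t0 k ≤ p k ∧ p k ≤ hiB x s r0 t0 H k) →
      HalfOK x s n0 r0 t0 a w H p := by
    intro p hp
    apply HalfOK_of_zones hs0 (by omega) he1 he3 hw1' hw3
    · intro k hk
      exact (box_zone hs0 h2s hgc hk (hp k hk).1 (hp k hk).2).1
    · intro k hk
      exact (box_zone hs0 h2s hgc hk (hp k hk).1 (hp k hk).2).2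
  have hsumW : boxW x s n0 r0 t0 H + ∑ k ∈ range n0, loB x s r0 t0 k =
      ∑ k ∈ range n0, hiB x s r0 t0 H k := by
    unfold boxW
    rw [← sum_add_distrib]
    apply sum_congr rfl
    intro k hk
    have := hbox k (mem_range.1 hk)
    omega
  -- the two sums
  obtain ⟨T1, T2, hT1a, hT1b, hT2a, hT2b, hT⟩ : ∃ T1 T2,
      ∑ k ∈ range n0, loB x s r0 t0 k ≤ T1 ∧ T1 ≤ ∑ k ∈ range n0, hiB x s r0 t0 H k ∧
      ∑ k ∈ range n0, loB x s r0 t0 k ≤ T2 ∧ T2 ≤ ∑ k ∈ range n0, hiB x s r0 t0 H k ∧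
      T1 + zBase x n0 r0 a w = z + T2 := by
    by_cases c : zBase x n0 r0 a w ≤ z
    · exact ⟨∑ k ∈ range n0, loB x s r0 t0 k + (z - zBase x n0 r0 a w),
        ∑ k ∈ range n0, loB x s r0 t0 k, by omega, by omega, le_rfl, by omega, by omega⟩
    · exact ⟨∑ k ∈ range n0, loB x s r0 t0 k,
        ∑ k ∈ range n0, loB x s r0 t0 k + (zBase x n0 r0 a w - z), le_rfl, by omega, by omega, by omega,
        by omega⟩
  obtain ⟨pL, pL1, pL2⟩ := exists_tuned _ _ n0 hbox T1 hT1a hT1b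
  obtain ⟨pR, pR1, pR2⟩ := exists_tuned _ _ n0 hbox T2 hT2a hT2b
  have hL := hhalf pL pL1
  have hR := hhalf pR pR1
  have hPf := PC_add (e := a) hPf1 hPf2 hP0
  have hP'f := PC_add (e := a') hPf1' hPf2' hP0'
  have hPx : PC a (x - a) A B x = x := by
    have h1 := hPf x
    rw [ind_of_le (by omega : x - a ≤ x), ind_of_le (by omega : a ≤ x), ind_of_le hAx,
      ind_of_le hBx] at h1
    omega
  have hP'y : PC a' (y - a') A' B' y = y := by
    have h1 := hP'f y
    rw [ind_of_le (by omega : y - a' ≤ y), ind_of_le (by omega : a' ≤ y), ind_of_le hAy,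
      ind_of_le hBy] at h1
    omega
  obtain ⟨Z, Q, z1, z2, z3, z4, z5⟩ := strip_glue (x := x) (y := y) (s := s) (n0 := n0) (r0 := r0)
    (t0 := t0) (e := a) (w := w) (h := h) (h' := h') (f := f) (f0 := x - a) (a' := a') (A := A) (B := B)
    (A' := A') (B' := B') (H := H) (pL := pL) (pR := pR) (P := PC a (x - a) A B)
    (P' := PC a' (y - a') A' B') hs hxy hy (by omega) hL hR hr0 ht0 he1 he2 hw1 hw2 hw hwh hah hHh hHx
    hxh rfl (by
      rcases hf with g | ⟨g1, g2, g3⟩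
      · exact Or.inl g
      · exact Or.inr ⟨g1, by omega, by omega⟩) hfh hfx hh' hgad hPf hP'f
    (PC_mono hPf1' hPf2' hP0') hPx hP'y
  refine ⟨Z, Q, ?_, z2, z3, z4, z5⟩
  have h1 := sum_mir (x := x) (e := a) (r0 := r0) (n0 := n0) (p := pR) hr0
    (fun k hk => (hR.pH k hk).trans (by omega)) hR.oe1 hR.oe2
  rw [z1, pL2]
  rw [pR2] at h1
  unfold zBase at hT
  omega

end Crest.Agent.Lib.Saxl
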