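import Crest.Agent.Lib.Saxl.Strip6
import Crest.Agent.Lib.Saxl.Family

/-!
# Saxl: the chain words in value coordinates

`Nb w v`: the number of `N` before the `(v+1)`-th `E` of `w` (all of them if there are at most `v`).
`cwP_Nb : cwP (Nb w) (nE w) = w`.

`chainW a b G = cwP (PC a (x - a) A B) x` for each frozen centre `G`.
-/

set_option autoImplicit false
set_option linter.unusedSectionVars false

namespace Crest.Agent.Lib.Saxl

open Finset

/-- The number of `N` before the `(v+1)`-th `E`. -/
def Nb : List Bool → ℕ → ℕ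
  | [], _ => 0
  | false :: t, v => Nb t v + 1
  | true :: _, 0 => 0
  | true :: t, v + 1 => Nb t v

lemma Nb_append (u w : List Bool) (v : ℕ) :
    Nb (u ++ w) v = if v < nE u then Nb u v else nN u + Nb w (v - nE u) := by
  induction u generalizing v with
  | nil =>
    simp [nE, nN]
  | cons c u ih =>
    cases c with
    | false =>
      simp only [List.cons_append, Nb, ih, nE_cons_false, nN_cons_false]
      split_ifs <;> omega
    | true =>
      cases v with
      | zero =>
        simp [Nb, nE_cons_true]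
      | succ v =>
        simp only [List.cons_append, Nb, ih, nE_cons_true, nN_cons_true]
        have e : v + 1 - (nE u + 1) = v - nE u := by omega
        rw [e]
        by_cases h : v < nE u
        · rw [if_pos h, if_pos (by omega)]
        · rw [if_neg h, if_neg (by omega)]

lemma Nb_top {w : List Bool} {v : ℕ} (h : nE w ≤ v) : Nb w v = nN w := by
  induction w generalizing v with
  | nil => rfl
  | cons c w ih =>
    cases c with
    | false =>
      rw [nE_cons_false] at h
      simp only [Nb, ih h, nN_cons_false]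
    | true =>
      rw [nE_cons_true] at h
      cases v with
      | zero => omega
      | succ v =>
        simp only [Nb, nN_cons_true]
        exact ih (by omega)

lemma cwP_congr {P R : ℕ → ℕ} {x : ℕ} (h : ∀ v, v ≤ x → P v = R v) : cwP P x = cwP R x := by
  induction x with
  | zero => simp only [cwP, h 0 le_rfl]
  | succ x ih =>
    simp only [cwP]
    rw [ih (fun v hv => h v (by omega)), h (x + 1) le_rfl, h x (by omega)]

lemma Nb_mono (w : List Bool) : Monotone (Nb w) := by
  apply monotone_nat_of_le_succ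
  induction w with
  | nil => intro v; exact le_rfl
  | cons c w ih =>
    intro v
    cases c with
    | false =>
      simp only [Nb]
      have := ih v
      omega
    | true =>
      cases v with
      | zero => simp [Nb]
      | succ v =>
        simp only [Nb]
        exact ih v

lemma cwP_top {P R : ℕ → ℕ} {x : ℕ} (hP : Monotone P) (h : ∀ v, v < x → P v = R v) (hx : P x ≤ R x) :
    cwP R x = cwP P x ++ List.replicate (R x - P x) false := by
  cases x with
  | zero =>
    simp only [cwP, List.replicate_append_replicate]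
    congr 1
    omega
  | succ x =>
    simp only [cwP, List.append_assoc, List.cons_append, List.replicate_append_replicate]
    rw [cwP_congr (fun v hv => (h v (by omega)).symm)]
    congr 3
    have h1 := h x (by omega)
    have h2 := hP (show x ≤ x + 1 by omega)
    omega

/-- Every word is a `cwP`. -/
theorem cwP_Nb (w : List Bool) : cwP (Nb w) (nE w) = w := by
  induction w using List.reverseRecOn with
  | nil => rfl
  | append_singleton w c ih =>
    cases c with
    | false =>
      have e1 : nE (w ++ [false]) = nE w := by simp [nE]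
      rw [e1]
      have h1 := cwP_top (P := Nb w) (R := Nb (w ++ [false])) (x := nE w) (Nb_mono w)
        (fun v hv => by rw [Nb_append, if_pos hv]) (by
          rw [Nb_append, if_neg (by omega)]
          simp only [Nat.sub_self]
          rw [Nb_top (le_refl _)]
          omega)
      rw [h1, ih]
      rw [Nb_append, if_neg (by omega), Nb_top (le_refl _)]
      simp [Nb]
    | true =>
      have e1 : nE (w ++ [true]) = nE w + 1 := by simp [nE]
      rw [e1, cwP]
      have h2 : ∀ v, nE w ≤ v → Nb (w ++ [true]) v = nN w := by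
        intro v hv
        rw [Nb_append, if_neg (by omega)]
        have : Nb [true] (v - nE w) = 0 := by
          cases v - nE w with
          | zero => rfl
          | succ k => rfl
        omega
      rw [h2 _ le_rfl, h2 _ (by omega)]
      have h3 : cwP (Nb (w ++ [true])) (nE w) = cwP (Nb w) (nE w) := by
        apply cwP_congr
        intro v hv
        rcases Nat.lt_or_eq_of_le hv with a | a
        · rw [Nb_append, if_pos a]
        · rw [a, h2 _ le_rfl, Nb_top (le_refl _)]
      rw [h3, ih]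
      simp

lemma Nb_stair (a v : ℕ) : Nb (stairW a) v = min v a := by
  induction a generalizing v with
  | zero => simp [stairW, Nb]
  | succ a ih =>
    rw [stairW, Nb_append, nE_stairW, nN_stairW]
    by_cases h : v < a
    · rw [if_pos h, ih]
      omega
    · rw [if_neg h]
      have : Nb [true, false] (v - a) = if v - a = 0 then 0 else 1 := by
        cases v - a with
        | zero => rfl
        | succ k => rfl
      rw [this]
      split_ifs <;> omega

lemma nE_neW (b : ℕ) : nE (neW b) = b := by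
  induction b with
  | zero => rfl
  | succ b ih =>
    rw [neW, nE_append, ih]
    rfl

lemma nN_neW (b : ℕ) : nN (neW b) = b := by
  induction b with
  | zero => rfl
  | succ b ih =>
    rw [neW, nN_append, ih]
    rfl

lemma Nb_ne (b v : ℕ) : Nb (neW b) v = min (v + 1) b := by
  induction b generalizing v with
  | zero => simp [neW, Nb]
  | succ b ih =>
    rw [neW, Nb_append, nE_neW, nN_neW]
    by_cases h : v < b
    · rw [if_pos h, ih]
      omega
    · rw [if_neg h]
      have : Nb [false, true] (v - b) = 1 := by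
        cases v - b with
        | zero => rfl
        | succ k => rfl
      rw [this]
      omega

/-- The count of `N` of a chain word. -/
lemma Nb_chain (a b : ℕ) (G : List Bool) (v : ℕ) :
    Nb (chainW a b G) v =
      if v < a then v
      else if v < a + b then v + 1
      else if v < a + b + nE G then a + b + Nb G (v - (a + b))
      else if v < a + b + nE G + b then a + b + nN G + min (v - (a + b + nE G) + 1) b
      else a + b + nN G + b + min (v - (a + b + nE G + b)) a := by
  unfold chainW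
  simp only [Nb_append, nE_append, nN_append, nE_stairW, nN_stairW, nE_neW, nN_neW, Nb_stair, Nb_ne]
  split_ifs <;> omega

lemma nE_chainW (a b : ℕ) (G : List Bool) : nE (chainW a b G) = 2 * (a + b) + nE G := by
  unfold chainW
  simp only [nE_append, nE_stairW, nE_neW]
  omega

/-- The frozen centres in value coordinates. -/
lemma chain_nil_eq (a b : ℕ) :
    chainW a b [] = cwP (PC a (2 * (a + b) - a) 0 0) (2 * (a + b)) := by
  have h := cwP_Nb (chainW a b [])
  rw [nE_chainW] at h
  have e0 : 2 * (a + b) + nE [] = 2 * (a + b) := rfl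
  rw [e0] at h
  conv_lhs => rw [← h]
  apply cwP_congr
  intro v hv
  rw [Nb_chain]
  have e1 : nE ([] : List Bool) = 0 := rfl
  have e2 : nN ([] : List Bool) = 0 := rfl
  rw [e1, e2]
  unfold PC ind
  split_ifs <;> omega

lemma chain_NE_eq (a b : ℕ) :
    chainW a b [false, true] = cwP (PC a (2 * (a + b) + 1 - a) 0 0) (2 * (a + b) + 1) := by
  have h := cwP_Nb (chainW a b [false, true])
  rw [nE_chainW] at h
  have e0 : 2 * (a + b) + nE [false, true] = 2 * (a + b) + 1 := rfl
  rw [e0] at h
  conv_lhs => rw [← h]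
  apply cwP_congr
  intro v hv
  rw [Nb_chain]
  have e1 : nE ([false, true] : List Bool) = 1 := rfl
  have e2 : nN ([false, true] : List Bool) = 1 := rfl
  have e3 : ∀ k, Nb [false, true] k = 1 := by
    intro k
    cases k <;> rfl
  rw [e1, e2, e3]
  unfold PC ind
  split_ifs <;> omega

lemma chain_EN_eq (a b : ℕ) :
    chainW a b [true, false] =
      cwP (PC a (2 * (a + b) + 1 - a) (a + b + 1) (a + b)) (2 * (a + b) + 1) := by
  have h := cwP_Nb (chainW a b [true, false])
  rw [nE_chainW] at h
  have e0 : 2 * (a + b) + nE [true, false] = 2 * (a + b) + 1 := rfl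
  rw [e0] at h
  conv_lhs => rw [← h]
  apply cwP_congr
  intro v hv
  rw [Nb_chain]
  have e1 : nE ([true, false] : List Bool) = 1 := rfl
  have e2 : nN ([true, false] : List Bool) = 1 := rfl
  have e3 : ∀ k, Nb [true, false] k = if k = 0 then 0 else 1 := by
    intro k
    cases k <;> rfl
  rw [e1, e2, e3]
  unfold PC ind
  split_ifs <;> omega

lemma chain_NN_eq (a b : ℕ) :
    chainW a b [false, false, true, true] =
      cwP (PC a (2 * (a + b) + 2 - a) (a + b) (a + b + 1)) (2 * (a + b) + 2) := by
  have h := cwP_Nb (chainW a b [false, false, true, true])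
  rw [nE_chainW] at h
  have e0 : 2 * (a + b) + nE [false, false, true, true] = 2 * (a + b) + 2 := rfl
  rw [e0] at h
  conv_lhs => rw [← h]
  apply cwP_congr
  intro v hv
  rw [Nb_chain]
  have e1 : nE ([false, false, true, true] : List Bool) = 2 := rfl
  have e2 : nN ([false, false, true, true] : List Bool) = 2 := rfl
  have e3 : ∀ k, Nb [false, false, true, true] k = 2 := by
    intro k
    rcases k with _ | _ | k <;> rfl
  rw [e1, e2, e3]
  unfold PC ind
  split_ifs <;> omega

/-- Base of the window of `|Z|`. -/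
def stripBase (x y n0 a a' : ℕ) : ℕ :=
  zBase x n0 (min n0 (a * (2 * (n0 + 1)) / x)) a (a' + min n0 (a' * (2 * (n0 + 1)) / y) + 1)

/-- Half width of the window of `|Z|`. -/
def stripW (x y n0 a a' H : ℕ) : ℕ :=
  boxW x (2 * (n0 + 1)) n0 (min n0 (a * (2 * (n0 + 1)) / x)) (min n0 (a' * (2 * (n0 + 1)) / y)) H

/-- The bound for the last pinned point. -/
lemma gc_le_H {x n0 h H : ℕ} (h2s : 2 * (2 * (n0 + 1)) ≤ x) (hx : x ≤ 2 * h + 2) (hHb : h ≤ H + 1) :
    gc x (2 * (n0 + 1)) n0 ≤ H := by
  have hs : 0 < 2 * (n0 + 1) := by omega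
  have h1 := (gc_spec hs x n0).2
  by_contra hc
  have h2 : (H + 1) * (2 * (n0 + 1)) ≤ gc x (2 * (n0 + 1)) n0 * (2 * (n0 + 1)) :=
    Nat.mul_le_mul_right _ (by omega)
  nlinarith

/-- **Chain parent, no centre.** -/
theorem chain_strip_nil {a b a' b' n0 z : ℕ} (hh : a + b = a' + b' + (n0 + 1))
    (h2s : 2 * (2 * (n0 + 1)) ≤ 2 * (a + b)) (hy : 0 < a' + b')
    (hz1 : stripBase (2 * (a + b)) (2 * (a' + b')) n0 a a' ≤
      z + stripW (2 * (a + b)) (2 * (a' + b')) n0 a a' (a + b - 1))
    (hz2 : z ≤ stripBase (2 * (a + b)) (2 * (a' + b')) n0 a a' +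
      stripW (2 * (a + b)) (2 * (a' + b')) n0 a a' (a + b - 1)) :
    ∃ Z Q : YoungDiagram, Z.card = z ∧
      CorE ((2 * (n0 + 1) : ℕ) : ℚ) (((2 * (a + b) : ℕ) : ℚ) / ((2 * (n0 + 1) : ℕ) : ℚ)) 1 Z ∧
      CorE ((2 * (n0 + 1) : ℕ) : ℚ) (((2 * (a' + b') : ℕ) : ℚ) / ((2 * (n0 + 1) : ℕ) : ℚ)) 1
        Q.transpose ∧
      (∀ cA cQ cZ : YoungDiagram, TT (shape (chainW a' b' [])) cA → TT Q cQ → TT Z cZ →
        TT (shape (chainW a b [])) (addD (addD cA cQ) cZ)) ∧
      area (chainW a b []) = area (chainW a' b' []) + Q.card + Z.card := by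
  rw [chain_nil_eq a b, chain_nil_eq a' b']
  obtain ⟨f, f1, f2, f3⟩ : ∃ f, (f = 2 * (a + b) - a ∨ (f = 2 * (a + b) - a + 1 ∧ a = a + b ∧
      a + b - 1 < a + b)) ∧ a + b + 1 ≤ f ∧ f ≤ 2 * (a + b) := by
    by_cases hb : b = 0
    · exact ⟨2 * (a + b) - a + 1, Or.inr ⟨rfl, by omega, by omega⟩, by omega, by omega⟩
    · exact ⟨2 * (a + b) - a, Or.inl rfl, by omega, by omega⟩
  exact chain_core (x := 2 * (a + b)) (y := 2 * (a' + b')) (s := 2 * (n0 + 1)) (n0 := n0) (a := a)
    (a' := a') (H := a + b - 1) (h := a + b) (h' := a' + b') (A := 0) (B := 0) (A' := 0) (B' := 0)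
    (f := f) rfl
    (by omega) (by omega) h2s (by omega) (by omega) (by omega) le_rfl (by omega) (by omega) (by omega)
    (by omega) f1 f2 f3 (Or.inl ⟨rfl, rfl, rfl, rfl⟩) (gc_le_H (h := a + b) h2s (by omega) (by omega))
    (by omega) (by omega) le_rfl (by omega) (by omega) le_rfl (by omega) (by omega) (by omega)
    (by omega) hz1 hz2

/-- **Chain parent, centre `NE`.** -/
theorem chain_strip_NE {a b a' b' n0 z : ℕ} (hh : a + b = a' + b' + (n0 + 1))
    (h2s : 2 * (2 * (n0 + 1)) ≤ 2 * (a + b) + 1)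
    (hz1 : stripBase (2 * (a + b) + 1) (2 * (a' + b') + 1) n0 a a' ≤
      z + stripW (2 * (a + b) + 1) (2 * (a' + b') + 1) n0 a a' (a + b))
    (hz2 : z ≤ stripBase (2 * (a + b) + 1) (2 * (a' + b') + 1) n0 a a' +
      stripW (2 * (a + b) + 1) (2 * (a' + b') + 1) n0 a a' (a + b)) :
    ∃ Z Q : YoungDiagram, Z.card = z ∧
      CorE ((2 * (n0 + 1) : ℕ) : ℚ) (((2 * (a + b) + 1 : ℕ) : ℚ) / ((2 * (n0 + 1) : ℕ) : ℚ)) 1 Z ∧
      CorE ((2 * (n0 + 1) : ℕ) : ℚ) (((2 * (a' + b') + 1 : ℕ) : ℚ) / ((2 * (n0 + 1) : ℕ) : ℚ)) 1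
        Q.transpose ∧
      (∀ cA cQ cZ : YoungDiagram, TT (shape (chainW a' b' [false, true])) cA → TT Q cQ → TT Z cZ →
        TT (shape (chainW a b [false, true])) (addD (addD cA cQ) cZ)) ∧
      area (chainW a b [false, true]) = area (chainW a' b' [false, true]) + Q.card + Z.card := by
  rw [chain_NE_eq a b, chain_NE_eq a' b']
  exact chain_core (x := 2 * (a + b) + 1) (y := 2 * (a' + b') + 1) (s := 2 * (n0 + 1)) (n0 := n0)
    (a := a) (a' := a') (H := a + b) (h := a + b) (h' := a' + b') (A := 0) (B := 0) (A' := 0) (B' := 0)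
    (f := 2 * (a + b) + 1 - a) rfl
    (by omega) (by omega) h2s (by omega) (by omega) (by omega) (by omega) (by omega) (by omega)
    (by omega) (by omega) (Or.inl rfl) (by omega) (by omega) (Or.inl ⟨rfl, rfl, rfl, rfl⟩)
    (gc_le_H (h := a + b) h2s (by omega) (by omega))
    (by omega) (by omega) le_rfl (by omega) (by omega) le_rfl (by omega) (by omega) (by omega)
    (by omega) hz1 hz2

/-- **Chain parent, centre `EN`.** -/
theorem chain_strip_EN {a b a' b' n0 z : ℕ} (hh : a + b = a' + b' + (n0 + 1))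
    (h2s : 2 * (2 * (n0 + 1)) ≤ 2 * (a + b) + 1) (hy : 0 < a' + b')
    (hz1 : stripBase (2 * (a + b) + 1) (2 * (a' + b') + 1) n0 a a' ≤
      z + stripW (2 * (a + b) + 1) (2 * (a' + b') + 1) n0 a a' (a + b - 1))
    (hz2 : z ≤ stripBase (2 * (a + b) + 1) (2 * (a' + b') + 1) n0 a a' +
      stripW (2 * (a + b) + 1) (2 * (a' + b') + 1) n0 a a' (a + b - 1)) :
    ∃ Z Q : YoungDiagram, Z.card = z ∧
      CorE ((2 * (n0 + 1) : ℕ) : ℚ) (((2 * (a + b) + 1 : ℕ) : ℚ) / ((2 * (n0 + 1) : ℕ) : ℚ)) 1 Z ∧
      CorE ((2 * (n0 + 1) : ℕ) : ℚ) (((2 * (a' + b') + 1 : ℕ) : ℚ) / ((2 * (n0 + 1) : ℕ) : ℚ)) 1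
        Q.transpose ∧
      (∀ cA cQ cZ : YoungDiagram, TT (shape (chainW a' b' [true, false])) cA → TT Q cQ → TT Z cZ →
        TT (shape (chainW a b [true, false])) (addD (addD cA cQ) cZ)) ∧
      area (chainW a b [true, false]) = area (chainW a' b' [true, false]) + Q.card + Z.card := by
  rw [chain_EN_eq a b, chain_EN_eq a' b']
  obtain ⟨f, f1, f2, f3⟩ : ∃ f, (f = 2 * (a + b) + 1 - a ∨ (f = 2 * (a + b) + 1 - a + 1 ∧ a = a + b ∧
      a + b - 1 < a + b)) ∧ a + b + 2 ≤ f ∧ f ≤ 2 * (a + b) + 1 := by
    by_cases hb : b = 0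
    · exact ⟨2 * (a + b) + 1 - a + 1, Or.inr ⟨rfl, by omega, by omega⟩, by omega, by omega⟩
    · exact ⟨2 * (a + b) + 1 - a, Or.inl rfl, by omega, by omega⟩
  have hb1 : ind (a + b) 0 = 0 := ind_of_lt (by omega)
  have hb2 : ind (a' + b') 0 = 0 := ind_of_lt (by omega)
  exact chain_core (x := 2 * (a + b) + 1) (y := 2 * (a' + b') + 1) (s := 2 * (n0 + 1)) (n0 := n0)
    (a := a) (a' := a') (H := a + b - 1) (h := a + b) (h' := a' + b') (A := a + b + 1) (B := a + b)
    (A' := a' + b' + 1) (B' := a' + b') (f := f) rfl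
    (by omega) (by omega) h2s (by omega) (by omega) (by omega) (by omega) (by omega) (by omega)
    (by omega) (by omega) f1 (by omega) f3
    (Or.inr (Or.inl ⟨rfl, rfl, rfl, rfl, by omega, by omega, by omega, by omega⟩))
    (gc_le_H (h := a + b) h2s (by omega) (by omega))
    (by omega) (by omega) (by omega) (by omega) (by omega) (by omega) (by omega) (by omega) (by omega)
    (by omega) hz1 hz2

/-- **Chain parent, centre `NNEE`.** -/
theorem chain_strip_NN {a b a' b' n0 z : ℕ} (hh : a + b = a' + b' + (n0 + 1))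
    (h2s : 2 * (2 * (n0 + 1)) ≤ 2 * (a + b) + 2)
    (hz1 : stripBase (2 * (a + b) + 2) (2 * (a' + b') + 2) n0 a a' ≤
      z + stripW (2 * (a + b) + 2) (2 * (a' + b') + 2) n0 a a' (a + b))
    (hz2 : z ≤ stripBase (2 * (a + b) + 2) (2 * (a' + b') + 2) n0 a a' +
      stripW (2 * (a + b) + 2) (2 * (a' + b') + 2) n0 a a' (a + b)) :
    ∃ Z Q : YoungDiagram, Z.card = z ∧
      CorE ((2 * (n0 + 1) : ℕ) : ℚ) (((2 * (a + b) + 2 : ℕ) : ℚ) / ((2 * (n0 + 1) : ℕ) : ℚ)) 1 Z ∧
      CorE ((2 * (n0 + 1) : ℕ) : ℚ) (((2 * (a' + b') + 2 : ℕ) : ℚ) / ((2 * (n0 + 1) : ℕ) : ℚ)) 1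
        Q.transpose ∧
      (∀ cA cQ cZ : YoungDiagram, TT (shape (chainW a' b' [false, false, true, true])) cA → TT Q cQ →
        TT Z cZ → TT (shape (chainW a b [false, false, true, true])) (addD (addD cA cQ) cZ)) ∧
      area (chainW a b [false, false, true, true]) =
        area (chainW a' b' [false, false, true, true]) + Q.card + Z.card := by
  rw [chain_NN_eq a b, chain_NN_eq a' b']
  have hb1 : ind (a + b + 1) 0 = 0 := ind_of_lt (by omega)
  have hb2 : ind (a' + b' + 1) 0 = 0 := ind_of_lt (by omega)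
  exact chain_core (x := 2 * (a + b) + 2) (y := 2 * (a' + b') + 2) (s := 2 * (n0 + 1)) (n0 := n0)
    (a := a) (a' := a') (H := a + b) (h := a + b) (h' := a' + b') (A := a + b) (B := a + b + 1)
    (A' := a' + b') (B' := a' + b' + 1) (f := 2 * (a + b) + 2 - a) rfl
    (by omega) (by omega) h2s (by omega) (by omega) (by omega) (by omega) (by omega) (by omega)
    (by omega) (by omega) (Or.inl rfl) (by omega) (by omega)
    (Or.inr (Or.inr ⟨rfl, rfl, rfl, rfl, by omega, by omega, by omega⟩))
    (gc_le_H (h := a + b) h2s (by omega) (by omega))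
    (by omega) (by omega) (by omega) (by omega) (by omega) (by omega) (by omega) (by omega) (by omega)
    (by omega) hz1 hz2

end Crest.Agent.Lib.Saxl
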