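import Crest.Agent.Lib.Saxl.Strip7

/-!
# Saxl: the strips of the family `XF`

`XF_strip`: parent `XF n`, child `XF n'` of the same centre (`x - y` even, same parity of `c`, no `hard1`):
every `z` in the explicit window is the size of a `Z`.
-/

set_option autoImplicit false
set_option linter.unusedSectionVars false

namespace Crest.Agent.Lib.Saxl

open Finset

/-- The number of leading `EN` of the chain form of `XF n`. -/
def chainA (n : ℕ) : ℕ :=
  if sideH n % 2 = 0 then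
    (if (triN (sideH n) - n) % 2 = 0 then (sideH n - (triN (sideH n) - n)) / 2
     else (sideH n - 2 - ((triN (sideH n) - n) - 3)) / 2)
  else
    (if (triN (sideH n) - n) % 2 = 1 then (sideH n - (triN (sideH n) - n)) / 2
     else (sideH n - (triN (sideH n) - n) - 1) / 2)

/-- The largest position of a pair in a half. -/
def chainH (n : ℕ) : ℕ :=
  if sideH n % 2 = 0 then sideH n / 2 - 1
  else (if (triN (sideH n) - n) % 2 = 1 then sideH n / 2 else sideH n / 2 - 1)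

/-- The base of the window of `|Z|`. -/
def XBase (n n' n0 : ℕ) : ℕ := stripBase (sideH n) (sideH n') n0 (chainA n) (chainA n')

/-- The half width of the window of `|Z|`. -/
def XW (n n' n0 : ℕ) : ℕ := stripW (sideH n) (sideH n') n0 (chainA n) (chainA n') (chainH n)

lemma c_lt_side {n : ℕ} (hn : 1 ≤ n) : triN (sideH n) - n < sideH n := by
  obtain ⟨h1, h2⟩ := sideH_spec n
  obtain ⟨h3, h4⟩ := h2 hn
  obtain ⟨y, hy⟩ : ∃ y, sideH n = y + 1 := ⟨sideH n - 1, by omega⟩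
  rw [hy] at h1 h4 ⊢
  simp only [Nat.add_sub_cancel] at h4
  rw [triN_succ] at h1 ⊢
  omega

lemma XF_of_chain {n n' n0 z a b a' b' X Y : ℕ} {G : List Bool} (hn : n ≠ 2) (hn' : n' ≠ 2)
    (hW : wordF n = chainW a b G) (hW' : wordF n' = chainW a' b' G) (hX : sideH n = X)
    (hY : sideH n' = Y)
    (R : ∃ Z Q : YoungDiagram, Z.card = z ∧
      CorE ((2 * (n0 + 1) : ℕ) : ℚ) (((X : ℕ) : ℚ) / ((2 * (n0 + 1) : ℕ) : ℚ)) 1 Z ∧
      CorE ((2 * (n0 + 1) : ℕ) : ℚ) (((Y : ℕ) : ℚ) / ((2 * (n0 + 1) : ℕ) : ℚ)) 1 Q.transpose ∧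
      (∀ cA cQ cZ : YoungDiagram, TT (shape (chainW a' b' G)) cA → TT Q cQ → TT Z cZ →
        TT (shape (chainW a b G)) (addD (addD cA cQ) cZ)) ∧
      area (chainW a b G) = area (chainW a' b' G) + Q.card + Z.card) :
    ∃ Z Q : YoungDiagram, Z.card = z ∧ n' + Q.card + z = n ∧
      CorE ((2 * (n0 + 1) : ℕ) : ℚ) ((sideH n : ℚ) / ((2 * (n0 + 1) : ℕ) : ℚ)) 1 Z ∧
      CorE ((2 * (n0 + 1) : ℕ) : ℚ) ((sideH n' : ℚ) / ((2 * (n0 + 1) : ℕ) : ℚ)) 1 Q.transpose ∧
      ∀ cA cQ cZ : YoungDiagram, TT (XF n') cA → TT Q cQ → TT Z cZ →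
        TT (XF n) (addD (addD cA cQ) cZ) := by
  obtain ⟨Z, Q, z1, z2, z3, z4, z5⟩ := R
  have ha1 := area_wordF n hn
  have ha2 := area_wordF n' hn'
  rw [hW] at ha1
  rw [hW'] at ha2
  refine ⟨Z, Q, z1, by omega, ?_, ?_, ?_⟩
  · rw [hX]; exact z2
  · rw [hY]; exact z3
  · intro cA cQ cZ h1 h2 h3
    unfold XF at h1 ⊢
    rw [hW'] at h1
    rw [hW]
    exact z4 _ _ _ h1 h2 h3

/-- **The strip of `XF n` with child `XF n'`.** -/
theorem XF_strip {n n' n0 z : ℕ} (hn : n ≠ 2) (hn' : n' ≠ 2) (hn1 : 1 ≤ n) (hn1' : 1 ≤ n')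
    (hd : sideH n = sideH n' + 2 * (n0 + 1)) (h2s : 4 * (n0 + 1) ≤ sideH n)
    (hcc : (triN (sideH n) - n) % 2 = (triN (sideH n') - n') % 2)
    (h1 : sideH n % 2 = 0 → triN (sideH n) - n ≠ 1 ∧ triN (sideH n') - n' ≠ 1)
    (hy : 2 ≤ sideH n')
    (hz1 : XBase n n' n0 ≤ z + XW n n' n0) (hz2 : z ≤ XBase n n' n0 + XW n n' n0) :
    ∃ Z Q : YoungDiagram, Z.card = z ∧ n' + Q.card + z = n ∧
      CorE ((2 * (n0 + 1) : ℕ) : ℚ) ((sideH n : ℚ) / ((2 * (n0 + 1) : ℕ) : ℚ)) 1 Z ∧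
      CorE ((2 * (n0 + 1) : ℕ) : ℚ) ((sideH n' : ℚ) / ((2 * (n0 + 1) : ℕ) : ℚ)) 1 Q.transpose ∧
      ∀ cA cQ cZ : YoungDiagram, TT (XF n') cA → TT Q cQ → TT Z cZ →
        TT (XF n) (addD (addD cA cQ) cZ) := by
  have hc1 := c_lt_side hn1
  have hc2 := c_lt_side hn1'
  unfold XBase XW chainA chainH at hz1 hz2
  by_cases hx0 : sideH n % 2 = 0
  · have hy0 : sideH n' % 2 = 0 := by omega
    rw [if_pos hx0, if_pos hy0, if_pos hx0] at hz1 hz2
    by_cases hc0 : (triN (sideH n) - n) % 2 = 0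
    · have hc0' : (triN (sideH n') - n') % 2 = 0 := by omega
      rw [if_pos hc0, if_pos hc0'] at hz1 hz2
      have hW := wordF_chain_even hx0 hc0
      have hW' := wordF_chain_even hy0 hc0'
      generalize hc : triN (sideH n) - n = c at *
      generalize hc' : triN (sideH n') - n' = c' at *
      generalize hx : sideH n = x at *
      generalize hy2 : sideH n' = y at *
      obtain ⟨a, ha⟩ : ∃ a, a = (x - c) / 2 := ⟨_, rfl⟩
      obtain ⟨b, hb⟩ : ∃ b, b = c / 2 := ⟨_, rfl⟩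
      obtain ⟨a', ha'⟩ : ∃ a', a' = (y - c') / 2 := ⟨_, rfl⟩
      obtain ⟨b', hb'⟩ : ∃ b', b' = c' / 2 := ⟨_, rfl⟩
      rw [← ha] at hz1 hz2 hW
      rw [← hb] at hW
      rw [← ha'] at hz1 hz2 hW'
      rw [← hb'] at hW'
      have e1 : 2 * (a + b) = x := by omega
      have e2 : 2 * (a' + b') = y := by omega
      have e3 : x / 2 - 1 = a + b - 1 := by omega
      rw [e3, ← e1, ← e2] at hz1 hz2
      have R := XF_of_chain (n0 := n0) (z := z) hn hn' hW hW' (e1 ▸ hx) (e2 ▸ hy2)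
        (chain_strip_nil (by omega) (by omega) (by omega) hz1 hz2)
      rw [hx, hy2] at R
      exact R
    · have hc0' : ¬ (triN (sideH n') - n') % 2 = 0 := by omega
      rw [if_neg hc0, if_neg hc0'] at hz1 hz2
      have hc1' := (h1 hx0).1
      have hc2' := (h1 hx0).2
      have hW := wordF_chain_hard hx0 (by omega) hc1'
      have hW' := wordF_chain_hard hy0 (by omega) hc2'
      generalize hc : triN (sideH n) - n = c at *
      generalize hc' : triN (sideH n') - n' = c' at *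
      generalize hx : sideH n = x at *
      generalize hy2 : sideH n' = y at *
      obtain ⟨a, ha⟩ : ∃ a, a = (x - 2 - (c - 3)) / 2 := ⟨_, rfl⟩
      obtain ⟨b, hb⟩ : ∃ b, b = (c - 3) / 2 := ⟨_, rfl⟩
      obtain ⟨a', ha'⟩ : ∃ a', a' = (y - 2 - (c' - 3)) / 2 := ⟨_, rfl⟩
      obtain ⟨b', hb'⟩ : ∃ b', b' = (c' - 3) / 2 := ⟨_, rfl⟩
      rw [← ha] at hz1 hz2 hW
      rw [← hb] at hW
      rw [← ha'] at hz1 hz2 hW'
      rw [← hb'] at hW'
      have e1 : 2 * (a + b) + 2 = x := by omega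
      have e2 : 2 * (a' + b') + 2 = y := by omega
      have e3 : x / 2 - 1 = a + b := by omega
      rw [e3, ← e1, ← e2] at hz1 hz2
      have R := XF_of_chain (n0 := n0) (z := z) hn hn' hW hW' (e1 ▸ hx) (e2 ▸ hy2)
        (chain_strip_NN (by omega) (by omega) hz1 hz2)
      rw [hx, hy2] at R
      exact R
  · have hx1 : sideH n % 2 = 1 := by omega
    have hy1 : sideH n' % 2 = 1 := by omega
    have hy0 : ¬ sideH n' % 2 = 0 := by omega
    rw [if_neg hx0, if_neg hy0, if_neg hx0] at hz1 hz2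
    by_cases hc0 : (triN (sideH n) - n) % 2 = 1
    · have hc0' : (triN (sideH n') - n') % 2 = 1 := by omega
      rw [if_pos hc0, if_pos hc0', if_pos hc0] at hz1 hz2
      have hW := wordF_chain_odd hx1 hc0
      have hW' := wordF_chain_odd hy1 hc0'
      generalize hc : triN (sideH n) - n = c at *
      generalize hc' : triN (sideH n') - n' = c' at *
      generalize hx : sideH n = x at *
      generalize hy2 : sideH n' = y at *
      obtain ⟨a, ha⟩ : ∃ a, a = (x - c) / 2 := ⟨_, rfl⟩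
      obtain ⟨b, hb⟩ : ∃ b, b = (c - 1) / 2 := ⟨_, rfl⟩
      obtain ⟨a', ha'⟩ : ∃ a', a' = (y - c') / 2 := ⟨_, rfl⟩
      obtain ⟨b', hb'⟩ : ∃ b', b' = (c' - 1) / 2 := ⟨_, rfl⟩
      rw [← ha] at hz1 hz2 hW
      rw [← hb] at hW
      rw [← ha'] at hz1 hz2 hW'
      rw [← hb'] at hW'
      have e1 : 2 * (a + b) + 1 = x := by omega
      have e2 : 2 * (a' + b') + 1 = y := by omega
      have e3 : x / 2 = a + b := by omega
      rw [e3, ← e1, ← e2] at hz1 hz2
      have R := XF_of_chain (n0 := n0) (z := z) hn hn' hW hW' (e1 ▸ hx) (e2 ▸ hy2)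
        (chain_strip_NE (by omega) (by omega) hz1 hz2)
      rw [hx, hy2] at R
      exact R
    · have hc0' : ¬ (triN (sideH n') - n') % 2 = 1 := by omega
      rw [if_neg hc0, if_neg hc0', if_neg hc0] at hz1 hz2
      have hW := wordF_chain_mixed hx1 (by omega)
      have hW' := wordF_chain_mixed hy1 (by omega)
      generalize hc : triN (sideH n) - n = c at *
      generalize hc' : triN (sideH n') - n' = c' at *
      generalize hx : sideH n = x at *
      generalize hy2 : sideH n' = y at *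
      obtain ⟨a, ha⟩ : ∃ a, a = (x - c - 1) / 2 := ⟨_, rfl⟩
      obtain ⟨b, hb⟩ : ∃ b, b = c / 2 := ⟨_, rfl⟩
      obtain ⟨a', ha'⟩ : ∃ a', a' = (y - c' - 1) / 2 := ⟨_, rfl⟩
      obtain ⟨b', hb'⟩ : ∃ b', b' = c' / 2 := ⟨_, rfl⟩
      rw [← ha] at hz1 hz2 hW
      rw [← hb] at hW
      rw [← ha'] at hz1 hz2 hW'
      rw [← hb'] at hW'
      have e1 : 2 * (a + b) + 1 = x := by omega
      have e2 : 2 * (a' + b') + 1 = y := by omega
      have e3 : x / 2 - 1 = a + b - 1 := by omega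
      rw [e3, ← e1, ← e2] at hz1 hz2
      have R := XF_of_chain (n0 := n0) (z := z) hn hn' hW hW' (e1 ▸ hx) (e2 ▸ hy2)
        (chain_strip_EN (by omega) (by omega) (by omega) hz1 hz2)
      rw [hx, hy2] at R
      exact R

end Crest.Agent.Lib.Saxl
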