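import Crest.Agent.Lib.Saxl.Peel

/-!
# Saxl: height-one columns (R4 of the peel board)

`colsD (replicate m 1) = rowD m`, so a group of height-one columns is a row leaf:
every piece of size `m` hosts it with no hypothesis.
-/

set_option autoImplicit false

namespace Crest.Agent.Lib.Saxl

lemma card_filter_replicate_one (i m : ℕ) :
    (Multiset.filter (fun h => i < h) (Multiset.replicate m 1)).card = if i = 0 then m else 0 := by
  induction m with
  | zero => simp
  | succ m ih =>
    rw [Multiset.replicate_succ, Multiset.filter_cons]
    by_cases hi : i = 0
    · subst hi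
      simp only [zero_lt_one, if_true, Multiset.singleton_add, Multiset.card_cons] at *
      omega
    · have h1 : ¬ i < 1 := by omega
      simp only [h1, if_false, zero_add, hi] at *
      exact ih

/-- `m` columns of height one form the single row of length `m`. -/
theorem colsD_replicate_one (m : ℕ) : colsD (Multiset.replicate m 1) = rowD m := by
  apply ext_rowLen
  intro i
  rw [rowLen_colsD, card_filter_replicate_one]
  by_cases hi : i = 0
  · subst hi
    rw [rowLen_rowD_zero]
    simp
  · rw [if_neg hi]
    symm
    apply eq_of_forall_lt_iff
    intro j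
    rw [← YoungDiagram.mem_iff_lt_rowLen, mem_rowD]
    simp [hi]

/-- A piece hosts any number of height-one columns. -/
theorem TT.ones (Y : YoungDiagram) {m : ℕ} (h : Y.card = m) :
    TT Y (colsD (Multiset.replicate m 1)) := by
  rw [colsD_replicate_one, ← h]
  exact TT.row Y

/-- The class-level hosting statement for a group of height-one columns: no condition at all. -/
theorem Host.ones (μ E ρ₀ : ℚ) (m : ℕ) : Host μ E ρ₀ (Multiset.replicate m 1) := by
  intro Y hY
  refine TT.ones Y ?_
  have := hY.1
  simpa using this

/-- Sum of a list of diagrams. -/
def sumD : List YoungDiagram → YoungDiagram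
  | [] => ⊥
  | a :: l => addD a (sumD l)

lemma Q_bot : Q ⊥ ⊥ ⊥ := by
  have := Q.row (⊥ : YoungDiagram)
  have h : rowD (⊥ : YoungDiagram).card = ⊥ := by
    have h0 : (⊥ : YoungDiagram).card = 0 := rfl
    rw [h0, ← colsD_replicate_one]
    simp [colsD_zero]
  rwa [h] at this

/-- The columns `|Y_i|` of any list of tiles on the two sums. -/
theorem Q_sumD_cols (l : List YoungDiagram) :
    Q (sumD l) (sumD (l.map YoungDiagram.transpose)) (colsD ((l.map YoungDiagram.card : List ℕ) : Multiset ℕ)) := by
  induction l with
  | nil => simpa [sumD, colsD_zero] using Q_bot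
  | cons a l ih =>
    have h := Q.add (Q.col a) ih
    have h2 : colsD (((a :: l).map YoungDiagram.card : List ℕ) : Multiset ℕ)
        = addD (colD a.card) (colsD ((l.map YoungDiagram.card : List ℕ) : Multiset ℕ)) := by
      rw [← colsD_singleton, ← colsD_add]
      rfl
    rw [h2]
    simpa [sumD] using h

/-- **Balanced family lemma** (helper54 #1830, helper93 #1832): if the sum of the tiles equals the sum
of their conjugates, the sum hosts one column of height `|Y_i|` for each tile; no hypothesis on the
tiles, no parity. -/
theorem TT_sumD_of_balanced (l : List YoungDiagram)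
    (h : sumD (l.map YoungDiagram.transpose) = sumD l) :
    TT (sumD l) (colsD ((l.map YoungDiagram.card : List ℕ) : Multiset ℕ)) := by
  have := Q_sumD_cols l
  rwa [h] at this

end Crest.Agent.Lib.Saxl
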