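import Crest.Agent.Lib.Saxl.Strip2
import Crest.Agent.Lib.Saxl.Trim

/-!
# Saxl: single-column tiles at the pair level (helper79)

The two copies of `X` may use two different strips with the same `A`:
`X = (A + Q) ∪ Z = (A + Q₂) ∪ Z₂`.  A tile `Y` hosts one column of height `|Y|` on the pair
`(Y, Y')` (no hypothesis on `Y`), so if `Z = ΣY_i`, `Z₂ = ΣY_i'`, `Q' = ΣV_l`, `Q₂' = ΣV_l'`, the
strip hosts one column for each tile, with no palindromy, parity or self-conjugacy condition.
-/

set_option autoImplicit false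
set_option linter.unusedSectionVars false

namespace Crest.Agent.Lib.Saxl

/-- **Pair-level strip rule.** -/
theorem TT.strip2 (t t₂ : List (Bool × Bool))
    (hL : letters t = letters t₂) (hA : Awd t = Awd t₂)
    {cA cQ cZ : YoungDiagram}
    (hAT : TT (shape (Awd t)) cA)
    (hQ : Q (shape (Qwd t)) (shape (Qwd t₂)) cQ)
    (hZ : Q (shape (Zwd t)) (shape (Zwd t₂)) cZ) :
    TT (shape (letters t)) (addD (addD cA cQ) cZ) := by
  have h1 : Q (addD (shape (Awd t)) (shape (Qwd t))) (addD (shape (Awd t₂)) (shape (Qwd t₂)))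
      (addD cA cQ) := by
    rw [← hA]
    exact Q.add hAT hQ
  have h2 := Q.union12 h1 hZ
  rw [strip_eq t, strip_eq t₂, ← hL] at h2
  exact h2

/-- The tiles of the `Q'` part, read on `Q`. -/
theorem Q_of_sumD_transpose (l : List YoungDiagram) {a b : YoungDiagram}
    (ha : sumD l = a.transpose) (hb : sumD (l.map YoungDiagram.transpose) = b.transpose) :
    Q a b (colsD ((l.map YoungDiagram.card : List ℕ) : Multiset ℕ)) := by
  have h := (Q_sumD_cols l).conj12
  rw [ha, hb] at h
  simpa using h

/-- **Tile strip.**  Both copies of the strip are sums of the same tiles up to conjugation. -/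
theorem TT.tileStrip (t t₂ : List (Bool × Bool)) (lZ lQ : List YoungDiagram)
    (hL : letters t = letters t₂) (hA : Awd t = Awd t₂)
    (hZ₁ : sumD lZ = shape (Zwd t))
    (hZ₂ : sumD (lZ.map YoungDiagram.transpose) = shape (Zwd t₂))
    (hQ₁ : sumD lQ = (shape (Qwd t)).transpose)
    (hQ₂ : sumD (lQ.map YoungDiagram.transpose) = (shape (Qwd t₂)).transpose)
    {cA : YoungDiagram} (hAT : TT (shape (Awd t)) cA) :
    TT (shape (letters t)) (addD (addD cA
      (colsD ((lQ.map YoungDiagram.card : List ℕ) : Multiset ℕ)))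
      (colsD ((lZ.map YoungDiagram.card : List ℕ) : Multiset ℕ))) := by
  refine TT.strip2 t t₂ hL hA hAT (Q_of_sumD_transpose lQ hQ₁ hQ₂) ?_
  have := Q_sumD_cols lZ
  rwa [hZ₁, hZ₂] at this

end Crest.Agent.Lib.Saxl
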