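import Crest.Agent.Lib.Saxl.Strip3
import Crest.Agent.Lib.Saxl.TileStrip

/-!
# Saxl: the pair-level strip from two pairs of sorted lists (helper14)

`tag_of_lists` is the list form of `tw` with no corridor hypothesis: from a sorted list `V` of deleted
rows and a strictly sorted list `W` of deleted columns, a tagged word `t` with
`letters t = cwP P x`, `Awd t = cwP P' y`, `Zwd t = cwP (cnt V s) x`, and the column lengths of
`Qwd t` read off from the lists.

`TT_of_tags` feeds two such pairs into `TT.tileStrip`: all that is left to the user is arithmetic: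
the row sums and the column sums of two lists of tiles (`lZ`, `lQ`) equal the sorted lists.
No word manipulation is needed.
-/

set_option autoImplicit false
set_option linter.unusedSectionVars false

namespace Crest.Agent.Lib.Saxl

open Finset

/-- The data of one copy of the strip: the sorted lists `V` and `W` of the deleted rows and the deleted
columns for the parent `cwP P x` and the child `cwP P' y`. -/
structure TagData (x y s : ℕ) (V W P P' : ℕ → ℕ) : Prop where
  hxy : x = y + s
  hVm : ∀ i j, i ≤ j → j < s → V i ≤ V j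
  hVx : ∀ i, i < s → V i ≤ x
  hWm : ∀ i j, i < j → j < s → W i < W j
  hW1 : ∀ i, i < s → 1 ≤ W i
  hWx : ∀ i, i < s → W i ≤ x
  hρP : ∀ v, cnt V s v ≤ P v
  hK : ∀ v, P v - cnt V s v ≤ P (v + 1) - cnt V s (v + 1)
  hP'm : Monotone P'
  hkeep : ∀ v, v < x → cnt W s (v + 1) = cnt W s v → P v - cnt V s v = P' (v - cnt W s v)
  hPx : P x = x
  hP'y : P' y = y

/-- The tagged word of a `TagData`. -/
theorem tag_of_lists {x y s : ℕ} {V W P P' : ℕ → ℕ} (h : TagData x y s V W P P') :
    ∃ t : List (Bool × Bool), letters t = cwP P x ∧ Awd t = cwP P' y ∧ Zwd t = cwP (cnt V s) x ∧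
      (∀ j, j < s → (shape (Qwd t)).colLen j = y - (P (W j - 1) - cnt V s (W j - 1))) ∧
      (∀ j, s ≤ j → (shape (Qwd t)).colLen j = 0) := by
  obtain ⟨hxy, hVm, hVx, hWm, hW1, hWx, hρP, hK, hP'm, hkeep, hPx, hP'y⟩ := h
  set ρ : ℕ → ℕ := cnt V s with hρ
  set C : ℕ → ℕ := cnt W s with hC'
  set K : ℕ → ℕ := fun v => P v - ρ v with hK'
  have hρm : Monotone ρ := cnt_mono V s
  have hKm : Monotone K := monotone_nat_of_le_succ hK
  have hC0 : C 0 = 0 := cnt_zero hW1
  have hCs : ∀ v, C (v + 1) = C v ∨ C (v + 1) = C v + 1 := by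
    intro v
    rcases cnt_step hWm v with h | ⟨h, _⟩
    · exact Or.inl h
    · exact Or.inr h
  have hCle : ∀ v, C v ≤ v := by
    intro v
    induction v with
    | zero => omega
    | succ v ih => rcases hCs v with h | h <;> omega
  have hCx : C x = s := cnt_top hWx
  have hρx : ρ x = s := cnt_top hVx
  have hKx : K x = y := by
    simp only [hK']
    omega
  have hlet : (fun u => ρ u + K u) = P := by
    funext u
    have := hρP u
    simp only [hK']
    omega
  have hA : ACond K C P' x :=
    { C0 := hC0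
      Cstep := hCs
      Cle := hCle
      Kmono := hKm
      Pmono := hP'm
      keep := hkeep
      final := by
        rw [hKx, hCx]
        have : x - s = y := by omega
        rw [this, hP'y] }
  have hl : x - C x = y := by omega
  set t := tw ρ K C x with ht
  have hlt : letters t = cwP P x := by
    rw [ht, letters_tw hρm hKm, hlet]
  have hAw : Awd t = cwP P' y := by
    rw [ht, Awd_tw hA, hl]
  have hZw : Zwd t = cwP ρ x := Zwd_tw x
  refine ⟨t, hlt, hAw, hZw, ?_, ?_⟩
  · intro j hj
    have hW := hW1 j hj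
    have hW2 := hWx j hj
    obtain ⟨v, hv⟩ : ∃ v, W j = v + 1 := ⟨W j - 1, by omega⟩
    have h1 : C v = j := by
      have := cnt_rank_pred hWm hj hW
      rw [hv] at this
      simpa using this
    have h2 : C (v + 1) = C v + 1 := by
      have := cnt_rank hWm hj
      rw [hv] at this
      rw [h1]
      exact this
    have h3 := colLen_Qwd (ρ := ρ) hC0 hCs hKm (v := v) (x := x) (by omega) h2
    rw [h1, hKx] at h3
    rw [h3, hv]
    simp only [Nat.add_sub_cancel, hK']
  · intro j hj
    apply colLen_shape_of_le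
    rw [ht, nE_Qwd_tw hC0 hCs, hCx]
    exact hj

/-- The cells of the shape of a count. -/
lemma mem_shape_cnt_iff {V : ℕ → ℕ} {s x : ℕ} (hVm : ∀ i j, i ≤ j → j < s → V i ≤ V j)
    (hVx : ∀ i, i < s → V i ≤ x) (i j : ℕ) :
    (i, j) ∈ shape (cwP (cnt V s) x) ↔ i < s ∧ j < V (s - 1 - i) := by
  rw [YoungDiagram.mem_iff_lt_colLen]
  by_cases hj : j < x
  · rw [colLen_cwP (cnt_mono V s) x j hj, cnt_top hVx]
    obtain ⟨m, h0, h1, h2⟩ := exists_cnt_split hVm j
    rw [cnt_eq_below h0 h1 h2]
    constructor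
    · intro hi
      refine ⟨by omega, h2 _ (by omega) (by omega)⟩
    · rintro ⟨hi, h3⟩
      by_contra hc
      have := h1 (s - 1 - i) (by omega)
      omega
  · rw [colLen_cwP_of_le _ _ _ (not_lt.1 hj)]
    constructor
    · intro h0
      omega
    · rintro ⟨hi, h3⟩
      have := hVx (s - 1 - i) (by omega)
      omega

/-- The rows of the shape of a count. -/
lemma rowLen_shape_cnt {V : ℕ → ℕ} {s x : ℕ} (hVm : ∀ i j, i ≤ j → j < s → V i ≤ V j)
    (hVx : ∀ i, i < s → V i ≤ x) (i : ℕ) :
    (shape (cwP (cnt V s) x)).rowLen i = if i < s then V (s - 1 - i) else 0 := by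
  apply eq_of_forall_lt_iff
  intro j
  rw [← YoungDiagram.mem_iff_lt_rowLen, mem_shape_cnt_iff hVm hVx]
  split_ifs with hi
  · simp [hi]
  · simp [hi]

lemma rowLen_bot (i : ℕ) : (⊥ : YoungDiagram).rowLen i = 0 := by
  by_contra hc
  have h : (i, 0) ∈ (⊥ : YoungDiagram) := by
    rw [YoungDiagram.mem_iff_lt_rowLen]
    omega
  simp at h

/-- The rows of a sum of tiles. -/
lemma rowLen_sumD (l : List YoungDiagram) (i : ℕ) :
    (sumD l).rowLen i = (l.map fun Y => Y.rowLen i).sum := by
  induction l with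
  | nil => simpa [sumD] using rowLen_bot i
  | cons a l ih =>
    simp only [sumD, rowLen_addD, ih, List.map_cons, List.sum_cons]

/-- The columns of a sum of tiles, read as rows of the sum of the conjugates. -/
lemma rowLen_sumD_transpose (l : List YoungDiagram) (i : ℕ) :
    (sumD (l.map YoungDiagram.transpose)).rowLen i = (l.map fun Y => Y.colLen i).sum := by
  rw [rowLen_sumD, List.map_map]
  congr 1
  apply List.map_congr_left
  intro Y _
  simp [YoungDiagram.rowLen_transpose]

/-- **The tile strip from two pairs of sorted lists.** Everything left is arithmetic on the rows and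
the columns of the tiles. -/
theorem TT_of_tags {x y s : ℕ} {V W V₂ W₂ P P' : ℕ → ℕ}
    (h₁ : TagData x y s V W P P') (h₂ : TagData x y s V₂ W₂ P P')
    (lZ lQ : List YoungDiagram)
    (hZ₁ : ∀ i, (lZ.map fun Y => Y.rowLen i).sum = if i < s then V (s - 1 - i) else 0)
    (hZ₂ : ∀ i, (lZ.map fun Y => Y.colLen i).sum = if i < s then V₂ (s - 1 - i) else 0)
    (hQ₁ : ∀ j, (lQ.map fun Y => Y.rowLen j).sum =
      if j < s then y - (P (W j - 1) - cnt V s (W j - 1)) else 0)
    (hQ₂ : ∀ j, (lQ.map fun Y => Y.colLen j).sum =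
      if j < s then y - (P (W₂ j - 1) - cnt V₂ s (W₂ j - 1)) else 0)
    {cA : YoungDiagram} (hAT : TT (shape (cwP P' y)) cA) :
    TT (shape (cwP P x)) (addD (addD cA
      (colsD ((lQ.map YoungDiagram.card : List ℕ) : Multiset ℕ)))
      (colsD ((lZ.map YoungDiagram.card : List ℕ) : Multiset ℕ))) := by
  obtain ⟨t, hl, hA, hZ, hc, hc'⟩ := tag_of_lists h₁
  obtain ⟨t₂, hl₂, hA₂, hZ', hc₂, hc₂'⟩ := tag_of_lists h₂
  have key := TT.tileStrip t t₂ lZ lQ (by rw [hl, hl₂]) (by rw [hA, hA₂]) ?_ ?_ ?_ ?_
    (cA := cA) (by rw [hA]; exact hAT)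
  · rwa [hl] at key
  · apply ext_rowLen
    intro i
    rw [rowLen_sumD, hZ₁, hZ, rowLen_shape_cnt h₁.hVm h₁.hVx]
  · apply ext_rowLen
    intro i
    rw [rowLen_sumD_transpose, hZ₂, hZ', rowLen_shape_cnt h₂.hVm h₂.hVx]
  · apply ext_rowLen
    intro j
    rw [rowLen_sumD, hQ₁, YoungDiagram.rowLen_transpose]
    split_ifs with hj
    · rw [hc j hj]
    · rw [hc' j (not_lt.1 hj)]
  · apply ext_rowLen
    intro j
    rw [rowLen_sumD_transpose, hQ₂, YoungDiagram.rowLen_transpose]
    split_ifs with hj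
    · rw [hc₂ j hj]
    · rw [hc₂' j (not_lt.1 hj)]

end Crest.Agent.Lib.Saxl
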