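import Crest.Agent.Lib.Saxl.Strip8
import Crest.Agent.Lib.Saxl.TagLists

/-!
# Saxl: explicit lists for the strip of a chain parent, thick strips, step profiles

`chain_core_lists`: as `chain_core`, for any `s < x` (not only `2 s ≤ x`), with the two half lists `pL`,
`pR` chosen by the user in their boxes, and `Z`, `Q` explicit: `Z` has rows the sorted list
`glueV x a w r0 t0 n0 pL pR`, `Q` has columns read off from `glueW`.

`XF_data`: all the hypotheses of `chain_core_lists` for `XF n`, `XF n'`.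
`XF_strip_lists`: the strip of `XF n` with child `XF n'` for any lists in the boxes.
`exists_step`: a list in a box with a prescribed sum which is a step: the top of the box below `K`,
the bottom of the box above `K`.
`XF_strip_step`: every size `z` in the window is reached by lists which are steps.
-/

set_option autoImplicit false
set_option linter.unusedSectionVars false

namespace Crest.Agent.Lib.Saxl

open Finset

section thick
variable {x s n0 r0 t0 H : ℕ}

lemma gc_step1 (hs : 0 < s) (hsx : s ≤ x) (j : ℕ) : gc x s j + 1 ≤ gc x s (j + 1) := by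
  have h1 := gc_spec hs x j
  have h2 := gc_spec hs x (j + 1)
  by_contra hc
  have h3 : gc x s (j + 1) ≤ gc x s j := by omega
  have h4 : gc x s (j + 1) * s ≤ gc x s j * s := Nat.mul_le_mul_right _ h3
  nlinarith

lemma gc_mono1 (hs : 0 < s) (hsx : s ≤ x) {i j : ℕ} (h : i ≤ j) : gc x s i ≤ gc x s j := by
  induction j, h using Nat.le_induction with
  | base => exact le_rfl
  | succ j _ ih =>
    have := gc_step1 hs hsx j
    omega

lemma gc_two_le (hs : 0 < s) (hsx : s < x) (j : ℕ) : 2 ≤ gc x s (j + 1) := by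
  have h1 := (gc_spec hs x (j + 1)).1
  by_contra hc
  have h2 : gc x s (j + 1) ≤ 1 := by omega
  have h3 : gc x s (j + 1) * s ≤ 1 * s := Nat.mul_le_mul_right _ h2
  have h4 : x ≤ (j + 1) * x := Nat.le_mul_of_pos_left _ (by omega)
  omega

lemma loB_le_hiB1 (hs : 0 < s) (hsx : s < x) (hH : gc x s n0 ≤ H) {k : ℕ} (hk : k < n0) :
    loB x s r0 t0 k ≤ hiB x s r0 t0 H k := by
  unfold loB hiB
  have h1 := gc_step1 hs hsx.le k
  have h2 : gc x s (k + 1) + 1 ≤ gc x s (k + 2) := gc_step1 hs hsx.le (k + 1)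
  have h3 : gc x s (k + 1) ≤ H := (gc_mono1 hs hsx.le (show k + 1 ≤ n0 by omega)).trans hH
  have h4 := gc_two_le hs hsx k
  split_ifs with a b
  · have : 1 ≤ gc x s (k + 1) - 1 := by omega
    have : gc x s k ≤ gc x s (k + 1) - 1 := by omega
    exact max_le ‹_› ‹_›
  · exact le_min h3 (by omega)
  · exact le_rfl

lemma box_zone1 (hs : 0 < s) (hsx : s < x) (hH : gc x s n0 ≤ H) {k p : ℕ} (hk : k < n0)
    (h1 : loB x s r0 t0 k ≤ p) (h2 : p ≤ hiB x s r0 t0 H k) :
    InZone x s r0 t0 k p ∧ p ≤ H := by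
  have h3 : gc x s (k + 1) ≤ H := (gc_mono1 hs hsx.le (show k + 1 ≤ n0 by omega)).trans hH
  have g0 := gc_spec hs x k
  have g1 := gc_spec hs x (k + 1)
  have g2 := gc_spec hs x (k + 2)
  have g3 := gc_two_le hs hsx k
  have g4 := gc_two_le hs hsx (k + 1)
  unfold loB at h1
  unfold hiB at h2
  by_cases a : k < r0 ∧ k < t0
  · rw [if_pos a] at h1 h2
    have h4 := le_of_max_le_left h1
    have h5 := le_of_max_le_right h1
    refine ⟨Or.inl ⟨a.1, a.2, ?_, ?_, h4⟩, by omega⟩
    · exact g0.1.trans (Nat.mul_le_mul_right _ h5)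
    · have h6 : (p + 1) * s ≤ gc x s (k + 1) * s := Nat.mul_le_mul_right _ (by omega)
      nlinarith
  · rw [if_neg a] at h1 h2
    by_cases b : r0 ≤ k ∧ t0 ≤ k
    · rw [if_pos b] at h2
      have h4 := le_of_le_min_left h2
      have h5 := le_of_le_min_right h2
      refine ⟨Or.inr (Or.inr ⟨b.1, b.2, ?_, ?_⟩), h4⟩
      · exact g1.1.trans (Nat.mul_le_mul_right _ h1)
      · have h6 : (p + 1) * s ≤ gc x s (k + 2) * s := Nat.mul_le_mul_right _ (by omega)
        nlinarith
    · rw [if_neg b] at h2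
      have hp : p = gc x s (k + 1) := le_antisymm h2 h1
      subst hp
      refine ⟨Or.inr (Or.inl ⟨?_, g1.1, g1.2⟩), h3⟩
      omega

end thick

/-- All the hypotheses on the chain parent and the chain child. -/
structure ChainHyp (x y s n0 a a' h h' A B A' B' H f : ℕ) : Prop where
  hs : s = 2 * (n0 + 1)
  hxy : x = y + s
  hy : 0 < y
  hah : a ≤ h
  ha'h : a' ≤ h'
  hh' : h = h' + (n0 + 1)
  hxh : 2 * h ≤ x
  h2a : 2 * a ≤ x
  h2a' : 2 * a' ≤ y
  hHh : H ≤ h
  hHx : h + 1 + H ≤ x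
  hf : f = x - a ∨ (f = x - a + 1 ∧ a = h ∧ H < h)
  hfh : h + 1 ≤ f
  hfx : f ≤ x
  hgad : GadOK x h h' A B A' B' H f
  hgc : gc x s n0 ≤ H
  hPf1 : 1 ≤ x - a
  hPf2 : x - a ≠ B
  hP0 : ind B 0 ≤ ind A 0
  hPf1' : 1 ≤ y - a'
  hPf2' : y - a' ≠ B'
  hP0' : ind B' 0 ≤ ind A' 0
  hAx : A ≤ x
  hBx : B ≤ x
  hAy : A' ≤ y
  hBy : B' ≤ y

/-- **The strip of a chain parent, with explicit lists.** -/
theorem chain_core_lists {x y s n0 a a' h h' A B A' B' H f r0 t0 w : ℕ}
    (D : ChainHyp x y s n0 a a' h h' A B A' B' H f)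
    (hr : r0 = min n0 (a * s / x)) (ht : t0 = min n0 (a' * s / y)) (hw : w = a' + t0 + 1)
    {pL pR : ℕ → ℕ}
    (hpL : ∀ k, k < n0 → loB x s r0 t0 k ≤ pL k ∧ pL k ≤ hiB x s r0 t0 H k)
    (hpR : ∀ k, k < n0 → loB x s r0 t0 k ≤ pR k ∧ pR k ≤ hiB x s r0 t0 H k) :
    ∃ Z Q : YoungDiagram,
      (∀ i, Z.rowLen i = if i < s then glueV x a w r0 t0 n0 pL pR (s - 1 - i) else 0) ∧
      (∀ j, j < s → Q.colLen j = y - (PC a (x - a) A B (glueW x a w f r0 t0 n0 pL pR j - 1) -
        cnt (glueV x a w r0 t0 n0 pL pR) s (glueW x a w f r0 t0 n0 pL pR j - 1))) ∧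
      (∀ j, s ≤ j → Q.colLen j = 0) ∧
      Z.card + ∑ k ∈ range n0, pR k = ∑ k ∈ range n0, pL k + zBase x n0 r0 a w ∧
      CorE (s : ℚ) ((x : ℚ) / s) 1 Z ∧ CorE (s : ℚ) ((y : ℚ) / s) 1 Q.transpose ∧
      (∀ cA cQ cZ : YoungDiagram, TT (shape (cwP (PC a' (y - a') A' B') y)) cA → TT Q cQ → TT Z cZ →
        TT (shape (cwP (PC a (x - a) A B) x)) (addD (addD cA cQ) cZ)) ∧
      area (cwP (PC a (x - a) A B) x) = area (cwP (PC a' (y - a') A' B') y) + Q.card + Z.card := by
  obtain ⟨hs, hxy, hy, hah, ha'h, hh', hxh, h2a, h2a', hHh, hHx, hf, hfh, hfx, hgad, hgc, hPf1, hPf2,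
    hP0, hPf1', hPf2', hP0', hAx, hBx, hAy, hBy⟩ := D
  have hs0 : 0 < s := by omega
  have hx0 : 0 < x := by omega
  have hsx : s < x := by omega
  have hr0 : r0 ≤ n0 := by rw [hr]; exact min_le_left _ _
  have ht0 : t0 ≤ n0 := by rw [ht]; exact min_le_left _ _
  have hu : s = 2 * (n0 + 1) := hs
  -- the single row
  have he1 : r0 * x ≤ a * s := by
    have h1 : r0 ≤ a * s / x := by rw [hr]; exact min_le_right _ _
    exact (Nat.mul_le_mul_right _ h1).trans (Nat.div_mul_le_self _ _)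
  have he3 : r0 < n0 → a * s < (r0 + 1) * x := by
    intro h1
    have h2 : r0 = a * s / x := by
      rw [hr] at h1 ⊢
      exact min_eq_right (by
        by_contra hc
        rw [min_eq_left (by omega)] at h1
        omega)
    rw [h2, Nat.mul_comm _ x]
    exact Nat.lt_mul_div_succ _ hx0
  have he2 : a * s ≤ (r0 + 1) * x := by
    by_cases h1 : r0 < n0
    · exact (he3 h1).le
    · have h2 : r0 = n0 := by omega
      rw [h2, hu]
      nlinarith
  -- the single column
  have hw4 : a' * s ≤ (t0 + 1) * y := by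
    by_cases h1 : t0 < n0
    · have h2 : t0 = a' * s / y := by
        rw [ht] at h1 ⊢
        exact min_eq_right (by
          by_contra hc
          rw [min_eq_left (by omega)] at h1
          omega)
      rw [h2, Nat.mul_comm _ y]
      exact (Nat.lt_mul_div_succ _ hy).le
    · have h2 : t0 = n0 := by omega
      rw [h2, hu]
      nlinarith
  have hw5 : t0 < n0 → a' * s < (t0 + 1) * y := by
    intro h1
    have h2 : t0 = a' * s / y := by
      rw [ht] at h1 ⊢
      exact min_eq_right (by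
        by_contra hc
        rw [min_eq_left (by omega)] at h1
        omega)
    rw [h2, Nat.mul_comm _ y]
    exact Nat.lt_mul_div_succ _ hy
  have hw6 : t0 * y ≤ a' * s := by
    have h1 : t0 ≤ a' * s / y := by rw [ht]; exact min_le_right _ _
    exact (Nat.mul_le_mul_right _ h1).trans (Nat.div_mul_le_self _ _)
  have hwe : w * s = a' * s + t0 * s + s := by rw [hw]; ring
  have hxe : ∀ j : ℕ, j * x = j * y + j * s := by
    intro j
    rw [hxy]
    ring
  have hw1' : t0 * x + s ≤ w * s := by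
    rw [hxe, hwe]
    omega
  have hw1 : t0 * x ≤ w * s := by omega
  have hw7 : w * s ≤ (t0 + 1) * x := by
    rw [hxe, hwe]
    have : (t0 + 1) * s = t0 * s + s := by ring
    omega
  have hw3 : t0 < n0 → w * s < (t0 + 1) * x := by
    intro h1
    have h2 := hw5 h1
    rw [hxe, hwe]
    have : (t0 + 1) * s = t0 * s + s := by ring
    omega
  have hw2 : w * s ≤ (t0 + 1) * x + s := by omega
  have hwh : w ≤ h := by omega
  have hhalf : ∀ p : ℕ → ℕ, (∀ k, k < n0 → loB x s r0 t0 k ≤ p k ∧ p k ≤ hiB x s r0 t0 H k) →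
      HalfOK x s n0 r0 t0 a w H p := by
    intro p hp
    apply HalfOK_of_zones hs0 (by omega) he1 he3 hw1' hw3
    · intro k hk
      exact (box_zone1 hs0 hsx hgc hk (hp k hk).1 (hp k hk).2).1
    · intro k hk
      exact (box_zone1 hs0 hsx hgc hk (hp k hk).1 (hp k hk).2).2
  have hL := hhalf pL hpL
  have hR := hhalf pR hpR
  have hPf := PC_add (e := a) hPf1 hPf2 hP0
  have hP'f := PC_add (e := a') hPf1' hPf2' hP0'
  have hPx : PC a (x - a) A B x = x := by
    have h1 := hPf x
    rw [ind_of_le (by omega : x - a ≤ x), ind_of_le (by omega : a ≤ x), ind_of_le hAx,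
      ind_of_le hBx] at h1
    omega
  have hP'y : PC a' (y - a') A' B' y = y := by
    have h1 := hP'f y
    rw [ind_of_le (by omega : y - a' ≤ y), ind_of_le (by omega : a' ≤ y), ind_of_le hAy,
      ind_of_le hBy] at h1
    omega
  obtain ⟨Z, Q, z0, z1, z2, z3, z4, z5⟩ := strip_glue_full (x := x) (y := y) (s := s) (n0 := n0)
    (r0 := r0) (t0 := t0) (e := a) (w := w) (h := h) (h' := h') (f := f) (f0 := x - a) (a' := a')
    (A := A) (B := B) (A' := A') (B' := B') (H := H) (pL := pL) (pR := pR) (P := PC a (x - a) A B)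
    (P' := PC a' (y - a') A' B') hs hxy hy (by omega) hL hR hr0 ht0 he1 he2 hw1 hw2 hw hwh hah hHh hHx
    hxh rfl (by
      rcases hf with g | ⟨g1, g2, g3⟩
      · exact Or.inl g
      · exact Or.inr ⟨g1, by omega, by omega⟩) hfh hfx hh' hgad hPf hP'f
    (PC_mono hPf1' hPf2' hP0') hPx hP'y
  obtain ⟨v1, v2, v3, v4, v5⟩ := z0 _ _ rfl rfl
  refine ⟨Z, Q, ?_, v4, v5, ?_, z2, z3, z4, z5⟩
  · intro i
    rw [v3]
    exact rowLen_shape_cnt v1 v2 i
  · have h1 := sum_mir (x := x) (e := a) (r0 := r0) (n0 := n0) (p := pR) hr0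
      (fun k hk => (hR.pH k hk).trans (by omega)) hR.oe1 hR.oe2
    rw [z1]
    unfold zBase
    omega

/-- `s < x` and the last pinned point in the nil case. -/
lemma gc_le_nil {h n0 : ℕ} (hn : n0 + 1 ≤ h) : gc (2 * h) (2 * (n0 + 1)) n0 ≤ h - 1 := by
  have hs : 0 < 2 * (n0 + 1) := by omega
  have h1 := (gc_spec hs (2 * h) n0).2
  by_contra hc
  have h2 : h * (2 * (n0 + 1)) ≤ gc (2 * h) (2 * (n0 + 1)) n0 * (2 * (n0 + 1)) :=
    Nat.mul_le_mul_right _ (by omega)
  nlinarith

lemma gc_le_NE {h n0 : ℕ} (hn : n0 ≤ h) : gc (2 * h + 1) (2 * (n0 + 1)) n0 ≤ h := by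
  have hs : 0 < 2 * (n0 + 1) := by omega
  have h1 := (gc_spec hs (2 * h + 1) n0).2
  by_contra hc
  have h2 : (h + 1) * (2 * (n0 + 1)) ≤ gc (2 * h + 1) (2 * (n0 + 1)) n0 * (2 * (n0 + 1)) :=
    Nat.mul_le_mul_right _ (by omega)
  nlinarith

lemma gc_le_EN {h n0 : ℕ} (hn : 3 * n0 + 2 ≤ 2 * h) : gc (2 * h + 1) (2 * (n0 + 1)) n0 ≤ h - 1 := by
  have hs : 0 < 2 * (n0 + 1) := by omega
  have h1 := (gc_spec hs (2 * h + 1) n0).2
  by_contra hc
  have h2 : h * (2 * (n0 + 1)) ≤ gc (2 * h + 1) (2 * (n0 + 1)) n0 * (2 * (n0 + 1)) :=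
    Nat.mul_le_mul_right _ (by omega)
  nlinarith

lemma gc_le_NN {h n0 : ℕ} (hn : n0 ≤ h) : gc (2 * h + 2) (2 * (n0 + 1)) n0 ≤ h := by
  have hs : 0 < 2 * (n0 + 1) := by omega
  have h1 := (gc_spec hs (2 * h + 2) n0).2
  by_contra hc
  have h2 : (h + 1) * (2 * (n0 + 1)) ≤ gc (2 * h + 2) (2 * (n0 + 1)) n0 * (2 * (n0 + 1)) :=
    Nat.mul_le_mul_right _ (by omega)
  nlinarith

lemma chainHyp_nil {a b a' b' n0 : ℕ} (hh : a + b = a' + b' + (n0 + 1)) (hy : 0 < a' + b') :
    ∃ f, ChainHyp (2 * (a + b)) (2 * (a' + b')) (2 * (n0 + 1)) n0 a a' (a + b) (a' + b') 0 0 0 0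
      (a + b - 1) f := by
  obtain ⟨f, f1, f2, f3⟩ : ∃ f, (f = 2 * (a + b) - a ∨ (f = 2 * (a + b) - a + 1 ∧ a = a + b ∧
      a + b - 1 < a + b)) ∧ a + b + 1 ≤ f ∧ f ≤ 2 * (a + b) := by
    by_cases hb : b = 0
    · exact ⟨2 * (a + b) - a + 1, Or.inr ⟨rfl, by omega, by omega⟩, by omega, by omega⟩
    · exact ⟨2 * (a + b) - a, Or.inl rfl, by omega, by omega⟩
  exact ⟨f, rfl, by omega, by omega, by omega, by omega, by omega, le_rfl, by omega, by omega,
    by omega, by omega, f1, f2, f3, Or.inl ⟨rfl, rfl, rfl, rfl⟩, gc_le_nil (by omega), by omega,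
    by omega, le_rfl, by omega, by omega, le_rfl, by omega, by omega, by omega, by omega⟩

lemma chainHyp_NE {a b a' b' n0 : ℕ} (hh : a + b = a' + b' + (n0 + 1)) :
    ∃ f, ChainHyp (2 * (a + b) + 1) (2 * (a' + b') + 1) (2 * (n0 + 1)) n0 a a' (a + b) (a' + b')
      0 0 0 0 (a + b) f :=
  ⟨2 * (a + b) + 1 - a, rfl, by omega, by omega, by omega, by omega, by omega, by omega, by omega,
    by omega, by omega, by omega, Or.inl rfl, by omega, by omega, Or.inl ⟨rfl, rfl, rfl, rfl⟩,
    gc_le_NE (by omega), by omega, by omega, le_rfl, by omega, by omega, le_rfl, by omega, by omega,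
    by omega, by omega⟩

lemma chainHyp_EN {a b a' b' n0 : ℕ} (hh : a + b = a' + b' + (n0 + 1)) (hy : 0 < a' + b')
    (h3 : 3 * n0 + 2 ≤ 2 * (a + b)) :
    ∃ f, ChainHyp (2 * (a + b) + 1) (2 * (a' + b') + 1) (2 * (n0 + 1)) n0 a a' (a + b) (a' + b')
      (a + b + 1) (a + b) (a' + b' + 1) (a' + b') (a + b - 1) f := by
  obtain ⟨f, f1, f2, f3⟩ : ∃ f, (f = 2 * (a + b) + 1 - a ∨ (f = 2 * (a + b) + 1 - a + 1 ∧ a = a + b ∧
      a + b - 1 < a + b)) ∧ a + b + 2 ≤ f ∧ f ≤ 2 * (a + b) + 1 := by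
    by_cases hb : b = 0
    · exact ⟨2 * (a + b) + 1 - a + 1, Or.inr ⟨rfl, by omega, by omega⟩, by omega, by omega⟩
    · exact ⟨2 * (a + b) + 1 - a, Or.inl rfl, by omega, by omega⟩
  have hb1 : ind (a + b) 0 = 0 := ind_of_lt (by omega)
  have hb2 : ind (a' + b') 0 = 0 := ind_of_lt (by omega)
  exact ⟨f, rfl, by omega, by omega, by omega, by omega, by omega, by omega, by omega, by omega,
    by omega, by omega, f1, by omega, f3,
    Or.inr (Or.inl ⟨rfl, rfl, rfl, rfl, by omega, by omega, by omega, by omega⟩),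
    gc_le_EN h3, by omega, by omega, by omega, by omega, by omega, by omega, by omega, by omega,
    by omega, by omega⟩

lemma chainHyp_NN {a b a' b' n0 : ℕ} (hh : a + b = a' + b' + (n0 + 1)) :
    ∃ f, ChainHyp (2 * (a + b) + 2) (2 * (a' + b') + 2) (2 * (n0 + 1)) n0 a a' (a + b) (a' + b')
      (a + b) (a + b + 1) (a' + b') (a' + b' + 1) (a + b) f := by
  have hb1 : ind (a + b + 1) 0 = 0 := ind_of_lt (by omega)
  have hb2 : ind (a' + b' + 1) 0 = 0 := ind_of_lt (by omega)
  exact ⟨2 * (a + b) + 2 - a, rfl, by omega, by omega, by omega, by omega, by omega, by omega,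
    by omega, by omega, by omega, by omega, Or.inl rfl, by omega, by omega,
    Or.inr (Or.inr ⟨rfl, rfl, rfl, rfl, by omega, by omega, by omega⟩),
    gc_le_NN (by omega), by omega, by omega, by omega, by omega, by omega, by omega, by omega,
    by omega, by omega, by omega⟩

/-- The data of the strip of `XF n` with child `XF n'`. -/
structure XFData (n n' n0 h h' A B A' B' f : ℕ) : Prop where
  hyp : ChainHyp (sideH n) (sideH n') (2 * (n0 + 1)) n0 (chainA n) (chainA n') h h' A B A' B'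
    (chainH n) f
  w1 : wordF n = cwP (PC (chainA n) (sideH n - chainA n) A B) (sideH n)
  w2 : wordF n' = cwP (PC (chainA n') (sideH n' - chainA n') A' B') (sideH n')
  a1 : area (wordF n) = n
  a2 : area (wordF n') = n'

lemma XFData_of {n n' n0 h h' A B A' B' f x y a a' H : ℕ} (hx : sideH n = x) (hy : sideH n' = y)
    (hA : chainA n = a) (hA' : chainA n' = a') (hH : chainH n = H)
    (a1 : area (wordF n) = n) (a2 : area (wordF n') = n')
    (hyp : ChainHyp x y (2 * (n0 + 1)) n0 a a' h h' A B A' B' H f)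
    (w1 : wordF n = cwP (PC a (x - a) A B) x) (w2 : wordF n' = cwP (PC a' (y - a') A' B') y) :
    XFData n n' n0 h h' A B A' B' f := by
  subst hx hy hA hA' hH
  exact ⟨hyp, w1, w2, a1, a2⟩

/-- **`XF n` and `XF n'` are chains with the same centre.** -/
theorem XF_data {n n' n0 : ℕ} (hn : n ≠ 2) (hn' : n' ≠ 2) (hn1 : 1 ≤ n) (hn1' : 1 ≤ n')
    (hd : sideH n = sideH n' + 2 * (n0 + 1))
    (hcc : (triN (sideH n) - n) % 2 = (triN (sideH n') - n') % 2)
    (h1 : sideH n % 2 = 0 → triN (sideH n) - n ≠ 1 ∧ triN (sideH n') - n' ≠ 1)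
    (hy : 2 ≤ sideH n')
    (hEN : sideH n % 2 = 1 → (triN (sideH n) - n) % 2 = 0 → 3 * (2 * (n0 + 1)) ≤ 2 * sideH n) :
    ∃ h h' A B A' B' f, XFData n n' n0 h h' A B A' B' f := by
  have hc1 := c_lt_side hn1
  have hc2 := c_lt_side hn1'
  have a1 := area_wordF n hn
  have a2 := area_wordF n' hn'
  by_cases hx0 : sideH n % 2 = 0
  · have hy0 : sideH n' % 2 = 0 := by omega
    have eH : chainH n = sideH n / 2 - 1 := by unfold chainH; rw [if_pos hx0]
    by_cases hc0 : (triN (sideH n) - n) % 2 = 0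
    · have hc0' : (triN (sideH n') - n') % 2 = 0 := by omega
      have eA : chainA n = (sideH n - (triN (sideH n) - n)) / 2 := by
        unfold chainA; rw [if_pos hx0, if_pos hc0]
      have eA' : chainA n' = (sideH n' - (triN (sideH n') - n')) / 2 := by
        unfold chainA; rw [if_pos hy0, if_pos hc0']
      have hW := wordF_chain_even hx0 hc0
      have hW' := wordF_chain_even hy0 hc0'
      generalize hc : triN (sideH n) - n = c at *
      generalize hc' : triN (sideH n') - n' = c' at *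
      generalize hx : sideH n = x at *
      generalize hy2 : sideH n' = y at *
      obtain ⟨a, ha⟩ : ∃ a, a = (x - c) / 2 := ⟨_, rfl⟩
      obtain ⟨b, hb⟩ : ∃ b, b = c / 2 := ⟨_, rfl⟩
      obtain ⟨a', ha'⟩ : ∃ a', a' = (y - c') / 2 := ⟨_, rfl⟩
      obtain ⟨b', hb'⟩ : ∃ b', b' = c' / 2 := ⟨_, rfl⟩
      rw [← ha, ← hb] at hW
      rw [← ha', ← hb'] at hW'
      rw [← ha] at eA
      rw [← ha'] at eA'
      have e1 : x = 2 * (a + b) := by omega
      have e2 : y = 2 * (a' + b') := by omega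
      have e3 : chainH n = a + b - 1 := by rw [eH]; omega
      obtain ⟨f, hf⟩ := chainHyp_nil (a := a) (b := b) (a' := a') (b' := b') (n0 := n0) (by omega)
        (by omega)
      rw [← e1, ← e2] at hf
      refine ⟨_, _, _, _, _, _, f, XFData_of hx hy2 eA eA' e3 a1 a2 hf ?_ ?_⟩
      · rw [hW, chain_nil_eq, ← e1]
      · rw [hW', chain_nil_eq, ← e2]
    · have hc0' : ¬ (triN (sideH n') - n') % 2 = 0 := by omega
      have eA : chainA n = (sideH n - 2 - ((triN (sideH n) - n) - 3)) / 2 := by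
        unfold chainA; rw [if_pos hx0, if_neg hc0]
      have eA' : chainA n' = (sideH n' - 2 - ((triN (sideH n') - n') - 3)) / 2 := by
        unfold chainA; rw [if_pos hy0, if_neg hc0']
      have hc1' := (h1 hx0).1
      have hc2' := (h1 hx0).2
      have hW := wordF_chain_hard hx0 (by omega) hc1'
      have hW' := wordF_chain_hard hy0 (by omega) hc2'
      generalize hc : triN (sideH n) - n = c at *
      generalize hc' : triN (sideH n') - n' = c' at *
      generalize hx : sideH n = x at *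
      generalize hy2 : sideH n' = y at *
      obtain ⟨a, ha⟩ : ∃ a, a = (x - 2 - (c - 3)) / 2 := ⟨_, rfl⟩
      obtain ⟨b, hb⟩ : ∃ b, b = (c - 3) / 2 := ⟨_, rfl⟩
      obtain ⟨a', ha'⟩ : ∃ a', a' = (y - 2 - (c' - 3)) / 2 := ⟨_, rfl⟩
      obtain ⟨b', hb'⟩ : ∃ b', b' = (c' - 3) / 2 := ⟨_, rfl⟩
      rw [← ha, ← hb] at hW
      rw [← ha', ← hb'] at hW'
      rw [← ha] at eA
      rw [← ha'] at eA'
      have e1 : x = 2 * (a + b) + 2 := by omega
      have e2 : y = 2 * (a' + b') + 2 := by omega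
      have e3 : chainH n = a + b := by rw [eH]; omega
      obtain ⟨f, hf⟩ := chainHyp_NN (a := a) (b := b) (a' := a') (b' := b') (n0 := n0) (by omega)
      rw [← e1, ← e2] at hf
      refine ⟨_, _, _, _, _, _, f, XFData_of hx hy2 eA eA' e3 a1 a2 hf ?_ ?_⟩
      · rw [hW, chain_NN_eq, ← e1]
      · rw [hW', chain_NN_eq, ← e2]
  · have hx1 : sideH n % 2 = 1 := by omega
    have hy1 : sideH n' % 2 = 1 := by omega
    have hy0 : ¬ sideH n' % 2 = 0 := by omega
    by_cases hc0 : (triN (sideH n) - n) % 2 = 1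
    · have hc0' : (triN (sideH n') - n') % 2 = 1 := by omega
      have eH : chainH n = sideH n / 2 := by unfold chainH; rw [if_neg hx0, if_pos hc0]
      have eA : chainA n = (sideH n - (triN (sideH n) - n)) / 2 := by
        unfold chainA; rw [if_neg hx0, if_pos hc0]
      have eA' : chainA n' = (sideH n' - (triN (sideH n') - n')) / 2 := by
        unfold chainA; rw [if_neg hy0, if_pos hc0']
      have hW := wordF_chain_odd hx1 hc0
      have hW' := wordF_chain_odd hy1 hc0'
      generalize hc : triN (sideH n) - n = c at *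
      generalize hc' : triN (sideH n') - n' = c' at *
      generalize hx : sideH n = x at *
      generalize hy2 : sideH n' = y at *
      obtain ⟨a, ha⟩ : ∃ a, a = (x - c) / 2 := ⟨_, rfl⟩
      obtain ⟨b, hb⟩ : ∃ b, b = (c - 1) / 2 := ⟨_, rfl⟩
      obtain ⟨a', ha'⟩ : ∃ a', a' = (y - c') / 2 := ⟨_, rfl⟩
      obtain ⟨b', hb'⟩ : ∃ b', b' = (c' - 1) / 2 := ⟨_, rfl⟩
      rw [← ha, ← hb] at hW
      rw [← ha', ← hb'] at hW'
      rw [← ha] at eA
      rw [← ha'] at eA'
      have e1 : x = 2 * (a + b) + 1 := by omega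
      have e2 : y = 2 * (a' + b') + 1 := by omega
      have e3 : chainH n = a + b := by rw [eH]; omega
      obtain ⟨f, hf⟩ := chainHyp_NE (a := a) (b := b) (a' := a') (b' := b') (n0 := n0) (by omega)
      rw [← e1, ← e2] at hf
      refine ⟨_, _, _, _, _, _, f, XFData_of hx hy2 eA eA' e3 a1 a2 hf ?_ ?_⟩
      · rw [hW, chain_NE_eq, ← e1]
      · rw [hW', chain_NE_eq, ← e2]
    · have hc0' : ¬ (triN (sideH n') - n') % 2 = 1 := by omega
      have eH : chainH n = sideH n / 2 - 1 := by unfold chainH; rw [if_neg hx0, if_neg hc0]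
      have eA : chainA n = (sideH n - (triN (sideH n) - n) - 1) / 2 := by
        unfold chainA; rw [if_neg hx0, if_neg hc0]
      have eA' : chainA n' = (sideH n' - (triN (sideH n') - n') - 1) / 2 := by
        unfold chainA; rw [if_neg hy0, if_neg hc0']
      have hEN' := hEN hx1 (by omega)
      have hW := wordF_chain_mixed hx1 (by omega)
      have hW' := wordF_chain_mixed hy1 (by omega)
      generalize hc : triN (sideH n) - n = c at *
      generalize hc' : triN (sideH n') - n' = c' at *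
      generalize hx : sideH n = x at *
      generalize hy2 : sideH n' = y at *
      obtain ⟨a, ha⟩ : ∃ a, a = (x - c - 1) / 2 := ⟨_, rfl⟩
      obtain ⟨b, hb⟩ : ∃ b, b = c / 2 := ⟨_, rfl⟩
      obtain ⟨a', ha'⟩ : ∃ a', a' = (y - c' - 1) / 2 := ⟨_, rfl⟩
      obtain ⟨b', hb'⟩ : ∃ b', b' = c' / 2 := ⟨_, rfl⟩
      rw [← ha, ← hb] at hW
      rw [← ha', ← hb'] at hW'
      rw [← ha] at eA
      rw [← ha'] at eA'
      have e1 : x = 2 * (a + b) + 1 := by omega
      have e2 : y = 2 * (a' + b') + 1 := by omega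
      have e3 : chainH n = a + b - 1 := by rw [eH]; omega
      obtain ⟨f, hf⟩ := chainHyp_EN (a := a) (b := b) (a' := a') (b' := b') (n0 := n0) (by omega)
        (by omega) (by omega)
      rw [← e1, ← e2] at hf
      refine ⟨_, _, _, _, _, _, f, XFData_of hx hy2 eA eA' e3 a1 a2 hf ?_ ?_⟩
      · rw [hW, chain_EN_eq, ← e1]
      · rw [hW', chain_EN_eq, ← e2]

/-- **The strip of `XF n` with child `XF n'`, any lists in the boxes.**
`r0 = min n0 (chainA n * s / x)`, `t0 = min n0 (chainA n' * s / y)`, `w = chainA n' + t0 + 1`.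
`Z` has rows `glueV (s - 1 - i)`, `Q` has columns given by `glueW`. -/
theorem XF_strip_lists {n n' n0 h h' A B A' B' f r0 t0 w : ℕ}
    (D : XFData n n' n0 h h' A B A' B' f)
    (hr : r0 = min n0 (chainA n * (2 * (n0 + 1)) / sideH n))
    (ht : t0 = min n0 (chainA n' * (2 * (n0 + 1)) / sideH n')) (hw : w = chainA n' + t0 + 1)
    {pL pR : ℕ → ℕ}
    (hpL : ∀ k, k < n0 → loB (sideH n) (2 * (n0 + 1)) r0 t0 k ≤ pL k ∧
      pL k ≤ hiB (sideH n) (2 * (n0 + 1)) r0 t0 (chainH n) k)
    (hpR : ∀ k, k < n0 → loB (sideH n) (2 * (n0 + 1)) r0 t0 k ≤ pR k ∧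
      pR k ≤ hiB (sideH n) (2 * (n0 + 1)) r0 t0 (chainH n) k) :
    ∃ Z Q : YoungDiagram,
      (∀ i, Z.rowLen i = if i < 2 * (n0 + 1) then
        glueV (sideH n) (chainA n) w r0 t0 n0 pL pR (2 * (n0 + 1) - 1 - i) else 0) ∧
      (∀ j, j < 2 * (n0 + 1) → Q.colLen j = sideH n' -
        (PC (chainA n) (sideH n - chainA n) A B (glueW (sideH n) (chainA n) w f r0 t0 n0 pL pR j - 1) -
        cnt (glueV (sideH n) (chainA n) w r0 t0 n0 pL pR) (2 * (n0 + 1))
          (glueW (sideH n) (chainA n) w f r0 t0 n0 pL pR j - 1))) ∧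
      (∀ j, 2 * (n0 + 1) ≤ j → Q.colLen j = 0) ∧
      Z.card + ∑ k ∈ range n0, pR k = ∑ k ∈ range n0, pL k + zBase (sideH n) n0 r0 (chainA n) w ∧
      n' + Q.card + Z.card = n ∧
      CorE ((2 * (n0 + 1) : ℕ) : ℚ) ((sideH n : ℚ) / ((2 * (n0 + 1) : ℕ) : ℚ)) 1 Z ∧
      CorE ((2 * (n0 + 1) : ℕ) : ℚ) ((sideH n' : ℚ) / ((2 * (n0 + 1) : ℕ) : ℚ)) 1 Q.transpose ∧
      ∀ cA cQ cZ : YoungDiagram, TT (XF n') cA → TT Q cQ → TT Z cZ →
        TT (XF n) (addD (addD cA cQ) cZ) := by
  obtain ⟨Z, Q, z1, z2, z3, z4, z5, z6, z7, z8⟩ := chain_core_lists D.hyp hr ht hw hpL hpR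
  refine ⟨Z, Q, z1, z2, z3, z4, ?_, z5, z6, ?_⟩
  · have h1 := D.a1
    have h2 := D.a2
    rw [D.w1] at h1
    rw [D.w2] at h2
    omega
  · intro cA cQ cZ h1 h2 h3
    unfold XF at h1 ⊢
    rw [D.w2] at h1
    rw [D.w1]
    exact z7 _ _ _ h1 h2 h3

/-- A step: the top of the box below `K`, `v` at `K`, the bottom of the box above `K`. -/
def stepL (lo hi : ℕ → ℕ) (K v k : ℕ) : ℕ := if k < K then hi k else if k = K then v else lo k

/-- **A list in a box with a prescribed sum, which is a step.** -/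
theorem exists_step (lo hi : ℕ → ℕ) (n : ℕ) (h : ∀ k, k < n → lo k ≤ hi k) (T : ℕ)
    (h1 : ∑ k ∈ range n, lo k ≤ T) (h2 : T ≤ ∑ k ∈ range n, hi k) :
    ∃ K v, (∀ k, k < n → lo k ≤ stepL lo hi K v k ∧ stepL lo hi K v k ≤ hi k) ∧
      ∑ k ∈ range n, stepL lo hi K v k = T := by
  induction n generalizing T with
  | zero =>
    refine ⟨0, 0, fun k hk => by omega, ?_⟩
    simp at h1 h2 ⊢
    omega
  | succ n ih =>
    rw [sum_range_succ] at h1 h2
    have hn := h n (by omega)
    by_cases c : T ≤ ∑ k ∈ range n, hi k + lo n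
    · -- the last entry at the bottom
      obtain ⟨K, v, h3, h4⟩ := ih (fun k hk => h k (by omega)) (T - lo n) (by omega) (by omega)
      by_cases hK : K < n
      · refine ⟨K, v, ?_, ?_⟩
        · intro k hk
          by_cases e : k = n
          · subst e
            unfold stepL
            rw [if_neg (by omega), if_neg (by omega)]
            exact ⟨le_rfl, hn⟩
          · exact h3 k (by omega)
        · rw [sum_range_succ, h4]
          unfold stepL
          rw [if_neg (by omega), if_neg (by omega)]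
          omega
      · -- `K ≥ n`: all the entries below `n` at the top
        have e1 : ∑ k ∈ range n, stepL lo hi K v k = ∑ k ∈ range n, hi k := by
          apply sum_congr rfl
          intro k hk
          have hk' := mem_range.1 hk
          unfold stepL
          rw [if_pos (by omega)]
        refine ⟨n, lo n, ?_, ?_⟩
        · intro k hk
          unfold stepL
          by_cases e : k < n
          · rw [if_pos e]
            exact ⟨h k hk, le_rfl⟩
          · rw [if_neg e, if_pos (by omega)]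
            have : k = n := by omega
            subst this
            exact ⟨le_rfl, hn⟩
        · rw [sum_range_succ]
          have e2 : ∑ k ∈ range n, stepL lo hi n (lo n) k = ∑ k ∈ range n, hi k := by
            apply sum_congr rfl
            intro k hk
            have hk' := mem_range.1 hk
            unfold stepL
            rw [if_pos hk']
          rw [e2]
          unfold stepL
          rw [if_neg (by omega), if_pos rfl]
          rw [e1] at h4
          omega
    · -- all the entries below `n` at the top, tuned at `n`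
      refine ⟨n, T - ∑ k ∈ range n, hi k, ?_, ?_⟩
      · intro k hk
        unfold stepL
        by_cases e : k < n
        · rw [if_pos e]
          exact ⟨h k hk, le_rfl⟩
        · rw [if_neg e, if_pos (by omega)]
          have : k = n := by omega
          subst this
          constructor <;> omega
      · rw [sum_range_succ]
        have e2 : ∑ k ∈ range n, stepL lo hi n (T - ∑ k ∈ range n, hi k) k = ∑ k ∈ range n, hi k := by
          apply sum_congr rfl
          intro k hk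
          have hk' := mem_range.1 hk
          unfold stepL
          rw [if_pos hk']
        rw [e2]
        unfold stepL
        rw [if_neg (by omega), if_pos rfl]
        omega

/-- **Every size in the window is reached by steps**: one of the two lists is the top of the boxes,
the other one is a step. So in the order of the rows of `Z` all the pairs of ranks below one rank are
at the top of their cells, all the pairs above it at the bottom. -/
theorem XF_strip_step {n n' n0 h h' A B A' B' f r0 t0 w z : ℕ}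
    (D : XFData n n' n0 h h' A B A' B' f)
    (hz1 : zBase (sideH n) n0 r0 (chainA n) w ≤
      z + boxW (sideH n) (2 * (n0 + 1)) n0 r0 t0 (chainH n))
    (hz2 : z ≤ zBase (sideH n) n0 r0 (chainA n) w +
      boxW (sideH n) (2 * (n0 + 1)) n0 r0 t0 (chainH n)) :
    ∃ K v, ∃ pL pR : ℕ → ℕ,
      ((pR = hiB (sideH n) (2 * (n0 + 1)) r0 t0 (chainH n) ∧
        pL = stepL (loB (sideH n) (2 * (n0 + 1)) r0 t0)
          (hiB (sideH n) (2 * (n0 + 1)) r0 t0 (chainH n)) K v) ∨
       (pL = hiB (sideH n) (2 * (n0 + 1)) r0 t0 (chainH n) ∧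
        pR = stepL (loB (sideH n) (2 * (n0 + 1)) r0 t0)
          (hiB (sideH n) (2 * (n0 + 1)) r0 t0 (chainH n)) K v)) ∧
      (∀ k, k < n0 → loB (sideH n) (2 * (n0 + 1)) r0 t0 k ≤ pL k ∧
        pL k ≤ hiB (sideH n) (2 * (n0 + 1)) r0 t0 (chainH n) k) ∧
      (∀ k, k < n0 → loB (sideH n) (2 * (n0 + 1)) r0 t0 k ≤ pR k ∧
        pR k ≤ hiB (sideH n) (2 * (n0 + 1)) r0 t0 (chainH n) k) ∧
      z + ∑ k ∈ range n0, pR k = ∑ k ∈ range n0, pL k + zBase (sideH n) n0 r0 (chainA n) w := by
  have hs0 : 0 < 2 * (n0 + 1) := by omega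
  have hsx : 2 * (n0 + 1) < sideH n := by
    have h1 := D.hyp.hxy
    have h2 := D.hyp.hy
    omega
  have hgc := D.hyp.hgc
  obtain ⟨lo, hlo⟩ : ∃ lo, lo = loB (sideH n) (2 * (n0 + 1)) r0 t0 := ⟨_, rfl⟩
  obtain ⟨hi, hhi⟩ : ∃ hi, hi = hiB (sideH n) (2 * (n0 + 1)) r0 t0 (chainH n) := ⟨_, rfl⟩
  obtain ⟨zb, hzb⟩ : ∃ zb, zb = zBase (sideH n) n0 r0 (chainA n) w := ⟨_, rfl⟩
  have hbox : ∀ k, k < n0 → lo k ≤ hi k := fun k hk => by
    rw [hlo, hhi]
    exact loB_le_hiB1 hs0 hsx hgc hk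
  have hsumW : boxW (sideH n) (2 * (n0 + 1)) n0 r0 t0 (chainH n) + ∑ k ∈ range n0, lo k =
      ∑ k ∈ range n0, hi k := by
    unfold boxW
    rw [← sum_add_distrib]
    apply sum_congr rfl
    intro k hk
    have := hbox k (mem_range.1 hk)
    rw [← hlo, ← hhi]
    omega
  rw [← hlo, ← hhi, ← hzb]
  rw [← hzb] at hz1 hz2
  by_cases c : z ≤ zb
  · obtain ⟨K, v, h3, h4⟩ := exists_step lo hi n0 hbox (∑ k ∈ range n0, hi k + z - zb) (by omega)
      (by omega)
    exact ⟨K, v, stepL lo hi K v, hi, Or.inl ⟨rfl, rfl⟩, h3, fun k hk => ⟨hbox k hk, le_rfl⟩, by omega⟩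
  · obtain ⟨K, v, h3, h4⟩ := exists_step lo hi n0 hbox (∑ k ∈ range n0, hi k + zb - z) (by omega)
      (by omega)
    exact ⟨K, v, hi, stepL lo hi K v, Or.inr ⟨rfl, rfl⟩, fun k hk => ⟨hbox k hk, le_rfl⟩, h3, by omega⟩

end Crest.Agent.Lib.Saxl
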