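import Crest.Agent.Lib.Saxl.Strip9

/-!
# Saxl: the lists of a chain strip without corridors

`HalfLite`: the order conditions on a half list of pairs.
`glue_tagData`: two half lists give a `TagData` for the glued lists `glueV`, `glueW`, with no corridor
hypothesis: this is the list layer of every strip of a chain parent.
`XF_tagData`: the same for `XF n` and `XF n'`.
-/

set_option autoImplicit false
set_option linter.unusedSectionVars false

namespace Crest.Agent.Lib.Saxl

open Finset

/-- The order conditions on the list of pairs of one half. -/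
structure HalfLite (n0 r0 t0 e w H : ℕ) (p : ℕ → ℕ) : Prop where
  pm : ∀ i j, i < j → j < n0 → p i < p j
  p1 : ∀ k, k < n0 → 1 ≤ p k
  pH : ∀ k, k < n0 → p k ≤ H
  oe1 : ∀ k, k < n0 → k < r0 → p k ≤ e
  oe2 : ∀ k, k < n0 → r0 ≤ k → e < p k
  ow1 : ∀ k, k < n0 → k < t0 → p k < w
  ow2 : ∀ k, k < n0 → t0 ≤ k → w < p k

section lite
variable {x n0 r0 t0 e w H : ℕ} {p : ℕ → ℕ}

lemma HalfOK.lite {s : ℕ} (hp : HalfOK x s n0 r0 t0 e w H p) : HalfLite n0 r0 t0 e w H p :=
  ⟨hp.pm, hp.p1, hp.pH, hp.oe1, hp.oe2, hp.ow1, hp.ow2⟩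

lemma HalfLite.mir_anti (hp : HalfLite n0 r0 t0 e w H p) (hHx : H ≤ x) :
    ∀ i j, i < j → j < n0 → mir x e (p j) < mir x e (p i) := by
  intro i j hij hj
  have h1 := hp.pm i j hij hj
  have h2 := hp.pH j hj
  unfold mir
  split_ifs <;> omega

lemma HalfLite.mir_vs_S (hp : HalfLite n0 r0 t0 e w H p) (hHx : H ≤ x) (hwx : w ≤ x)
    {k : ℕ} (hk : k < n0) :
    (k < t0 → mir x e w < mir x e (p k)) ∧ (t0 ≤ k → mir x e (p k) < mir x e w) := by
  have h2 := hp.pH k hk
  constructor
  · intro a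
    have h1 := hp.ow1 k hk a
    unfold mir
    split_ifs <;> omega
  · intro a
    have h1 := hp.ow2 k hk a
    unfold mir
    split_ifs <;> omega

lemma HalfLite.mir_vs_f {f : ℕ} (hp : HalfLite n0 r0 t0 e w H p) (hHx : H ≤ x) (hex : e ≤ x)
    (hf : f = x - e ∨ (f = x - e + 1 ∧ w ≤ e ∧ H < e)) {k : ℕ} (hk : k < n0) :
    (k < r0 → f < mir x e (p k)) ∧ (r0 ≤ k → mir x e (p k) < f) := by
  have h2 := hp.pH k hk
  constructor
  · intro a
    have h1 := hp.oe1 k hk a
    unfold mir
    rw [if_pos h1]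
    rcases hf with g | ⟨g, _, g3⟩ <;> omega
  · intro a
    have h1 := hp.oe2 k hk a
    unfold mir
    rw [if_neg (by omega)]
    rcases hf with g | ⟨g, _, g3⟩ <;> omega

end lite

section glue
variable {x y s n0 r0 t0 e w h h' f f0 a' A B A' B' H : ℕ} {pL pR P P' : ℕ → ℕ}

/-- **The list layer of a chain strip**: two half lists with the order conditions give a `TagData`. -/
theorem glue_tagData
    (hs : s = 2 * (n0 + 1)) (hxy : x = y + s) (hy : 0 < y) (hsx : s ≤ x)
    (hL : HalfLite n0 r0 t0 e w H pL) (hR : HalfLite n0 r0 t0 e w H pR)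
    (hr0 : r0 ≤ n0) (ht0 : t0 ≤ n0) (hwa : w = a' + t0 + 1)
    (hwh : w ≤ h) (heh : e ≤ h) (hHh : H ≤ h) (hHx : h + 1 + H ≤ x) (hxh : 2 * h ≤ x)
    (hf0 : f0 = x - e) (hf : f = f0 ∨ (f = f0 + 1 ∧ w ≤ e ∧ H < e)) (hfh : h + 1 ≤ f) (hfx : f ≤ x)
    (hh' : h = h' + (n0 + 1))
    (hgad : GadOK x h h' A B A' B' H f)
    (hPf : ∀ v, P v + ind f0 v + ind B v = v + ind e v + ind A v)
    (hP'f : ∀ l, P' l + ind (y - a') l + ind B' l = l + ind a' l + ind A' l)
    (hP'm : Monotone P') (hPx : P x = x) (hP'y : P' y = y) :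
    TagData x y s (glueV x e w r0 t0 n0 pL pR) (glueW x e w f r0 t0 n0 pL pR) P P' := by
  subst hs
  obtain ⟨q, hq⟩ : ∃ q : ℕ → ℕ, q = fun k => mir x e (pR k) := ⟨_, rfl⟩
  obtain ⟨S, hS⟩ : ∃ S : ℕ, S = mir x e w := ⟨_, rfl⟩
  obtain ⟨V, hV⟩ : ∃ V : ℕ → ℕ, V = joinL (ins pL r0 e) (ins q t0 S) (n0 + 1) := ⟨_, rfl⟩
  obtain ⟨W, hW⟩ : ∃ W : ℕ → ℕ, W = joinL (ins pL t0 w) (ins q r0 f) (n0 + 1) := ⟨_, rfl⟩
  have hs0 : 0 < 2 * (n0 + 1) := by omega
  have hw0 : 1 ≤ w := by omega
  have hh1 : 1 ≤ h := by omega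
  have hwx : w ≤ x := by omega
  have hex : e ≤ x := by omega
  have hHxx : H ≤ x := by omega
  -- facts on the lists
  have hqge : ∀ k, k < n0 → x - H ≤ q k := by
    intro k hk
    have := hR.pH k hk
    rw [hq]
    simp only
    unfold mir
    omega
  have hqle : ∀ k, k < n0 → q k ≤ x := by
    intro k hk
    have h1 := hR.p1 k hk
    rw [hq]
    simp only
    unfold mir
    split_ifs <;> omega
  have hSge : x - w ≤ S := by
    rw [hS]
    unfold mir
    omega
  have hSle : S ≤ x := by
    rw [hS]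
    unfold mir
    split_ifs <;> omega
  have hSeq : S = x - w + (if w ≤ e then 1 else 0) := hS
  have hqS : ∀ k, k < n0 → (k < t0 → S < q k) ∧ (t0 ≤ k → q k < S) := fun k hk => by
    rw [hq, hS]
    exact hR.mir_vs_S hHxx hwx hk
  have hf1 : f = x - e ∨ (f = x - e + 1 ∧ w ≤ e ∧ H < e) := by
    rcases hf with g | g
    · left; omega
    · right; rw [← hf0]; exact g
  have hqf : ∀ k, k < n0 → (k < r0 → f < q k) ∧ (r0 ≤ k → q k < f) := fun k hk => by
    rw [hq]
    exact hR.mir_vs_f hHxx hex hf1 hk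
  have hqa : ∀ i j, i < j → j < n0 → q j < q i := by
    rw [hq]
    exact hR.mir_anti hHxx
  -- sorted lists
  have hVm : ∀ i j, i ≤ j → j < 2 * (n0 + 1) → V i ≤ V j := by
    rw [hV]
    apply joinL_mono (T := h)
    · apply ins_mono _ hL.oe1 (fun k hk a => (hL.oe2 k hk a).le) hr0
      intro i j hij hj
      rcases Nat.lt_or_eq_of_le hij with g | g
      · exact (hL.pm i j g hj).le
      · rw [g]
    · apply ins_anti _ (fun k hk a => ((hqS k hk).1 a).le) (fun k hk a => ((hqS k hk).2 a).le) ht0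
      intro i j hij hj
      rcases Nat.lt_or_eq_of_le hij with g | g
      · exact (hqa i j g hj).le
      · rw [g]
    · exact ins_forall (Q := fun c => c ≤ h) hr0 (fun k hk => (hL.pH k hk).trans hHh) heh
    · refine ins_forall (Q := fun c => h ≤ c) ht0 (fun k hk => ?_) (by omega)
      have := hqge k hk
      omega
  have hVx : ∀ i, i < 2 * (n0 + 1) → V i ≤ x := by
    rw [hV]
    apply joinL_forall (Q := fun c => c ≤ x)
    · exact ins_forall (Q := fun c => c ≤ x) hr0 (fun k hk => (hL.pH k hk).trans hHxx) hex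
    · exact ins_forall (Q := fun c => c ≤ x) ht0 hqle hSle
  have hWm : ∀ i j, i < j → j < 2 * (n0 + 1) → W i < W j := by
    rw [hW]
    apply joinL_strict (T := h + 1)
    · exact ins_strict hL.pm hL.ow1 hL.ow2 ht0
    · exact ins_santi hqa (fun k hk a => (hqf k hk).1 a) (fun k hk a => (hqf k hk).2 a) hr0
    · refine ins_forall (Q := fun c => c < h + 1) ht0 (fun k hk => ?_) (by omega)
      have := hL.pH k hk
      omega
    · refine ins_forall (Q := fun c => h + 1 ≤ c) hr0 (fun k hk => ?_) hfh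
      have := hqge k hk
      omega
  have hW1 : ∀ i, i < 2 * (n0 + 1) → 1 ≤ W i := by
    rw [hW]
    apply joinL_forall (Q := fun c => 1 ≤ c)
    · exact ins_forall (Q := fun c => 1 ≤ c) ht0 hL.p1 hw0
    · refine ins_forall (Q := fun c => 1 ≤ c) hr0 (fun k hk => ?_) (by omega)
      have := hqge k hk
      omega
  have hWx : ∀ i, i < 2 * (n0 + 1) → W i ≤ x := by
    rw [hW]
    apply joinL_forall (Q := fun c => c ≤ x)
    · exact ins_forall (Q := fun c => c ≤ x) ht0 (fun k hk => (hL.pH k hk).trans hHxx) hwx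
    · exact ins_forall (Q := fun c => c ≤ x) hr0 hqle hfx
  -- counts
  have hcV : ∀ v, cnt V (2 * (n0 + 1)) v = cnt pL n0 v + cnt q n0 v + ind e v + ind S v :=
    fun v => by rw [hV]; exact cnt_join pL q hr0 ht0 e S v
  have hcW : ∀ v, cnt W (2 * (n0 + 1)) v = cnt pL n0 v + cnt q n0 v + ind w v + ind f v :=
    fun v => by rw [hW]; exact cnt_join pL q ht0 hr0 w f v
  have hstepW := cnt_step_of_join (A := pL) (B := q) (r := t0) (r' := r0) (a := w) (b := f)
    (by rw [← hW]; exact hWm) ht0 hr0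
  have hCs : ∀ v, cnt W (2 * (n0 + 1)) (v + 1) ≤ cnt W (2 * (n0 + 1)) v + 1 := by
    intro v
    rw [hcW, hcW]
    exact (hstepW v).1
  have hC0 : cnt W (2 * (n0 + 1)) 0 = 0 := cnt_zero hW1
  have hCle : ∀ v, cnt W (2 * (n0 + 1)) v ≤ v := by
    intro v
    induction v with
    | zero => omega
    | succ v ih =>
      have := hCs v
      omega
  have hdm : ∀ v, cnt pL n0 v + cnt q n0 v ≤ cnt pL n0 (v + 1) + cnt q n0 (v + 1) := fun v =>
    add_le_add (cnt_mono _ _ (by omega)) (cnt_mono _ _ (by omega))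
  have hd0 : cnt pL n0 0 + cnt q n0 0 = 0 := by
    have h1 := hcW 0
    rw [hC0] at h1
    omega
  -- the gadget
  have hG : (∀ k, k < n0 → pL k ≠ B ∧ q k ≠ B) ∧ S ≠ B ∧ f0 ≠ B ∧ ind B 0 ≤ ind A 0 ∧
      (∀ i, i < 2 * (n0 + 1) → ind A (W i - 1) = ind B (W i - 1)) ∧
      A - cnt W (2 * (n0 + 1)) A = A' ∧ B - cnt W (2 * (n0 + 1)) B = B' := by
    have hS1 : x - h ≤ S := by omega
    have hpl : ∀ k, k < n0 → pL k ≤ h := fun k hk => (hL.pH k hk).trans hHh
    rcases hgad with ⟨a1, a2, a3, a4⟩ | ⟨a1, a2, a3, a4, a5, a6, a7, a8⟩ | ⟨a1, a2, a3, a4, a6, a7, a8⟩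
    · subst a1 a2 a3 a4
      refine ⟨fun k hk => ⟨?_, ?_⟩, by omega, by omega, le_rfl, fun _ _ => rfl, ?_, ?_⟩
      · have := hL.p1 k hk; omega
      · have := hqge k hk; omega
      · rw [hC0]
      · rw [hC0]
    · have a2' := a2.symm
      have a4' := a4.symm
      subst a1 a2' a3 a4'
      have hcu : ∀ v, h ≤ v → v ≤ h + 1 → cnt W (2 * (n0 + 1)) v = n0 + 1 := by
        intro v h1 h2
        rw [hcW]
        have e1 : cnt pL n0 v = n0 := cnt_top fun k hk => (hpl k hk).trans h1
        have e2 : cnt q n0 v = n0 - n0 := cnt_eq_above le_rfl (fun k hk => by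
          have := hqge k hk
          omega) (fun k h3 h4 => by omega)
        rw [e1, e2, ind_of_le (by omega : w ≤ v), ind_of_lt (by omega : v < f)]
        omega
      refine ⟨fun k hk => ⟨?_, ?_⟩, by omega, by omega, ?_, ?_, ?_, ?_⟩
      · have := hL.pH k hk; omega
      · have := hqge k hk; omega
      · rw [ind_of_lt (by omega : 0 < h)]
        exact Nat.zero_le _
      · rw [hW]
        apply joinL_forall (Q := fun c => ind (h + 1) (c - 1) = ind h (c - 1))
        · refine ins_forall (Q := fun c => ind (h + 1) (c - 1) = ind h (c - 1)) ht0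
            (fun k hk => ?_) ?_
          · have h1 := hL.pH k hk
            have h2 := hL.p1 k hk
            rw [ind_of_lt (by omega), ind_of_lt (by omega)]
          · rw [ind_of_lt (by omega), ind_of_lt (by omega)]
        · refine ins_forall (Q := fun c => ind (h + 1) (c - 1) = ind h (c - 1)) hr0
            (fun k hk => ?_) ?_
          · have h1 := hqge k hk
            rw [ind_of_le (by omega), ind_of_le (by omega)]
          · rw [ind_of_le (by omega), ind_of_le (by omega)]
      · rw [hcu _ (by omega) le_rfl]; omega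
      · rw [hcu _ le_rfl (by omega)]; omega
    · have a1' := a1.symm
      have a3' := a3.symm
      subst a1' a2 a3' a4
      have hcu : ∀ v, h ≤ v → v ≤ h + 1 → cnt W (2 * (n0 + 1)) v = n0 + 1 := by
        intro v h1 h2
        rw [hcW]
        have e1 : cnt pL n0 v = n0 := cnt_top fun k hk => (hpl k hk).trans h1
        have e2 : cnt q n0 v = n0 - n0 := cnt_eq_above le_rfl (fun k hk => by
          have := hqge k hk
          omega) (fun k h3 h4 => by omega)
        rw [e1, e2, ind_of_le (by omega : w ≤ v), ind_of_lt (by omega : v < f)]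
        omega
      refine ⟨fun k hk => ⟨?_, ?_⟩, by omega, by omega, ?_, ?_, ?_, ?_⟩
      · have := hL.pH k hk; omega
      · have := hqge k hk; omega
      · rw [ind_of_lt (by omega : 0 < h + 1)]
        exact Nat.zero_le _
      · rw [hW]
        apply joinL_forall (Q := fun c => ind h (c - 1) = ind (h + 1) (c - 1))
        · refine ins_forall (Q := fun c => ind h (c - 1) = ind (h + 1) (c - 1)) ht0
            (fun k hk => ?_) ?_
          · have h1 := hL.pH k hk
            have h2 := hL.p1 k hk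
            rw [ind_of_lt (by omega), ind_of_lt (by omega)]
          · rw [ind_of_lt (by omega), ind_of_lt (by omega)]
        · refine ins_forall (Q := fun c => ind h (c - 1) = ind (h + 1) (c - 1)) hr0
            (fun k hk => ?_) ?_
          · have h1 := hqge k hk
            rw [ind_of_le (by omega), ind_of_le (by omega)]
          · rw [ind_of_le (by omega), ind_of_le (by omega)]
      · rw [hcu _ le_rfl (by omega)]; omega
      · rw [hcu _ (by omega) le_rfl]; omega
  obtain ⟨g1, g2, g3, g4, g5, g6, g7⟩ := hG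
  -- the kept rows
  obtain ⟨Ψ, hΨ⟩ : ∃ Ψ : ℕ → ℕ, ∀ v, Ψ v = cnt pL n0 v + cnt q n0 v + ind S v + ind f0 v + ind B v :=
    ⟨_, fun _ => rfl⟩
  have hSf0 : S ≠ f0 := by
    rw [hSeq, hf0]
    split_ifs <;> omega
  have hpS : ∀ k, k < n0 → pL k ≠ S ∧ q k ≠ S := by
    intro k hk
    have h1 := hL.pH k hk
    constructor
    · omega
    · by_cases a : k < t0
      · have := (hqS k hk).1 a; omega
      · have := (hqS k hk).2 (by omega); omega
  have hpf0 : ∀ k, k < n0 → pL k ≠ f0 ∧ q k ≠ f0 := by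
    intro k hk
    have h1 := hL.pH k hk
    constructor
    · omega
    · rcases hf with g | ⟨_, _, g3⟩
      · by_cases a : k < r0
        · have := (hqf k hk).1 a; omega
        · have := (hqf k hk).2 (by omega); omega
      · have := hqge k hk
        omega
  have hΨs : ∀ v, Ψ (v + 1) ≤ Ψ v + 1 := by
    intro v
    obtain ⟨s1, s2⟩ := hstepW v
    have s3 := hdm v
    rw [hΨ, hΨ]
    rw [EvCond.ind_succ S, EvCond.ind_succ f0, EvCond.ind_succ B]
    rw [EvCond.ind_succ w, EvCond.ind_succ f] at s1 s2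
    by_cases a : cnt pL n0 (v + 1) + cnt q n0 (v + 1) = cnt pL n0 v + cnt q n0 v
    · rw [a]
      have := step_aux (t := v + 1) hSf0 g2 g3
      omega
    · have s4 : cnt pL n0 (v + 1) + cnt q n0 (v + 1) = cnt pL n0 v + cnt q n0 v + 1 := by
        split_ifs at s1 <;> omega
      have s5 : w ≠ v + 1 := by
        intro hc
        rw [if_pos hc] at s1
        split_ifs at s1 <;> omega
      have s6 : f ≠ v + 1 := by
        intro hc
        rw [if_pos hc] at s1
        split_ifs at s1 <;> omega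
      rw [if_neg s5, if_neg s6] at s2
      have s7 := s2 (by omega)
      have s8 : S ≠ v + 1 ∧ f0 ≠ v + 1 ∧ B ≠ v + 1 := by
        rcases s7 with s7 | s7 | ⟨k, hk, s7⟩ | ⟨k, hk, s7⟩
        · omega
        · omega
        · have a1 := (hpS k hk).1
          have a2 := (hpf0 k hk).1
          have a3 := (g1 k hk).1
          omega
        · have a1 := (hpS k hk).2
          have a2 := (hpf0 k hk).2
          have a3 := (g1 k hk).2
          omega
      rw [if_neg s8.1, if_neg s8.2.1, if_neg s8.2.2]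
      omega
  have hΨ0 : Ψ 0 ≤ ind A 0 := by
    rw [hΨ]
    rw [ind_of_lt (by omega : 0 < S), ind_of_lt (by omega : 0 < f0), hd0]
    omega
  have hΨle : ∀ v, Ψ v ≤ v + ind A v := by
    intro v
    induction v with
    | zero => omega
    | succ v ih =>
      have h1 := hΨs v
      have h2 := ind_mono A (show v ≤ v + 1 by omega)
      omega
  have hρP : ∀ v, cnt V (2 * (n0 + 1)) v ≤ P v := by
    intro v
    rw [hcV]
    have h1 := hΨle v
    have h2 := hPf v
    rw [hΨ] at h1
    omega
  have hKeq : ∀ v, P v - cnt V (2 * (n0 + 1)) v + Ψ v = v + ind A v := by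
    intro v
    have h1 := hρP v
    have h2 := hPf v
    rw [hcV] at h1 ⊢
    rw [hΨ]
    omega
  have hK : ∀ v, P v - cnt V (2 * (n0 + 1)) v ≤ P (v + 1) - cnt V (2 * (n0 + 1)) (v + 1) := by
    intro v
    have h1 := hKeq v
    have h2 := hKeq (v + 1)
    have h3 := hΨs v
    have h4 := ind_mono A (show v ≤ v + 1 by omega)
    omega
  -- the child
  have hlw : w - cnt W (2 * (n0 + 1)) w = a' := by
    rw [hcW]
    have e1 : cnt pL n0 w = t0 := cnt_eq_below ht0 (fun k hk => (hL.ow1 k (by omega) hk).le)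
      (fun k h3 h4 => hL.ow2 k h4 h3)
    have e2 : cnt q n0 w = n0 - n0 := cnt_eq_above le_rfl (fun k hk => by
      have := hqge k hk
      omega) (fun k h3 h4 => by omega)
    rw [e1, e2, ind_of_le (le_refl w), ind_of_lt (by omega : w < f)]
    omega
  have hlS : S - cnt W (2 * (n0 + 1)) S = y - a' := by
    rw [hcW]
    have e1 : cnt pL n0 S = n0 := cnt_top fun k hk => by
      have := hL.pH k hk
      omega
    have e2 : cnt q n0 S = n0 - t0 := cnt_eq_above ht0
      (fun k hk => (hqS k (by omega)).1 hk) (fun k h3 h4 => ((hqS k h4).2 h3).le)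
    rw [e1, e2, ind_of_le (by omega : w ≤ S)]
    by_cases a : w ≤ e
    · have e3 : S = x - w + 1 := by rw [hSeq, if_pos a]
      have e4 : f ≤ S := by
        rcases hf with g | ⟨g, _, _⟩ <;> omega
      rw [ind_of_le e4]
      omega
    · have e3 : S = x - w := by rw [hSeq, if_neg a]; rfl
      have e4 : f = f0 := by
        rcases hf with g | ⟨_, g, _⟩
        · exact g
        · omega
      rw [ind_of_lt (by omega : S < f)]
      omega
  have hkeep : ∀ v, v < x → cnt W (2 * (n0 + 1)) (v + 1) = cnt W (2 * (n0 + 1)) v →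
      P v - cnt V (2 * (n0 + 1)) v = P' (v - cnt W (2 * (n0 + 1)) v) := by
    intro v _ hk
    have e1 := ind_anchor hCs hCle hlw hk
    have e2 := ind_anchor hCs hCle hlS hk
    have e3 := ind_anchor hCs hCle g6 hk
    have e4 := ind_anchor hCs hCle g7 hk
    have e5 : ind f0 v = ind f v := by
      rcases hf with g | ⟨g, _, _⟩
      · rw [g]
      · by_cases a : v = f0
        · exfalso
          have c1 := hcW v
          have c2 := hcW (v + 1)
          have c3 := hdm v
          have c4 := ind_mono w (show v ≤ v + 1 by omega)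
          have c5 : ind f (v + 1) = 1 := ind_of_le (by omega)
          have c6 : ind f v = 0 := ind_of_lt (by omega)
          omega
        · unfold ind
          split_ifs <;> omega
    have p1 := hP'f (v - cnt W (2 * (n0 + 1)) v)
    rw [e1, e2, e3, e4] at p1
    have p2 := hPf v
    have p3 := hcV v
    have p4 := hcW v
    have p5 := hCle v
    have p6 := hρP v
    generalize P' (v - cnt W (2 * (n0 + 1)) v) = R at p1 ⊢
    omega
  have e3 : glueV x e w r0 t0 n0 pL pR = V := by
    rw [hV, hq, hS]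
    rfl
  have e4 : glueW x e w f r0 t0 n0 pL pR = W := by
    rw [hW, hq]
    rfl
  rw [e3, e4]
  exact ⟨hxy, hVm, hVx, hWm, hW1, hWx, hρP, hK, hP'm, hkeep, hPx, hP'y⟩

end glue

/-- The columns of `Q` in closed form, from the left (largest) to the right. -/
def glueQ (y e a' w r0 t0 n0 : ℕ) (pL pR : ℕ → ℕ) : ℕ → ℕ :=
  joinL (ins (fun k => y + k + 1 - pL k) t0 (y - a'))
    (ins (fun k => pR k + (if k < t0 then 1 else 0) - (k + 2)) r0
      (e + (if e < w then 1 else 0) - 1 - r0)) (n0 + 1)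

lemma strict_ge {p : ℕ → ℕ} {n : ℕ} (h0 : ∀ k, k < n → 1 ≤ p k)
    (hm : ∀ i j, i < j → j < n → p i < p j) : ∀ k, k < n → k + 1 ≤ p k := by
  intro k
  induction k with
  | zero => exact fun hk => h0 0 hk
  | succ k ih =>
    intro hk
    have h1 := ih (by omega)
    have h2 := hm k (k + 1) (by omega) hk
    omega

section glueQ
variable {x y s n0 r0 t0 e w h h' f f0 a' A B A' B' H : ℕ} {pL pR P P' : ℕ → ℕ}

/-- **The columns of `Q` in closed form.** -/
theorem glue_colQ
    (hs : s = 2 * (n0 + 1)) (hxy : x = y + s) (hy : 0 < y) (hsx : s ≤ x)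
    (hL : HalfLite n0 r0 t0 e w H pL) (hR : HalfLite n0 r0 t0 e w H pR)
    (hr0 : r0 ≤ n0) (ht0 : t0 ≤ n0) (hwa : w = a' + t0 + 1)
    (hwh : w ≤ h) (heh : e ≤ h) (hHh : H ≤ h) (hHx : h + 1 + H ≤ x) (hxh : 2 * h ≤ x)
    (hf0 : f0 = x - e) (hf : f = f0 ∨ (f = f0 + 1 ∧ w ≤ e ∧ H < e)) (hfh : h + 1 ≤ f) (hfx : f ≤ x)
    (hh' : h = h' + (n0 + 1))
    (hgad : GadOK x h h' A B A' B' H f)
    (hPf : ∀ v, P v + ind f0 v + ind B v = v + ind e v + ind A v)
    (hP'f : ∀ l, P' l + ind (y - a') l + ind B' l = l + ind a' l + ind A' l)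
    (hP'm : Monotone P') (hPx : P x = x) (hP'y : P' y = y) :
    ∀ j, j < s → y - (P (glueW x e w f r0 t0 n0 pL pR j - 1) -
      cnt (glueV x e w r0 t0 n0 pL pR) s (glueW x e w f r0 t0 n0 pL pR j - 1)) =
      glueQ y e a' w r0 t0 n0 pL pR j := by
  have T := glue_tagData hs hxy hy hsx hL hR hr0 ht0 hwa hwh heh hHh hHx hxh hf0 hf hfh hfx hh' hgad hPf
    hP'f hP'm hPx hP'y
  subst hs
  obtain ⟨q, hq⟩ : ∃ q : ℕ → ℕ, q = fun k => mir x e (pR k) := ⟨_, rfl⟩
  obtain ⟨S, hS⟩ : ∃ S : ℕ, S = mir x e w := ⟨_, rfl⟩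
  obtain ⟨V, hV⟩ : ∃ V : ℕ → ℕ, V = glueV x e w r0 t0 n0 pL pR := ⟨_, rfl⟩
  obtain ⟨W, hW⟩ : ∃ W : ℕ → ℕ, W = glueW x e w f r0 t0 n0 pL pR := ⟨_, rfl⟩
  rw [← hV, ← hW] at T ⊢
  have hVe : V = joinL (ins pL r0 e) (ins q t0 S) (n0 + 1) := by rw [hV, hq, hS]; rfl
  have hWe : W = joinL (ins pL t0 w) (ins q r0 f) (n0 + 1) := by rw [hW, hq]; rfl
  have hcV : ∀ v, cnt V (2 * (n0 + 1)) v = cnt pL n0 v + cnt q n0 v + ind e v + ind S v :=
    fun v => by rw [hVe]; exact cnt_join pL q hr0 ht0 e S v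
  have hwx : w ≤ x := by omega
  have hex : e ≤ x := by omega
  have hHxx : H ≤ x := by omega
  have hqge : ∀ k, k < n0 → x - H ≤ q k := by
    intro k hk
    have := hR.pH k hk
    rw [hq]
    simp only
    unfold mir
    omega
  have hqS : ∀ k, k < n0 → (k < t0 → S < q k) ∧ (t0 ≤ k → q k < S) := fun k hk => by
    rw [hq, hS]
    exact hR.mir_vs_S hHxx hwx hk
  have hf1 : f = x - e ∨ (f = x - e + 1 ∧ w ≤ e ∧ H < e) := by
    rcases hf with g | g
    · left; omega
    · right; rw [← hf0]; exact g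
  have hqf : ∀ k, k < n0 → (k < r0 → f < q k) ∧ (r0 ≤ k → q k < f) := fun k hk => by
    rw [hq]
    exact hR.mir_vs_f hHxx hex hf1 hk
  have hqa : ∀ i j, i < j → j < n0 → q j < q i := by
    rw [hq]
    exact hR.mir_anti hHxx
  have hSge : x - w ≤ S := by
    rw [hS]
    unfold mir
    omega
  have hSeq : S = x - w + (if w ≤ e then 1 else 0) := hS
  -- `K` below `x` is at most `y`
  have hKy : ∀ v, v ≤ x → P v - cnt V (2 * (n0 + 1)) v ≤ y := by
    intro v hv
    have h1 : Monotone fun u => P u - cnt V (2 * (n0 + 1)) u := monotone_nat_of_le_succ T.hK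
    have h2 := h1 hv
    simp only at h2
    have hc1 : cnt pL n0 x = n0 := cnt_top fun k hk => (hL.pH k hk).trans hHxx
    have hc2 : cnt q n0 x = n0 := cnt_top fun k hk => by
      have h3 := hR.p1 k hk
      have h4 := hR.pH k hk
      rw [hq]
      simp only
      unfold mir
      split_ifs <;> omega
    have hc3 : ind e x = 1 := ind_of_le hex
    have hc4 : ind S x = 1 := ind_of_le (by
      rw [hSeq]
      split_ifs <;> omega)
    rw [hPx, hcV x, hc1, hc2, hc3, hc4] at h2
    omega
  have hρ := T.hρP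
  -- `P` in the two regions
  have hPlow : ∀ v, v < h → P v = v + ind e v := by
    intro v hv
    have h1 := hPf v
    have h2 : ind f0 v = 0 := ind_of_lt (by rcases hf with g | g <;> omega)
    have h3 : ind B v = ind A v := by
      rcases hgad with ⟨g1, g2, _⟩ | ⟨g1, g2, _⟩ | ⟨g1, g2, _⟩
      · rw [g1, g2]
      · rw [g1, g2, ind_of_lt (by omega), ind_of_lt (by omega)]
      · rw [g1, g2, ind_of_lt (by omega), ind_of_lt (by omega)]
    omega
  have hPhigh : ∀ v, h ≤ v → (A = 0 ∨ h + 1 ≤ v) → P v + ind f0 v = v + 1 := by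
    intro v hv h4
    have h1 := hPf v
    have h2 : ind e v = 1 := ind_of_le (by omega)
    have h3 : ind B v = ind A v := by
      rcases hgad with ⟨g1, g2, _⟩ | ⟨g1, g2, _⟩ | ⟨g1, g2, _⟩
      · rw [g1, g2]
      · rcases h4 with h4 | h4
        · omega
        · rw [g1, g2, ind_of_le (by omega), ind_of_le (by omega)]
      · rcases h4 with h4 | h4
        · omega
        · rw [g1, g2, ind_of_le (by omega), ind_of_le (by omega)]
    omega
  have hA2 : A = 0 ∨ (h + 2 + H ≤ x ∧ h + 2 ≤ f) := by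
    rcases hgad with ⟨g1, _⟩ | ⟨_, _, _, _, _, g2, g3, _⟩ | ⟨_, _, _, _, g2, g3, _⟩
    · exact Or.inl g1
    · exact Or.inr ⟨g2, g3⟩
    · exact Or.inr ⟨g2, g3⟩
  have hCVhigh : ∀ v, h ≤ v → cnt V (2 * (n0 + 1)) v = n0 + cnt q n0 v + 1 + ind S v := by
    intro v h1
    rw [hcV, cnt_top (fun k hk => (hL.pH k hk).trans (by omega)), ind_of_le (by omega)]
  have hKlow : ∀ v, v < h → P v - cnt V (2 * (n0 + 1)) v = v - cnt pL n0 v := by
    intro v hv
    rw [hPlow v hv, hcV]
    have h1 : cnt q n0 v = n0 - n0 := cnt_eq_above le_rfl (fun i hi => by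
      have := hqge i hi
      omega) (fun i h1 h2 => by omega)
    have h2 : ind S v = 0 := ind_of_lt (by omega)
    rw [h1, h2]
    omega
  have hpge := strict_ge hL.p1 hL.pm
  -- the pairs of the left half
  have hLk : ∀ k, k < n0 → y - (P (pL k - 1) - cnt V (2 * (n0 + 1)) (pL k - 1)) = y + k + 1 - pL k := by
    intro k hk
    have h1 := hpge k hk
    have h2 := hL.pH k hk
    have h3 := hKy (pL k - 1) (by omega)
    have h4 := cnt_rank_pred hL.pm hk (hL.p1 k hk)
    rw [hKlow _ (by omega), h4] at h3 ⊢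
    omega
  -- the pairs of the right half
  have hRk : ∀ k, k < n0 → y - (P (q k - 1) - cnt V (2 * (n0 + 1)) (q k - 1)) =
      pR k + (if k < t0 then 1 else 0) - (k + 2) := by
    intro k hk
    have h0 := hqge k hk
    have hv0 : h ≤ q k - 1 := by omega
    have hv1 : A = 0 ∨ h + 1 ≤ q k - 1 := by
      rcases hA2 with g | ⟨g, _⟩
      · exact Or.inl g
      · exact Or.inr (by omega)
    have h1 := hPhigh _ hv0 hv1
    have h2 := hCVhigh _ hv0
    have hp2 := hR.pH k hk
    have hqx : q k = x - pR k + (if pR k ≤ e then 1 else 0) := by rw [hq]; rfl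
    have h3 : cnt q n0 (q k - 1) = n0 - (k + 1) := cnt_eq_above (by omega)
      (fun i hi => by
        rcases Nat.lt_succ_iff_lt_or_eq.1 hi with g | g
        · have := hqa i k g hk
          omega
        · rw [g]
          omega)
      (fun i h3 h4 => by
        have := hqa k i (by omega) h4
        omega)
    have h4 := hKy (q k - 1) (by
      have := hR.p1 k hk
      rw [hqx]
      split_ifs <;> omega)
    have h5 : ind S (q k - 1) = if k < t0 then 1 else 0 := by
      by_cases c : k < t0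
      · rw [if_pos c, ind_of_le]
        have := (hqS k hk).1 c
        omega
      · rw [if_neg c, ind_of_lt]
        have := (hqS k hk).2 (by omega)
        omega
    have h6 : ind f0 (q k - 1) = if k < r0 then 1 else 0 := by
      by_cases c : k < r0
      · rw [if_pos c, ind_of_le]
        have := (hqf k hk).1 c
        rcases hf with g | g <;> omega
      · rw [if_neg c, ind_of_lt]
        have g1 := hR.oe2 k hk (by omega)
        have g2 := hR.p1 k hk
        rw [hqx, if_neg (by omega), hf0]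
        omega
    have h7 : (if pR k ≤ e then 1 else 0) = if k < r0 then 1 else 0 := by
      by_cases c : k < r0
      · rw [if_pos c, if_pos (hR.oe1 k hk c)]
      · rw [if_neg c, if_neg]
        have := hR.oe2 k hk (by omega)
        omega
    rw [h7] at hqx
    rw [h5, h3] at h2
    rw [h6] at h1
    have h8 := hρ (q k - 1)
    rw [h2] at h4 h8 ⊢
    generalize (if k < t0 then 1 else 0 : ℕ) = a1 at *
    generalize (if k < r0 then 1 else 0 : ℕ) = a2 at *
    generalize P (q k - 1) = a3 at *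
    generalize pR k = a4 at *
    generalize q k = a5 at *
    omega
  intro j hj
  by_cases a : j < n0 + 1
  · -- left half
    have e1 : W j = ins pL t0 w j := by rw [hWe, joinL_lt a]
    have e2 : glueQ y e a' w r0 t0 n0 pL pR j = ins (fun k => y + k + 1 - pL k) t0 (y - a') j := by
      unfold glueQ
      rw [joinL_lt a]
    rw [e1, e2]
    rcases lt_trichotomy j t0 with b | b | b
    · rw [ins_lt b, ins_lt b]
      exact hLk j (by omega)
    · subst b
      rw [ins_eq, ins_eq]
      have h4 : cnt pL n0 (w - 1) = j := cnt_eq_below ht0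
        (fun k hk => by
          have := hL.ow1 k (by omega) hk
          omega)
        (fun k h3 h4 => by
          have := hL.ow2 k h4 h3
          omega)
      rw [hKlow _ (by omega), h4]
      congr 1
      omega
    · rw [ins_gt b, ins_gt b]
      exact hLk (j - 1) (by omega)
  · -- right half
    have e1 : W j = ins q r0 f (2 * (n0 + 1) - 1 - j) := by rw [hWe, joinL_ge (by omega)]
    have e2 : glueQ y e a' w r0 t0 n0 pL pR j =
        ins (fun k => pR k + (if k < t0 then 1 else 0) - (k + 2)) r0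
          (e + (if e < w then 1 else 0) - 1 - r0) (2 * (n0 + 1) - 1 - j) := by
      unfold glueQ
      rw [joinL_ge (by omega)]
    rw [e1, e2]
    obtain ⟨m, hm⟩ : ∃ m, m = 2 * (n0 + 1) - 1 - j := ⟨_, rfl⟩
    rw [← hm]
    rcases lt_trichotomy m r0 with b | b | b
    · rw [ins_lt b, ins_lt b]
      exact hRk m (by omega)
    · subst b
      rw [ins_eq, ins_eq]
      have hv0 : h ≤ f - 1 := by omega
      have hv1 : A = 0 ∨ h + 1 ≤ f - 1 := by
        rcases hA2 with g | ⟨_, g⟩
        · exact Or.inl g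
        · exact Or.inr (by omega)
      have h1 := hPhigh _ hv0 hv1
      have h2 := hCVhigh _ hv0
      have h3 : cnt q n0 (f - 1) = n0 - m := cnt_eq_above hr0
        (fun i hi => by
          have := (hqf i (by omega)).1 hi
          omega)
        (fun i h3 h4 => by
          have := (hqf i h4).2 h3
          omega)
      rw [h3] at h2
      rw [h2]
      have h5 := hKy (f - 1) (by omega)
      have h8 := hρ (f - 1)
      rw [h2] at h5 h8
      by_cases c : e < w
      · rw [if_pos c]
        have g0 : f = x - e := by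
          rcases hf1 with g | ⟨_, g, _⟩
          · exact g
          · omega
        have g1 : S = x - w := by
          rw [hSeq, if_neg (by omega)]
          rfl
        have g2 : ind S (f - 1) = 1 := ind_of_le (by omega)
        have g3 : ind f0 (f - 1) = 0 := ind_of_lt (by omega)
        rw [g2] at h5 h8 ⊢
        rw [g3] at h1
        generalize P (f - 1) = a3 at *
        omega
      · rw [if_neg c]
        have g1 : S = x - w + 1 := by
          rw [hSeq, if_pos (by omega)]
        have g2 : ind S (f - 1) = 0 := ind_of_lt (by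
          rcases hf1 with g | ⟨g, _⟩ <;> omega)
        rw [g2] at h5 h8 ⊢
        rcases hf1 with g | ⟨g, _⟩
        · have g3 : ind f0 (f - 1) = 0 := ind_of_lt (by omega)
          rw [g3] at h1
          generalize P (f - 1) = a3 at *
          omega
        · have g3 : ind f0 (f - 1) = 1 := ind_of_le (by omega)
          rw [g3] at h1
          generalize P (f - 1) = a3 at *
          omega
    · rw [ins_gt b, ins_gt b]
      exact hRk (m - 1) (by omega)

end glueQ

/-- **The list layer of the strip of `XF n` with child `XF n'`**: any two half lists with the order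
conditions give a `TagData`. `XF_data` provides `D`. -/
theorem XF_tagData {n n' n0 h h' A B A' B' f r0 t0 w : ℕ} (D : XFData n n' n0 h h' A B A' B' f)
    (hr0 : r0 ≤ n0) (ht0 : t0 ≤ n0) (hw : w = chainA n' + t0 + 1) {pL pR : ℕ → ℕ}
    (hL : HalfLite n0 r0 t0 (chainA n) w (chainH n) pL)
    (hR : HalfLite n0 r0 t0 (chainA n) w (chainH n) pR) :
    TagData (sideH n) (sideH n') (2 * (n0 + 1))
      (glueV (sideH n) (chainA n) w r0 t0 n0 pL pR) (glueW (sideH n) (chainA n) w f r0 t0 n0 pL pR)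
      (PC (chainA n) (sideH n - chainA n) A B) (PC (chainA n') (sideH n' - chainA n') A' B') := by
  obtain ⟨hs, hxy, hy, hah, ha'h, hh', hxh, h2a, h2a', hHh, hHx, hf, hfh, hfx, hgad, hgc, hPf1, hPf2,
    hP0, hPf1', hPf2', hP0', hAx, hBx, hAy, hBy⟩ := D.hyp
  have hPf := PC_add (e := chainA n) hPf1 hPf2 hP0
  have hP'f := PC_add (e := chainA n') hPf1' hPf2' hP0'
  have hPx : PC (chainA n) (sideH n - chainA n) A B (sideH n) = sideH n := by
    have h1 := hPf (sideH n)
    rw [ind_of_le (by omega : sideH n - chainA n ≤ sideH n), ind_of_le (by omega : chainA n ≤ sideH n),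
      ind_of_le hAx, ind_of_le hBx] at h1
    omega
  have hP'y : PC (chainA n') (sideH n' - chainA n') A' B' (sideH n') = sideH n' := by
    have h1 := hP'f (sideH n')
    rw [ind_of_le (by omega : sideH n' - chainA n' ≤ sideH n'),
      ind_of_le (by omega : chainA n' ≤ sideH n'), ind_of_le hAy, ind_of_le hBy] at h1
    omega
  exact glue_tagData (f0 := sideH n - chainA n) (h := h) (h' := h') (a' := chainA n') (A := A) (B := B)
    (A' := A') (B' := B') hs hxy hy (by omega) hL hR hr0 ht0 hw (by omega) hah hHh hHx hxh rfl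
    (by
      rcases hf with g | ⟨g1, g2, g3⟩
      · exact Or.inl g
      · exact Or.inr ⟨g1, by omega, by omega⟩) hfh hfx hh' hgad hPf hP'f
    (PC_mono hPf1' hPf2' hP0') hPx hP'y

/-- `XF n` is the shape of the word of `PC`. -/
lemma XFData.XF_eq {n n' n0 h h' A B A' B' f : ℕ} (D : XFData n n' n0 h h' A B A' B' f) :
    XF n = shape (cwP (PC (chainA n) (sideH n - chainA n) A B) (sideH n)) := by
  unfold XF
  rw [D.w1]

/-- `XF n'` is the shape of the word of `PC`. -/
lemma XFData.XF_eq' {n n' n0 h h' A B A' B' f : ℕ} (D : XFData n n' n0 h h' A B A' B' f) :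
    XF n' = shape (cwP (PC (chainA n') (sideH n' - chainA n') A' B') (sideH n')) := by
  unfold XF
  rw [D.w2]

/-- The closed form of the columns of `Q` for `XF n`. -/
theorem XF_colQ {n n' n0 h h' A B A' B' f r0 t0 w : ℕ} (D : XFData n n' n0 h h' A B A' B' f)
    (hr0 : r0 ≤ n0) (ht0 : t0 ≤ n0) (hw : w = chainA n' + t0 + 1) {pL pR : ℕ → ℕ}
    (hL : HalfLite n0 r0 t0 (chainA n) w (chainH n) pL)
    (hR : HalfLite n0 r0 t0 (chainA n) w (chainH n) pR) :
    ∀ j, j < 2 * (n0 + 1) → sideH n' - (PC (chainA n) (sideH n - chainA n) A B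
        (glueW (sideH n) (chainA n) w f r0 t0 n0 pL pR j - 1) -
      cnt (glueV (sideH n) (chainA n) w r0 t0 n0 pL pR) (2 * (n0 + 1))
        (glueW (sideH n) (chainA n) w f r0 t0 n0 pL pR j - 1)) =
      glueQ (sideH n') (chainA n) (chainA n') w r0 t0 n0 pL pR j := by
  obtain ⟨hs, hxy, hy, hah, ha'h, hh', hxh, h2a, h2a', hHh, hHx, hf, hfh, hfx, hgad, hgc, hPf1, hPf2,
    hP0, hPf1', hPf2', hP0', hAx, hBx, hAy, hBy⟩ := D.hyp
  have hPf := PC_add (e := chainA n) hPf1 hPf2 hP0
  have hP'f := PC_add (e := chainA n') hPf1' hPf2' hP0'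
  have hPx : PC (chainA n) (sideH n - chainA n) A B (sideH n) = sideH n := by
    have h1 := hPf (sideH n)
    rw [ind_of_le (by omega : sideH n - chainA n ≤ sideH n), ind_of_le (by omega : chainA n ≤ sideH n),
      ind_of_le hAx, ind_of_le hBx] at h1
    omega
  have hP'y : PC (chainA n') (sideH n' - chainA n') A' B' (sideH n') = sideH n' := by
    have h1 := hP'f (sideH n')
    rw [ind_of_le (by omega : sideH n' - chainA n' ≤ sideH n'),
      ind_of_le (by omega : chainA n' ≤ sideH n'), ind_of_le hAy, ind_of_le hBy] at h1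
    omega
  exact glue_colQ (f0 := sideH n - chainA n) (h := h) (h' := h') (a' := chainA n') (A := A) (B := B)
    (A' := A') (B' := B') hs hxy hy (by omega) hL hR hr0 ht0 hw (by omega) hah hHh hHx hxh rfl
    (by
      rcases hf with g | ⟨g1, g2, g3⟩
      · exact Or.inl g
      · exact Or.inr ⟨g1, by omega, by omega⟩) hfh hfx hh' hgad hPf hP'f
    (PC_mono hPf1' hPf2' hP0') hPx hP'y

/-- **The master step at list level.** Two copies of the half lists (they may have different ranks);
tiles `lZ`, `lQ` whose row sums and column sums are the lists of the two copies. -/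
theorem TT_XF_of_lists {n n' n0 h h' A B A' B' f r1 t1 w1 r2 t2 w2 : ℕ}
    (D : XFData n n' n0 h h' A B A' B' f)
    (hr1 : r1 ≤ n0) (ht1 : t1 ≤ n0) (hw1 : w1 = chainA n' + t1 + 1)
    (hr2 : r2 ≤ n0) (ht2 : t2 ≤ n0) (hw2 : w2 = chainA n' + t2 + 1) {pL1 pR1 pL2 pR2 : ℕ → ℕ}
    (hL1 : HalfLite n0 r1 t1 (chainA n) w1 (chainH n) pL1)
    (hR1 : HalfLite n0 r1 t1 (chainA n) w1 (chainH n) pR1)
    (hL2 : HalfLite n0 r2 t2 (chainA n) w2 (chainH n) pL2)
    (hR2 : HalfLite n0 r2 t2 (chainA n) w2 (chainH n) pR2)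
    (lZ lQ : List YoungDiagram)
    (hZ₁ : ∀ i, (lZ.map fun Y => Y.rowLen i).sum = if i < 2 * (n0 + 1) then
      glueV (sideH n) (chainA n) w1 r1 t1 n0 pL1 pR1 (2 * (n0 + 1) - 1 - i) else 0)
    (hZ₂ : ∀ i, (lZ.map fun Y => Y.colLen i).sum = if i < 2 * (n0 + 1) then
      glueV (sideH n) (chainA n) w2 r2 t2 n0 pL2 pR2 (2 * (n0 + 1) - 1 - i) else 0)
    (hQ₁ : ∀ j, (lQ.map fun Y => Y.rowLen j).sum = if j < 2 * (n0 + 1) then
      glueQ (sideH n') (chainA n) (chainA n') w1 r1 t1 n0 pL1 pR1 j else 0)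
    (hQ₂ : ∀ j, (lQ.map fun Y => Y.colLen j).sum = if j < 2 * (n0 + 1) then
      glueQ (sideH n') (chainA n) (chainA n') w2 r2 t2 n0 pL2 pR2 j else 0)
    {cA : YoungDiagram} (hAT : TT (XF n') cA) :
    TT (XF n) (addD (addD cA (colsD ((lQ.map YoungDiagram.card : List ℕ) : Multiset ℕ)))
      (colsD ((lZ.map YoungDiagram.card : List ℕ) : Multiset ℕ))) := by
  have T1 := XF_tagData D hr1 ht1 hw1 hL1 hR1
  have T2 := XF_tagData D hr2 ht2 hw2 hL2 hR2
  have C1 := XF_colQ D hr1 ht1 hw1 hL1 hR1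
  have C2 := XF_colQ D hr2 ht2 hw2 hL2 hR2
  rw [D.XF_eq]
  rw [D.XF_eq'] at hAT
  refine TT_of_tags T1 T2 lZ lQ hZ₁ hZ₂ ?_ ?_ hAT
  · intro j
    rw [hQ₁]
    split_ifs with hj
    · exact (C1 j hj).symm
    · rfl
  · intro j
    rw [hQ₂]
    split_ifs with hj
    · exact (C2 j hj).symm
    · rfl

end Crest.Agent.Lib.Saxl
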