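import Crest.Agent.Lib.Saxl.TileStrip
import Crest.Agent.Lib.Saxl.BitMatrix

/-!
# Saxl: bit tiles `F_s(e)` (helper79)

`blockW e`: the block word of a bit string, `true ↦ EN`, `false ↦ NE`.  `tileF e := shape (blockW e)`.

With `s = e.length` and `p < s` (levels counted from the bottom, `p = 0` the shortest row), the row
of level `p` has length `p + e[p]`: `rowLen_tileF` gives `(tileF e).rowLen j` for the row `j` from the
top, `j = s - 1 - p`.

* `transpose_tileF : (tileF e).transpose = tileF e.reverse`
* `card_tileF : 2 * (tileF e).card + s = s * s + 2 * #ones`
* `rowLen_sumD`, `rowLen_sumD_tileF`: the rows of a sum of tiles, `rows = t * p + coverage p`.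
* `sumD_tileF_eq`: two sums of tiles with the same number of tiles and the same coverage are equal.
* `TT_sumD_tileF_balanced`, `Q_sumD_tileF`: the columns `|Y_i|` on sums of tiles.
-/

set_option autoImplicit false
set_option linter.unusedSectionVars false

namespace Crest.Agent.Lib.Saxl

/-- The block word of a bit string. -/
def blockW : List Bool → List Bool
  | [] => []
  | true :: e => true :: false :: blockW e
  | false :: e => false :: true :: blockW e

/-- The tile of a bit string. -/
noncomputable def tileF (e : List Bool) : YoungDiagram := shape (blockW e)

@[simp] lemma blockW_nil : blockW [] = [] := rfl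

lemma blockW_append (a b : List Bool) : blockW (a ++ b) = blockW a ++ blockW b := by
  induction a with
  | nil => rfl
  | cons x a ih => cases x <;> simp [blockW, ih]

lemma flipW_blockW (e : List Bool) : flipW (blockW e) = blockW e.reverse := by
  induction e with
  | nil => rfl
  | cons x e ih =>
    rw [List.reverse_cons, blockW_append]
    cases x
    · have h : blockW (false :: e) = [false, true] ++ blockW e := rfl
      rw [h, flipW_append, ih]
      rfl
    · have h : blockW (true :: e) = [true, false] ++ blockW e := rfl
      rw [h, flipW_append, ih]
      rfl

theorem transpose_tileF (e : List Bool) : (tileF e).transpose = tileF e.reverse := by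
  unfold tileF
  rw [← shape_flipW, flipW_blockW]

lemma nE_blockW (e : List Bool) : nE (blockW e) = e.length := by
  induction e with
  | nil => rfl
  | cons x e ih => cases x <;> simp [blockW, nE] at ih ⊢ <;> omega

/-- The bit of a level, as a number. -/
def bitN (e : List Bool) (p : ℕ) : ℕ := if e.getD p false = true then 1 else 0

lemma bitN_le (e : List Bool) (p : ℕ) : bitN e p ≤ 1 := by
  unfold bitN
  split_ifs <;> omega

/-- Rows of a block word, from the top. Appending a block at the end adds a row on the top. -/
lemma rowsW_blockW_append (e : List Bool) (x : Bool) :
    rowsW (blockW (e ++ [x])) = (e.length + (if x = true then 1 else 0)) :: rowsW (blockW e) := by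
  rw [blockW_append]
  cases x
  · have h : blockW e ++ blockW [false] = (blockW e ++ [false]) ++ [true] := by
      simp [blockW]
    rw [h, rowsW_append_true, rowsW_append_false, nE_blockW]
    simp
  · have h : blockW e ++ blockW [true] = (blockW e ++ [true]) ++ [false] := by
      simp [blockW]
    rw [h, rowsW_append_false, rowsW_append_true, nE_append, nE_blockW]
    simp [nE]

lemma length_rowsW_blockW (e : List Bool) : (rowsW (blockW e)).length = e.length := by
  induction e using List.reverseRecOn with
  | nil => rfl
  | append_singleton e x ih =>
    rw [rowsW_blockW_append]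
    simp [ih]

lemma getD_rowsW_blockW (e : List Bool) (j : ℕ) (hj : j < e.length) :
    (rowsW (blockW e)).getD j 0 = (e.length - 1 - j) + bitN e (e.length - 1 - j) := by
  induction e using List.reverseRecOn generalizing j with
  | nil => simp at hj
  | append_singleton e x ih =>
    rw [rowsW_blockW_append]
    have hl : (e ++ [x]).length = e.length + 1 := by simp
    rw [hl]
    cases j with
    | zero =>
      simp only [List.getD_cons_zero, Nat.add_sub_cancel, Nat.sub_zero]
      unfold bitN
      simp only [List.getD_eq_getElem?_getD, List.getElem?_append_right (le_refl e.length),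
        Nat.sub_self]
      cases x <;> simp
    | succ j =>
      have hj' : j < e.length := by
        rw [hl] at hj
        omega
      simp only [List.getD_cons_succ]
      rw [ih j hj']
      have e1 : e.length + 1 - 1 - (j + 1) = e.length - 1 - j := by omega
      rw [e1]
      congr 1
      unfold bitN
      have hlt : e.length - 1 - j < e.length := by omega
      simp only [List.getD_eq_getElem?_getD, List.getElem?_append_left hlt]

/-- The rows of a tile. -/
theorem rowLen_tileF (e : List Bool) (j : ℕ) :
    (tileF e).rowLen j =
      if j < e.length then (e.length - 1 - j) + bitN e (e.length - 1 - j) else 0 := by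
  unfold tileF
  rw [rowLen_shape]
  split_ifs with hj
  · exact getD_rowsW_blockW e j hj
  · rw [List.getD_eq_default]
    rw [length_rowsW_blockW]
    omega

lemma two_area_blockW (e : List Bool) :
    2 * area (blockW e) + e.length = e.length * e.length + 2 * e.count true := by
  induction e using List.reverseRecOn with
  | nil => simp [area, rowsW, rowsAux]
  | append_singleton e x ih =>
    have h1 : area (blockW (e ++ [x])) =
        (e.length + (if x = true then 1 else 0)) + area (blockW e) := by
      unfold area
      rw [rowsW_blockW_append]
      simp
    rw [h1]
    have hl : (e ++ [x]).length = e.length + 1 := by simp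
    rw [hl, List.count_append]
    cases x
    · simp only [Bool.false_eq_true, if_false, List.count_singleton, beq_iff_eq]
      simp only [reduceCtorEq, if_false, add_zero] at *
      nlinarith
    · simp only [if_true, List.count_singleton]
      simp only [beq_self_eq_true, if_true] at *
      nlinarith

/-- The size of a tile. -/
theorem card_tileF (e : List Bool) :
    2 * (tileF e).card + e.length = e.length * e.length + 2 * e.count true := by
  unfold tileF
  rw [card_shape]
  exact two_area_blockW e

/-! ### Sums of diagrams -/

/-- Rows of a sum of diagrams. -/
theorem rowLen_sumD (l : List YoungDiagram) (j : ℕ) :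
    (sumD l).rowLen j = (l.map fun a => a.rowLen j).sum := by
  induction l with
  | nil =>
    simp only [sumD, List.map_nil, List.sum_nil]
    symm
    apply eq_of_forall_lt_iff
    intro k
    simp [YoungDiagram.mem_iff_lt_rowLen.symm]
  | cons a l ih =>
    simp only [sumD, List.map_cons, List.sum_cons]
    rw [rowLen_addD, ih]

lemma card_sumD (l : List YoungDiagram) : (sumD l).card = (l.map YoungDiagram.card).sum := by
  induction l with
  | nil => rfl
  | cons a l ih =>
    simp only [sumD, List.map_cons, List.sum_cons]
    rw [card_addD, ih]

/-- The coverage of a level by a matrix of bit strings. -/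
def coverN (M : List (List Bool)) (p : ℕ) : ℕ := (M.map fun e => bitN e p).sum

lemma coverN_eq_count (M : List (List Bool)) (p : ℕ) :
    coverN M p = (colOf M p).count true := by
  induction M with
  | nil => rfl
  | cons e M ih =>
    simp only [coverN, List.map_cons, List.sum_cons, colOf] at ih ⊢
    rw [ih, List.count_cons]
    unfold bitN
    by_cases h : e.getD p false = true <;> simp [h] <;> omega

/-- Rows of a sum of tiles of the same side `s`: `t * p + coverage p` at level `p`. -/
theorem rowLen_sumD_tileF (M : List (List Bool)) (s : ℕ) (hM : ∀ e ∈ M, e.length = s) (j : ℕ) :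
    (sumD (M.map tileF)).rowLen j =
      if j < s then M.length * (s - 1 - j) + coverN M (s - 1 - j) else 0 := by
  rw [rowLen_sumD]
  induction M with
  | nil =>
    simp [coverN]
  | cons e M ih =>
    have he : e.length = s := hM e (by simp)
    have ih' := ih (fun f hf => hM f (by simp [hf]))
    simp only [List.map_cons, List.sum_cons, List.map_map, Function.comp_def] at ih' ⊢
    rw [ih', rowLen_tileF, he]
    simp only [coverN, List.map_cons, List.sum_cons, List.length_cons]
    split_ifs with hj
    · ring
    · rfl

/-- Two sums of tiles with the same side, the same number and the same coverage are equal. -/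
theorem sumD_tileF_eq (M M' : List (List Bool)) (s : ℕ) (hM : ∀ e ∈ M, e.length = s)
    (hM' : ∀ e ∈ M', e.length = s) (hl : M.length = M'.length)
    (hc : ∀ p, p < s → coverN M p = coverN M' p) :
    sumD (M.map tileF) = sumD (M'.map tileF) := by
  apply ext_rowLen
  intro j
  rw [rowLen_sumD_tileF M s hM, rowLen_sumD_tileF M' s hM', hl]
  split_ifs with hj
  · rw [hc _ (by omega)]
  · rfl

lemma bitN_reverse (e : List Bool) {p : ℕ} (hp : p < e.length) :
    bitN e.reverse p = bitN e (e.length - 1 - p) := by
  unfold bitN
  have h1 : p < e.reverse.length := by simpa using hp
  have h2 : e.length - 1 - p < e.length := by omega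
  simp only [List.getD_eq_getElem?_getD, List.getElem?_eq_getElem h1, List.getElem?_eq_getElem h2,
    List.getElem_reverse, Option.getD_some]

/-- Coverage of the reversed strings. -/
lemma coverN_reverse (M : List (List Bool)) (s : ℕ) (hM : ∀ e ∈ M, e.length = s) {p : ℕ}
    (hp : p < s) : coverN (M.map List.reverse) p = coverN M (s - 1 - p) := by
  induction M with
  | nil => rfl
  | cons e M ih =>
    have he : e.length = s := hM e (by simp)
    have ih' := ih (fun f hf => hM f (by simp [hf]))
    simp only [coverN, List.map_cons, List.sum_cons, List.map_map, Function.comp_def] at ih' ⊢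
    rw [ih', bitN_reverse e (by omega), he]

lemma map_transpose_tileF (M : List (List Bool)) :
    ((M.map tileF).map YoungDiagram.transpose) = (M.map List.reverse).map tileF := by
  simp [Function.comp_def, transpose_tileF]

/-- The conjugate sum of tiles: rows `t * p + coverage (s - 1 - p)`. -/
theorem rowLen_sumD_transpose_tileF (M : List (List Bool)) (s : ℕ) (hM : ∀ e ∈ M, e.length = s)
    (j : ℕ) :
    (sumD ((M.map tileF).map YoungDiagram.transpose)).rowLen j =
      if j < s then M.length * (s - 1 - j) + coverN M j else 0 := by
  rw [map_transpose_tileF, rowLen_sumD_tileF (M.map List.reverse) s (by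
    intro e he
    obtain ⟨f, hf, rfl⟩ := List.mem_map.1 he
    simpa using hM f hf)]
  simp only [List.length_map]
  split_ifs with hj
  · rw [coverN_reverse M s hM (by omega)]
    have : s - 1 - (s - 1 - j) = j := by omega
    rw [this]
  · rfl

/-- **A sum of tiles with palindromic coverage hosts one column per tile.** -/
theorem TT_sumD_tileF_balanced (M : List (List Bool)) (s : ℕ) (hM : ∀ e ∈ M, e.length = s)
    (hpal : ∀ p, p < s → coverN M p = coverN M (s - 1 - p)) :
    TT (sumD (M.map tileF))
      (colsD (((M.map tileF).map YoungDiagram.card : List ℕ) : Multiset ℕ)) := by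
  apply TT_sumD_of_balanced
  apply ext_rowLen
  intro j
  rw [rowLen_sumD_transpose_tileF M s hM, rowLen_sumD_tileF M s hM]
  split_ifs with hj
  · rw [hpal j (by omega)]
  · rfl

/-- The pair form: a sum of tiles and its reversal host one column per tile. -/
theorem Q_sumD_tileF (M : List (List Bool)) :
    Q (sumD (M.map tileF)) (sumD ((M.map List.reverse).map tileF))
      (colsD (((M.map tileF).map YoungDiagram.card : List ℕ) : Multiset ℕ)) := by
  have h := Q_sumD_cols (M.map tileF)
  rwa [map_transpose_tileF] at h

end Crest.Agent.Lib.Saxl
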