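import Crest.Agent.Lib.Saxl.TileStrip
import Crest.Agent.Lib.Saxl.BitMatrix

/-!
# Saxl: tiles as lists of self-flip atoms, balanced families (helper47, row 195)

`rowsUp w` lists the rows of `shape w` from the first `N` to the last one (one entry per `N`, zero
rows included).  It is additive on concatenation, so a tile that is a concatenation of factors is
computed factor by factor.

* `sumD_shape_of_rowsUp`: a sum of shapes of words is a shape of a word as soon as the rows add.
* `TT_of_rowsUp_balanced`: if the rows of the tiles and the rows of the flipped tiles both add up to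
  the rows of `z`, then `shape z` hosts one column for each tile.
* Atoms (`Atom`): `en = EN`, `ne = NE` (one level), `gp k = EE (NE)^k NN`, `gm k = NN (EN)^k EE`
  (`k + 2` levels; `k = 0`: the dipoles `EENN`, `NNEE`).  Every atom is a self-flip word
  (`flipW_aw`), so `flipW (tileW l) = tileW l.reverse` (`flipW_tileW`).
* Offsets: `offL l : List ℤ` has one entry per level, `en: 1`, `ne: 0`, `gp k: 2,..,2,1`,
  `gm k: 0,-1,..,-1`, and `rowsUp (tileW l)` at level `p` is `p + offL l p` (`rowsUp_tileW_getD`).
  The area of the tile is `T_(s-1) + Σ offL l` (`card_shape_tileW`).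
* `TT_tiles_of_offsets`: the final form: `l₁,…,l_τ` tiles with `s` levels each, `z` a word with `s`
  letters `N`: if for every level `Σ_j offL l_j p = rowsUp z p - τ p` and
  `Σ_j offL (l_j.reverse) p = rowsUp z p - τ p`, then `shape z` hosts one column `|tile_j|` per tile.
-/

set_option autoImplicit false
set_option linter.unusedSectionVars false

namespace Crest.Agent.Lib.Saxl

/-! ### Rows from the bottom -/

/-- Rows of a word from the first `N` to the last one: `p`-th entry = number of `E` before the
`p`-th `N`. -/
def rowsUp : List Bool → List ℕ
  | [] => []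
  | true :: t => (rowsUp t).map (· + 1)
  | false :: t => 0 :: rowsUp t

lemma rowsUp_eq_reverse (w : List Bool) : rowsUp w = (rowsW w).reverse := by
  induction w with
  | nil => rfl
  | cons b t ih =>
    cases b with
    | true => simp [rowsUp, ih, rowsW_cons_true, List.map_reverse]
    | false => simp [rowsUp, ih, rowsW_cons_false]

lemma length_rowsUp (w : List Bool) : (rowsUp w).length = nN w := by
  rw [rowsUp_eq_reverse, List.length_reverse]
  exact rowsAux_length w 0

lemma sum_rowsUp (w : List Bool) : (rowsUp w).sum = area w := by
  rw [rowsUp_eq_reverse, List.sum_reverse]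
  rfl

lemma rowsUp_append (u v : List Bool) :
    rowsUp (u ++ v) = rowsUp u ++ (rowsUp v).map (· + nE u) := by
  induction u with
  | nil => simp [rowsUp, nE]
  | cons b t ih =>
    cases b with
    | true =>
      simp only [List.cons_append, rowsUp, ih, List.map_append, List.map_map]
      congr 1
      apply List.map_congr_left
      intro a _
      simp [nE]
      omega
    | false =>
      simp only [List.cons_append, rowsUp, ih, List.cons.injEq, true_and]
      simp [nE]

lemma getD_rowsW (w : List Bool) {i : ℕ} (hi : i < nN w) :
    (rowsW w).getD i 0 = (rowsUp w).getD (nN w - 1 - i) 0 := by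
  have hl : (rowsW w).length = nN w := rowsAux_length w 0
  rw [rowsUp_eq_reverse]
  have h1 : i < (rowsW w).length := by omega
  have h2 : nN w - 1 - i < (rowsW w).reverse.length := by
    rw [List.length_reverse]; omega
  rw [List.getD_eq_getElem _ _ h1, List.getD_eq_getElem _ _ h2, List.getElem_reverse]
  congr 1
  omega

lemma rowLen_shape_up (w : List Bool) {i : ℕ} (hi : i < nN w) :
    (shape w).rowLen i = (rowsUp w).getD (nN w - 1 - i) 0 := by
  rw [rowLen_shape, getD_rowsW w hi]

lemma rowLen_shape_of_ge (w : List Bool) {i : ℕ} (hi : nN w ≤ i) :
    (shape w).rowLen i = 0 := by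
  rw [rowLen_shape, getD_rowsW_of_ge w i hi]

lemma rowLen_sumD (l : List YoungDiagram) (i : ℕ) :
    (sumD l).rowLen i = (l.map fun a => a.rowLen i).sum := by
  induction l with
  | nil =>
    simp only [sumD, List.map_nil, List.sum_nil]
    rw [← Nat.le_zero]
    by_contra h
    have h2 : (i, 0) ∈ (⊥ : YoungDiagram) := by
      rw [YoungDiagram.mem_iff_lt_rowLen]; omega
    simp at h2
  | cons a l ih =>
    simp only [sumD, List.map_cons, List.sum_cons]
    rw [rowLen_addD, ih]

/-- **Rows add.**  A sum of shapes of words with the same number `s` of `N` is the shape of `z` as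
soon as the rows add up level by level. -/
theorem sumD_shape_of_rowsUp (l : List (List Bool)) (z : List Bool) (s : ℕ)
    (hl : ∀ w ∈ l, nN w = s) (hz : nN z = s)
    (h : ∀ p, p < s → (l.map fun w => (rowsUp w).getD p 0).sum = (rowsUp z).getD p 0) :
    sumD (l.map shape) = shape z := by
  apply ext_rowLen
  intro i
  rw [rowLen_sumD, List.map_map]
  rcases Nat.lt_or_ge i s with hi | hi
  · rw [rowLen_shape_up z (by omega), hz, ← h _ (by omega)]
    congr 1
    apply List.map_congr_left
    intro w hw
    show (shape w).rowLen i = _
    rw [rowLen_shape_up w (by rw [hl w hw]; exact hi), hl w hw]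
  · rw [rowLen_shape_of_ge z (by omega)]
    apply List.sum_eq_zero
    intro x hx
    obtain ⟨w, hw, rfl⟩ := List.mem_map.1 hx
    show (shape w).rowLen i = 0
    exact rowLen_shape_of_ge w (by rw [hl w hw]; exact hi)

lemma map_shape_transpose (l : List (List Bool)) :
    (l.map shape).map YoungDiagram.transpose = (l.map flipW).map shape := by
  simp [List.map_map, Function.comp_def, shape_flipW]

/-- **Balanced family from words.** -/
theorem TT_of_rowsUp_balanced (l : List (List Bool)) (z : List Bool) (s : ℕ)
    (hl : ∀ w ∈ l, nN w = s) (hl' : ∀ w ∈ l, nE w = s) (hz : nN z = s)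
    (h : ∀ p, p < s → (l.map fun w => (rowsUp w).getD p 0).sum = (rowsUp z).getD p 0)
    (h' : ∀ p, p < s → (l.map fun w => (rowsUp (flipW w)).getD p 0).sum = (rowsUp z).getD p 0) :
    TT (shape z) (colsD (((l.map shape).map YoungDiagram.card : List ℕ) : Multiset ℕ)) := by
  have h1 := sumD_shape_of_rowsUp l z s hl hz h
  have h2 := sumD_shape_of_rowsUp (l.map flipW) z s (by
    intro w hw
    obtain ⟨w0, hw0, rfl⟩ := List.mem_map.1 hw
    rw [nN_flipW]; exact hl' w0 hw0) hz (by
    intro p hp
    rw [List.map_map]
    exact h' p hp)
  rw [← h1]
  apply TT_sumD_of_balanced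
  rw [map_shape_transpose, h2, h1]

/-! ### Near-staircase words -/

lemma nE_neW (k : ℕ) : nE (neW k) = k := by
  induction k with
  | zero => rfl
  | succ k ih => simp [neW, nE, List.count_append] at ih ⊢; omega

lemma nN_neW (k : ℕ) : nN (neW k) = k := by
  induction k with
  | zero => rfl
  | succ k ih => simp [neW, nN, List.count_append] at ih ⊢; omega

lemma rowsUp_neW (k : ℕ) : rowsUp (neW k) = List.range k := by
  induction k with
  | zero => rfl
  | succ k ih =>
    rw [neW, rowsUp_append, ih, List.range_succ, nE_neW]
    simp [rowsUp]

lemma rowsUp_stairW (k : ℕ) : rowsUp (stairW k) = (List.range k).map (· + 1) := by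
  induction k with
  | zero => rfl
  | succ k ih =>
    rw [stairW, rowsUp_append, ih, List.range_succ, nE_stairW]
    simp [rowsUp]
    omega

/-! ### Atoms -/

/-- The atoms of a tile. -/
inductive Atom where
  | en | ne
  | gp (k : ℕ)
  | gm (k : ℕ)
  deriving DecidableEq

namespace Atom

/-- The word of an atom. -/
def aw : Atom → List Bool
  | en => [true, false]
  | ne => [false, true]
  | gp k => [true, true] ++ neW k ++ [false, false]
  | gm k => [false, false] ++ stairW k ++ [true, true]

/-- The number of levels of an atom. -/
def sz : Atom → ℕ
  | en => 1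
  | ne => 1
  | gp k => k + 2
  | gm k => k + 2

/-- The offsets of an atom, one per level. -/
def off : Atom → List ℤ
  | en => [1]
  | ne => [0]
  | gp k => List.replicate (k + 1) 2 ++ [1]
  | gm k => 0 :: List.replicate (k + 1) (-1)

lemma flipW_aw (a : Atom) : flipW a.aw = a.aw := by
  cases a with
  | en => rfl
  | ne => rfl
  | gp k =>
    simp only [aw]
    rw [flipW_append, flipW_append, flipW_neW]
    rfl
  | gm k =>
    simp only [aw]
    rw [flipW_append, flipW_append, flipW_stairW]
    rfl

lemma nE_aw (a : Atom) : nE a.aw = a.sz := by
  cases a with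
  | en => rfl
  | ne => rfl
  | gp k =>
    simp only [aw, sz, nE, List.count_append] at *
    have := nE_neW k
    simp only [nE] at this
    simp [this] <;> omega
  | gm k =>
    simp only [aw, sz, nE, List.count_append] at *
    have := nE_stairW k
    simp only [nE] at this
    simp [this] <;> omega

lemma nN_aw (a : Atom) : nN a.aw = a.sz := by
  cases a with
  | en => rfl
  | ne => rfl
  | gp k =>
    simp only [aw, sz, nN, List.count_append] at *
    have := nN_neW k
    simp only [nN] at this
    simp [this] <;> omega
  | gm k =>
    simp only [aw, sz, nN, List.count_append] at *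
    have := nN_stairW k
    simp only [nN] at this
    simp [this] <;> omega

lemma length_off (a : Atom) : a.off.length = a.sz := by
  cases a <;> simp [off, sz]

/-- `rowsUp` of an atom, in offset form. -/
lemma rowsUp_aw_getD (a : Atom) {p : ℕ} (hp : p < a.sz) :
    (((rowsUp a.aw).getD p 0 : ℕ) : ℤ) = p + a.off.getD p 0 := by
  cases a with
  | en =>
    have : p = 0 := by simpa [sz] using hp
    subst this
    simp [aw, off, rowsUp]
  | ne =>
    have : p = 0 := by simpa [sz] using hp
    subst this
    simp [aw, off, rowsUp]
  | gp k =>
    have hp' : p < k + 2 := hp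
    have hr : rowsUp (gp k).aw = ((List.range k).map (· + 2)) ++ [k + 2, k + 2] := by
      simp only [aw]
      rw [rowsUp_append, rowsUp_append, rowsUp_neW]
      simp [rowsUp, nE, List.count_append, nE_neW]
      have := nE_neW k
      simp only [nE] at this
      omega
    rw [hr]
    rcases Nat.lt_trichotomy p k with h | h | h
    · rw [List.getD_append _ _ _ _ (by simpa using h)]
      have : ((List.range k).map (· + 2)).getD p 0 = p + 2 := by
        rw [List.getD_eq_getElem _ _ (by simpa using h)]
        simp
      rw [this]
      simp only [off]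
      rw [List.getD_append _ _ _ _ (by simp; omega), List.getD_eq_getElem _ _ (by simp; omega)]
      simp
    · subst h
      rw [List.getD_append_right _ _ _ _ (by simp)]
      simp only [off]
      rw [List.getD_append _ _ _ _ (by simp), List.getD_eq_getElem _ _ (by simp)]
      simp
    · have h1 : p = k + 1 := by omega
      subst h1
      rw [List.getD_append_right _ _ _ _ (by simp)]
      simp only [off]
      rw [List.getD_append_right _ _ _ _ (by simp)]
      simp
      ring
  | gm k =>
    have hp' : p < k + 2 := hp
    have hr : rowsUp (gm k).aw = 0 :: 0 :: (List.range k).map (· + 1) := by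
      simp only [aw]
      rw [rowsUp_append, rowsUp_append, rowsUp_stairW]
      simp [rowsUp, nE, List.count_append]
    rw [hr]
    cases p with
    | zero => simp [off]
    | succ p =>
      cases p with
      | zero => simp [off]
      | succ p =>
        have hp2 : p < k := by omega
        have h3 : (0 :: 0 :: (List.range k).map (· + 1)).getD (p + 1 + 1) 0 = p + 1 := by
          rw [List.getD_cons_succ, List.getD_cons_succ,
            List.getD_eq_getElem _ _ (by simpa using hp2)]
          simp
        rw [h3]
        have h4 : (gm k).off.getD (p + 1 + 1) 0 = -1 := by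
          simp only [off]
          rw [List.getD_cons_succ, List.getD_eq_getElem _ _ (by simp; omega)]
          simp
        rw [h4]
        push_cast
        ring

end Atom

/-! ### Tiles -/

/-- The word of a tile. -/
def tileW : List Atom → List Bool
  | [] => []
  | a :: l => a.aw ++ tileW l

/-- Number of levels. -/
def tileSz : List Atom → ℕ
  | [] => 0
  | a :: l => a.sz + tileSz l

/-- Offsets, one per level. -/
def offL : List Atom → List ℤ
  | [] => []
  | a :: l => a.off ++ offL l

lemma tileW_append (l l' : List Atom) : tileW (l ++ l') = tileW l ++ tileW l' := by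
  induction l with
  | nil => rfl
  | cons a l ih => simp [tileW, ih]

lemma tileSz_append (l l' : List Atom) : tileSz (l ++ l') = tileSz l + tileSz l' := by
  induction l with
  | nil => simp [tileSz]
  | cons a l ih => simp [tileSz, ih]; omega

lemma offL_append (l l' : List Atom) : offL (l ++ l') = offL l ++ offL l' := by
  induction l with
  | nil => rfl
  | cons a l ih => simp [offL, ih]

lemma length_offL (l : List Atom) : (offL l).length = tileSz l := by
  induction l with
  | nil => rfl
  | cons a l ih => simp [offL, tileSz, ih, Atom.length_off]

lemma flipW_tileW (l : List Atom) : flipW (tileW l) = tileW l.reverse := by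
  induction l with
  | nil => rfl
  | cons a l ih =>
    rw [tileW, flipW_append, ih, Atom.flipW_aw, List.reverse_cons, tileW_append]
    simp [tileW]

lemma nE_tileW (l : List Atom) : nE (tileW l) = tileSz l := by
  induction l with
  | nil => rfl
  | cons a l ih =>
    have h : nE (a.aw ++ tileW l) = nE a.aw + nE (tileW l) := by simp [nE, List.count_append]
    rw [tileW, h, ih, Atom.nE_aw]; rfl

lemma nN_tileW (l : List Atom) : nN (tileW l) = tileSz l := by
  induction l with
  | nil => rfl
  | cons a l ih =>
    have h : nN (a.aw ++ tileW l) = nN a.aw + nN (tileW l) := by simp [nN, List.count_append]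
    rw [tileW, h, ih, Atom.nN_aw]; rfl

/-- The rows of a tile: `p + offset`. -/
theorem rowsUp_tileW_getD (l : List Atom) {p : ℕ} (hp : p < tileSz l) :
    (((rowsUp (tileW l)).getD p 0 : ℕ) : ℤ) = p + (offL l).getD p 0 := by
  induction l generalizing p with
  | nil => simp [tileSz] at hp
  | cons a l ih =>
    simp only [tileW, offL]
    rw [rowsUp_append, Atom.nE_aw]
    have hlen : (rowsUp a.aw).length = a.sz := by rw [length_rowsUp, Atom.nN_aw]
    rcases Nat.lt_or_ge p a.sz with h | h
    · rw [List.getD_append _ _ _ _ (by omega),
        List.getD_append _ _ _ _ (by rw [Atom.length_off]; exact h), Atom.rowsUp_aw_getD a h]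
    · have hp' : p - a.sz < tileSz l := by simp only [tileSz] at hp; omega
      rw [List.getD_append_right _ _ _ _ (by omega),
        List.getD_append_right _ _ _ _ (by rw [Atom.length_off]; exact h), hlen, Atom.length_off]
      have hl : p - a.sz < (rowsUp (tileW l)).length := by
        rw [length_rowsUp, nN_tileW]; exact hp'
      have h1 : ((rowsUp (tileW l)).map (· + a.sz)).getD (p - a.sz) 0
          = (rowsUp (tileW l)).getD (p - a.sz) 0 + a.sz := by
        rw [List.getD_eq_getElem _ _ (by simpa using hl), List.getElem_map,
          List.getD_eq_getElem _ _ hl]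
      rw [h1]
      push_cast
      rw [ih hp']
      have : ((p - a.sz : ℕ) : ℤ) = (p : ℤ) - a.sz := by omega
      rw [this]
      ring

/-- The sum of the offsets of a tile against its area. -/
theorem card_shape_tileW (l : List Atom) :
    (2 * ((shape (tileW l)).card : ℤ)) = tileSz l * (tileSz l - 1) + 2 * (offL l).sum := by
  have h1 : ∀ (l : List Atom), (((rowsUp (tileW l)).sum : ℕ) : ℤ) =
      ((List.range (tileSz l)).map (fun p : ℕ => (p : ℤ))).sum + (offL l).sum := by
    intro l
    have hlen : (rowsUp (tileW l)).length = tileSz l := by rw [length_rowsUp, nN_tileW]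
    have hlen2 : (offL l).length = tileSz l := length_offL l
    have key : ∀ (a : List ℕ) (b : List ℤ) (n : ℕ), a.length = n → b.length = n →
        (∀ p, p < n → ((a.getD p 0 : ℕ) : ℤ) = p + b.getD p 0) →
        ((a.sum : ℕ) : ℤ) = ((List.range n).map (fun p : ℕ => (p : ℤ))).sum + b.sum := by
      intro a b n ha hb h
      induction n generalizing a b with
      | zero =>
        have h1 : a = [] := List.length_eq_zero_iff.1 ha
        have h2 : b = [] := List.length_eq_zero_iff.1 hb
        subst h1 h2
        simp
      | succ n ih =>
        have ha' : a = a.dropLast ++ [a.getD n 0] := by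
          have hn : n < a.length := by omega
          rw [List.getD_eq_getElem _ _ hn]
          have : a.getLast (List.ne_nil_of_length_eq_add_one ha) = a[n] := by
            rw [List.getLast_eq_getElem]; simp [ha]
          rw [← this, List.dropLast_append_getLast]
        have hb' : b = b.dropLast ++ [b.getD n 0] := by
          have hn : n < b.length := by omega
          rw [List.getD_eq_getElem _ _ hn]
          have : b.getLast (List.ne_nil_of_length_eq_add_one hb) = b[n] := by
            rw [List.getLast_eq_getElem]; simp [hb]
          rw [← this, List.dropLast_append_getLast]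
        have ih2 := ih a.dropLast b.dropLast (by simp [ha]) (by simp [hb]) (by
          intro p hp
          have h3 := h p (by omega)
          rw [List.getD_eq_getElem _ _ (by simp [ha]; omega),
            List.getD_eq_getElem _ _ (by simp [hb]; omega)]
          rw [List.getD_eq_getElem _ _ (by omega), List.getD_eq_getElem _ _ (by omega)] at h3
          simpa using h3)
        have h4 := h n (by omega)
        rw [ha', hb', List.range_succ]
        simp only [List.sum_append, List.sum_cons, List.sum_nil, List.map_append, List.map_cons,
          List.map_nil, add_zero, Nat.cast_add]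
        rw [ih2, h4]
        ring
    exact key _ _ _ hlen hlen2 (fun p hp => rowsUp_tileW_getD l hp)
  have h2 : ∀ n : ℕ, 2 * ((List.range n).map (fun p : ℕ => (p : ℤ))).sum = n * ((n : ℤ) - 1) := by
    intro n
    induction n with
    | zero => simp
    | succ n ih =>
      rw [List.range_succ]
      simp only [List.map_append, List.sum_append, List.map_cons, List.map_nil, List.sum_cons,
        List.sum_nil, add_zero, mul_add, ih]
      push_cast
      ring
  have h3 := h1 l
  rw [sum_rowsUp] at h3
  rw [card_shape, h3, mul_add, h2]

/-! ### The final form -/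

lemma tileSz_reverse (l : List Atom) : tileSz l.reverse = tileSz l := by
  induction l with
  | nil => rfl
  | cons a l ih =>
    rw [List.reverse_cons, tileSz_append, ih]
    simp [tileSz]
    omega

lemma sum_rows_tiles (tiles : List (List Atom)) (p : ℕ) (h : ∀ l ∈ tiles, p < tileSz l) :
    ((((tiles.map tileW).map fun w => (rowsUp w).getD p 0).sum : ℕ) : ℤ)
      = tiles.length * p + (tiles.map fun l => (offL l).getD p 0).sum := by
  induction tiles with
  | nil => simp
  | cons a tiles ih =>
    simp only [List.map_cons, List.sum_cons, List.length_cons, Nat.cast_add, Nat.cast_one]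
    rw [ih (fun l hl => h l (List.mem_cons_of_mem _ hl)),
      rowsUp_tileW_getD a (h a (List.mem_cons_self ..))]
    ring

/-- **Tiles from offsets.**  `tiles` is a list of atom lists, each with `s` levels; `z` is a word
with `s` letters `N`.  If at each level the offsets of the tiles add up to `rowsUp z p - τ p`, and
the same holds for the reversed atom lists (that is, for the flipped tiles), then `shape z` hosts
one column per tile, of height the area of the tile. -/
theorem TT_tiles_of_offsets (tiles : List (List Atom)) (z : List Bool) (s : ℕ)
    (hs : ∀ l ∈ tiles, tileSz l = s) (hz : nN z = s)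
    (h : ∀ p, p < s → ((tiles.map fun l => (offL l).getD p 0).sum : ℤ)
      = ((rowsUp z).getD p 0 : ℕ) - tiles.length * p)
    (h' : ∀ p, p < s → ((tiles.map fun l => (offL l.reverse).getD p 0).sum : ℤ)
      = ((rowsUp z).getD p 0 : ℕ) - tiles.length * p) :
    TT (shape z) (colsD ((((tiles.map tileW).map shape).map YoungDiagram.card : List ℕ) : Multiset ℕ)) := by
  apply TT_of_rowsUp_balanced (tiles.map tileW) z s
  · intro w hw
    obtain ⟨l, hl, rfl⟩ := List.mem_map.1 hw
    rw [nN_tileW, hs l hl]
  · intro w hw
    obtain ⟨l, hl, rfl⟩ := List.mem_map.1 hw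
    rw [nE_tileW, hs l hl]
  · exact hz
  · intro p hp
    have h1 := sum_rows_tiles tiles p (fun l hl => by rw [hs l hl]; exact hp)
    rw [h p hp] at h1
    have : ((((tiles.map tileW).map fun w => (rowsUp w).getD p 0).sum : ℕ) : ℤ)
        = (((rowsUp z).getD p 0 : ℕ) : ℤ) := by rw [h1]; ring
    exact_mod_cast this
  · intro p hp
    have h1 := sum_rows_tiles (tiles.map List.reverse) p (fun l hl => by
      obtain ⟨l0, hl0, rfl⟩ := List.mem_map.1 hl
      rw [tileSz_reverse, hs l0 hl0]; exact hp)
    have e1 : (tiles.map List.reverse).map (fun l => (offL l).getD p 0)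
        = tiles.map (fun l => (offL l.reverse).getD p 0) := by
      simp [List.map_map, Function.comp_def]
    rw [e1, h' p hp, List.length_map] at h1
    have e2 : ((tiles.map tileW).map fun w => (rowsUp (flipW w)).getD p 0)
        = (((tiles.map List.reverse).map tileW).map fun w => (rowsUp w).getD p 0) := by
      simp [List.map_map, Function.comp_def, flipW_tileW]
    rw [e2]
    have : ((((((tiles.map List.reverse).map tileW).map fun w => (rowsUp w).getD p 0).sum : ℕ) : ℤ))
        = (((rowsUp z).getD p 0 : ℕ) : ℤ) := by rw [h1]; ring
    exact_mod_cast this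

/-! ### Bit tiles -/

/-- The tile of a list of bits. -/
def bitAtoms (e : List Bool) : List Atom := e.map fun b => if b then Atom.en else Atom.ne

lemma tileSz_bitAtoms (e : List Bool) : tileSz (bitAtoms e) = e.length := by
  induction e with
  | nil => rfl
  | cons b e ih =>
    cases b <;> simp [bitAtoms, tileSz, Atom.sz] at ih ⊢ <;> omega

/-- Offsets of a bit tile. -/
lemma offL_bitAtoms (e : List Bool) :
    offL (bitAtoms e) = e.map fun b => if b then (1 : ℤ) else 0 := by
  induction e with
  | nil => rfl
  | cons b e ih =>
    cases b <;> simp [bitAtoms, offL, Atom.off] at ih ⊢ <;> exact ih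

lemma bitAtoms_reverse (e : List Bool) : (bitAtoms e).reverse = bitAtoms e.reverse := by
  simp [bitAtoms, List.map_reverse]

/-- A tile with a dipole or gadget `g` inserted between two bit parts. -/
def gadgetAtoms (l : List Bool) (g : Atom) (r : List Bool) : List Atom :=
  bitAtoms l ++ g :: bitAtoms r

lemma tileSz_gadgetAtoms (l : List Bool) (g : Atom) (r : List Bool) :
    tileSz (gadgetAtoms l g r) = l.length + g.sz + r.length := by
  rw [gadgetAtoms, tileSz_append, tileSz_bitAtoms]
  simp only [tileSz]
  rw [tileSz_bitAtoms]
  omega

lemma offL_gadgetAtoms (l : List Bool) (g : Atom) (r : List Bool) :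
    offL (gadgetAtoms l g r) = offL (bitAtoms l) ++ g.off ++ offL (bitAtoms r) := by
  rw [gadgetAtoms, offL_append]
  simp only [offL, List.append_assoc]

lemma reverse_gadgetAtoms (l : List Bool) (g : Atom) (r : List Bool) :
    (gadgetAtoms l g r).reverse = gadgetAtoms r.reverse g l.reverse := by
  simp [gadgetAtoms, bitAtoms_reverse]

/-! ### Offsets in closed form -/

/-- Offset of a bit tile at a level. -/
lemma getD_offL_bitAtoms (e : List Bool) (p : ℕ) (hp : p < e.length) :
    (offL (bitAtoms e)).getD p 0 = if e.getD p false then (1 : ℤ) else 0 := by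
  rw [offL_bitAtoms, List.getD_eq_getElem _ _ (by simpa using hp), List.getD_eq_getElem _ _ hp]
  simp

/-- Sum of the offsets of a bit tile. -/
lemma sum_offL_bitAtoms (e : List Bool) : (offL (bitAtoms e)).sum = e.count true := by
  rw [offL_bitAtoms]
  induction e with
  | nil => simp
  | cons b e ih =>
    cases b <;> simp [ih, List.count_cons] <;> ring

/-- Area of a bit tile: `T_(s-1) + #ones`. -/
theorem card_bit_tile (e : List Bool) :
    (2 * ((shape (tileW (bitAtoms e))).card : ℤ)) =
      e.length * ((e.length : ℤ) - 1) + 2 * e.count true := by
  rw [card_shape_tileW, tileSz_bitAtoms, sum_offL_bitAtoms]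

/-- Offset of a tile with a gadget on a zone, zone by zone. -/
lemma getD_offL_gadget_left (l : List Bool) (g : Atom) (r : List Bool) (p : ℕ) (hp : p < l.length) :
    (offL (gadgetAtoms l g r)).getD p 0 = if l.getD p false then (1 : ℤ) else 0 := by
  have hl : (offL (bitAtoms l)).length = l.length := by
    rw [length_offL, tileSz_bitAtoms]
  rw [offL_gadgetAtoms, List.append_assoc, List.getD_append _ _ _ _ (by omega),
    getD_offL_bitAtoms l p hp]

lemma getD_offL_gadget_mid (l : List Bool) (g : Atom) (r : List Bool) (p : ℕ) (hp : p < g.sz) :
    (offL (gadgetAtoms l g r)).getD (l.length + p) 0 = g.off.getD p 0 := by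
  have hl : (offL (bitAtoms l)).length = l.length := by
    rw [length_offL, tileSz_bitAtoms]
  rw [offL_gadgetAtoms, List.append_assoc, List.getD_append_right _ _ _ _ (by omega), hl,
    Nat.add_sub_cancel_left, List.getD_append _ _ _ _ (by rw [Atom.length_off]; exact hp)]

lemma getD_offL_gadget_right (l : List Bool) (g : Atom) (r : List Bool) (p : ℕ) (hp : p < r.length) :
    (offL (gadgetAtoms l g r)).getD (l.length + g.sz + p) 0 = if r.getD p false then (1 : ℤ) else 0 := by
  have hl : (offL (bitAtoms l)).length = l.length := by
    rw [length_offL, tileSz_bitAtoms]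
  rw [offL_gadgetAtoms, List.getD_append_right _ _ _ _ (by
    simp only [List.length_append, Atom.length_off, hl]; omega)]
  have : l.length + g.sz + p - (offL (bitAtoms l) ++ g.off).length = p := by
    simp only [List.length_append, Atom.length_off, hl]; omega
  rw [this, getD_offL_bitAtoms r p hp]

/-- Area of a tile with a gadget. -/
theorem card_gadget_tile (l : List Bool) (g : Atom) (r : List Bool) :
    (2 * ((shape (tileW (gadgetAtoms l g r))).card : ℤ)) =
      (l.length + g.sz + r.length : ℕ) * (((l.length + g.sz + r.length : ℕ) : ℤ) - 1)
        + 2 * (l.count true + g.off.sum + r.count true) := by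
  rw [card_shape_tileW, tileSz_gadgetAtoms, offL_gadgetAtoms, List.sum_append, List.sum_append,
    sum_offL_bitAtoms, sum_offL_bitAtoms]

/-- Sum of the offsets of an atom. -/
lemma sum_off_atom (a : Atom) : a.off.sum = match a with
    | Atom.en => 1
    | Atom.ne => 0
    | Atom.gp k => 2 * (k + 1) + 1
    | Atom.gm k => - (k + 1) := by
  cases a with
  | en => rfl
  | ne => rfl
  | gp k => simp [Atom.off, List.sum_append]; ring
  | gm k => simp [Atom.off]

/-! ### Bit matrices -/

/-- In a matrix of bit tiles, the offsets at a level add up to the count of ones in the column. -/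
lemma sum_off_bit_matrix (M : List (List Bool)) (p : ℕ) (h : ∀ e ∈ M, p < e.length) :
    ((M.map fun e => (offL (bitAtoms e)).getD p 0).sum : ℤ) = ((colOf M p).count true : ℕ) := by
  induction M with
  | nil => simp [colOf]
  | cons e M ih =>
    have h1 := ih (fun e' he' => h e' (List.mem_cons_of_mem _ he'))
    simp only [List.map_cons, List.sum_cons, colOf]
    rw [getD_offL_bitAtoms e p (h e (List.mem_cons_self ..)), h1]
    simp only [colOf, List.count_cons]
    cases e.getD p false <;> simp <;> ring

end Crest.Agent.Lib.Saxl
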