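import Crest.Agent.Lib.Saxl.TileGadget

/-!
# Saxl: matched pairs of tiles (helper47, row 195)

For a balanced word `f` on `l` levels: the `p`-th `N` of `f` has `T_f(p)` letters `E` before it and
`T_(rev f)(l+1-p)` letters `E` after it, so `T_f(p) + T_(rev f)(l+1-p) = l` (`rowsUp_add_reverse`).
So a tile `Z` of the `Z` part and a tile `Q` of the `Q'` part which carry `f` and `rev f` on mirrored
levels give coverage exactly `1` on these levels in both copies, for every `f`, and the area of `f`
is free: this moves mass between the two tiles.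

`Seg l cov z q`: the pair of words `(z, q)` on `l` levels has coverage `cov` (a list of integers) in
copy one and `cov.reverse` in copy two (the flipped words).

Pieces: `zero` (NE, NE: coverage 0), `two` (EN, EN: coverage 2), `mat l A` (a balanced word of area
`A` and its reverse: coverage 1 on `l` levels), `up h` (`E^h N^h` twice: coverage `h+1`), `dn h`
(`N^h E^h` twice: coverage `1-h`).  `pairZ ps`, `pairQ ps` are the two tiles of a list of pieces:
`Seg.pieces`, `kZ`, `kQ`: offsets of the tiles.
-/

set_option autoImplicit false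
set_option linter.unusedSectionVars false

namespace Crest.Agent.Lib.Saxl

/-! ### The identity -/

/-- `E`'s before plus `E`'s after the `p`-th `N`. -/
theorem rowsUp_add_reverse (f : List Bool) (p : ℕ) (hp : p < nN f) :
    (rowsUp f).getD p 0 + (rowsUp f.reverse).getD (nN f - 1 - p) 0 = nE f := by
  induction f generalizing p with
  | nil => simp [nN] at hp
  | cons b g ih =>
    cases b with
    | true =>
      rw [nN_cons_true] at hp ⊢
      rw [nE_cons_true, List.reverse_cons, rowsUp_append]
      have h1 : rowsUp [true] = [] := rfl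
      rw [h1]
      simp only [List.map_nil, List.append_nil, rowsUp]
      have hl : p < (rowsUp g).length := by rw [length_rowsUp]; exact hp
      have := ih p hp
      rw [List.getD_eq_getElem?_getD, List.getElem?_map, List.getElem?_eq_getElem hl]
      rw [List.getD_eq_getElem?_getD, List.getElem?_eq_getElem hl] at this
      simp only [Option.map_some, Option.getD_some] at this ⊢
      omega
    | false =>
      rw [nN_cons_false] at hp ⊢
      rw [nE_cons_false, List.reverse_cons, rowsUp_append]
      have hlr : (rowsUp g.reverse).length = nN g := by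
        rw [length_rowsUp]; simp [nN]
      have h1 : rowsUp [false] = [0] := rfl
      rw [h1]
      simp only [List.map_cons, List.map_nil, rowsUp]
      cases p with
      | zero =>
        simp only [Nat.add_sub_cancel, Nat.sub_zero, List.getD_cons_zero, zero_add]
        rw [List.getD_append_right _ _ _ _ (by omega)]
        simp [hlr, nE]
      | succ p =>
        have hp' : p < nN g := by omega
        have := ih p hp'
        have e : nN g + 1 - 1 - (p + 1) = nN g - 1 - p := by omega
        rw [e, List.getD_cons_succ, List.getD_append _ _ _ _ (by omega)]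
        exact this

/-! ### Coverage -/

/-- The level law of a pair of words. -/
def Law (z q : List Bool) (l : ℕ) (cov : List ℤ) : Prop :=
  ∀ p, p < l → (((rowsUp z).getD p 0 : ℕ) : ℤ) + ((rowsUp q).getD (l - 1 - p) 0 : ℕ) =
    (l : ℤ) - 1 + cov.getD p 0

/-- A pair of words on `l` levels with coverage `cov` (both copies). -/
structure Seg (l : ℕ) (cov : List ℤ) (z q : List Bool) : Prop where
  len : cov.length = l
  zE : nE z = l
  zN : nN z = l
  qE : nE q = l
  qN : nN q = l
  law : Law z q l cov
  law' : Law (flipW z) (flipW q) l cov.reverse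

lemma getD_append_left' (a b : List ℕ) (p : ℕ) (hp : p < a.length) :
    (a ++ b).getD p 0 = a.getD p 0 := by
  rw [List.getD_append _ _ _ _ hp]

lemma getD_append_right' (a b : List ℕ) (p : ℕ) (hp : a.length ≤ p) :
    (a ++ b).getD p 0 = b.getD (p - a.length) 0 := by
  rw [List.getD_append_right _ _ _ _ hp]

lemma getD_map_add (a : List ℕ) (c p : ℕ) (hp : p < a.length) :
    (a.map (· + c)).getD p 0 = a.getD p 0 + c := by
  rw [List.getD_eq_getElem?_getD, List.getElem?_map, List.getElem?_eq_getElem hp,
    List.getD_eq_getElem?_getD, List.getElem?_eq_getElem hp]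
  simp

lemma Law.append {z₁ q₁ z₂ q₂ : List Bool} {l₁ l₂ : ℕ} {c₁ c₂ : List ℤ}
    (h₁ : Law z₁ q₁ l₁ c₁) (h₂ : Law z₂ q₂ l₂ c₂)
    (hz₁E : nE z₁ = l₁) (hz₁N : nN z₁ = l₁) (hz₂N : nN z₂ = l₂)
    (hq₁N : nN q₁ = l₁) (hq₂E : nE q₂ = l₂) (hq₂N : nN q₂ = l₂)
    (hc₁ : c₁.length = l₁) :
    Law (z₁ ++ z₂) (q₂ ++ q₁) (l₁ + l₂) (c₁ ++ c₂) := by
  intro p hp
  rw [rowsUp_append, rowsUp_append]
  have lz₁ : (rowsUp z₁).length = l₁ := by rw [length_rowsUp]; exact hz₁N
  have lz₂ : (rowsUp z₂).length = l₂ := by rw [length_rowsUp]; exact hz₂N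
  have lq₁ : (rowsUp q₁).length = l₁ := by rw [length_rowsUp]; exact hq₁N
  have lq₂ : (rowsUp q₂).length = l₂ := by rw [length_rowsUp]; exact hq₂N
  by_cases h : p < l₁
  · have a1 := h₁ p h
    rw [getD_append_left' _ _ _ (by omega), getD_append_right' _ _ _ (by omega), lq₂, hq₂E]
    have e : l₁ + l₂ - 1 - p - l₂ = l₁ - 1 - p := by omega
    rw [e, getD_map_add _ _ _ (by omega)]
    have hg : (c₁ ++ c₂).getD p 0 = c₁.getD p 0 := by
      rw [List.getD_append _ _ _ _ (by omega)]
    rw [hg]
    push_cast
    linarith
  · have hp' : p - l₁ < l₂ := by omega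
    have a2 := h₂ (p - l₁) hp'
    rw [getD_append_right' _ _ _ (by omega), lz₁, hz₁E, getD_map_add _ _ _ (by omega),
      getD_append_left' _ _ _ (by omega)]
    have e : l₁ + l₂ - 1 - p = l₂ - 1 - (p - l₁) := by omega
    rw [e]
    have hg : (c₁ ++ c₂).getD p 0 = c₂.getD (p - l₁) 0 := by
      rw [List.getD_append_right _ _ _ _ (by omega), hc₁]
    rw [hg]
    push_cast
    linarith

/-- Segments concatenate: the `Z` tile left to right, the `Q` tile right to left. -/
theorem Seg.append {l₁ l₂ : ℕ} {c₁ c₂ : List ℤ} {z₁ q₁ z₂ q₂ : List Bool}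
    (h₁ : Seg l₁ c₁ z₁ q₁) (h₂ : Seg l₂ c₂ z₂ q₂) :
    Seg (l₁ + l₂) (c₁ ++ c₂) (z₁ ++ z₂) (q₂ ++ q₁) where
  len := by simp [h₁.len, h₂.len]
  zE := by rw [nE_append, h₁.zE, h₂.zE]
  zN := by rw [nN_append, h₁.zN, h₂.zN]
  qE := by rw [nE_append, h₁.qE, h₂.qE]; omega
  qN := by rw [nN_append, h₁.qN, h₂.qN]; omega
  law := Law.append h₁.law h₂.law h₁.zE h₁.zN h₂.zN h₁.qN h₂.qE h₂.qN h₁.len
  law' := by
    have := Law.append h₂.law' h₁.law' (by rw [nE_flipW, h₂.zN]) (by rw [nN_flipW, h₂.zE])
      (by rw [nN_flipW, h₁.zE]) (by rw [nN_flipW, h₂.qE]) (by rw [nE_flipW, h₁.qN])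
      (by rw [nN_flipW, h₁.qE]) (by simp [h₂.len])
    rw [flipW_append, flipW_append, List.reverse_append, add_comm l₁ l₂]
    exact this

/-- The empty segment. -/
theorem Seg.nil : Seg 0 [] [] [] where
  len := rfl
  zE := rfl
  zN := rfl
  qE := rfl
  qN := rfl
  law := fun p hp => absurd hp (Nat.not_lt_zero p)
  law' := fun p hp => absurd hp (Nat.not_lt_zero p)

lemma flipW_reverse (f : List Bool) : flipW f.reverse = (flipW f).reverse := by
  simp [flipW, List.map_reverse]

lemma nE_reverse (f : List Bool) : nE f.reverse = nE f := by simp [nE]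

lemma nN_reverse (f : List Bool) : nN f.reverse = nN f := by simp [nN]

/-- Law of a balanced word and its reverse. -/
lemma law_matched (f : List Bool) (l : ℕ) (hE : nE f = l) (hN : nN f = l) :
    Law f f.reverse l (List.replicate l 1) := by
  intro p hp
  have := rowsUp_add_reverse f p (by omega)
  rw [hN, hE] at this
  have hg : (List.replicate l (1 : ℤ)).getD p 0 = 1 := by
    rw [List.getD_eq_getElem?_getD]
    simp [hp]
  rw [hg]
  have h2 : (((rowsUp f).getD p 0 : ℕ) : ℤ) + ((rowsUp f.reverse).getD (l - 1 - p) 0 : ℕ) = l := by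
    exact_mod_cast this
  linarith

/-- A balanced word and its reverse. -/
theorem Seg.matched (f : List Bool) (l : ℕ) (hE : nE f = l) (hN : nN f = l) :
    Seg l (List.replicate l 1) f f.reverse where
  len := by simp
  zE := hE
  zN := hN
  qE := by rw [nE_reverse, hE]
  qN := by rw [nN_reverse, hN]
  law := law_matched f l hE hN
  law' := by
    rw [flipW_reverse, List.reverse_replicate]
    exact law_matched _ l (by rw [nE_flipW, hN]) (by rw [nN_flipW, hE])

/-- `EN`, `EN`: coverage `2`. -/
theorem Seg.two : Seg 1 [2] [true, false] [true, false] where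
  len := rfl
  zE := rfl
  zN := rfl
  qE := rfl
  qN := rfl
  law := by
    intro p hp
    obtain rfl : p = 0 := by omega
    simp [rowsUp]
  law' := by
    intro p hp
    obtain rfl : p = 0 := by omega
    simp [rowsUp, flipW]

/-- `NE`, `NE`: coverage `0`. -/
theorem Seg.zero : Seg 1 [0] [false, true] [false, true] where
  len := rfl
  zE := rfl
  zN := rfl
  qE := rfl
  qN := rfl
  law := by
    intro p hp
    obtain rfl : p = 0 := by omega
    simp [rowsUp]
  law' := by
    intro p hp
    obtain rfl : p = 0 := by omega
    simp [rowsUp, flipW]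

/-! ### Triangles -/

/-- `E^h N^h`. -/
def triUp (h : ℕ) : List Bool := List.replicate h true ++ List.replicate h false

/-- `N^h E^h`. -/
def triDn (h : ℕ) : List Bool := List.replicate h false ++ List.replicate h true

lemma rowsUp_replicate_false (h : ℕ) : rowsUp (List.replicate h false) = List.replicate h 0 := by
  induction h with
  | zero => rfl
  | succ h ih => simp [List.replicate_succ, rowsUp, ih]

lemma rowsUp_replicate_true (h : ℕ) : rowsUp (List.replicate h true) = [] := by
  induction h with
  | zero => rfl
  | succ h ih => simp [List.replicate_succ, rowsUp, ih]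

lemma nE_replicate_true (h : ℕ) : nE (List.replicate h true) = h := by simp [nE]

lemma nN_replicate_true (h : ℕ) : nN (List.replicate h true) = 0 := by simp [nN, List.count_replicate]

lemma nE_replicate_false' (h : ℕ) : nE (List.replicate h false) = 0 := by simp [nE, List.count_replicate]

lemma nN_replicate_false' (h : ℕ) : nN (List.replicate h false) = h := by simp [nN]

lemma rowsUp_triUp (h : ℕ) : rowsUp (triUp h) = List.replicate h h := by
  unfold triUp
  rw [rowsUp_append, rowsUp_replicate_true, rowsUp_replicate_false, nE_replicate_true]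
  simp [List.map_replicate]

lemma rowsUp_triDn (h : ℕ) : rowsUp (triDn h) = List.replicate h 0 := by
  unfold triDn
  rw [rowsUp_append, rowsUp_replicate_false, rowsUp_replicate_true]
  simp

lemma flipW_triUp (h : ℕ) : flipW (triUp h) = triUp h := by
  unfold triUp flipW
  simp [List.map_replicate]

lemma flipW_triDn (h : ℕ) : flipW (triDn h) = triDn h := by
  unfold triDn flipW
  simp [List.map_replicate]

lemma nE_triUp (h : ℕ) : nE (triUp h) = h := by simp [triUp, nE, List.count_replicate]

lemma nN_triUp (h : ℕ) : nN (triUp h) = h := by simp [triUp, nN, List.count_replicate]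

lemma nE_triDn (h : ℕ) : nE (triDn h) = h := by simp [triDn, nE, List.count_replicate]

lemma nN_triDn (h : ℕ) : nN (triDn h) = h := by simp [triDn, nN, List.count_replicate]

lemma getD_replicate' (h a p : ℕ) (hp : p < h) : (List.replicate h a).getD p 0 = a := by
  rw [List.getD_eq_getElem?_getD]
  simp [hp]

lemma getD_replicate_int (h : ℕ) (a : ℤ) (p : ℕ) (hp : p < h) :
    (List.replicate h a).getD p 0 = a := by
  rw [List.getD_eq_getElem?_getD]
  simp [hp]

lemma law_triUp (h : ℕ) : Law (triUp h) (triUp h) h (List.replicate h ((h : ℤ) + 1)) := by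
  intro p hp
  rw [rowsUp_triUp, getD_replicate' _ _ _ hp, getD_replicate' _ _ _ (by omega),
    getD_replicate_int _ _ _ hp]
  ring

lemma law_triDn (h : ℕ) : Law (triDn h) (triDn h) h (List.replicate h (1 - (h : ℤ))) := by
  intro p hp
  rw [rowsUp_triDn, getD_replicate' _ _ _ hp, getD_replicate' _ _ _ (by omega),
    getD_replicate_int _ _ _ hp]
  push_cast
  ring

/-- `E^h N^h` twice: coverage `h + 1`. -/
theorem Seg.up (h : ℕ) : Seg h (List.replicate h ((h : ℤ) + 1)) (triUp h) (triUp h) where
  len := by simp
  zE := nE_triUp h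
  zN := nN_triUp h
  qE := nE_triUp h
  qN := nN_triUp h
  law := law_triUp h
  law' := by
    rw [flipW_triUp, List.reverse_replicate]
    exact law_triUp h

/-- `N^h E^h` twice: coverage `1 - h`. -/
theorem Seg.dn (h : ℕ) : Seg h (List.replicate h (1 - (h : ℤ))) (triDn h) (triDn h) where
  len := by simp
  zE := nE_triDn h
  zN := nN_triDn h
  qE := nE_triDn h
  qN := nN_triDn h
  law := law_triDn h
  law' := by
    rw [flipW_triDn, List.reverse_replicate]
    exact law_triDn h

/-! ### Balanced words of a given area -/

/-- A balanced word on `l` levels of area `A` (if `A ≤ l * l`): `N^(l-q-1) E^ρ N E^(l-ρ) N^q`,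
`q = A / l`, `ρ = A % l`. -/
def wordOfArea (l A : ℕ) : List Bool :=
  if A / l < l then
    List.replicate (l - A / l - 1) false ++ List.replicate (A % l) true ++ [false] ++
      List.replicate (l - A % l) true ++ List.replicate (A / l) false
  else triUp l

lemma nE_wordOfArea (l A : ℕ) : nE (wordOfArea l A) = l := by
  unfold wordOfArea
  split_ifs with h
  · have hl : 0 < l := by
      rcases Nat.eq_zero_or_pos l with h0 | h0
      · subst h0; simp at h
      · exact h0
    have hm : A % l < l := Nat.mod_lt _ hl
    simp only [nE_append, nE_replicate_false', nE_replicate_true]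
    have : nE [false] = 0 := rfl
    omega
  · exact nE_triUp l

lemma nN_wordOfArea (l A : ℕ) : nN (wordOfArea l A) = l := by
  unfold wordOfArea
  split_ifs with h
  · have hl : 0 < l := by
      rcases Nat.eq_zero_or_pos l with h0 | h0
      · subst h0; simp at h
      · exact h0
    simp only [nN_append, nN_replicate_false', nN_replicate_true]
    have : nN [false] = 1 := rfl
    omega
  · exact nN_triUp l

lemma area_eq_sum_rowsUp (w : List Bool) : area w = (rowsUp w).sum := (sum_rowsUp w).symm

lemma area_wordOfArea (l A : ℕ) (hA : A ≤ l * l) : area (wordOfArea l A) = A := by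
  rw [area_eq_sum_rowsUp]
  unfold wordOfArea
  split_ifs with h
  · have hl : 0 < l := by
      rcases Nat.eq_zero_or_pos l with h0 | h0
      · subst h0; simp at h
      · exact h0
    have hm : A % l < l := Nat.mod_lt _ hl
    have hd := Nat.div_add_mod A l
    simp only [rowsUp_append, rowsUp_replicate_false, rowsUp_replicate_true,
      List.sum_append, List.map_replicate, List.sum_replicate, List.map_nil, List.sum_nil,
      nE_append, nE_replicate_false', nE_replicate_true]
    have e1 : rowsUp [false] = [0] := rfl
    have e2 : nE [false] = 0 := rfl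
    rw [e1, e2]
    simp only [List.map_cons, List.map_nil, List.sum_cons, List.sum_nil, smul_eq_mul]
    have e3 : 0 + A % l + 0 + (l - A % l) = l := by omega
    nlinarith
  · rw [rowsUp_triUp]
    simp only [List.sum_replicate, smul_eq_mul]
    have hl : l ≤ A / l := by omega
    by_cases hl0 : l = 0
    · subst hl0
      simp at hA
      omega
    have := Nat.div_mul_le_self A l
    have h2 : l * l ≤ A := by nlinarith
    omega

/-! ### Pieces -/

/-- The pieces of a pair of tiles. -/
inductive Piece where
  | zero | two
  | mat (l A : ℕ)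
  | up (h : ℕ)
  | dn (h : ℕ)

namespace Piece

/-- Number of levels. -/
def sz : Piece → ℕ
  | zero => 1
  | two => 1
  | mat l _ => l
  | up h => h
  | dn h => h

/-- Coverage. -/
def cov : Piece → List ℤ
  | zero => [0]
  | two => [2]
  | mat l _ => List.replicate l 1
  | up h => List.replicate h ((h : ℤ) + 1)
  | dn h => List.replicate h (1 - (h : ℤ))

/-- The factor of the `Z` tile. -/
def zw : Piece → List Bool
  | zero => [false, true]
  | two => [true, false]
  | mat l A => wordOfArea l A
  | up h => triUp h
  | dn h => triDn h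

/-- The factor of the `Q` tile. -/
def qw : Piece → List Bool
  | zero => [false, true]
  | two => [true, false]
  | mat l A => (wordOfArea l A).reverse
  | up h => triUp h
  | dn h => triDn h

theorem seg (a : Piece) : Seg a.sz a.cov a.zw a.qw := by
  cases a with
  | zero => exact Seg.zero
  | two => exact Seg.two
  | mat l A => exact Seg.matched _ _ (nE_wordOfArea l A) (nN_wordOfArea l A)
  | up h => exact Seg.up h
  | dn h => exact Seg.dn h

end Piece

/-- Levels of a list of pieces. -/
def pcsSz : List Piece → ℕ
  | [] => 0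
  | a :: l => a.sz + pcsSz l

/-- Coverage of a list of pieces. -/
def pcsCov : List Piece → List ℤ
  | [] => []
  | a :: l => a.cov ++ pcsCov l

/-- The `Z` tile of a list of pieces. -/
def pairZ : List Piece → List Bool
  | [] => []
  | a :: l => a.zw ++ pairZ l

/-- The `Q` tile of a list of pieces. -/
def pairQ : List Piece → List Bool
  | [] => []
  | a :: l => pairQ l ++ a.qw

/-- A list of pieces is a segment. -/
theorem Seg.pieces (l : List Piece) : Seg (pcsSz l) (pcsCov l) (pairZ l) (pairQ l) := by
  induction l with
  | nil => exact Seg.nil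
  | cons a l ih => exact Seg.append a.seg ih

/-! ### Areas and offsets -/

lemma area_append' (u v : List Bool) : area (u ++ v) = area u + area v + nE u * nN v := by
  rw [area_eq_sum_rowsUp, rowsUp_append, List.sum_append, ← area_eq_sum_rowsUp]
  have h : ((rowsUp v).map (· + nE u)).sum = (rowsUp v).sum + (rowsUp v).length * nE u := by
    induction rowsUp v with
    | nil => simp
    | cons a l ih =>
      simp only [List.map_cons, List.sum_cons, ih, List.length_cons]
      ring
  rw [h, length_rowsUp, ← area_eq_sum_rowsUp]
  ring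

lemma area_reverse (f : List Bool) : area f + area f.reverse = nE f * nN f := by
  induction f with
  | nil => rfl
  | cons b g ih =>
    rw [List.reverse_cons, area_append', nE_reverse]
    cases b with
    | true =>
      have h0 : area (true :: g) = area ([true] ++ g) := rfl
      rw [h0, area_append']
      have h1 : area [true] = 0 := rfl
      have h2 : nE [true] = 1 := rfl
      have h3 : nN [true] = 0 := rfl
      have h4 : nE (true :: g) = nE g + 1 := nE_cons_true _
      have h5 : nN (true :: g) = nN g := nN_cons_true _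
      rw [h1, h2, h3, h4, h5]
      nlinarith
    | false =>
      have h0 : area (false :: g) = area ([false] ++ g) := rfl
      rw [h0, area_append']
      have h1 : area [false] = 0 := rfl
      have h2 : nE [false] = 0 := rfl
      have h3 : nN [false] = 1 := rfl
      have h4 : nE (false :: g) = nE g := nE_cons_false _
      have h5 : nN (false :: g) = nN g + 1 := nN_cons_false _
      rw [h1, h2, h3, h4, h5]
      nlinarith

namespace Piece

/-- Twice the offset of the `Z` factor. -/
def k2Z : Piece → ℤ
  | zero => 0
  | two => 2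
  | mat l A => 2 * (A : ℤ) - (l : ℤ) * ((l : ℤ) - 1)
  | up h => (h : ℤ) * ((h : ℤ) + 1)
  | dn h => - ((h : ℤ) * ((h : ℤ) - 1))

/-- Twice the offset of the `Q` factor. -/
def k2Q : Piece → ℤ
  | zero => 0
  | two => 2
  | mat l A => (l : ℤ) * ((l : ℤ) + 1) - 2 * (A : ℤ)
  | up h => (h : ℤ) * ((h : ℤ) + 1)
  | dn h => - ((h : ℤ) * ((h : ℤ) - 1))

/-- A piece is good if the area of its `mat` word is in range. -/
def Good : Piece → Prop
  | mat l A => A ≤ l * l
  | _ => True

lemma area_triUp (h : ℕ) : area (triUp h) = h * h := by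
  rw [area_eq_sum_rowsUp, rowsUp_triUp]
  simp

lemma area_triDn (h : ℕ) : area (triDn h) = 0 := by
  rw [area_eq_sum_rowsUp, rowsUp_triDn]
  simp

theorem area_zw (a : Piece) (h : a.Good) :
    2 * (area a.zw : ℤ) = (a.sz : ℤ) * ((a.sz : ℤ) - 1) + a.k2Z := by
  cases a with
  | zero => simp [zw, sz, k2Z, area, rowsW, rowsAux]
  | two => simp [zw, sz, k2Z, area, rowsW, rowsAux]
  | mat l A =>
    simp only [zw, sz, k2Z]
    rw [area_wordOfArea l A h]
    ring
  | up h =>
    simp only [zw, sz, k2Z]
    rw [area_triUp]
    push_cast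
    ring
  | dn h =>
    simp only [zw, sz, k2Z]
    rw [area_triDn]
    push_cast
    ring

theorem area_qw (a : Piece) (h : a.Good) :
    2 * (area a.qw : ℤ) = (a.sz : ℤ) * ((a.sz : ℤ) - 1) + a.k2Q := by
  cases a with
  | zero => simp [qw, sz, k2Q, area, rowsW, rowsAux]
  | two => simp [qw, sz, k2Q, area, rowsW, rowsAux]
  | mat l A =>
    simp only [qw, sz, k2Q]
    have h1 := area_reverse (wordOfArea l A)
    rw [nE_wordOfArea, nN_wordOfArea, area_wordOfArea l A h] at h1
    have h2 : (A : ℤ) + (area (wordOfArea l A).reverse : ℤ) = (l : ℤ) * l := by exact_mod_cast h1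
    have h3 : (area (wordOfArea l A).reverse : ℤ) = (l : ℤ) * l - A := by linarith
    rw [h3]
    ring
  | up h =>
    simp only [qw, sz, k2Q]
    rw [area_triUp]
    push_cast
    ring
  | dn h =>
    simp only [qw, sz, k2Q]
    rw [area_triDn]
    push_cast
    ring

end Piece

/-- Twice the offset of the `Z` tile. -/
def pcsK2Z : List Piece → ℤ
  | [] => 0
  | a :: l => a.k2Z + pcsK2Z l

/-- Twice the offset of the `Q` tile. -/
def pcsK2Q : List Piece → ℤ
  | [] => 0
  | a :: l => a.k2Q + pcsK2Q l

/-- The area of the `Z` tile. -/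
theorem area_pairZ (l : List Piece) (h : ∀ a ∈ l, a.Good) :
    2 * (area (pairZ l) : ℤ) = (pcsSz l : ℤ) * ((pcsSz l : ℤ) - 1) + pcsK2Z l := by
  induction l with
  | nil => simp [pairZ, pcsSz, pcsK2Z, area, rowsW, rowsAux]
  | cons a l ih =>
    have i := ih (fun b hb => h b (List.mem_cons_of_mem _ hb))
    have ha := a.area_zw (h a (List.mem_cons_self ..))
    have s := (Seg.pieces l).zN
    have sa := a.seg.zE
    simp only [pairZ, pcsSz, pcsK2Z]
    rw [area_append', sa, s]
    push_cast
    rw [mul_add, mul_add, ha, i]
    ring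

/-- The area of the `Q` tile. -/
theorem area_pairQ (l : List Piece) (h : ∀ a ∈ l, a.Good) :
    2 * (area (pairQ l) : ℤ) = (pcsSz l : ℤ) * ((pcsSz l : ℤ) - 1) + pcsK2Q l := by
  induction l with
  | nil => simp [pairQ, pcsSz, pcsK2Q, area, rowsW, rowsAux]
  | cons a l ih =>
    have i := ih (fun b hb => h b (List.mem_cons_of_mem _ hb))
    have ha := a.area_qw (h a (List.mem_cons_self ..))
    have s := (Seg.pieces l).qE
    have sa := a.seg.qN
    simp only [pairQ, pcsSz, pcsK2Q]
    rw [area_append', sa, s]
    push_cast
    rw [mul_add, mul_add, ha, i]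
    ring

/-! ### Families of pairs -/

/-- The level law of a family of pairs: rows of the `Z` tiles at level `p`, rows of the `Q` tiles at
the mirrored level. -/
theorem fam_law (ps : List (List Piece)) (s : ℕ) (hs : ∀ l ∈ ps, pcsSz l = s) (p : ℕ) (hp : p < s) :
    (((ps.map fun l => (rowsUp (pairZ l)).getD p 0).sum : ℕ) : ℤ) +
        ((ps.map fun l => (rowsUp (pairQ l)).getD (s - 1 - p) 0).sum : ℕ) =
      (ps.length : ℤ) * ((s : ℤ) - 1) + (ps.map fun l => (pcsCov l).getD p 0).sum := by
  induction ps with
  | nil => simp
  | cons a t ih =>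
    have i := ih (fun b hb => hs b (List.mem_cons_of_mem _ hb))
    have ha := hs a (List.mem_cons_self ..)
    have h := (Seg.pieces a).law p (by omega)
    rw [ha] at h
    simp only [List.map_cons, List.sum_cons, List.length_cons]
    push_cast at i ⊢
    linarith

/-- The same for the flipped tiles (second copy). -/
theorem fam_law' (ps : List (List Piece)) (s : ℕ) (hs : ∀ l ∈ ps, pcsSz l = s) (p : ℕ) (hp : p < s) :
    (((ps.map fun l => (rowsUp (flipW (pairZ l))).getD p 0).sum : ℕ) : ℤ) +
        ((ps.map fun l => (rowsUp (flipW (pairQ l))).getD (s - 1 - p) 0).sum : ℕ) =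
      (ps.length : ℤ) * ((s : ℤ) - 1) + (ps.map fun l => (pcsCov l).reverse.getD p 0).sum := by
  induction ps with
  | nil => simp
  | cons a t ih =>
    have i := ih (fun b hb => hs b (List.mem_cons_of_mem _ hb))
    have ha := hs a (List.mem_cons_self ..)
    have h := (Seg.pieces a).law' p (by omega)
    rw [ha] at h
    simp only [List.map_cons, List.sum_cons, List.length_cons]
    push_cast at i ⊢
    linarith

end Crest.Agent.Lib.Saxl
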