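import Crest.Agent.Lib.Saxl.OnesStep

/-!
# Saxl: the integration skeleton of the tile route

Named predicates only.  `TileStep n n' l` is the output of L1-tile: a strip from `X_n` to `X_n'`
hosting one column for each entry of `l` (or any other way of hosting them).  `TileSelect n c` is the
output of L4: a choice of the child and of a sub-multiset `l` of the columns of `c`.

`UU_of_tile`: table + selection for all `c` gives `UU`, hence `S0297`, `S0298` by
`S0297_of_UU`, `S0298_of_UU`.
-/

set_option autoImplicit false
set_option linter.unusedSectionVars false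

namespace Crest.Agent.Lib.Saxl

/-- The output of L1-tile: the columns `l` are hosted by the strip from `X_n` to `X_n'`, the remaining
columns go to `X_n'`. -/
def TileStep (n n' : ℕ) (l : Multiset ℕ) : Prop :=
  ∀ mA : Multiset ℕ, mA.sum = n' → TT (XF n') (colsD mA) → TT (XF n) (colsD (mA + l))

/-- The output of L4 for a multiset of columns: a child and the columns peeled. -/
def TileSelect (n : ℕ) (m : Multiset ℕ) : Prop :=
  ∃ (n' : ℕ) (l : Multiset ℕ), n' < n ∧ GoodN n' ∧ l ≤ m ∧ l.sum + n' = n ∧ TileStep n n' l

theorem TileSelect.reduces {n : ℕ} {m : Multiset ℕ} (hm : m.sum = n) (h : TileSelect n m) :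
    ∃ (n' : ℕ) (mA : Multiset ℕ), n' < n ∧ GoodN n' ∧ mA.sum = n' ∧
      (TT (XF n') (colsD mA) → TT (XF n) (colsD m)) := by
  obtain ⟨n', l, h1, h2, h3, h4, h5⟩ := h
  refine ⟨n', m - l, h1, h2, ?_, ?_⟩
  · have e : m = (m - l) + l := (tsub_add_cancel_of_le h3).symm
    have e2 : m.sum = (m - l).sum + l.sum := by
      conv_lhs => rw [e]
      rw [Multiset.sum_add]
    omega
  · intro hA
    have e : (m - l) + l = m := tsub_add_cancel_of_le h3
    have e2 : m.sum = (m - l).sum + l.sum := by
      conv_lhs => rw [← e]
      rw [Multiset.sum_add]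
    have := h5 (m - l) (by omega) hA
    rwa [e] at this

/-- A selection on the columns of `c` is a reduction. -/
theorem Reduces.of_select {n : ℕ} {c : YoungDiagram} (hc : c.card = n)
    (h : TileSelect n (colsOf c)) : Reduces n c := by
  obtain ⟨n', mA, h1, h2, h3, h4⟩ := h.reduces (by rw [sum_colsOf, hc])
  refine ⟨n', colsD mA, h1, h2, ?_, ?_⟩
  · rw [card_colsD, h3]
  · intro hA
    have := h4 hA
    rwa [colsD_colsOf] at this

/-- A selection on the rows of `c` is a reduction: `X_n` is self-conjugate. -/
theorem Reduces.of_select_flip {n : ℕ} {c : YoungDiagram} (hc : c.card = n)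
    (h : TileSelect n (colsOf c.transpose)) : Reduces n c := by
  have hc' : c.transpose.card = n := by
    rw [card_transpose', hc]
  obtain ⟨n', cA, h1, h2, h3, h4⟩ := Reduces.of_select hc' h
  refine ⟨n', cA, h1, h2, h3, fun hA => ?_⟩
  have h5 := TT.flip (XF_transpose n) (h4 hA)
  simpa using h5

/-- **The final line.**  `base`: the table; `step`: for `n` above the table every `c` is either hosted
directly (a sparse table), or reduced by the ones step, or by a selection on `c` or `c'`. -/
theorem UU_of_tile (N₀ : ℕ) (hN : 30 ≤ N₀) (base : ∀ n, n ≤ N₀ → GoodN n → UU n)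
    (step : ∀ n, N₀ < n → ∀ c : YoungDiagram, c.card = n →
      TT (XF n) c ∨ oneM n ≤ (colsOf c).count 1 ∨ oneM n ≤ (colsOf c.transpose).count 1 ∨
        TileSelect n (colsOf c) ∨ TileSelect n (colsOf c.transpose)) :
    ∀ n, GoodN n → UU n :=
  UU_of_steps N₀ base (fun n hn c hc => by
    rcases step n hn c hc with h | h | h | h | h
    · exact Or.inl h
    · exact Or.inr (Reduces.of_ones (by omega) hc h)
    · exact Or.inr (Reduces.of_ones_flip (by omega) hc h)
    · exact Or.inr (Reduces.of_select hc h)
    · exact Or.inr (Reduces.of_select_flip hc h))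

/-- The strip rule at the level of tag words and column lists, from `TT.strip`-type statements:
`TileStep` from any implication of the right form. -/
theorem TileStep.of_add {n n' : ℕ} {l : Multiset ℕ}
    (h : ∀ cA : YoungDiagram, TT (XF n') cA → TT (XF n) (addD cA (colsD l))) : TileStep n n' l := by
  intro mA _ hA
  have := h _ hA
  rwa [← colsD_add] at this

end Crest.Agent.Lib.Saxl
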